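import Crest.Agent.R078.TensorBound

set_option autoImplicit false
set_option linter.unusedSectionVars false

/-!
# R78, S0105-F5 (part 2): Fell absorption in Gram matrix form, and the resulting upper bound
-/

noncomputable section

namespace Crest.Agent.R078.Absorb

open scoped InnerProductSpace TensorProduct
open TensorProduct Filter Topology

variable {E : Type} [NormedAddCommGroup E] [InnerProductSpace ℂ E]
variable {G : Type} [Group G]

/-- The data of an absorbing system: a unitary representation `U` of `G` on `E`, vectors `ε h`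
permuted by `U`, and mutually orthogonal projections `p h` permuted by `U`. -/
structure System (E G : Type) [NormedAddCommGroup E] [InnerProductSpace ℂ E] [Group G] where
  U : G →* (E ≃ₗᵢ[ℂ] E)
  ε : G → E
  p : G → (E →L[ℂ] E)
  U_ε : ∀ g h, U g (ε h) = ε (g * h)
  norm_ε : ∀ h, ‖ε h‖ = 1
  inner_ε : ∀ g h, g ≠ h → ⟪ε g, ε h⟫_ℂ = 0
  inner_p : ∀ g h, g ≠ h → ∀ x y, ⟪p g x, p h y⟫_ℂ = 0
  U_p : ∀ g h x, U g (p h x) = p (g * h) (U g x)
  hasSum_p : ∀ x, HasSum (fun h => p h x) x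

/-- the operators commuting with the system -/
structure Comm (S : System E G) (R : E →ₗᵢ[ℂ] E) : Prop where
  p : ∀ h x, R (S.p h x) = S.p h (R x)
  U : ∀ g x, R (S.U g x) = S.U g (R x)

/-- `U g` as a bounded operator -/
def System.op (S : System E G) (g : G) : E →L[ℂ] E := (S.U g).toContinuousLinearEquiv.toContinuousLinearMap

@[simp] theorem System.op_apply (S : System E G) (g : G) (x : E) : S.op g x = S.U g x := rfl

variable (S : System E G)

theorem System.U_symm_mul (g : G) (x : E) : S.U g ((S.U g).symm x) = x :=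
  (S.U g).apply_symm_apply x

theorem System.U_mul (g h : G) (x : E) : S.U (g * h) x = S.U g (S.U h x) := by
  rw [map_mul]
  rfl

/-- first leg / second leg vector -/
def phi (R : E →ₗᵢ[ℂ] E) (F : Finset G) (f : E) : (E →L[ℂ] E) →ₗ[ℂ] E ⊗[ℂ] E where
  toFun y := ∑ h ∈ F, (y (S.ε h)) ⊗ₜ[ℂ] (R ((S.U h).symm (S.p h f)))
  map_add' y y' := by
    simp [TensorProduct.add_tmul, Finset.sum_add_distrib]
  map_smul' c y := by
    simp [TensorProduct.smul_tmul', Finset.smul_sum]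

def psi (R : E →ₗᵢ[ℂ] E) (F : Finset G) (f : E) : (E →L[ℂ] E) →ₗ[ℂ] E where
  toFun y := y (R (∑ h ∈ F, S.p h f))
  map_add' _ _ := rfl
  map_smul' _ _ := rfl

theorem phi_apply (R : E →ₗᵢ[ℂ] E) (F : Finset G) (f : E) (y : E →L[ℂ] E) :
    phi S R F f y = ∑ h ∈ F, (y (S.ε h)) ⊗ₜ[ℂ] (R ((S.U h).symm (S.p h f))) := rfl

theorem psi_apply (R : E →ₗᵢ[ℂ] E) (F : Finset G) (f : E) (y : E →L[ℂ] E) :
    psi S R F f y = y (R (∑ h ∈ F, S.p h f)) := rfl

theorem gram_gen (R R' : E →ₗᵢ[ℂ] E) (hR : Comm S R) (hR' : Comm S R') (F : Finset G) (f : E)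
    (g g' : G) :
    ⟪phi S R F f (S.op g), phi S R' F f (S.op g')⟫_ℂ
      = ⟪psi S R F f (S.op g), psi S R' F f (S.op g')⟫_ℂ := by
  classical
  simp only [phi_apply, psi_apply, System.op_apply, map_sum, sum_inner, inner_sum]
  refine Finset.sum_congr rfl fun h' _ => Finset.sum_congr rfl fun h _ => ?_
  rw [TensorProduct.inner_tmul, S.U_ε, S.U_ε]
  by_cases hh : g * h = g' * h'
  · rw [hh]
    have h1 : ⟪S.ε (g' * h'), S.ε (g' * h')⟫_ℂ = 1 := by
      rw [inner_self_eq_norm_sq_to_K, S.norm_ε]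
      simp
    rw [h1, one_mul]
    have h2 : S.U g (R (S.p h f)) = S.U (g * h) (R ((S.U h).symm (S.p h f))) := by
      conv_lhs => rw [← S.U_symm_mul h (S.p h f)]
      rw [hR.U, S.U_mul]
    have h3 : S.U g' (R' (S.p h' f)) = S.U (g * h) (R' ((S.U h').symm (S.p h' f))) := by
      conv_lhs => rw [← S.U_symm_mul h' (S.p h' f)]
      rw [hR'.U, hh, S.U_mul]
    rw [h2, h3, LinearIsometryEquiv.inner_map_map]
  · rw [S.inner_ε _ _ hh, zero_mul, hR.p, hR'.p, S.U_p, S.U_p, S.inner_p _ _ hh]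

/-- the span of the `U g` -/
def System.span : Submodule ℂ (E →L[ℂ] E) := Submodule.span ℂ (Set.range S.op)

theorem inner_smul_right_t (u v : E ⊗[ℂ] E) (c : ℂ) : ⟪u, c • v⟫_ℂ = c * ⟪u, v⟫_ℂ :=
  inner_smul_right u v c

theorem inner_smul_left_t (u v : E ⊗[ℂ] E) (c : ℂ) :
    ⟪c • u, v⟫_ℂ = (starRingEnd ℂ) c * ⟪u, v⟫_ℂ :=
  inner_smul_left u v c

theorem gram_span (R R' : E →ₗᵢ[ℂ] E) (hR : Comm S R) (hR' : Comm S R') (F : Finset G) (f : E)
    {y y' : E →L[ℂ] E} (hy : y ∈ S.span) (hy' : y' ∈ S.span) :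
    ⟪phi S R F f y, phi S R' F f y'⟫_ℂ = ⟪psi S R F f y, psi S R' F f y'⟫_ℂ := by
  induction hy using Submodule.span_induction with
  | mem y hy =>
    obtain ⟨g, rfl⟩ := hy
    induction hy' using Submodule.span_induction with
    | mem y' hy' =>
      obtain ⟨g', rfl⟩ := hy'
      exact gram_gen S R R' hR hR' F f g g'
    | zero => simp
    | add a b _ _ ha hb => rw [map_add, map_add, inner_add_right, inner_add_right, ha, hb]
    | smul c a _ ha =>
      rw [map_smul, map_smul, inner_smul_right, inner_smul_right_t, ha]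
  | zero => simp
  | add a b _ _ ha hb => rw [map_add, map_add, inner_add_left, inner_add_left, ha, hb]
  | smul c a _ ha =>
    rw [map_smul, map_smul, inner_smul_left, inner_smul_left_t, ha]

variable {ι : Type} [Fintype ι]

theorem norm_sum_eq_of_gram {V V' : Type} [NormedAddCommGroup V] [InnerProductSpace ℂ V]
    [NormedAddCommGroup V'] [InnerProductSpace ℂ V'] (w : ι → V) (w' : ι → V')
    (h : ∀ i j, ⟪w i, w j⟫_ℂ = ⟪w' i, w' j⟫_ℂ) : ‖∑ i, w i‖ = ‖∑ i, w' i‖ := by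
  have h1 : ⟪∑ i, w i, ∑ i, w i⟫_ℂ = ⟪∑ i, w' i, ∑ i, w' i⟫_ℂ := by
    simp only [sum_inner, inner_sum, h]
  rw [inner_self_eq_norm_sq_to_K, inner_self_eq_norm_sq_to_K] at h1
  have h2 : ‖∑ i, w i‖ ^ 2 = ‖∑ i, w' i‖ ^ 2 := by exact_mod_cast h1
  exact (sq_eq_sq₀ (norm_nonneg _) (norm_nonneg _)).mp h2

theorem norm_phi_eq_norm_psi (R : ι → E →ₗᵢ[ℂ] E) (hR : ∀ i, Comm S (R i)) (F : Finset G) (f : E)
    (y : ι → E →L[ℂ] E) (hy : ∀ i, y i ∈ closure (S.span : Set (E →L[ℂ] E))) :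
    ‖∑ i, phi S (R i) F f (y i)‖ = ‖∑ i, psi S (R i) F f (y i)‖ := by
  choose a ha hlim using fun i => mem_closure_iff_seq_limit.mp (hy i)
  have h1 : ∀ k, ‖∑ i, phi S (R i) F f (a i k)‖ = ‖∑ i, psi S (R i) F f (a i k)‖ := fun k =>
    norm_sum_eq_of_gram _ _ fun i j => gram_span S _ _ (hR i) (hR j) F f (ha i k) (ha j k)
  have h2 : Tendsto (fun k => ‖∑ i, phi S (R i) F f (a i k)‖) atTop
      (𝓝 ‖∑ i, phi S (R i) F f (y i)‖) := by
    refine Tendsto.norm (tendsto_finsetSum _ fun i _ => ?_)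
    simp only [phi_apply]
    refine tendsto_finsetSum _ fun h _ => ?_
    have h3 : Tendsto (fun k => a i k (S.ε h)) atTop (𝓝 (y i (S.ε h))) :=
      ((ContinuousLinearMap.apply ℂ E (S.ε h)).continuous.tendsto (y i)).comp (hlim i)
    exact (TensorProduct.continuous_tmul (𝕜 := ℂ)).continuousAt.tendsto.comp
      (h3.prodMk_nhds tendsto_const_nhds)
  have h3 : Tendsto (fun k => ‖∑ i, psi S (R i) F f (a i k)‖) atTop
      (𝓝 ‖∑ i, psi S (R i) F f (y i)‖) := by
    refine Tendsto.norm (tendsto_finsetSum _ fun i _ => ?_)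
    simp only [psi_apply]
    exact ((ContinuousLinearMap.apply ℂ E _).continuous.tendsto (y i)).comp (hlim i)
  simp only [h1] at h2
  exact tendsto_nhds_unique h2 h3

theorem comm_id : Comm S LinearIsometry.id where
  p _ _ := rfl
  U _ _ := rfl

/-- **The upper bound**: if `x i` is a norm limit of unitary conjugates of `z i = U (γ i)`, belongs to
the closed span of the `U g`, and the `R i` are isometries commuting with the system, then
`‖∑ x_i R_i‖ ≤ 2 √n`. -/
theorem norm_sum_le (γ : ι → G) (Q P : ι → E →ₗ[ℂ] E)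
    (hQ : ∀ i j, i ≠ j → ∀ x y, ⟪Q i x, Q j y⟫_ℂ = 0)
    (hQ' : ∀ i x y, ⟪Q i x, y - Q i y⟫_ℂ = 0)
    (hP : ∀ i j, i ≠ j → ∀ x y, ⟪P i x, P j y⟫_ℂ = 0)
    (hP' : ∀ i x y, ⟪P i x, y - ∑ j, P j y⟫_ℂ = 0)
    (hz : ∀ i x, S.U (γ i) x = Q i (S.U (γ i) x) + S.U (γ i) (P i x))
    (T : ℕ → E ≃ₗᵢ[ℂ] E) (x : ι → E →L[ℂ] E)
    (hx : ∀ i e, Tendsto (fun k => T k (S.U (γ i) ((T k).symm e))) atTop (𝓝 (x i e)))
    (hxA : ∀ i, x i ∈ closure (S.span : Set (E →L[ℂ] E)))
    (R : ι → E →ₗᵢ[ℂ] E) (hR : ∀ i, Comm S (R i)) (f : E) :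
    ‖∑ i, x i (R i f)‖ ≤ 2 * Real.sqrt (Fintype.card ι) * ‖f‖ := by
  classical
  have hfin : ∀ F : Finset G, ‖∑ i, x i (R i (∑ h ∈ F, S.p h f))‖
      ≤ 2 * Real.sqrt (Fintype.card ι) * ‖∑ h ∈ F, S.p h f‖ := by
    intro F
    have h1 := norm_phi_eq_norm_psi S R hR F f x hxA
    simp only [phi_apply, psi_apply] at h1
    rw [← h1]
    have h2 := TensorBound.norm_sum_tmul_le_of_tendsto (F := E)
      (fun i => (S.U (γ i)).toLinearIsometry) R Q P hQ hQ' hP hP' hz T (fun i e => x i e) hx F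
      S.ε (fun h => (S.U h).symm (S.p h f))
    refine h2.trans (le_of_eq ?_)
    congr 1
    have h3 := norm_phi_eq_norm_psi (ι := Unit) S (fun _ => LinearIsometry.id)
      (fun _ => comm_id S) F f (fun _ => S.op 1)
      (fun _ => subset_closure (Submodule.subset_span ⟨1, rfl⟩))
    simp only [phi_apply, psi_apply, System.op_apply, Finset.univ_unique, Finset.sum_singleton,
      LinearIsometry.id_apply, map_one, LinearIsometryEquiv.coe_one, id] at h3
    exact h3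
  have hs := S.hasSum_p f
  have h1 : Tendsto (fun F : Finset G => ‖∑ i, x i (R i (∑ h ∈ F, S.p h f))‖) atTop
      (𝓝 ‖∑ i, x i (R i f)‖) := by
    refine Tendsto.norm (tendsto_finsetSum _ fun i _ => ?_)
    exact ((x i).continuous.tendsto _).comp (((R i).continuous.tendsto _).comp hs)
  have h2 : Tendsto (fun F : Finset G => 2 * Real.sqrt (Fintype.card ι) * ‖∑ h ∈ F, S.p h f‖) atTop
      (𝓝 (2 * Real.sqrt (Fintype.card ι) * ‖f‖)) :=
    (Tendsto.norm hs).const_mul _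
  exact le_of_tendsto_of_tendsto' h1 h2 hfin

end Crest.Agent.R078.Absorb
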