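import Crest.Agent.R078.Model
import Crest.Agent.R078.PartA

set_option autoImplicit false
set_option linter.unusedSectionVars false

/-!
# R78, S0105: assembly
-/

noncomputable section

namespace Crest.Agent.R078.Assemble

open scoped ENNReal InnerProductSpace
open Crest.Agent.R078.Basic Crest.Agent.R078.Ops Crest.Agent.R078.NearRep Crest.Agent.R078.Model

theorem exists_params (ε : ℝ) (hε : 0 < ε) :
    ∃ (s : ℝ) (n : ℕ), 0 < s ∧ s ^ 2 ≤ 1 / 10 ∧ 4 * (5 * s) < ε ∧ 2 ≤ n ∧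
      2 * Real.sqrt n + 1 < n * s := by
  set s : ℝ := min (1 / 10) (ε / 40) with hs
  have hs0 : 0 < s := lt_min (by norm_num) (by positivity)
  have hs1 : s ≤ 1 / 10 := min_le_left _ _
  have hs2 : s ≤ ε / 40 := min_le_right _ _
  obtain ⟨n, hn⟩ := exists_nat_ge (max 2 (9 / s ^ 2))
  have hn2 : (2 : ℝ) ≤ n := (le_max_left _ _).trans hn
  have hn9 : 9 / s ^ 2 ≤ n := (le_max_right _ _).trans hn
  refine ⟨s, n, hs0, by nlinarith, by linarith, by exact_mod_cast hn2, ?_⟩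
  have h1 : 9 ≤ n * s ^ 2 := by
    rw [div_le_iff₀ (by positivity)] at hn9
    linarith
  have h2 : 3 ≤ Real.sqrt n * s := by
    have h3 : (Real.sqrt n * s) ^ 2 = n * s ^ 2 := by
      rw [mul_pow, Real.sq_sqrt (by linarith)]
    have h4 : (3 : ℝ) ^ 2 ≤ (Real.sqrt n * s) ^ 2 := by
      rw [h3]
      linarith
    exact le_of_sq_le_sq h4 (by positivity)
  have h5 : 1 < Real.sqrt n := by
    rw [Real.lt_sqrt (by norm_num)]
    linarith
  have h6 : (n : ℝ) * s = Real.sqrt n * (Real.sqrt n * s) := by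
    rw [← mul_assoc, Real.mul_self_sqrt (by linarith)]
  rw [h6]
  nlinarith

instance countable_freeGroup (n : ℕ) : Countable (FreeGroup (Fin n)) :=
  FreeGroup.toWord_injective.countable

theorem eps_ne_zero {G : Type} [Group G] [DecidableEq G] : (eps 1 1 : E G) ≠ 0 := by
  intro h
  have h1 : (eps 1 1 : E G) 1 1 = 1 := by
    rw [eps_apply_self, lp.single_apply_self]
  rw [h] at h1
  simp at h1

instance nontrivial_E {G : Type} [Group G] [DecidableEq G] : Nontrivial (E G) :=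
  ⟨⟨eps 1 1, 0, eps_ne_zero⟩⟩

/-- the statement of F5 -/
def HNo : Prop :=
  ∀ (n : ℕ) (s : ℝ), 0 < s → 2 * Real.sqrt n + 1 < n * s →
    ∀ π : FreeGroup (Fin n) →* (K (FreeGroup (Fin n)) ≃ₗᵢ[ℂ] K (FreeGroup (Fin n))),
    (∀ i, π (FreeGroup.of i) (lp.single 2 (1 : FreeGroup (Fin n)) (1 : ℂ)) 1 = s) →
    ¬ ∃ u : ℕ → (E (FreeGroup (Fin n)) →L[ℂ] E (FreeGroup (Fin n))),
      (∀ k, u k ∈ unitary (E (FreeGroup (Fin n)) →L[ℂ] E (FreeGroup (Fin n)))) ∧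
      (∀ k, ∀ e ∈ CE π, u k * e * star (u k) ∈ CE π) ∧
      ∀ z ∈ A0 (FreeGroup (Fin n)), ∃ x ∈ A0 (FreeGroup (Fin n)),
        Filter.Tendsto (fun k => star (u k) * (op (W π) * z * star (op (W π))) * u k)
          Filter.atTop (nhds x)

theorem result_of (hno : HNo) (ε : ℝ) (hε : 0 < ε) :
    ∃ (H : Type) (_ : NormedAddCommGroup H) (_ : InnerProductSpace ℂ H) (_ : CompleteSpace H)
      (_ : TopologicalSpace.SeparableSpace H) (A B : StarSubalgebra ℂ (H →L[ℂ] H)),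
      IsClosed (A : Set (H →L[ℂ] H)) ∧ IsClosed (B : Set (H →L[ℂ] H)) ∧
      TopologicalSpace.IsSeparable (A : Set (H →L[ℂ] H)) ∧
      TopologicalSpace.IsSeparable (B : Set (H →L[ℂ] H)) ∧
      (∀ a ∈ A, ‖a‖ ≤ 1 → ∃ b ∈ B, ‖b‖ ≤ 1 ∧ ‖a - b‖ < ε) ∧
      (∀ b ∈ B, ‖b‖ ≤ 1 → ∃ a ∈ A, ‖a‖ ≤ 1 ∧ ‖b - a‖ < ε) ∧
      Set.centralizer (Set.centralizer (A : Set (H →L[ℂ] H))) =
        Set.centralizer (Set.centralizer (B : Set (H →L[ℂ] H))) ∧
      ¬ ∃ u : H →L[ℂ] H, u ∈ unitary (H →L[ℂ] H) ∧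
          ∀ y : H →L[ℂ] H, y ∈ B ↔ ∃ x ∈ A, y = u * x * star u := by
  obtain ⟨s, n, hs, hs2, hs4, hn, hns⟩ := exists_params ε hε
  obtain ⟨π, hπ1, hπ2⟩ := exists_nearRep (α := Fin n) s hs hs2
  exact PartA.exists_counterexample (E := E (FreeGroup (Fin n))) (CE π) (A0 (FreeGroup (Fin n)))
    (isClosed_CE π) (isSeparable_CE π) (fun x hx hc => centre_trivial hn π x hx hc)
    isClosed_A0 (A0_le_CE π) (op (W π)) (op_mem_unitary _) (fun z hz => conj_W_mem π z hz)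
    (5 * s) ε (norm_W_sub_one_le π (5 * s) (by positivity) hπ1) hs4
    (hno n s hs hns π hπ2)

end Crest.Agent.R078.Assemble
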