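import Mathlib

set_option autoImplicit false
set_option linter.unusedSectionVars false

/-!
# R78: weighted permutation isometries on `ℓ²(ι; E)`
-/

noncomputable section

namespace Crest.Agent.R078.Basic

open scoped ENNReal InnerProductSpace

variable {ι : Type} {E : Type} [NormedAddCommGroup E] [InnerProductSpace ℂ E]

/-- `ℓ²(ι; E)` -/
abbrev L2 (ι : Type) (E : Type) [NormedAddCommGroup E] : Type := lp (fun _ : ι => E) 2

theorem hasSum_norm_sq (f : L2 ι E) : HasSum (fun i => ‖f i‖ ^ 2) (‖f‖ ^ 2) := by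
  have h := lp.hasSum_norm (p := 2) (by norm_num) f
  simpa using h

theorem norm_sq_eq (f : L2 ι E) : ‖f‖ ^ 2 = ∑' i, ‖f i‖ ^ 2 := (hasSum_norm_sq f).tsum_eq.symm

theorem sum_norm_sq_le (f : L2 ι E) (S : Finset ι) : ∑ i ∈ S, ‖f i‖ ^ 2 ≤ ‖f‖ ^ 2 :=
  sum_le_hasSum S (fun _ _ => by positivity) (hasSum_norm_sq f)

theorem memℓp_two_of_summable {f : ι → E} (h : Summable fun i => ‖f i‖ ^ 2) :
    Memℓp f 2 := by
  refine memℓp_gen ?_
  simpa using h

theorem memℓp_wp (σ : Equiv.Perm ι) (T : ι → E ≃ₗᵢ[ℂ] E) (f : L2 ι E) :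
    Memℓp (fun i => T i (f (σ i))) 2 := by
  refine memℓp_two_of_summable ?_
  simp only [LinearIsometryEquiv.norm_map]
  exact (hasSum_norm_sq f).summable.comp_injective σ.injective

/-- Weighted permutation as a linear map. -/
def wpₗ (σ : Equiv.Perm ι) (T : ι → E ≃ₗᵢ[ℂ] E) : L2 ι E →ₗ[ℂ] L2 ι E where
  toFun f := ⟨fun i => T i (f (σ i)), memℓp_wp σ T f⟩
  map_add' f g := by
    ext i
    exact map_add (T i) _ _
  map_smul' c f := by
    ext i
    exact map_smul (T i) _ _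

theorem wpₗ_apply (σ : Equiv.Perm ι) (T : ι → E ≃ₗᵢ[ℂ] E) (f : L2 ι E) (i : ι) :
    wpₗ σ T f i = T i (f (σ i)) := rfl

/-- Weighted permutation isometry: `(wp σ T f) i = T i (f (σ i))`. -/
def wp (σ : Equiv.Perm ι) (T : ι → E ≃ₗᵢ[ℂ] E) : L2 ι E ≃ₗᵢ[ℂ] L2 ι E where
  toLinearEquiv := LinearEquiv.ofLinearMap (wpₗ σ T) (wpₗ σ.symm (fun i => (T (σ.symm i)).symm))
    (by
      ext f i
      simp only [LinearMap.comp_apply, wpₗ_apply, LinearMap.id_apply]
      rw [Equiv.symm_apply_apply]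
      exact (T i).apply_symm_apply _)
    (by
      ext f i
      simp only [LinearMap.comp_apply, wpₗ_apply, LinearMap.id_apply]
      rw [Equiv.apply_symm_apply]
      exact (T (σ.symm i)).symm_apply_apply _)
  norm_map' f := by
    have h : ‖(wpₗ σ T f)‖ ^ 2 = ‖f‖ ^ 2 := by
      rw [norm_sq_eq, norm_sq_eq]
      simp only [wpₗ_apply, LinearIsometryEquiv.norm_map]
      exact σ.tsum_eq (fun i => ‖f i‖ ^ 2)
    have h2 : ‖(wpₗ σ T f)‖ = ‖f‖ := by
      have := (sq_eq_sq₀ (norm_nonneg _) (norm_nonneg _)).mp h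
      exact this
    simpa using h2

@[simp] theorem wp_apply (σ : Equiv.Perm ι) (T : ι → E ≃ₗᵢ[ℂ] E) (f : L2 ι E) (i : ι) :
    wp σ T f i = T i (f (σ i)) := rfl

theorem wp_mul (σ τ : Equiv.Perm ι) (S T : ι → E ≃ₗᵢ[ℂ] E) :
    wp σ T * wp τ S = wp (τ * σ) (fun i => T i * S (σ i)) := by
  ext f i
  rfl

theorem wp_one : wp (1 : Equiv.Perm ι) (fun _ => (1 : E ≃ₗᵢ[ℂ] E)) = 1 := by
  ext f i
  rfl

theorem wp_inv (σ : Equiv.Perm ι) (T : ι → E ≃ₗᵢ[ℂ] E) :
    (wp σ T)⁻¹ = wp σ.symm (fun i => (T (σ.symm i)).symm) := by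
  ext f i
  rfl

@[simp] theorem wp_symm_apply (σ : Equiv.Perm ι) (T : ι → E ≃ₗᵢ[ℂ] E) (f : L2 ι E) (i : ι) :
    (wp σ T).symm f i = (T (σ.symm i)).symm (f (σ.symm i)) := rfl

section single

variable [DecidableEq ι]

theorem wp_single (σ : Equiv.Perm ι) (T : ι → E ≃ₗᵢ[ℂ] E) (i : ι) (a : E) :
    wp σ T (lp.single 2 i a) = lp.single 2 (σ.symm i) (T (σ.symm i) a) := by
  ext j
  rw [wp_apply]
  by_cases h : σ j = i
  · subst h
    rw [Equiv.symm_apply_apply, lp.single_apply_self, lp.single_apply_self]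
  · have h' : j ≠ σ.symm i := by
      rintro rfl
      simp at h
    rw [lp.single_apply_ne _ _ _ h, lp.single_apply_ne _ _ _ h', map_zero]

theorem norm_sq_add_single (f : L2 ι E) (x : ι) (a : E) :
    ‖f + lp.single 2 x a‖ ^ 2 = ‖f‖ ^ 2 - ‖f x‖ ^ 2 + ‖f x + a‖ ^ 2 := by
  have h1 := norm_add_sq (𝕜 := ℂ) f (lp.single 2 x a)
  have h2 := norm_add_sq (𝕜 := ℂ) (f x) a
  have h3 : ⟪f, lp.single 2 x a⟫_ℂ = ⟪f x, a⟫_ℂ := lp.inner_single_right x a f
  have h4 : ‖(lp.single 2 x a : L2 ι E)‖ = ‖a‖ := lp.norm_single (E := fun _ : ι => E) (p := 2) (by norm_num) x a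
  rw [h3, h4] at h1
  rw [h1, h2]
  ring

theorem hasSum_single (f : L2 ι E) : HasSum (fun i => (lp.single 2 i (f i) : L2 ι E)) f :=
  lp.hasSum_single (by norm_num) f

/-- two continuous linear maps agreeing on all `single`s agree -/
theorem clm_ext {F : Type} [NormedAddCommGroup F] [NormedSpace ℂ F]
    {S T : L2 ι E →L[ℂ] F} (h : ∀ i a, S (lp.single 2 i a) = T (lp.single 2 i a)) : S = T := by
  ext f
  have h1 := (hasSum_single f).mapL S
  have h2 := (hasSum_single f).mapL T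
  simp only [h] at h1
  exact h1.unique h2

end single

end Crest.Agent.R078.Basic
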