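import Crest.Agent.R078.Ops
import Crest.Agent.R078.NearRep

set_option autoImplicit false
set_option linter.unusedSectionVars false

/-!
# R78, S0105-F3: the model operators
-/

noncomputable section

namespace Crest.Agent.R078.Model

open scoped ENNReal InnerProductSpace
open Crest.Agent.R078.Basic Crest.Agent.R078.Ops Crest.Agent.R078.NearRep

variable {G : Type} [Group G] [DecidableEq G]

/-- `K = ℓ²(G)` -/
abbrev K (G : Type) : Type := L2 G ℂ

/-- `E = ℓ²(G; K)` -/
abbrev E (G : Type) : Type := L2 G (K G)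

/-- `(U σ g f) h = σ g (f (g⁻¹ h))` -/
def U (σ : G →* (K G ≃ₗᵢ[ℂ] K G)) : G →* (E G ≃ₗᵢ[ℂ] E G) where
  toFun g := wp (Equiv.mulLeft g⁻¹) (fun _ => σ g)
  map_one' := by
    ext f x y
    simp
  map_mul' g h := by
    ext f x y
    simp

@[simp] theorem U_apply (σ : G →* (K G ≃ₗᵢ[ℂ] K G)) (g : G) (f : E G) (h : G) :
    U σ g f h = σ g (f (g⁻¹ * h)) := rfl

/-- `(R g f) h = f (h g)` -/
def R : G →* (E G ≃ₗᵢ[ℂ] E G) where
  toFun g := wp (Equiv.mulRight g) (fun _ => 1)
  map_one' := by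
    ext f x y
    simp
  map_mul' g h := by
    ext f x y
    simp [mul_assoc]

@[simp] theorem R_apply (g : G) (f : E G) (h : G) : R g f h = f (h * g) := rfl

/-- `(W π f) h = π h (lam h)⁻¹ (f h)` -/
def W (π : G →* (K G ≃ₗᵢ[ℂ] K G)) : E G ≃ₗᵢ[ℂ] E G := wp 1 (fun h => π h * (lam h)⁻¹)

@[simp] theorem W_apply (π : G →* (K G ≃ₗᵢ[ℂ] K G)) (f : E G) (h : G) :
    W π f h = π h ((lam h)⁻¹ (f h)) := rfl

/-- the matrix unit `|δ_k⟩⟨δ_l|` of `K` -/
def mu (k l : G) : K G →L[ℂ] K G :=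
  (lp.singleContinuousLinearMap ℂ (fun _ : G => ℂ) 2 k).comp
    (lp.evalCLM ℂ (fun _ : G => ℂ) 2 l)

@[simp] theorem mu_apply (k l : G) (f : K G) : mu k l f = lp.single 2 k (f l) := rfl

theorem star_mu (k l : G) : star (mu k l) = mu l k := by
  rw [ContinuousLinearMap.star_eq_adjoint]
  symm
  rw [ContinuousLinearMap.eq_adjoint_iff]
  intro x y
  rw [mu_apply, mu_apply, lp.inner_single_left, lp.inner_single_right]

theorem mu_mul_mu (k l m : G) : mu k l * mu l m = mu k m := by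
  ext f i
  change (lp.single 2 k ((lp.single 2 l (f m) : K G) l) : K G) i = (lp.single 2 k (f m) : K G) i
  rw [lp.single_apply_self]

theorem mu_mul_mu_of_ne (k m : G) {l l' : G} (h : l ≠ l') : mu k l * mu l' m = 0 := by
  ext f i
  change (lp.single 2 k ((lp.single 2 l' (f m) : K G) l) : K G) i = (0 : K G) i
  rw [lp.single_apply_ne _ _ _ h, lp.single_zero]

/-- the diagonal projections `p h = diag |δ_h⟩⟨δ_h|` -/
def p (h : G) : E G →L[ℂ] E G := diag (mu h h)

/-- the basis of `E` -/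
def eps (h k : G) : E G := lp.single 2 h (lp.single 2 k (1 : ℂ))

/-- the generators of the big algebra -/
def gens (π : G →* (K G ≃ₗᵢ[ℂ] K G)) : Set (E G →L[ℂ] E G) :=
  Set.range (fun g : G => op (U lam g)) ∪ Set.range (fun g : G => op (U π g)) ∪
    Set.range (fun q : G × G => diag (mu q.1 q.2))

/-- the algebra `C E` -/
def CE (π : G →* (K G ≃ₗᵢ[ℂ] K G)) : StarSubalgebra ℂ (E G →L[ℂ] E G) :=
  (StarAlgebra.adjoin ℂ (gens π)).topologicalClosure

/-- the algebra `A₀` -/
def A0 (G : Type) [Group G] [DecidableEq G] : StarSubalgebra ℂ (E G →L[ℂ] E G) :=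
  (StarAlgebra.adjoin ℂ (Set.range (fun g : G => op (U lam g)))).topologicalClosure

end Crest.Agent.R078.Model
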