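import Crest.Agent.R078.Absorb
import Crest.Agent.R078.ModelDefs

set_option autoImplicit false
set_option linter.unusedSectionVars false

/-!
# R78, S0105-F5 (part 3): the contradiction
-/

noncomputable section

namespace Crest.Agent.R078.Final

open scoped ENNReal InnerProductSpace
open Filter Topology
open Crest.Agent.R078.Basic Crest.Agent.R078.Ops Crest.Agent.R078.NearRep
open Crest.Agent.R078.Model Crest.Agent.R078.Absorb

section mask

variable {ι : Type} {F : Type} [NormedAddCommGroup F] [InnerProductSpace ℂ F]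

open Classical in
theorem memℓp_mask (S : ι → Prop) (f : L2 ι F) :
    Memℓp (fun i => if S i then f i else 0) 2 := by
  refine memℓp_two_of_summable ?_
  refine Summable.of_nonneg_of_le (fun i => by positivity) (fun i => ?_) (hasSum_norm_sq f).summable
  split_ifs
  · exact le_rfl
  · simp

open Classical in
/-- multiplication by the indicator of `S` -/
def mask (S : ι → Prop) : L2 ι F →ₗ[ℂ] L2 ι F where
  toFun f := ⟨fun i => if S i then f i else 0, memℓp_mask S f⟩
  map_add' f g := by
    ext i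
    change (if S i then (f + g) i else 0) = (if S i then f i else 0) + (if S i then g i else 0)
    split_ifs
    · rfl
    · simp
  map_smul' c f := by
    ext i
    change (if S i then (c • f) i else 0) = c • (if S i then f i else 0)
    split_ifs
    · rfl
    · simp

theorem mask_of (S : ι → Prop) (f : L2 ι F) {i : ι} (h : S i) : mask S f i = f i := by
  classical
  change (if S i then f i else 0) = f i
  rw [if_pos h]

theorem mask_not (S : ι → Prop) (f : L2 ι F) {i : ι} (h : ¬ S i) : mask S f i = 0 := by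
  classical
  change (if S i then f i else 0) = 0
  rw [if_neg h]

theorem inner_eq_zero_of_forall (f g : L2 ι F) (h : ∀ i, ⟪f i, g i⟫_ℂ = 0) : ⟪f, g⟫_ℂ = 0 := by
  rw [lp.inner_eq_tsum]
  simp [h]

theorem inner_mask_mask (S S' : ι → Prop) (hd : ∀ i, S i → ¬ S' i) (f g : L2 ι F) :
    ⟪mask S f, mask S' g⟫_ℂ = 0 := by
  refine inner_eq_zero_of_forall _ _ fun i => ?_
  by_cases h : S i
  · rw [mask_not S' g (hd i h), inner_zero_right]
  · rw [mask_not S f h, inner_zero_left]

theorem inner_mask_sub (S : ι → Prop) (f g : L2 ι F) :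
    ⟪mask S f, g - mask S g⟫_ℂ = 0 := by
  refine inner_eq_zero_of_forall _ _ fun i => ?_
  by_cases h : S i
  · have : (g - mask S g) i = 0 := by
      rw [lp.coeFn_sub, Pi.sub_apply, mask_of S g h, sub_self]
    rw [this, inner_zero_right]
  · rw [mask_not S f h, inner_zero_left]

theorem inner_mask_sub_sum {κ : Type} [Fintype κ] (S : κ → ι → Prop)
    (hd : ∀ a b, a ≠ b → ∀ i, S a i → ¬ S b i) (a : κ) (f g : L2 ι F) :
    ⟪mask (S a) f, g - ∑ b, mask (S b) g⟫_ℂ = 0 := by
  classical
  refine inner_eq_zero_of_forall _ _ fun i => ?_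
  by_cases h : S a i
  · have : (g - ∑ b, mask (S b) g) i = 0 := by
      rw [lp.coeFn_sub, Pi.sub_apply, lp.coeFn_sum, Finset.sum_apply, Finset.sum_eq_single a]
      · rw [mask_of (S a) g h, sub_self]
      · intro b _ hb
        exact mask_not _ _ (hd a b hb.symm i h)
      · simp
    rw [this, inner_zero_right]
  · rw [mask_not _ f h, inner_zero_left]

end mask

section words

variable {n : ℕ}

/-- the reduced word starts with the letter `g_i` -/
def starts (i : Fin n) (g : FreeGroup (Fin n)) : Prop := g.toWord.head? = some (i, true)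

theorem starts_disj {i j : Fin n} (hij : i ≠ j) (g : FreeGroup (Fin n)) (h : starts i g) :
    ¬ starts j g := by
  intro h'
  unfold starts at h h'
  rw [h] at h'
  simp at h'
  exact hij h'

theorem not_starts_mul {i : Fin n} {h : FreeGroup (Fin n)}
    (hh : ¬ starts i (FreeGroup.of i * h)) : h.toWord.head? = some (i, false) := by
  unfold starts at hh
  rw [FreeGroup.toWord_mul, FreeGroup.toWord_of, List.singleton_append, FreeGroup.reduce.cons,
    FreeGroup.reduce_toWord] at hh
  cases hw : h.toWord with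
  | nil =>
    rw [hw] at hh
    simp at hh
  | cons a L =>
    rw [hw] at hh
    simp only [List.head?_cons, Option.some.injEq]
    by_cases hc : i = a.1 ∧ true = !a.2
    · obtain ⟨h1, h2⟩ := hc
      ext
      · simp [h1]
      · cases ha : a.2
        · rfl
        · rw [ha] at h2
          simp at h2
    · simp only [hc, if_false] at hh
      simp at hh

theorem not_starts_disj {i j : Fin n} (hij : i ≠ j) (g : FreeGroup (Fin n))
    (h : ¬ starts i (FreeGroup.of i * g)) : ¬ ¬ starts j (FreeGroup.of j * g) := by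
  intro h'
  have h1 := not_starts_mul h
  have h2 := not_starts_mul h'
  rw [h1] at h2
  simp at h2
  exact hij h2

end words

section system

variable {G : Type} [Group G] [DecidableEq G]

theorem eps_self_apply_ne (h k g : G) (hg : g ≠ h) : eps h k g = 0 :=
  lp.single_apply_ne _ _ _ hg

theorem U_lam_eps (g h k : G) : U lam g (eps h k) = eps (g * h) (g * k) := by
  have := wp_single (E := K G) (Equiv.mulLeft g⁻¹) (fun _ : G => lam g) h (lp.single 2 k (1 : ℂ))
  have h2 : U lam g (eps h k) = wp (Equiv.mulLeft g⁻¹) (fun _ : G => lam g) (eps h k) := rfl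
  rw [h2]
  unfold eps
  rw [this, lam_single]
  simp

theorem norm_eps (h k : G) : ‖eps h k‖ = 1 := by
  unfold eps
  rw [lp.norm_single (E := fun _ : G => K G) (p := 2) (by norm_num),
    lp.norm_single (E := fun _ : G => ℂ) (p := 2) (by norm_num), norm_one]

theorem p_apply_apply (h : G) (x : E G) (k : G) : p h x k = lp.single 2 h (x k h) := rfl

theorem sum_single_apply (F : Finset G) (y : K G) (i : G) :
    (∑ h ∈ F, (lp.single 2 h (y h) : K G)) i = if i ∈ F then y i else 0 := by
  rw [lp.coeFn_sum, Finset.sum_apply]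
  split_ifs with hi
  · rw [Finset.sum_eq_single i]
    · rw [lp.single_apply_self]
    · intro b _ hb
      exact lp.single_apply_ne _ _ _ hb.symm
    · intro h; exact absurd hi h
  · refine Finset.sum_eq_zero fun b hb => lp.single_apply_ne _ _ _ ?_
    rintro rfl
    exact hi hb

theorem norm_sub_sum_single_le (F : Finset G) (y : K G) :
    ‖y - ∑ h ∈ F, (lp.single 2 h (y h) : K G)‖ ^ 2 ≤ ‖y‖ ^ 2 := by
  rw [norm_sq_eq, norm_sq_eq y]
  refine Summable.tsum_le_tsum (fun i => ?_) (hasSum_norm_sq _).summable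
    (hasSum_norm_sq y).summable
  rw [lp.coeFn_sub, Pi.sub_apply, sum_single_apply]
  split_ifs
  · simp
  · simp

theorem hasSum_p (x : E G) : HasSum (fun h => p h x) x := by
  rw [HasSum, SummationFilter.unconditional_filter, tendsto_iff_norm_sub_tendsto_zero]
  have key : Tendsto (fun F : Finset G => ‖x - ∑ h ∈ F, p h x‖ ^ 2) atTop (𝓝 0) := by
    have h1 : ∀ F : Finset G, ‖x - ∑ h ∈ F, p h x‖ ^ 2
        = ∑' k, ‖x k - ∑ h ∈ F, (lp.single 2 h (x k h) : K G)‖ ^ 2 := by
      intro F
      rw [norm_sq_eq]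
      refine tsum_congr fun k => ?_
      rw [lp.coeFn_sub, Pi.sub_apply, lp.coeFn_sum, Finset.sum_apply]
      rfl
    simp only [h1]
    have h2 : (0 : ℝ) = ∑' _k : G, (0 : ℝ) := tsum_zero.symm
    rw [h2]
    refine tendsto_tsum_of_dominated_convergence (bound := fun k => ‖x k‖ ^ 2)
      (hasSum_norm_sq x).summable (fun k => ?_) (Eventually.of_forall fun F k => ?_)
    · have h3 := (hasSum_single (x k))
      rw [HasSum, SummationFilter.unconditional_filter] at h3
      have h4 : Tendsto (fun F : Finset G => x k - ∑ h ∈ F, (lp.single 2 h (x k h) : K G)) atTop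
          (𝓝 (x k - x k)) := tendsto_const_nhds.sub h3
      rw [sub_self] at h4
      have h5 := (h4.norm).pow 2
      simpa using h5
    · rw [Real.norm_eq_abs, abs_of_nonneg (by positivity)]
      exact norm_sub_sum_single_le F (x k)
  have h6 := key.sqrt
  simp only [Real.sqrt_sq (norm_nonneg _), Real.sqrt_zero] at h6
  simpa only [norm_sub_rev] using h6

/-- the absorbing system of the model -/
def sys (G : Type) [Group G] [DecidableEq G] : System (E G) G where
  U := U lam
  ε h := eps h h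
  p := p
  U_ε g h := U_lam_eps g h h
  norm_ε h := norm_eps h h
  inner_ε g h hgh := by
    unfold eps
    rw [lp.inner_single_left, lp.single_apply_ne _ _ _ hgh, inner_zero_right]
  inner_p g h hgh x y := by
    refine inner_eq_zero_of_forall _ _ fun k => ?_
    rw [p_apply_apply, p_apply_apply, lp.inner_single_left, lp.single_apply_ne _ _ _ hgh,
      inner_zero_right]
  U_p g h x := by
    refine lp.ext ?_
    funext k
    rw [U_apply, p_apply_apply, p_apply_apply, lam_single, U_apply, lam_apply]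
    simp
  hasSum_p := hasSum_p

end system

section comm

variable {G : Type} [Group G] [DecidableEq G]

theorem op_inv_eq_symm {V : Type} [NormedAddCommGroup V] [InnerProductSpace ℂ V] [CompleteSpace V]
    (e : V ≃ₗᵢ[ℂ] V) (x : V) : op e⁻¹ x = e.symm x := rfl

theorem U_comm_R (σ : G →* (K G ≃ₗᵢ[ℂ] K G)) (g h : G) :
    op (R h) * op (U σ g) = op (U σ g) * op (R h) := by
  ext f x
  change (R h (U σ g f)) x _ = (U σ g (R h f)) x _
  rw [Model.R_apply, U_apply, U_apply, Model.R_apply, mul_assoc]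

theorem diag_comm_R (a : K G →L[ℂ] K G) (h : G) :
    op (R h) * diag a = diag a * op (R h) := rfl

theorem gens_comm_R (π : G →* (K G ≃ₗᵢ[ℂ] K G)) {c : E G →L[ℂ] E G} (hc : c ∈ gens π) (h : G) :
    op (R h) * c = c * op (R h) := by
  rcases hc with (⟨g, rfl⟩ | ⟨g, rfl⟩) | ⟨q, rfl⟩
  · exact U_comm_R _ _ _
  · exact U_comm_R _ _ _
  · exact diag_comm_R _ _

theorem adjoin_comm_R (π : G →* (K G ≃ₗᵢ[ℂ] K G)) {c : E G →L[ℂ] E G}
    (hc : c ∈ StarAlgebra.adjoin ℂ (gens π)) : ∀ h : G, op (R h) * c = c * op (R h) := by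
  induction hc using StarAlgebra.adjoin_induction with
  | mem x hx => exact gens_comm_R π hx
  | algebraMap r => intro h; exact (Algebra.commutes r _).symm
  | add x y _ _ hx hy => intro h; rw [mul_add, add_mul, hx, hy]
  | mul x y _ _ hx hy => intro h; rw [← mul_assoc, hx, mul_assoc, hy, mul_assoc]
  | star x _ hx =>
    intro h
    have h1 := congrArg star (hx h⁻¹)
    rw [star_mul, star_mul, star_op] at h1
    have h2 : (R h⁻¹ : E G ≃ₗᵢ[ℂ] E G)⁻¹ = R h := by rw [map_inv, inv_inv]
    rw [h2] at h1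
    exact h1.symm

theorem CE_comm_R (π : G →* (K G ≃ₗᵢ[ℂ] K G)) {c : E G →L[ℂ] E G} (hc : c ∈ CE π) (h : G) :
    op (R h) * c = c * op (R h) := by
  have hcl : IsClosed {c : E G →L[ℂ] E G | op (R h) * c = c * op (R h)} :=
    isClosed_eq (continuous_const.mul continuous_id) (continuous_id.mul continuous_const)
  have h1 : c ∈ closure ((StarAlgebra.adjoin ℂ (gens π) : StarSubalgebra ℂ (E G →L[ℂ] E G)) :
      Set (E G →L[ℂ] E G)) := hc
  have h2 : closure ((StarAlgebra.adjoin ℂ (gens π) : StarSubalgebra ℂ (E G →L[ℂ] E G)) :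
      Set (E G →L[ℂ] E G)) ⊆ {c : E G →L[ℂ] E G | op (R h) * c = c * op (R h)} :=
    closure_minimal (fun x hx => adjoin_comm_R π hx h) hcl
  exact h2 h1

theorem gens_mem_CE (π : G →* (K G ≃ₗᵢ[ℂ] K G)) {c : E G →L[ℂ] E G} (hc : c ∈ gens π) :
    c ∈ CE π :=
  StarSubalgebra.le_topologicalClosure _ (StarAlgebra.subset_adjoin ℂ _ hc)

theorem U_lam_mem_CE (π : G →* (K G ≃ₗᵢ[ℂ] K G)) (g : G) : op (U lam g) ∈ CE π :=
  gens_mem_CE π (Or.inl (Or.inl ⟨g, rfl⟩))

theorem p_mem_CE (π : G →* (K G ≃ₗᵢ[ℂ] K G)) (g : G) : p g ∈ CE π :=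
  gens_mem_CE π (Or.inr ⟨(g, g), rfl⟩)

theorem U_lam_mem_A0 (g : G) : op (U lam g) ∈ A0 G :=
  StarSubalgebra.le_topologicalClosure _ (StarAlgebra.subset_adjoin ℂ _ ⟨g, rfl⟩)

theorem A0_subset (x : E G →L[ℂ] E G) (hx : x ∈ A0 G) :
    x ∈ closure ((sys G).span : Set (E G →L[ℂ] E G)) := by
  have h1 : x ∈ closure ((StarAlgebra.adjoin ℂ (Set.range (fun g : G => op (U lam g))) :
      StarSubalgebra ℂ (E G →L[ℂ] E G)) : Set (E G →L[ℂ] E G)) := hx
  refine closure_mono ?_ h1
  intro y hy
  have h2 : y ∈ Subalgebra.toSubmodule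
      (StarAlgebra.adjoin ℂ (Set.range (fun g : G => op (U lam g)))).toSubalgebra := hy
  rw [StarAlgebra.adjoin_eq_span] at h2
  refine Submodule.span_mono ?_ h2
  let φ : G →* (E G →L[ℂ] E G) :=
    { toFun := fun g => op (U lam g)
      map_one' := by rw [map_one, op_one]
      map_mul' := fun a b => by rw [map_mul, op_mul] }
  have h3 : Submonoid.closure (Set.range (fun g : G => op (U lam g)) ∪
      star (Set.range (fun g : G => op (U lam g)))) ≤ MonoidHom.mrange φ := by
    rw [Submonoid.closure_le]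
    rintro z (⟨g, rfl⟩ | hz)
    · exact ⟨g, rfl⟩
    · obtain ⟨g, hg⟩ := hz
      refine ⟨g⁻¹, ?_⟩
      have h4 : z = star (op (U lam g)) := by
        have := congrArg star hg
        simpa using this.symm
      rw [h4, star_op, ← map_inv]
      rfl
  intro z hz
  obtain ⟨g, hg⟩ := h3 hz
  exact ⟨g, hg⟩

/-- an isometry commuting with `CE` commutes with the system -/
theorem comm_of_CE (π : G →* (K G ≃ₗᵢ[ℂ] K G)) (T : E G →ₗᵢ[ℂ] E G)
    (hT : ∀ c ∈ CE π, ∀ x, T (c x) = c (T x)) : Comm (sys G) T where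
  p h x := hT _ (p_mem_CE π h) x
  U g x := hT _ (U_lam_mem_CE π g) x

theorem W_mul_U_lam (π : G →* (K G ≃ₗᵢ[ℂ] K G)) (g : G) : W π * U lam g = U π g * W π := by
  ext f h x
  change (W π (U lam g f)) h x = (U π g (W π f)) h x
  rw [W_apply, U_apply, U_apply, W_apply]
  have h1 : (lam h)⁻¹ (lam g (f (g⁻¹ * h))) = (lam (g⁻¹ * h))⁻¹ (f (g⁻¹ * h)) := by
    rw [map_mul, mul_inv_rev, map_inv, inv_inv]
    rfl
  rw [h1]
  have h2 : π g (π (g⁻¹ * h) ((lam (g⁻¹ * h))⁻¹ (f (g⁻¹ * h))))
      = π h ((lam (g⁻¹ * h))⁻¹ (f (g⁻¹ * h))) := by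
    have h3 : π g * π (g⁻¹ * h) = π h := by rw [← map_mul, mul_inv_cancel_left]
    rw [← h3]
    rfl
  rw [h2]

theorem op_W_conj (π : G →* (K G ≃ₗᵢ[ℂ] K G)) (g : G) :
    op (W π) * op (U lam g) * star (op (W π)) = op (U π g) := by
  rw [← op_mul, W_mul_U_lam, op_mul, mul_assoc, star_op, op_mul_op_inv, mul_one]

theorem U_R_eps (σ : G →* (K G ≃ₗᵢ[ℂ] K G)) (g : G) :
    U σ g (R g (eps 1 1)) = lp.single 2 1 (σ g (lp.single 2 1 1)) := by
  refine lp.ext ?_
  funext h
  rw [U_apply, Model.R_apply]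
  by_cases hh : h = 1
  · subst hh
    rw [lp.single_apply_self]
    have : g⁻¹ * 1 * g = 1 := by group
    rw [this]
    unfold eps
    rw [lp.single_apply_self]
  · rw [lp.single_apply_ne _ _ _ hh]
    have : g⁻¹ * h * g ≠ 1 := by
      intro h1
      apply hh
      have h2 : h = g * (g⁻¹ * h * g) * g⁻¹ := by group
      rw [h2, h1]
      group
    rw [eps_self_apply_ne _ _ _ this, map_zero]

end comm

section final

variable {n : ℕ}

theorem lower (s : ℝ) (hs : 0 ≤ s)
    (π : FreeGroup (Fin n) →* (K (FreeGroup (Fin n)) ≃ₗᵢ[ℂ] K (FreeGroup (Fin n))))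
    (hπ : ∀ i : Fin n, π (FreeGroup.of i) (lp.single 2 1 1) 1 = s) :
    n * s ≤ ‖∑ i : Fin n, U π (FreeGroup.of i) (R (FreeGroup.of i) (eps 1 1))‖ := by
  have h1 : ⟪(eps 1 1 : E (FreeGroup (Fin n))),
      ∑ i : Fin n, U π (FreeGroup.of i) (R (FreeGroup.of i) (eps 1 1))⟫_ℂ = (n * s : ℝ) := by
    rw [inner_sum]
    have h2 : ∀ i : Fin n, ⟪(eps 1 1 : E (FreeGroup (Fin n))),
        U π (FreeGroup.of i) (R (FreeGroup.of i) (eps 1 1))⟫_ℂ = (s : ℂ) := by
      intro i
      rw [U_R_eps]
      unfold eps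
      rw [lp.inner_single_left, lp.single_apply_self, lp.inner_single_left, hπ]
      simp
    simp only [h2]
    simp
  have h3 := norm_inner_le_norm (𝕜 := ℂ) (eps 1 1 : E (FreeGroup (Fin n)))
    (∑ i : Fin n, U π (FreeGroup.of i) (R (FreeGroup.of i) (eps 1 1)))
  rw [h1, norm_eps, one_mul, Complex.norm_real, Real.norm_eq_abs, abs_of_nonneg (by positivity)]
    at h3
  exact h3

/-- **F5**: there is no asymptotically conjugating sequence. -/
theorem no_conj (s : ℝ) (hs : 0 ≤ s) (hns : 2 * Real.sqrt n < n * s)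
    (π : FreeGroup (Fin n) →* (K (FreeGroup (Fin n)) ≃ₗᵢ[ℂ] K (FreeGroup (Fin n))))
    (hπ : ∀ i : Fin n, π (FreeGroup.of i) (lp.single 2 1 1) 1 = s) :
    ¬ ∃ u : ℕ → (E (FreeGroup (Fin n)) →L[ℂ] E (FreeGroup (Fin n))),
      (∀ k, u k ∈ unitary (E (FreeGroup (Fin n)) →L[ℂ] E (FreeGroup (Fin n)))) ∧
      (∀ k, ∀ e ∈ CE π, u k * e * star (u k) ∈ CE π) ∧
      (∀ z ∈ A0 (FreeGroup (Fin n)), ∃ x ∈ A0 (FreeGroup (Fin n)),
        Tendsto (fun k => star (u k) * (op (W π) * z * star (op (W π))) * u k) atTop (𝓝 x)) := by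
  rintro ⟨u, hu, hconj, hlim⟩
  choose e he using fun k => exists_op_of_unitary (u k) (hu k)
  set γ : Fin n → FreeGroup (Fin n) := fun i => FreeGroup.of i with hγ
  choose x hxA hx using fun i : Fin n => hlim _ (U_lam_mem_A0 (γ i))
  simp only [op_W_conj] at hx
  -- the isometries
  let T : ℕ → (E (FreeGroup (Fin n)) ≃ₗᵢ[ℂ] E (FreeGroup (Fin n))) := fun k => (e k)⁻¹ * W π
  let R' : ℕ → Fin n → (E (FreeGroup (Fin n)) ≃ₗᵢ[ℂ] E (FreeGroup (Fin n))) := fun k i =>
    (e k)⁻¹ * R (γ i) * e k
  have hTz : ∀ k i v, T k (U lam (γ i) ((T k).symm v))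
      = (star (u k) * op (U π (γ i)) * u k) v := by
    intro k i v
    rw [← he k, star_op]
    have h1 : T k * U lam (γ i) * (T k)⁻¹ = (e k)⁻¹ * U π (γ i) * e k := by
      change (e k)⁻¹ * W π * U lam (γ i) * ((e k)⁻¹ * W π)⁻¹ = (e k)⁻¹ * U π (γ i) * e k
      rw [mul_inv_rev, inv_inv, mul_assoc (e k)⁻¹ (W π), W_mul_U_lam]
      group
    have h2 := congrArg (fun w : (E (FreeGroup (Fin n)) ≃ₗᵢ[ℂ] E (FreeGroup (Fin n))) => w v) h1
    exact h2
  have hcommR : ∀ k i, Comm (sys (FreeGroup (Fin n))) (R' k i).toLinearIsometry := by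
    intro k i
    refine comm_of_CE π _ fun c hc v => ?_
    have h1 := CE_comm_R π (hconj k c hc) (γ i)
    -- u* R u c = c u* R u
    have h2 : op (R' k i) * c = c * op (R' k i) := by
      change op ((e k)⁻¹ * R (γ i) * e k) * c = c * op ((e k)⁻¹ * R (γ i) * e k)
      rw [op_mul, op_mul]
      have h3 : op (e k) * c = (u k * c * star (u k)) * op (e k) := by
        rw [← he k, star_op, mul_assoc, op_inv_mul_op, mul_one]
      have h4 : op (e k)⁻¹ * (u k * c * star (u k)) = c * op (e k)⁻¹ := by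
        rw [← he k, star_op, ← mul_assoc, ← mul_assoc, op_inv_mul_op, one_mul]
      calc op (e k)⁻¹ * op (R (γ i)) * op (e k) * c
          = op (e k)⁻¹ * op (R (γ i)) * (op (e k) * c) := by rw [mul_assoc]
        _ = op (e k)⁻¹ * (op (R (γ i)) * (u k * c * star (u k))) * op (e k) := by
            rw [h3]; simp only [mul_assoc]
        _ = (op (e k)⁻¹ * (u k * c * star (u k))) * op (R (γ i)) * op (e k) := by
            rw [h1]; simp only [mul_assoc]
        _ = c * (op (e k)⁻¹ * op (R (γ i)) * op (e k)) := by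
            rw [h4]; simp only [mul_assoc]
    exact congrArg (fun w : (E (FreeGroup (Fin n)) →L[ℂ] E (FreeGroup (Fin n))) => w v) h2
  have hupper : ∀ k f, ‖∑ i, x i (R' k i f)‖ ≤ 2 * Real.sqrt n * ‖f‖ := by
    intro k f
    have h1 := norm_sum_le (sys (FreeGroup (Fin n))) γ
      (fun i => mask (starts i)) (fun i => mask (fun h => ¬ starts i (γ i * h)))
      (fun i j hij x y => inner_mask_mask _ _ (fun g => starts_disj hij g) x y)
      (fun i x y => inner_mask_sub _ x y)
      (fun i j hij x y => inner_mask_mask _ _ (fun g => not_starts_disj hij g) x y)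
      (fun i x y => inner_mask_sub_sum _ (fun a b hab g => not_starts_disj hab g) i x y)
      (fun i x => by
        refine lp.ext ?_
        funext h
        change (U lam (γ i) x) h = (mask (starts i) (U lam (γ i) x)
          + U lam (γ i) (mask (fun h => ¬ starts i (γ i * h)) x)) h
        rw [lp.coeFn_add, Pi.add_apply, U_apply]
        by_cases hh : starts i h
        · have h2 : ¬ ¬ starts i (γ i * ((γ i)⁻¹ * h)) := by
            rw [mul_inv_cancel_left]
            exact not_not.mpr hh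
          rw [mask_of _ _ hh, U_apply, U_apply,
            mask_not (fun h => ¬ starts i (γ i * h)) x h2, map_zero, add_zero]
        · have h2 : ¬ starts i (γ i * ((γ i)⁻¹ * h)) := by
            rw [mul_inv_cancel_left]
            exact hh
          rw [mask_not _ _ hh, zero_add, U_apply,
            mask_of (fun h => ¬ starts i (γ i * h)) x h2])
      T x
      (fun i v => by
        have h2 : Tendsto (fun k => (star (u k) * op (U π (γ i)) * u k) v) atTop (𝓝 (x i v)) :=
          ((ContinuousLinearMap.apply ℂ (E (FreeGroup (Fin n))) v).continuous.tendsto (x i)).comp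
            (hx i)
        refine h2.congr fun k => ?_
        exact (hTz k i v).symm)
      (fun i => A0_subset _ (hxA i))
      (fun i => (R' k i).toLinearIsometry) (hcommR k) f
    rw [Fintype.card_fin] at h1
    exact h1
  -- the error
  have herr : Tendsto (fun k => ∑ i, ‖star (u k) * op (U π (γ i)) * u k - x i‖) atTop (𝓝 0) := by
    have h1 : ∀ i : Fin n, Tendsto (fun k => ‖star (u k) * op (U π (γ i)) * u k - x i‖) atTop
        (𝓝 0) := fun i => tendsto_iff_norm_sub_tendsto_zero.mp (hx i)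
    have h2 := tendsto_finsetSum (Finset.univ : Finset (Fin n)) fun i _ => h1 i
    simpa using h2
  have hbound : ∀ k, n * s ≤ 2 * Real.sqrt n
      + ∑ i, ‖star (u k) * op (U π (γ i)) * u k - x i‖ := by
    intro k
    set f := (e k).symm (eps 1 1) with hf
    have hfn : ‖f‖ = 1 := by rw [hf, LinearIsometryEquiv.norm_map, norm_eps]
    have h1 : ∀ i, (star (u k) * op (U π (γ i)) * u k) (R' k i f)
        = (e k).symm (U π (γ i) (R (γ i) (eps 1 1))) := by
      intro i
      rw [← he k, star_op]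
      have h2 : ((e k)⁻¹ * U π (γ i) * e k) * ((e k)⁻¹ * R (γ i) * e k) * (e k)⁻¹
          = (e k)⁻¹ * (U π (γ i) * R (γ i)) := by group
      have h3 := congrArg
        (fun w : (E (FreeGroup (Fin n)) ≃ₗᵢ[ℂ] E (FreeGroup (Fin n))) => w (eps 1 1)) h2
      exact h3
    have h4 : ‖∑ i, (star (u k) * op (U π (γ i)) * u k) (R' k i f)‖
        = ‖∑ i : Fin n, U π (FreeGroup.of i) (R (FreeGroup.of i) (eps 1 1))‖ := by
      simp only [h1]
      rw [← map_sum, LinearIsometryEquiv.norm_map]
    have h5 := lower s hs π hπ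
    rw [← h4] at h5
    have h6 : ∑ i, (star (u k) * op (U π (γ i)) * u k) (R' k i f)
        = ∑ i, x i (R' k i f) + ∑ i, (star (u k) * op (U π (γ i)) * u k - x i) (R' k i f) := by
      rw [← Finset.sum_add_distrib]
      refine Finset.sum_congr rfl fun i _ => ?_
      rw [sub_apply]
      abel
    rw [h6] at h5
    have h7 : ‖∑ i, (star (u k) * op (U π (γ i)) * u k - x i) (R' k i f)‖
        ≤ ∑ i, ‖star (u k) * op (U π (γ i)) * u k - x i‖ := by
      refine (_root_.norm_sum_le _ _).trans (Finset.sum_le_sum fun i _ => ?_)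
      refine (ContinuousLinearMap.le_opNorm _ _).trans ?_
      rw [LinearIsometryEquiv.norm_map, hfn, mul_one]
    have h8 := hupper k f
    rw [hfn, mul_one] at h8
    exact h5.trans ((norm_add_le _ _).trans (add_le_add h8 h7))
  have hlim2 : Tendsto (fun k => 2 * Real.sqrt n
      + ∑ i, ‖star (u k) * op (U π (γ i)) * u k - x i‖) atTop (𝓝 (2 * Real.sqrt n + 0)) :=
    tendsto_const_nhds.add herr
  have hfinal : (n : ℝ) * s ≤ 2 * Real.sqrt n + 0 := ge_of_tendsto' hlim2 hbound
  rw [add_zero] at hfinal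
  exact absurd hfinal (not_le.mpr hns)

end final

end Crest.Agent.R078.Final
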