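import Crest.Agent.R078.Ops

set_option autoImplicit false
set_option linter.unusedSectionVars false

/-!
# R78, S0104: creation operators on the full Fock space `ℓ²(List α; F)`
-/

noncomputable section

namespace Crest.Agent.R078.Fock

open scoped ENNReal InnerProductSpace
open Crest.Agent.R078.Basic Crest.Agent.R078.Ops

variable {ι κ : Type} {F : Type} [NormedAddCommGroup F] [InnerProductSpace ℂ F]

/-- pull-back along an injective map: `(pull φ f) i = f (φ i)` -/
theorem memℓp_pull (φ : κ → ι) (hφ : Function.Injective φ) (f : L2 ι F) :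
    Memℓp (fun k => f (φ k)) 2 :=
  memℓp_two_of_summable ((hasSum_norm_sq f).summable.comp_injective hφ)

/-- pull-back along an injective map as a contraction -/
def pull (φ : κ → ι) (hφ : Function.Injective φ) : L2 ι F →L[ℂ] L2 κ F :=
  LinearMap.mkContinuous
    { toFun := fun f => ⟨fun k => f (φ k), memℓp_pull φ hφ f⟩
      map_add' := fun f g => by
        ext k
        rfl
      map_smul' := fun c f => by
        ext k
        rfl } 1
    (fun f => by
      have h : ‖(⟨fun k => f (φ k), memℓp_pull φ hφ f⟩ : L2 κ F)‖ ^ 2 ≤ (1 * ‖f‖) ^ 2 := by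
        rw [one_mul, norm_sq_eq, norm_sq_eq f]
        exact tsum_comp_le_tsum_of_inj (hasSum_norm_sq f).summable
          (fun _ => by positivity) hφ
      exact le_of_sq_le_sq h (by positivity))

@[simp] theorem pull_apply (φ : κ → ι) (hφ : Function.Injective φ) (f : L2 ι F) (k : κ) :
    pull φ hφ f k = f (φ k) := rfl

open Classical in
/-- push-forward function -/
def pushFun (φ : κ → ι) (f : κ → F) (i : ι) : F :=
  if h : ∃ k, φ k = i then f h.choose else 0

theorem pushFun_apply (φ : κ → ι) (hφ : Function.Injective φ) (f : κ → F) (k : κ) :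
    pushFun φ f (φ k) = f k := by
  have h : ∃ k', φ k' = φ k := ⟨k, rfl⟩
  unfold pushFun
  rw [dif_pos h]
  exact congrArg f (hφ h.choose_spec)

theorem pushFun_of_not (φ : κ → ι) (f : κ → F) {i : ι} (h : ¬ ∃ k, φ k = i) :
    pushFun φ f i = 0 := by
  unfold pushFun
  rw [dif_neg h]

theorem hasSum_push (φ : κ → ι) (hφ : Function.Injective φ) (f : L2 κ F) :
    HasSum (fun i => ‖pushFun φ f i‖ ^ 2) (‖f‖ ^ 2) := by
  have h1 : HasSum ((fun i => ‖pushFun φ f i‖ ^ 2) ∘ φ) (‖f‖ ^ 2) := by
    have : ((fun i => ‖pushFun φ f i‖ ^ 2) ∘ φ) = fun k => ‖f k‖ ^ 2 := by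
      funext k
      simp only [Function.comp_apply]
      rw [pushFun_apply φ hφ]
    rw [this]
    exact hasSum_norm_sq f
  refine (hφ.hasSum_iff ?_).mp h1
  intro i hi
  rw [pushFun_of_not]
  · simp
  · rintro ⟨k, hk⟩
    exact hi ⟨k, hk⟩

/-- push-forward along an injective map as an isometry -/
def push (φ : κ → ι) (hφ : Function.Injective φ) : L2 κ F →ₗᵢ[ℂ] L2 ι F where
  toFun f := ⟨pushFun φ f, memℓp_two_of_summable (hasSum_push φ hφ f).summable⟩
  map_add' f g := by
    ext i
    change pushFun φ (f + g : L2 κ F) i = pushFun φ f i + pushFun φ g i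
    by_cases h : ∃ k, φ k = i
    · obtain ⟨k, rfl⟩ := h
      rw [pushFun_apply φ hφ, pushFun_apply φ hφ, pushFun_apply φ hφ]
      rfl
    · rw [pushFun_of_not _ _ h, pushFun_of_not _ _ h, pushFun_of_not _ _ h, add_zero]
  map_smul' c f := by
    ext i
    change pushFun φ (c • f : L2 κ F) i = c • pushFun φ f i
    by_cases h : ∃ k, φ k = i
    · obtain ⟨k, rfl⟩ := h
      rw [pushFun_apply φ hφ, pushFun_apply φ hφ]
      rfl
    · rw [pushFun_of_not _ _ h, pushFun_of_not _ _ h, smul_zero]
  norm_map' f := by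
    have h : ‖(⟨pushFun φ f, memℓp_two_of_summable (hasSum_push φ hφ f).summable⟩ : L2 ι F)‖ ^ 2
        = ‖f‖ ^ 2 := by
      rw [norm_sq_eq]
      exact (hasSum_push φ hφ f).tsum_eq
    exact (sq_eq_sq₀ (norm_nonneg _) (norm_nonneg _)).mp h

theorem push_apply (φ : κ → ι) (hφ : Function.Injective φ) (f : L2 κ F) (k : κ) :
    push φ hφ f (φ k) = f k := pushFun_apply φ hφ f k

theorem push_apply_not (φ : κ → ι) (hφ : Function.Injective φ) (f : L2 κ F) {i : ι}
    (h : ¬ ∃ k, φ k = i) : push φ hφ f i = 0 := pushFun_of_not φ f h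

theorem inner_push (φ : κ → ι) (hφ : Function.Injective φ) (f : L2 κ F) (g : L2 ι F) :
    ⟪push φ hφ f, g⟫_ℂ = ⟪f, pull φ hφ g⟫_ℂ := by
  rw [lp.inner_eq_tsum, lp.inner_eq_tsum]
  have h1 : (fun k => ⟪f k, pull φ hφ g k⟫_ℂ)
      = (fun i => ⟪push φ hφ f i, g i⟫_ℂ) ∘ φ := by
    funext k
    simp only [Function.comp_apply, push_apply, pull_apply]
  rw [h1]
  refine (hφ.tsum_eq ?_).symm
  intro i hi
  by_contra h
  apply hi
  change ⟪push φ hφ f i, g i⟫_ℂ = 0
  rw [push_apply_not φ hφ f (fun ⟨k, hk⟩ => h ⟨k, hk⟩), inner_zero_left]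

theorem pull_push (φ : κ → ι) (hφ : Function.Injective φ) (f : L2 κ F) :
    pull φ hφ (push φ hφ f) = f := by
  ext k
  rw [pull_apply, push_apply]

section creation

variable {α : Type} {F : Type} [NormedAddCommGroup F] [InnerProductSpace ℂ F]

theorem cons_inj (a : α) : Function.Injective (fun v : List α => a :: v) := fun _ _ h => by
  simpa using h

theorem snoc_inj (a : α) : Function.Injective (fun v : List α => v ++ [a]) := fun _ _ h => by
  simpa using h

/-- left creation operator -/
def L (a : α) : L2 (List α) F →L[ℂ] L2 (List α) F := (push _ (cons_inj a)).toContinuousLinearMap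

/-- left annihilation operator -/
def L' (a : α) : L2 (List α) F →L[ℂ] L2 (List α) F := pull _ (cons_inj a)

/-- right creation operator -/
def R (a : α) : L2 (List α) F →L[ℂ] L2 (List α) F := (push _ (snoc_inj a)).toContinuousLinearMap

/-- right annihilation operator -/
def R' (a : α) : L2 (List α) F →L[ℂ] L2 (List α) F := pull _ (snoc_inj a)

@[simp] theorem L'_apply (a : α) (f : L2 (List α) F) (v : List α) : L' a f v = f (a :: v) := rfl

@[simp] theorem R'_apply (a : α) (f : L2 (List α) F) (v : List α) : R' a f v = f (v ++ [a]) := rfl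

@[simp] theorem L_nil (a : α) (f : L2 (List α) F) : L a f [] = 0 :=
  push_apply_not _ (cons_inj a) f (by simp)

@[simp] theorem R_nil (a : α) (f : L2 (List α) F) : R a f [] = 0 :=
  push_apply_not _ (snoc_inj a) f (by simp)

@[simp] theorem L_cons (a : α) (f : L2 (List α) F) (v : List α) : L a f (a :: v) = f v :=
  push_apply _ (cons_inj a) f v

theorem L_cons_ne {a b : α} (h : a ≠ b) (f : L2 (List α) F) (v : List α) : L a f (b :: v) = 0 :=
  push_apply_not _ (cons_inj a) f (by
    rintro ⟨k, hk⟩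
    exact h (List.cons.inj hk).1)

@[simp] theorem R_snoc (a : α) (f : L2 (List α) F) (v : List α) : R a f (v ++ [a]) = f v :=
  push_apply _ (snoc_inj a) f v

theorem R_snoc_ne {a b : α} (h : a ≠ b) (f : L2 (List α) F) (v : List α) :
    R a f (v ++ [b]) = 0 :=
  push_apply_not _ (snoc_inj a) f (by
    rintro ⟨k, hk⟩
    exact h (by simpa using (List.append_inj' hk rfl).2))

theorem L_cons_ite [DecidableEq α] (a b : α) (f : L2 (List α) F) (v : List α) :
    L a f (b :: v) = if a = b then f v else 0 := by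
  split_ifs with h
  · subst h
    exact L_cons a f v
  · exact L_cons_ne h f v

theorem R_snoc_ite [DecidableEq α] (a b : α) (f : L2 (List α) F) (v : List α) :
    R a f (v ++ [b]) = if a = b then f v else 0 := by
  split_ifs with h
  · subst h
    exact R_snoc a f v
  · exact R_snoc_ne h f v

theorem norm_L (a : α) (f : L2 (List α) F) : ‖L a f‖ = ‖f‖ :=
  (push _ (cons_inj a)).norm_map f

theorem norm_R (a : α) (f : L2 (List α) F) : ‖R a f‖ = ‖f‖ :=
  (push _ (snoc_inj a)).norm_map f

section star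

variable [CompleteSpace F]

theorem star_L (a : α) : star (L a : L2 (List α) F →L[ℂ] L2 (List α) F) = L' a := by
  rw [ContinuousLinearMap.star_eq_adjoint]
  symm
  rw [ContinuousLinearMap.eq_adjoint_iff]
  intro x y
  rw [← inner_conj_symm]
  change (starRingEnd ℂ) ⟪y, pull _ (cons_inj a) x⟫_ℂ = _
  rw [← inner_push, inner_conj_symm]
  rfl

theorem star_R (a : α) : star (R a : L2 (List α) F →L[ℂ] L2 (List α) F) = R' a := by
  rw [ContinuousLinearMap.star_eq_adjoint]
  symm
  rw [ContinuousLinearMap.eq_adjoint_iff]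
  intro x y
  rw [← inner_conj_symm]
  change (starRingEnd ℂ) ⟪y, pull _ (snoc_inj a) x⟫_ℂ = _
  rw [← inner_push, inner_conj_symm]
  rfl

theorem star_L' (a : α) : star (L' a : L2 (List α) F →L[ℂ] L2 (List α) F) = L a := by
  rw [← star_L, star_star]

theorem star_R' (a : α) : star (R' a : L2 (List α) F →L[ℂ] L2 (List α) F) = R a := by
  rw [← star_R, star_star]

end star

theorem L'_mul_L_self (a : α) : (L' a * L a : L2 (List α) F →L[ℂ] L2 (List α) F) = 1 := by
  ext f : 1
  exact pull_push _ (cons_inj a) f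

theorem L'_mul_L_ne {a b : α} (h : a ≠ b) :
    (L' a * L b : L2 (List α) F →L[ℂ] L2 (List α) F) = 0 := by
  ext f : 1
  refine lp.ext ?_
  funext v
  exact L_cons_ne (Ne.symm h) f v

theorem R'_mul_R_self (a : α) : (R' a * R a : L2 (List α) F →L[ℂ] L2 (List α) F) = 1 := by
  ext f : 1
  exact pull_push _ (snoc_inj a) f

theorem R'_mul_R_ne {a b : α} (h : a ≠ b) :
    (R' a * R b : L2 (List α) F →L[ℂ] L2 (List α) F) = 0 := by
  ext f : 1
  refine lp.ext ?_
  funext v
  exact R_snoc_ne (Ne.symm h) f v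

/-- the vacuum projection -/
def P : L2 (List α) F →L[ℂ] L2 (List α) F :=
  (push (fun _ : Unit => ([] : List α)) (fun _ _ _ => rfl)).toContinuousLinearMap.comp
    (pull (fun _ : Unit => ([] : List α)) (fun _ _ _ => rfl))

@[simp] theorem P_nil (f : L2 (List α) F) : P f [] = f [] :=
  push_apply (fun _ : Unit => ([] : List α)) (fun _ _ _ => rfl) _ ()

theorem P_of_ne (f : L2 (List α) F) {v : List α} (h : v ≠ []) : P f v = 0 :=
  push_apply_not (fun _ : Unit => ([] : List α)) (fun _ _ _ => rfl) _ (by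
    rintro ⟨_, hk⟩
    exact h hk.symm)

@[simp] theorem P_cons (f : L2 (List α) F) (a : α) (v : List α) : P f (a :: v) = 0 :=
  P_of_ne f (by simp)

theorem L_mul_R (a b : α) : (L a * R b : L2 (List α) F →L[ℂ] L2 (List α) F) = R b * L a := by
  classical
  ext f : 1
  refine lp.ext ?_
  funext v
  change L a (R b f) v = R b (L a f) v
  rcases List.eq_nil_or_concat v with rfl | ⟨w, c, rfl⟩
  · rw [L_nil, R_nil]
  · rw [List.concat_eq_append, R_snoc_ite]
    cases w with
    | nil =>
      rw [List.nil_append, L_nil]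
      rw [L_cons_ite, R_nil]
      simp
    | cons d w =>
      rw [List.cons_append, L_cons_ite, L_cons_ite, R_snoc_ite]
      split_ifs <;> rfl

theorem L'_mul_R' (a b : α) : (L' a * R' b : L2 (List α) F →L[ℂ] L2 (List α) F) = R' b * L' a := by
  ext f : 1
  refine lp.ext ?_
  funext v
  rfl

theorem L'_mul_R [DecidableEq α] (a b : α) :
    (L' a * R b : L2 (List α) F →L[ℂ] L2 (List α) F) = R b * L' a + if a = b then P else 0 := by
  ext f : 1
  refine lp.ext ?_
  funext v
  have h0 : ((R b * L' a + if a = b then P else 0 : L2 (List α) F →L[ℂ] L2 (List α) F) f) v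
      = R b (L' a f) v + (if a = b then P f v else 0) := by
    split_ifs
    · rfl
    · simp
  rw [h0]
  change R b f (a :: v) = R b (L' a f) v + (if a = b then P f v else 0)
  rcases List.eq_nil_or_concat v with rfl | ⟨w, c, rfl⟩
  · rw [R_nil, P_nil]
    have := R_snoc_ite b a f []
    rw [List.nil_append] at this
    rw [this]
    simp [eq_comm]
  · rw [List.concat_eq_append, R_snoc_ite, P_of_ne f (by simp), L'_apply]
    have := R_snoc_ite b c f (a :: w)
    rw [List.cons_append] at this
    rw [this]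
    simp

theorem R'_mul_L [DecidableEq α] (a b : α) :
    (R' a * L b : L2 (List α) F →L[ℂ] L2 (List α) F) = L b * R' a + if a = b then P else 0 := by
  ext f : 1
  refine lp.ext ?_
  funext v
  have h0 : ((L b * R' a + if a = b then P else 0 : L2 (List α) F →L[ℂ] L2 (List α) F) f) v
      = L b (R' a f) v + (if a = b then P f v else 0) := by
    split_ifs
    · rfl
    · simp
  rw [h0]
  change L b f (v ++ [a]) = L b (R' a f) v + (if a = b then P f v else 0)
  cases v with
  | nil =>
    rw [L_nil, P_nil, List.nil_append, L_cons_ite]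
    simp [eq_comm]
  | cons c w =>
    rw [List.cons_append, L_cons_ite, L_cons_ite, P_cons, R'_apply]
    simp

/-- `s_a = l_a + l_a*` and `d_b = r_b + r_b*` commute -/
theorem s_comm_d (a b : α) :
    ((L a + L' a) * (R b + R' b) : L2 (List α) F →L[ℂ] L2 (List α) F)
      = (R b + R' b) * (L a + L' a) := by
  classical
  rw [add_mul, mul_add, mul_add, add_mul, mul_add, mul_add, L'_mul_R, R'_mul_L, L_mul_R,
    L'_mul_R']
  by_cases h : a = b
  · subst h
    simp only [if_true]
    abel
  · rw [if_neg h, if_neg (Ne.symm h)]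
    abel

section finite

variable [Fintype α]

theorem consPair_inj : Function.Injective (fun q : α × List α => q.1 :: q.2) := by
  rintro ⟨a, v⟩ ⟨b, w⟩ h
  simpa using h

theorem sum_norm_L'_sq_le (f : L2 (List α) F) : ∑ a : α, ‖L' a f‖ ^ 2 ≤ ‖f‖ ^ 2 := by
  have h1 : Summable (fun v : List α => ‖f v‖ ^ 2) := (hasSum_norm_sq f).summable
  have h5 : Summable (fun q : α × List α => ‖f (q.1 :: q.2)‖ ^ 2) := h1.comp_injective consPair_inj
  have h6 : ∑' q : α × List α, ‖f (q.1 :: q.2)‖ ^ 2 ≤ ∑' v : List α, ‖f v‖ ^ 2 :=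
    tsum_comp_le_tsum_of_inj h1 (fun _ => by positivity) consPair_inj
  have h7 : ∑' q : α × List α, ‖f (q.1 :: q.2)‖ ^ 2 = ∑ a : α, ‖L' a f‖ ^ 2 := by
    rw [h5.tsum_prod, tsum_fintype]
    refine Finset.sum_congr rfl fun a _ => ?_
    rw [norm_sq_eq (L' a f)]
    rfl
  rw [← h7, norm_sq_eq f]
  exact h6

end finite

theorem inner_L_of_ne {a b : α} (h : a ≠ b) (f g : L2 (List α) F) : ⟪L a f, L b g⟫_ℂ = 0 := by
  change ⟪push _ (cons_inj a) f, _⟫_ℂ = 0
  rw [inner_push]
  have h1 : pull _ (cons_inj a) (L b g) = (L' a * L b : L2 (List α) F →L[ℂ] L2 (List α) F) g := rfl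
  rw [h1, L'_mul_L_ne h]
  simp

theorem inner_R_of_ne {a b : α} (h : a ≠ b) (f g : L2 (List α) F) : ⟪R a f, R b g⟫_ℂ = 0 := by
  change ⟪push _ (snoc_inj a) f, _⟫_ℂ = 0
  rw [inner_push]
  have h1 : pull _ (snoc_inj a) (R b g) = (R' a * R b : L2 (List α) F →L[ℂ] L2 (List α) F) g := rfl
  rw [h1, R'_mul_R_ne h]
  simp

theorem diag_push {ι κ : Type} (φ : κ → ι) (hφ : Function.Injective φ) (T : F →L[ℂ] F)
    (f : L2 κ F) : diag T (push φ hφ f) = push φ hφ (diag T f) := by
  refine lp.ext ?_
  funext i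
  rw [diag_apply]
  by_cases h : ∃ k, φ k = i
  · obtain ⟨k, rfl⟩ := h
    rw [push_apply, push_apply, diag_apply]
  · rw [push_apply_not _ hφ _ h, push_apply_not _ hφ _ h, map_zero]

theorem diag_mul_L (T : F →L[ℂ] F) (a : α) :
    (diag T * L a : L2 (List α) F →L[ℂ] L2 (List α) F) = L a * diag T := by
  ext f : 1
  exact diag_push _ (cons_inj a) _ _

theorem diag_mul_R (T : F →L[ℂ] F) (a : α) :
    (diag T * R a : L2 (List α) F →L[ℂ] L2 (List α) F) = R a * diag T := by
  ext f : 1
  exact diag_push _ (snoc_inj a) _ _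

theorem diag_mul_L' (T : F →L[ℂ] F) (a : α) :
    (diag T * L' a : L2 (List α) F →L[ℂ] L2 (List α) F) = L' a * diag T := rfl

theorem diag_mul_R' (T : F →L[ℂ] F) (a : α) :
    (diag T * R' a : L2 (List α) F →L[ℂ] L2 (List α) F) = R' a * diag T := rfl

end creation

end Crest.Agent.R078.Fock
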