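import Crest.Agent.R078.ModelDefs

set_option autoImplicit false
set_option linter.unusedSectionVars false

/-!
# R78, S0105-F5(a),(d): the bound `‖Σ z_i ⊗ R_i‖ ≤ 2 √n` for free unitaries
-/

noncomputable section

namespace Crest.Agent.R078.FreeBound

open scoped ENNReal InnerProductSpace TensorProduct
open Crest.Agent.R078.Basic Crest.Agent.R078.Ops Crest.Agent.R078.NearRep Crest.Agent.R078.Model

section abstract_bound

variable {H : Type} [NormedAddCommGroup H] [InnerProductSpace ℂ H] {n : ℕ}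

theorem norm_sum_sq_of_orth (v : Fin n → H) (h : ∀ i j, i ≠ j → ⟪v i, v j⟫_ℂ = 0) :
    ‖∑ i, v i‖ ^ 2 = ∑ i, ‖v i‖ ^ 2 := by
  have h1 : (⟪∑ i, v i, ∑ i, v i⟫_ℂ : ℂ) = ∑ i, ⟪v i, v i⟫_ℂ := by
    rw [sum_inner]
    refine Finset.sum_congr rfl fun i _ => ?_
    rw [inner_sum]
    exact Finset.sum_eq_single i (fun j _ hj => h i j hj.symm) (by simp)
  simp only [inner_self_eq_norm_sq_to_K] at h1
  exact_mod_cast h1

theorem norm_sq_eq_re (x : H) : ‖x‖ ^ 2 = (⟪x, x⟫_ℂ).re := by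
  rw [inner_self_eq_norm_sq_to_K]
  norm_cast

/-- a symmetric idempotent is norm decreasing -/
theorem norm_proj_le (P : H →ₗ[ℂ] H) (hs : ∀ x y, ⟪P x, y⟫_ℂ = ⟪x, P y⟫_ℂ)
    (hi : ∀ x, P (P x) = P x) (x : H) : ‖P x‖ ≤ ‖x‖ := by
  have h1 : ‖P x‖ ^ 2 ≤ ‖x‖ * ‖P x‖ := by
    rw [norm_sq_eq_re, hs, hi]
    exact (Complex.re_le_norm _).trans (norm_inner_le_norm _ _)
  by_cases h : ‖P x‖ = 0
  · rw [h]
    exact norm_nonneg _
  · have h2 : 0 < ‖P x‖ := lt_of_le_of_ne (norm_nonneg _) (Ne.symm h)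
    nlinarith

theorem sum_norm_proj_sq_le (P : Fin n → (H →ₗ[ℂ] H))
    (hs : ∀ i x y, ⟪P i x, y⟫_ℂ = ⟪x, P i y⟫_ℂ)
    (hi : ∀ i x, P i (P i x) = P i x) (ho : ∀ i j, i ≠ j → ∀ x, P i (P j x) = 0) (x : H) :
    ∑ i, ‖P i x‖ ^ 2 ≤ ‖x‖ ^ 2 := by
  set S : H := ∑ i, P i x with hS
  have h1 : ‖S‖ ^ 2 = ∑ i, ‖P i x‖ ^ 2 := by
    apply norm_sum_sq_of_orth
    intro i j hij
    rw [hs, ho i j hij, inner_zero_right]
  have h2 : ∑ i, ‖P i x‖ ^ 2 = (⟪x, S⟫_ℂ).re := by
    rw [hS, inner_sum, Complex.re_sum]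
    refine Finset.sum_congr rfl fun i _ => ?_
    rw [norm_sq_eq_re, hs, hi]
  have h3 : (⟪x, S⟫_ℂ).re ≤ ‖x‖ * ‖S‖ := (Complex.re_le_norm _).trans (norm_inner_le_norm _ _)
  rw [← h2, ← h1] at h3
  rw [← h1]
  by_cases h : ‖S‖ = 0
  · rw [h, zero_pow two_ne_zero]
    positivity
  · have h2 : 0 < ‖S‖ := lt_of_le_of_ne (norm_nonneg _) (Ne.symm h)
    have h4 : ‖S‖ ≤ ‖x‖ := by nlinarith
    exact pow_le_pow_left₀ (norm_nonneg _) h4 2

theorem norm_sum_proj_sq_le (Q : Fin n → (H →ₗ[ℂ] H))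
    (hs : ∀ i x y, ⟪Q i x, y⟫_ℂ = ⟪x, Q i y⟫_ℂ)
    (hi : ∀ i x, Q i (Q i x) = Q i x) (ho : ∀ i j, i ≠ j → ∀ x, Q i (Q j x) = 0)
    (v : Fin n → H) : ‖∑ i, Q i (v i)‖ ^ 2 ≤ ∑ i, ‖v i‖ ^ 2 := by
  rw [norm_sum_sq_of_orth]
  · refine Finset.sum_le_sum fun i _ => ?_
    exact pow_le_pow_left₀ (norm_nonneg _) (norm_proj_le _ (hs i) (hi i) _) 2
  · intro i j hij
    rw [hs, ho i j hij, inner_zero_right]

/-- the Haagerup-type bound -/
theorem free_bound (P Q Z : Fin n → (H →ₗ[ℂ] H))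
    (hPs : ∀ i x y, ⟪P i x, y⟫_ℂ = ⟪x, P i y⟫_ℂ)
    (hPi : ∀ i x, P i (P i x) = P i x) (hPo : ∀ i j, i ≠ j → ∀ x, P i (P j x) = 0)
    (hQs : ∀ i x y, ⟪Q i x, y⟫_ℂ = ⟪x, Q i y⟫_ℂ)
    (hQi : ∀ i x, Q i (Q i x) = Q i x) (hQo : ∀ i j, i ≠ j → ∀ x, Q i (Q j x) = 0)
    (hZ : ∀ i x, ‖Z i x‖ = ‖x‖) (hZPQ : ∀ i x, Z i x = Q i (Z i x) + Z i (P i x)) (ξ : H) :
    ‖∑ i, Z i ξ‖ ≤ 2 * Real.sqrt n * ‖ξ‖ := by
  have h1 : ∑ i, Z i ξ = ∑ i, Q i (Z i ξ) + ∑ i, Z i (P i ξ) := by
    rw [← Finset.sum_add_distrib]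
    exact Finset.sum_congr rfl fun i _ => hZPQ i ξ
  have h2 : ‖∑ i, Q i (Z i ξ)‖ ≤ Real.sqrt n * ‖ξ‖ := by
    have h3 := norm_sum_proj_sq_le Q hQs hQi hQo (fun i => Z i ξ)
    simp only [hZ, Finset.sum_const, Finset.card_univ, Fintype.card_fin, nsmul_eq_mul] at h3
    have h4 : ‖∑ i, Q i (Z i ξ)‖ ^ 2 ≤ (Real.sqrt n * ‖ξ‖) ^ 2 := by
      rw [mul_pow, Real.sq_sqrt (Nat.cast_nonneg n)]
      exact h3
    exact le_of_sq_le_sq h4 (by positivity)
  have h5 : ‖∑ i, Z i (P i ξ)‖ ≤ Real.sqrt n * ‖ξ‖ := by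
    have h6 : ‖∑ i, Z i (P i ξ)‖ ≤ ∑ i, ‖P i ξ‖ := by
      refine (norm_sum_le _ _).trans (le_of_eq ?_)
      exact Finset.sum_congr rfl fun i _ => hZ i _
    have h7 : (∑ i, ‖P i ξ‖) ^ 2 ≤ n * ∑ i, ‖P i ξ‖ ^ 2 := by
      have := sq_sum_le_card_mul_sum_sq (s := (Finset.univ : Finset (Fin n)))
        (f := fun i => ‖P i ξ‖)
      simpa using this
    have h8 := sum_norm_proj_sq_le P hPs hPi hPo ξ
    have h9 : (∑ i, ‖P i ξ‖) ^ 2 ≤ (Real.sqrt n * ‖ξ‖) ^ 2 := by
      rw [mul_pow, Real.sq_sqrt (Nat.cast_nonneg n)]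
      refine h7.trans ?_
      gcongr
    exact h6.trans (le_of_sq_le_sq h9 (by positivity))
  rw [h1]
  refine (norm_add_le _ _).trans ?_
  linarith

end abstract_bound

section cut

variable {ι : Type} {F : Type} [NormedAddCommGroup F] [InnerProductSpace ℂ F]

theorem summable_cut (χ : ι → Bool) (f : L2 ι F) :
    Summable fun i => ‖(if χ i then f i else 0 : F)‖ ^ 2 := by
  refine Summable.of_nonneg_of_le (fun i => by positivity) (fun i => ?_)
    (hasSum_norm_sq f).summable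
  split_ifs
  · exact le_rfl
  · rw [norm_zero, zero_pow two_ne_zero]
    positivity

/-- multiplication by an indicator function -/
def cut (χ : ι → Bool) : L2 ι F →ₗ[ℂ] L2 ι F where
  toFun f := ⟨fun i => if χ i then f i else 0, memℓp_two_of_summable (summable_cut χ f)⟩
  map_add' f g := by
    refine lp.ext (funext fun i => ?_)
    change (if χ i then (f i + g i) else 0) = (if χ i then f i else 0) + (if χ i then g i else 0)
    split_ifs
    · rfl
    · rw [add_zero]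
  map_smul' c f := by
    refine lp.ext (funext fun i => ?_)
    change (if χ i then (c • f i) else 0) = c • (if χ i then f i else 0)
    split_ifs
    · rfl
    · rw [smul_zero]

@[simp] theorem cut_apply (χ : ι → Bool) (f : L2 ι F) (i : ι) :
    cut χ f i = if χ i then f i else 0 := rfl

theorem cut_symm (χ : ι → Bool) (f g : L2 ι F) : ⟪cut χ f, g⟫_ℂ = ⟪f, cut χ g⟫_ℂ := by
  rw [lp.inner_eq_tsum, lp.inner_eq_tsum]
  refine tsum_congr fun i => ?_
  rw [cut_apply, cut_apply]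
  split_ifs
  · rfl
  · rw [inner_zero_left, inner_zero_right]

theorem cut_cut (χ : ι → Bool) (f : L2 ι F) : cut χ (cut χ f) = cut χ f := by
  refine lp.ext (funext fun i => ?_)
  rw [cut_apply, cut_apply]
  split_ifs <;> rfl

theorem cut_cut_of_disj (χ χ' : ι → Bool) (h : ∀ i, χ i = true → χ' i = true → False)
    (f : L2 ι F) : cut χ (cut χ' f) = 0 := by
  refine lp.ext (funext fun i => ?_)
  rw [cut_apply, cut_apply]
  by_cases h1 : χ i = true
  · have h2 : ¬ (χ' i = true) := fun h2 => h i h1 h2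
    simp [h2]
  · simp [h1]

end cut

section words

variable {n : ℕ}

theorem head_of_mul (i : Fin n) (h : FreeGroup (Fin n)) :
    (FreeGroup.of i * h).toWord.head? = some (i, true) ↔ h.toWord.head? ≠ some (i, false) := by
  have h1 : (FreeGroup.of i * h).toWord = FreeGroup.reduce ((i, true) :: h.toWord) := by
    have : FreeGroup.of i * h = FreeGroup.mk ((i, true) :: h.toWord) := by
      conv_lhs => rw [← FreeGroup.mk_toWord (x := h)]
      rfl
    rw [this, FreeGroup.toWord_mk]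
  have h2 : FreeGroup.reduce h.toWord = h.toWord := FreeGroup.isReduced_toWord.reduce_eq
  have hred := FreeGroup.isReduced_toWord (x := h)
  rw [h1, FreeGroup.reduce.cons, h2]
  cases hw : h.toWord with
  | nil => simp
  | cons hd tl =>
    rw [hw] at hred
    by_cases hc : i = hd.1 ∧ true = !hd.2
    · have hhd : hd = (i, false) := by
        ext
        · rw [hc.1]
        · have := hc.2
          cases h3 : hd.2
          · rfl
          · rw [h3] at this
            simp at this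
      subst hhd
      simp only [Bool.not_false, and_self, ↓reduceIte, List.head?_cons, ne_eq, not_true_eq_false,
        iff_false]
      intro h3
      rw [FreeGroup.IsReduced, List.isChain_cons] at hred
      have := hred.1 (i, true) h3 rfl
      simp at this
    · simp only [hc, ↓reduceIte, List.head?_cons, true_iff]
      intro h3
      rw [Option.some.injEq] at h3
      apply hc
      rw [h3]
      simp

/-- the indicator of the words starting with `(i, b)` -/
def chi (b : Bool) (i : Fin n) (h : FreeGroup (Fin n)) : Bool :=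
  decide (h.toWord.head? = some (i, b))

theorem chi_disj (b : Bool) {i j : Fin n} (hij : i ≠ j) (h : FreeGroup (Fin n))
    (h1 : chi b i h = true) (h2 : chi b j h = true) : False := by
  rw [chi, decide_eq_true_eq] at h1 h2
  rw [h1] at h2
  simp only [Option.some.injEq, Prod.mk.injEq] at h2
  exact hij h2.1

theorem chi_mul (i : Fin n) (h : FreeGroup (Fin n)) :
    chi true i (FreeGroup.of i * h) = !(chi false i h) := by
  have := head_of_mul i h
  unfold chi
  by_cases h1 : h.toWord.head? = some (i, false)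
  · have h2 : ¬ ((FreeGroup.of i * h).toWord.head? = some (i, true)) := by
      rw [this]
      simp [h1]
    rw [decide_eq_false h2, decide_eq_true h1]
    rfl
  · have h2 : ((FreeGroup.of i * h).toWord.head? = some (i, true)) := by
      rw [this]
      exact h1
    rw [decide_eq_false h1, decide_eq_true h2]
    rfl

theorem U_split (σ : FreeGroup (Fin n) →* (K (FreeGroup (Fin n)) ≃ₗᵢ[ℂ] K (FreeGroup (Fin n))))
    (i : Fin n) (f : E (FreeGroup (Fin n))) :
    U σ (FreeGroup.of i) f = cut (chi true i) (U σ (FreeGroup.of i) f) +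
      U σ (FreeGroup.of i) (cut (chi false i) f) := by
  refine lp.ext (funext fun h => ?_)
  rw [lp.coeFn_add, Pi.add_apply, cut_apply, U_apply, U_apply, cut_apply]
  have h1 := chi_mul i ((FreeGroup.of i)⁻¹ * h)
  rw [mul_inv_cancel_left] at h1
  rw [h1]
  by_cases h2 : chi false i ((FreeGroup.of i)⁻¹ * h) = true
  · simp [h2]
  · simp [h2]

end words

section tensor

variable {H1 H2 : Type} [NormedAddCommGroup H1] [InnerProductSpace ℂ H1]
  [NormedAddCommGroup H2] [InnerProductSpace ℂ H2]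

/-- `P ⊗ 1` -/
def tl (P : H1 →ₗ[ℂ] H1) : H1 ⊗[ℂ] H2 →ₗ[ℂ] H1 ⊗[ℂ] H2 := TensorProduct.map P LinearMap.id

theorem tl_symm (P : H1 →ₗ[ℂ] H1) (hs : ∀ x y, ⟪P x, y⟫_ℂ = ⟪x, P y⟫_ℂ) (x y : H1 ⊗[ℂ] H2) :
    ⟪tl P x, y⟫_ℂ = ⟪x, tl P y⟫_ℂ := by
  induction x using TensorProduct.induction_on with
  | zero => simp
  | add x x' hx hx' => rw [map_add, inner_add_left, inner_add_left, hx, hx']
  | tmul a b =>
    induction y using TensorProduct.induction_on with
    | zero => simp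
    | add y y' hy hy' => rw [map_add, inner_add_right, inner_add_right, hy, hy']
    | tmul c d =>
      simp only [tl, TensorProduct.map_tmul, LinearMap.id_apply, TensorProduct.inner_tmul]
      rw [hs]

theorem tl_comp (P Q : H1 →ₗ[ℂ] H1) (x : H1 ⊗[ℂ] H2) :
    tl P (tl Q x) = tl (P ∘ₗ Q) x := by
  induction x using TensorProduct.induction_on with
  | zero => simp
  | add x x' hx hx' => rw [map_add, map_add, map_add, hx, hx']
  | tmul a b => rfl

theorem tl_idem (P : H1 →ₗ[ℂ] H1) (hi : ∀ x, P (P x) = P x) (x : H1 ⊗[ℂ] H2) :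
    tl P (tl P x) = tl P x := by
  rw [tl_comp]
  congr 2
  exact LinearMap.ext hi

theorem tl_orth (P Q : H1 →ₗ[ℂ] H1) (ho : ∀ x, P (Q x) = 0) (x : H1 ⊗[ℂ] H2) :
    tl P (tl Q x) = 0 := by
  rw [tl_comp]
  have : P ∘ₗ Q = 0 := LinearMap.ext ho
  rw [this, tl, TensorProduct.map_zero_left, LinearMap.zero_apply]

end tensor

/-- **free bound**: `‖Σ z_i ⊗ R_i‖ ≤ 2 √n` on the algebraic tensor product. -/
theorem norm_sum_map_le {n : ℕ} {H2 : Type} [NormedAddCommGroup H2] [InnerProductSpace ℂ H2]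
    (σ : FreeGroup (Fin n) →* (K (FreeGroup (Fin n)) ≃ₗᵢ[ℂ] K (FreeGroup (Fin n))))
    (Ri : Fin n → (H2 ≃ₗᵢ[ℂ] H2))
    (ξ : E (FreeGroup (Fin n)) ⊗[ℂ] H2) :
    ‖∑ i, TensorProduct.map
        (U σ (FreeGroup.of i)).toLinearIsometry.toLinearMap
        (Ri i).toLinearIsometry.toLinearMap ξ‖ ≤ 2 * Real.sqrt n * ‖ξ‖ := by
  refine free_bound (fun i => tl (cut (chi false i))) (fun i => tl (cut (chi true i)))
    (fun i => TensorProduct.map
        (U σ (FreeGroup.of i)).toLinearIsometry.toLinearMap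
        (Ri i).toLinearIsometry.toLinearMap) ?_ ?_ ?_ ?_ ?_ ?_ ?_ ?_ ξ
  · intro i x y
    exact tl_symm _ (cut_symm _) x y
  · intro i x
    exact tl_idem _ (cut_cut _) x
  · intro i j hij x
    exact tl_orth _ _ (cut_cut_of_disj _ _ (fun h => chi_disj false hij h)) x
  · intro i x y
    exact tl_symm _ (cut_symm _) x y
  · intro i x
    exact tl_idem _ (cut_cut _) x
  · intro i j hij x
    exact tl_orth _ _ (cut_cut_of_disj _ _ (fun h => chi_disj true hij h)) x
  · intro i x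
    exact TensorProduct.norm_map _ _ x
  · intro i x
    induction x using TensorProduct.induction_on with
    | zero => simp
    | add x x' hx hx' =>
      simp only [map_add]
      conv_lhs => rw [hx, hx']
      abel
    | tmul a b =>
      simp only [tl, TensorProduct.map_tmul, LinearMap.id_apply]
      rw [← TensorProduct.add_tmul]
      congr 1
      exact U_split σ i a

end Crest.Agent.R078.FreeBound
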