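import Mathlib

set_option autoImplicit false

/-!
# R78, S0105-F1: class functions in `ℓ²` of a free group of rank at least two vanish off `1`
-/

namespace Crest.Agent.R078.ICC

open FreeGroup

theorem exists_letter {n : ℕ} (hn : 2 ≤ n) (p q : Fin n × Bool) :
    ∃ a : Fin n × Bool, (a.1 = p.1 → a.2 = p.2) ∧ (q.1 = a.1 → q.2 = !a.2) := by
  classical
  have hcard : Fintype.card (Fin n × Bool) = n * 2 := by simp
  obtain ⟨a, ha⟩ : ∃ a : Fin n × Bool, a ∉ ({(p.1, !p.2), q} : Finset (Fin n × Bool)) := by
    by_contra hcon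
    push Not at hcon
    have h1 : (Finset.univ : Finset (Fin n × Bool)).card ≤
        ({(p.1, !p.2), q} : Finset (Fin n × Bool)).card :=
      Finset.card_le_card (fun a _ => hcon a)
    have h2 : ({(p.1, !p.2), q} : Finset (Fin n × Bool)).card ≤ 2 := Finset.card_le_two
    rw [Finset.card_univ, hcard] at h1
    omega
  refine ⟨a, ?_, ?_⟩
  · intro h
    by_contra h2
    apply ha
    have : a = (p.1, !p.2) := by
      ext
      · rw [h]
      · cases h3 : a.2 <;> cases h4 : p.2 <;> simp_all
    simp [this]
  · intro h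
    by_contra h2
    apply ha
    have : a = q := by
      ext
      · rw [h]
      · cases h3 : a.2 <;> cases h4 : q.2 <;> simp_all
    simp [this]

/-- the word `a^k w a^{-k}` is reduced for a good letter `a`. -/
theorem isReduced_conj {α : Type} {w : List (α × Bool)} (hw : IsReduced w) (hne : w ≠ [])
    (a : α × Bool) (h1 : a.1 = (w.head hne).1 → a.2 = (w.head hne).2)
    (h2 : (w.getLast hne).1 = a.1 → (w.getLast hne).2 = !a.2) (k : ℕ) :
    IsReduced (List.replicate k a ++ w ++ List.replicate k (a.1, !a.2)) := by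
  have hl : IsReduced (List.replicate k a ++ w) := by
    induction k with
    | zero => simpa using hw
    | succ k ih =>
      rw [List.replicate_succ, List.cons_append]
      rw [FreeGroup.IsReduced, List.isChain_cons]
      refine ⟨?_, ih⟩
      intro b hb
      cases k with
      | zero =>
        simp only [List.replicate_zero, List.nil_append] at hb
        rw [List.head?_eq_some_head hne] at hb
        simp only [Option.mem_def, Option.some.injEq] at hb
        subst hb
        exact h1
      | succ k =>
        rw [List.replicate_succ, List.cons_append] at hb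
        simp only [List.head?_cons, Option.mem_def, Option.some.injEq] at hb
        subst hb
        intro _
        rfl
  rw [FreeGroup.IsReduced, List.isChain_append]
  refine ⟨hl, ?_, ?_⟩
  · exact List.isChain_replicate_of_rel _ (fun _ => rfl)
  · intro x hx y hy
    have hx' : x = w.getLast hne := by
      rw [List.getLast?_append_of_ne_nil _ hne, List.getLast?_eq_some_getLast hne] at hx
      simpa using hx.symm
    have hy' : y = (a.1, !a.2) := by
      have := List.mem_of_mem_head? hy
      exact List.eq_of_mem_replicate this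
    subst hx' hy'
    exact h2

theorem mk_replicate {α : Type} (a : α × Bool) (k : ℕ) :
    FreeGroup.mk (List.replicate k a) = (FreeGroup.mk [a]) ^ k := by
  induction k with
  | zero => rfl
  | succ k ih =>
    rw [pow_succ', ← ih, FreeGroup.mul_mk, List.replicate_succ]
    rfl

/-- For `x ≠ 1` in a free group of rank at least two there are infinitely many conjugates of the
form `g⁻¹ x g`. -/
theorem exists_conj_seq {n : ℕ} (hn : 2 ≤ n) (x : FreeGroup (Fin n)) (hx : x ≠ 1) :
    ∃ g : ℕ → FreeGroup (Fin n), Function.Injective (fun k => (g k)⁻¹ * x * g k) := by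
  have hne : x.toWord ≠ [] := by
    intro h
    exact hx (FreeGroup.toWord_eq_nil_iff.mp h)
  obtain ⟨a, ha1, ha2⟩ := exists_letter hn (x.toWord.head hne) (x.toWord.getLast hne)
  refine ⟨fun k => ((FreeGroup.mk [a]) ^ k)⁻¹, ?_⟩
  have key : ∀ k : ℕ, (((FreeGroup.mk [a]) ^ k)⁻¹)⁻¹ * x * ((FreeGroup.mk [a]) ^ k)⁻¹ =
      FreeGroup.mk (List.replicate k a ++ x.toWord ++ List.replicate k (a.1, !a.2)) := by
    intro k
    have h1 : ((FreeGroup.mk [a]) ^ k)⁻¹ = FreeGroup.mk (List.replicate k (a.1, !a.2)) := by
      rw [mk_replicate, ← inv_pow]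
      rfl
    rw [inv_inv, h1, ← mk_replicate]
    conv_lhs => rw [← FreeGroup.mk_toWord (x := x)]
    rw [FreeGroup.mul_mk, FreeGroup.mul_mk]
  have hlen : ∀ k : ℕ, (FreeGroup.toWord ((((FreeGroup.mk [a]) ^ k)⁻¹)⁻¹ * x *
      ((FreeGroup.mk [a]) ^ k)⁻¹)).length = x.toWord.length + 2 * k := by
    intro k
    rw [key, FreeGroup.toWord_mk,
      (isReduced_conj FreeGroup.isReduced_toWord hne a ha1 ha2 k).reduce_eq]
    simp
    ring
  intro k l hkl
  have h1 := hlen k
  have h2 := hlen l
  simp only at hkl
  rw [hkl, h2] at h1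
  omega

/-- A square summable function which is constant along the values of an injective sequence
vanishes there. -/
theorem l2_eq_zero_of_const {ι : Type} (phi : lp (fun _ : ι => ℂ) 2) (s : ℕ → ι)
    (hs : Function.Injective s) (c : ℂ) (hc : ∀ k, phi (s k) = c) : c = 0 := by
  have h1 : Summable fun i => ‖phi i‖ ^ (2 : ENNReal).toReal :=
    (lp.memℓp phi).summable (by norm_num)
  have h2 : Summable fun k : ℕ => ‖phi (s k)‖ ^ (2 : ENNReal).toReal := h1.comp_injective hs
  have h3 := h2.tendsto_atTop_zero
  simp only [hc] at h3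
  have h4 := tendsto_nhds_unique h3 tendsto_const_nhds
  have h5 : (0 : ℝ) < (2 : ENNReal).toReal := by norm_num
  by_contra hne
  have : 0 < ‖c‖ ^ (2 : ENNReal).toReal := Real.rpow_pos_of_pos (norm_pos_iff.mpr hne) _
  linarith

/-- **F1**: class functions in `ℓ²` of a free group of rank at least two vanish off `1`. -/
theorem l2_class_fun {n : ℕ} (hn : 2 ≤ n) (phi : lp (fun _ : FreeGroup (Fin n) => ℂ) 2)
    (h : ∀ g x : FreeGroup (Fin n), phi (g⁻¹ * x * g) = phi x) (x : FreeGroup (Fin n))
    (hx : x ≠ 1) : phi x = 0 := by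
  obtain ⟨g, hg⟩ := exists_conj_seq hn x hx
  exact l2_eq_zero_of_const phi _ hg (phi x) (fun k => h (g k) x)

end Crest.Agent.R078.ICC
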