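import Crest.Agent.R078.ModelDefs
import Crest.Agent.R078.ICC

set_option autoImplicit false
set_option linter.unusedSectionVars false

/-!
# R78, S0105-F3: properties of the model
-/

noncomputable section

namespace Crest.Agent.R078.Model

open scoped ENNReal InnerProductSpace
open Crest.Agent.R078.Basic Crest.Agent.R078.Ops Crest.Agent.R078.NearRep

section general

variable {G : Type} [Group G] [DecidableEq G] (π : G →* (K G ≃ₗᵢ[ℂ] K G))

theorem isClosed_CE : IsClosed (CE π : Set (E G →L[ℂ] E G)) :=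
  StarSubalgebra.isClosed_topologicalClosure _

theorem isClosed_A0 : IsClosed (A0 G : Set (E G →L[ℂ] E G)) :=
  StarSubalgebra.isClosed_topologicalClosure _

theorem countable_gens [Countable G] : (gens π).Countable :=
  ((Set.countable_range _).union (Set.countable_range _)).union (Set.countable_range _)

theorem isSeparable_CE [Countable G] :
    TopologicalSpace.IsSeparable (CE π : Set (E G →L[ℂ] E G)) :=
  isSeparable_adjoin_closure _ (countable_gens π)

theorem A0_le_CE : A0 G ≤ CE π := by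
  apply StarSubalgebra.topologicalClosure_mono
  apply StarAlgebra.adjoin_mono
  intro x hx
  exact Or.inl (Or.inl hx)

theorem gens_subset_CE : gens π ⊆ (CE π : Set (E G →L[ℂ] E G)) := fun _ hx =>
  StarSubalgebra.le_topologicalClosure _ (StarAlgebra.subset_adjoin ℂ _ hx)

theorem U_lam_mem_A0 (g : G) : op (U lam g) ∈ A0 G :=
  StarSubalgebra.le_topologicalClosure _ (StarAlgebra.subset_adjoin ℂ _ ⟨g, rfl⟩)

theorem U_lam_mem_CE (g : G) : op (U lam g) ∈ CE π :=
  gens_subset_CE π (Or.inl (Or.inl ⟨g, rfl⟩))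

theorem U_pi_mem_CE (g : G) : op (U π g) ∈ CE π :=
  gens_subset_CE π (Or.inl (Or.inr ⟨g, rfl⟩))

theorem diag_mu_mem_CE (k l : G) : diag (mu k l) ∈ CE π :=
  gens_subset_CE π (Or.inr ⟨(k, l), rfl⟩)

theorem star_gens : ∀ x ∈ gens π, star x ∈ gens π := by
  rintro x ((⟨g, rfl⟩ | ⟨g, rfl⟩) | ⟨⟨k, l⟩, rfl⟩)
  · refine Or.inl (Or.inl ⟨g⁻¹, ?_⟩)
    simp only
    rw [star_op, map_inv]
  · refine Or.inl (Or.inr ⟨g⁻¹, ?_⟩)
    simp only
    rw [star_op, map_inv]
  · refine Or.inr ⟨(l, k), ?_⟩
    simp only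
    rw [star_diag, star_mu]

/-- an operator commuting with the generators commutes with the algebra -/
theorem commute_of_gens (T : E G →L[ℂ] E G) (hT : ∀ x ∈ gens π, T * x = x * T) :
    ∀ x ∈ CE π, T * x = x * T := by
  have h1 : ∀ x ∈ StarAlgebra.adjoin ℂ (gens π),
      T * x = x * T ∧ T * star x = star x * T := by
    intro x hx
    induction hx using StarAlgebra.adjoin_induction with
    | mem x hx => exact ⟨hT x hx, hT _ (star_gens π x hx)⟩
    | algebraMap r =>
      refine ⟨(Algebra.commutes r T).symm, ?_⟩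
      rw [← algebraMap_star_comm]
      exact (Algebra.commutes _ T).symm
    | add x y _ _ hx hy =>
      refine ⟨by rw [mul_add, add_mul, hx.1, hy.1], ?_⟩
      rw [star_add, mul_add, add_mul, hx.2, hy.2]
    | mul x y _ _ hx hy =>
      refine ⟨by rw [← mul_assoc, hx.1, mul_assoc, hy.1, mul_assoc], ?_⟩
      rw [star_mul, ← mul_assoc, hy.2, mul_assoc, hx.2, mul_assoc]
    | star x _ hx =>
      refine ⟨hx.2, ?_⟩
      rw [star_star]
      exact hx.1
  intro x hx
  have h2 : x ∈ closure (StarAlgebra.adjoin ℂ (gens π) : Set (E G →L[ℂ] E G)) := by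
    rw [← StarSubalgebra.topologicalClosure_coe]
    exact hx
  have h3 : IsClosed {x : E G →L[ℂ] E G | T * x = x * T} :=
    isClosed_eq (continuous_const.mul continuous_id) (continuous_id.mul continuous_const)
  exact h3.closure_subset_iff.mpr (fun y hy => (h1 y hy).1) h2

theorem R_comm_U (σ : G →* (K G ≃ₗᵢ[ℂ] K G)) (g h : G) :
    op (R g) * op (U σ h) = op (U σ h) * op (R g) := by
  ext f x y
  simp [mul_assoc]

theorem R_comm_diag (a : K G →L[ℂ] K G) (g : G) :
    op (R g) * diag a = diag a * op (R g) := by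
  ext f x y
  rfl

theorem R_comm_gens (g : G) : ∀ x ∈ gens π, op (R g) * x = x * op (R g) := by
  rintro x ((⟨h, rfl⟩ | ⟨h, rfl⟩) | ⟨⟨k, l⟩, rfl⟩)
  · exact R_comm_U _ _ _
  · exact R_comm_U _ _ _
  · exact R_comm_diag _ _

theorem R_comm_CE (g : G) : ∀ x ∈ CE π, op (R g) * x = x * op (R g) :=
  commute_of_gens π _ (R_comm_gens π g)

theorem W_mul_U (g : G) : W π * U lam g = U π g * W π := by
  ext f x y
  change (π x ((lam x)⁻¹ (lam g (f (g⁻¹ * x))))) y =
    (π g (π (g⁻¹ * x) ((lam (g⁻¹ * x))⁻¹ (f (g⁻¹ * x))))) y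
  have h1 : (lam (g⁻¹ * x) : K G ≃ₗᵢ[ℂ] K G)⁻¹ = (lam x)⁻¹ * lam g := by
    rw [map_mul, mul_inv_rev, map_inv, inv_inv]
  have h2 : π x = π g * π (g⁻¹ * x) := by
    rw [← map_mul, mul_inv_cancel_left]
  rw [h1, h2]
  rfl

theorem conj_W_U (g : G) :
    op (W π) * op (U lam g) * star (op (W π)) = op (U π g) := by
  rw [star_op, ← op_mul, ← op_mul, W_mul_U, mul_assoc, mul_inv_cancel, mul_one]

theorem conj_W_mem (z : E G →L[ℂ] E G) (hz : z ∈ A0 G) :
    op (W π) * z * star (op (W π)) ∈ CE π := by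
  have hW1 : star (op (W π)) * op (W π) = 1 := (Unitary.mem_iff.mp (op_mem_unitary (W π))).1
  have hW2 : op (W π) * star (op (W π)) = 1 := (Unitary.mem_iff.mp (op_mem_unitary (W π))).2
  have h1 : ∀ z ∈ StarAlgebra.adjoin ℂ (Set.range (fun g : G => op (U lam g))),
      op (W π) * z * star (op (W π)) ∈ CE π := by
    intro z hz
    induction hz using StarAlgebra.adjoin_induction with
    | mem x hx =>
      obtain ⟨g, rfl⟩ := hx
      simp only
      rw [conj_W_U]
      exact U_pi_mem_CE π g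
    | algebraMap r =>
      have : op (W π) * algebraMap ℂ (E G →L[ℂ] E G) r * star (op (W π)) =
          algebraMap ℂ (E G →L[ℂ] E G) r := by
        rw [← Algebra.commutes, mul_assoc, hW2, mul_one]
      rw [this]
      exact (CE π).algebraMap_mem r
    | add x y _ _ hx hy =>
      rw [mul_add, add_mul]
      exact add_mem hx hy
    | mul x y _ _ hx hy =>
      have : op (W π) * (x * y) * star (op (W π)) =
          (op (W π) * x * star (op (W π))) * (op (W π) * y * star (op (W π))) := by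
        calc op (W π) * (x * y) * star (op (W π))
            = op (W π) * x * (1 * (y * star (op (W π)))) := by
              rw [one_mul]; noncomm_ring
          _ = op (W π) * x * ((star (op (W π)) * op (W π)) * (y * star (op (W π)))) := by
              rw [hW1]
          _ = _ := by noncomm_ring
      rw [this]
      exact mul_mem hx hy
    | star x _ hx =>
      have : op (W π) * star x * star (op (W π)) = star (op (W π) * x * star (op (W π))) := by
        rw [star_mul, star_mul, star_star, mul_assoc]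
      rw [this]
      exact star_mem hx
  have h2 : z ∈ closure (StarAlgebra.adjoin ℂ (Set.range (fun g : G => op (U lam g))) :
      Set (E G →L[ℂ] E G)) := by
    rw [← StarSubalgebra.topologicalClosure_coe]
    exact hz
  have h3 : IsClosed {z : E G →L[ℂ] E G | op (W π) * z * star (op (W π)) ∈ CE π} := by
    apply (isClosed_CE π).preimage
    exact (continuous_const.mul continuous_id).mul continuous_const
  exact h3.closure_subset_iff.mpr (fun y hy => h1 y hy) h2

theorem norm_W_sub_one_le (δ : ℝ) (hδ : 0 ≤ δ)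
    (hπ : ∀ g f, ‖π g f - lam g f‖ ≤ δ * ‖f‖) : ‖op (W π) - 1‖ ≤ δ := by
  refine ContinuousLinearMap.opNorm_le_bound _ hδ fun f => ?_
  have h1 : ∀ h : G, ‖(W π f - f : E G) h‖ ≤ δ * ‖f h‖ := by
    intro h
    rw [lp.coeFn_sub, Pi.sub_apply, W_apply]
    have h2 := hπ h ((lam h)⁻¹ (f h))
    have h3 : lam h ((lam h)⁻¹ (f h)) = f h := (lam h).apply_symm_apply _
    rw [h3] at h2
    have h4 : ‖(lam h)⁻¹ (f h)‖ = ‖f h‖ := (lam h).symm.norm_map _
    rw [h4] at h2
    exact h2
  have h5 : ‖(W π f - f : E G)‖ ^ 2 ≤ (δ * ‖f‖) ^ 2 := by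
    rw [norm_sq_eq, mul_pow, norm_sq_eq f, ← tsum_mul_left]
    refine Summable.tsum_le_tsum (fun i => ?_) (hasSum_norm_sq _).summable
      ((hasSum_norm_sq f).summable.mul_left _)
    rw [← mul_pow]
    exact pow_le_pow_left₀ (norm_nonneg _) (h1 i) 2
  exact le_of_sq_le_sq h5 (by positivity)

theorem single_eq_smul (k : G) (a : ℂ) :
    (lp.single 2 k a : K G) = a • (lp.single 2 k (1 : ℂ) : K G) := by
  rw [← lp.single_smul, smul_eq_mul, mul_one]

theorem eps_apply_self (h k : G) : eps h k h = lp.single 2 k (1 : ℂ) := lp.single_apply_self _ _ _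

/-- two bounded operators on `E` agreeing on the basis agree -/
theorem clm_ext_eps {F : Type} [NormedAddCommGroup F] [NormedSpace ℂ F]
    {S T : E G →L[ℂ] F} (hST : ∀ h k, S (eps h k) = T (eps h k)) : S = T := by
  apply clm_ext
  intro h
  have h1 : S.comp (lp.singleContinuousLinearMap ℂ (fun _ : G => K G) 2 h) =
      T.comp (lp.singleContinuousLinearMap ℂ (fun _ : G => K G) 2 h) := by
    apply clm_ext
    intro k a
    rw [single_eq_smul, map_smul, map_smul]
    congr 1
    exact hST h k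
  intro a
  exact DFunLike.congr_fun h1 a

/-- auxiliary operator in `CE · R` fixing `eps 1 1` -/
def Vop (g : G) : E G →L[ℂ] E G := diag (mu 1 g) * op (U lam g) * op (R g)

/-- auxiliary operator moving `eps 1 1` to `eps h k` -/
def Yop (h k : G) : E G →L[ℂ] E G := diag (mu k 1) * op (R h⁻¹)

theorem Vop_apply (g : G) (f : E G) (h : G) :
    Vop g f h = (lp.single 2 (1 : G) ((f (g⁻¹ * h * g)) 1 : ℂ) : K G) := by
  change (lp.single 2 (1 : G) ((lam g (f (g⁻¹ * h * g))) g) : K G) = _
  rw [lam_apply, inv_mul_cancel]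

theorem Vop_eps (g : G) : Vop g (eps 1 1 : E G) = eps 1 1 := by
  refine lp.ext (funext fun h => ?_)
  rw [Vop_apply]
  by_cases hh : h = 1
  · subst hh
    have : g⁻¹ * 1 * g = 1 := by group
    rw [this, eps_apply_self, lp.single_apply_self]
  · have h1 : g⁻¹ * h * g ≠ 1 := by
      intro h2
      apply hh
      have : h = g * (g⁻¹ * h * g) * g⁻¹ := by group
      rw [this, h2]
      group
    have h2 : (eps 1 1 : E G) (g⁻¹ * h * g) = 0 := lp.single_apply_ne _ _ _ h1
    have h3 : (eps 1 1 : E G) h = 0 := lp.single_apply_ne _ _ _ hh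
    rw [h2, h3]
    simp

theorem Yop_eps (h k : G) : Yop h k (eps 1 1 : E G) = eps h k := by
  refine lp.ext (funext fun j => ?_)
  change (lp.single 2 k (((eps 1 1 : E G) (j * h⁻¹)) 1 : ℂ) : K G) = eps h k j
  by_cases hj : j = h
  · subst hj
    rw [mul_inv_cancel, eps_apply_self, eps_apply_self, lp.single_apply_self]
  · have h1 : j * h⁻¹ ≠ 1 := by
      intro h2
      exact hj (mul_inv_eq_one.mp h2)
    have h2 : (eps 1 1 : E G) (j * h⁻¹) = 0 := lp.single_apply_ne _ _ _ h1
    have h3 : (eps h k : E G) j = 0 := lp.single_apply_ne _ _ _ hj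
    rw [h2, h3]
    simp

/-- the relevant centre computation, for groups without non-trivial square-summable class
functions -/
theorem centre_trivial_of
    (hG : ∀ φ : K G, (∀ g x : G, φ (g⁻¹ * x * g) = φ x) → ∀ x ≠ 1, φ x = 0)
    (T : E G →L[ℂ] E G) (hT : T ∈ CE π) (hTc : ∀ y ∈ CE π, T * y = y * T) :
    ∃ c : ℂ, T = c • (1 : E G →L[ℂ] E G) := by
  set ψ : E G := T (eps 1 1) with hψ
  have hTR : ∀ g : G, T * op (R g) = op (R g) * T := fun g => (R_comm_CE π g T hT).symm
  have hTV : ∀ g : G, T * Vop g = Vop g * T := by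
    intro g
    rw [Vop, ← mul_assoc, ← mul_assoc, hTc _ (diag_mu_mem_CE π 1 g), mul_assoc (diag (mu 1 g)),
      hTc _ (U_lam_mem_CE π g), ← mul_assoc, mul_assoc, hTR, ← mul_assoc]
  have hVψ : ∀ g h : G, ψ h = (lp.single 2 (1 : G) ((ψ (g⁻¹ * h * g)) 1 : ℂ) : K G) := by
    intro g h
    rw [← Vop_apply]
    have h1 := DFunLike.congr_fun (hTV g) (eps 1 1)
    change T (Vop g (eps 1 1)) = Vop g ψ at h1
    rw [Vop_eps] at h1
    rw [← h1]
  have hsum : Summable fun h : G => ‖ψ h 1‖ ^ 2 := by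
    refine Summable.of_nonneg_of_le (fun i => by positivity) (fun i => ?_)
      (hasSum_norm_sq ψ).summable
    exact pow_le_pow_left₀ (norm_nonneg _) (lp.norm_apply_le_norm (by norm_num) (ψ i) 1) 2
  let φ : K G := ⟨fun h => ψ h 1, memℓp_two_of_summable hsum⟩
  have hφ : ∀ g x : G, φ (g⁻¹ * x * g) = φ x := by
    intro g x
    change ψ (g⁻¹ * x * g) 1 = ψ x 1
    conv_rhs => rw [hVψ g x]
    rw [lp.single_apply_self]
  have hφ0 := hG φ hφ
  have hψ1 : ψ = (ψ 1 1) • (eps 1 1 : E G) := by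
    refine lp.ext (funext fun h => ?_)
    rw [lp.coeFn_smul, Pi.smul_apply]
    by_cases hh : h = 1
    · subst hh
      rw [eps_apply_self, ← single_eq_smul]
      have := hVψ 1 1
      simpa using this
    · have h1 : ψ h 1 = 0 := hφ0 h hh
      have h2 := hVψ 1 h
      have h3 : (1 : G)⁻¹ * h * 1 = h := by group
      rw [h3, h1, lp.single_zero] at h2
      have h4 : (eps 1 1 : E G) h = 0 := lp.single_apply_ne _ _ _ hh
      rw [h2, h4, smul_zero]
  refine ⟨ψ 1 1, ?_⟩
  apply clm_ext_eps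
  intro h k
  rw [← Yop_eps]
  have h1 : T * Yop h k = Yop h k * T := by
    rw [Yop, ← mul_assoc, hTc _ (diag_mu_mem_CE π k 1), mul_assoc, hTR, mul_assoc]
  have h2 := DFunLike.congr_fun h1 (eps 1 1)
  change T (Yop h k (eps 1 1)) = Yop h k ψ at h2
  have h3 : Yop h k ψ = (ψ 1 1) • Yop h k (eps 1 1 : E G) := by
    conv_lhs => rw [hψ1]
    rw [map_smul]
  rw [h2, h3]
  rfl

end general

/-- **F3**: the centre of the algebra `CE π` is trivial for free groups of rank at least two -/
theorem centre_trivial {n : ℕ} (hn : 2 ≤ n)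
    (π : FreeGroup (Fin n) →* (K (FreeGroup (Fin n)) ≃ₗᵢ[ℂ] K (FreeGroup (Fin n))))
    (T : E (FreeGroup (Fin n)) →L[ℂ] E (FreeGroup (Fin n))) (hT : T ∈ CE π)
    (hTc : ∀ y ∈ CE π, T * y = y * T) :
    ∃ c : ℂ, T = c • (1 : E (FreeGroup (Fin n)) →L[ℂ] E (FreeGroup (Fin n))) :=
  centre_trivial_of π (fun φ hφ x hx => ICC.l2_class_fun hn φ hφ x hx) T hT hTc

end Crest.Agent.R078.Model
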