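import Crest.Agent.R078.S103GoodConst615
import Crest.Agent.R078.S103Newton615

/-!
# Row 78 (S0103), end step, block LI-A: approximate vanishing of `H²(M, M)` with constants
-/

set_option autoImplicit false
set_option linter.unusedSectionVars false

open Topology Filter

namespace Crest.Agent.R078.Z.AHM

open Crest.Agent.R121 Crest.OpAlg Crest.Agent.R078.Z.Newton

noncomputable section

section Gen

variable {A : Type*} [NormedRing A] [NormedAlgebra ℂ A]

/-- bilinear maps as multilinear maps -/
def cm2 (f : A →L[ℂ] A →L[ℂ] A) : ContinuousMultilinearMap ℂ (fun _ : Fin 2 => A) A :=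
  MultilinearMap.mkContinuous
    { toFun := fun v => f (v 0) (v 1)
      map_update_add' := by
        intro _ v i x y
        fin_cases i <;> simp
      map_update_smul' := by
        intro _ v i c x
        fin_cases i <;> simp }
    ‖f‖ (fun v => by
      change ‖f (v 0) (v 1)‖ ≤ ‖f‖ * ∏ i, ‖v i‖
      rw [Fin.prod_univ_two, ← mul_assoc]
      exact f.le_opNorm₂ _ _)

lemma cm2_apply (f : A →L[ℂ] A →L[ℂ] A) (v : Fin 2 → A) : cm2 f v = f (v 0) (v 1) := rfl

lemma norm_cm2_le (f : A →L[ℂ] A →L[ℂ] A) : ‖cm2 f‖ ≤ ‖f‖ :=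
  MultilinearMap.mkContinuous_norm_le _ (norm_nonneg f) _

lemma exists_curry1 (g : ContinuousMultilinearMap ℂ (fun _ : Fin 1 => A) A) :
    ∃ φ : A →L[ℂ] A, (∀ x, φ x = g (fun _ => x)) ∧ ‖φ‖ ≤ ‖g‖ := by
  refine ⟨continuousMultilinearCurryFin1 ℂ A A g, fun x => ?_, ?_⟩
  · rw [continuousMultilinearCurryFin1_apply]
    congr 1
  · rw [LinearIsometryEquiv.norm_map]

lemma fin3_cases (i : Fin 3) : i = 0 ∨ i = 1 ∨ i = 2 := by omega

lemma n01 : (0 : Fin 3) ≠ 1 := by decide

lemma n02 : (0 : Fin 3) ≠ 2 := by decide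

lemma n12 : (1 : Fin 3) ≠ 2 := by decide

/-- the differential of a bilinear map, as a multilinear map -/
def cm3 (f : A →L[ℂ] A →L[ℂ] A) (δ : ℝ)
    (h : ∀ x y z, ‖d2 (fun a b => f a b) x y z‖ ≤ δ * ‖x‖ * ‖y‖ * ‖z‖) :
    ContinuousMultilinearMap ℂ (fun _ : Fin 3 => A) A :=
  MultilinearMap.mkContinuous
    { toFun := fun v => d2 (fun a b => f a b) (v 0) (v 1) (v 2)
      map_update_add' := by
        intro _ v i x y
        rcases fin3_cases i with rfl | rfl | rfl
        · rw [Function.update_self, Function.update_self, Function.update_self,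
            Function.update_of_ne n01.symm, Function.update_of_ne n01.symm,
            Function.update_of_ne n01.symm, Function.update_of_ne n02.symm,
            Function.update_of_ne n02.symm, Function.update_of_ne n02.symm]
          unfold d2
          simp only [add_mul, map_add, add_apply]
          abel
        · rw [Function.update_self, Function.update_self, Function.update_self,
            Function.update_of_ne n01, Function.update_of_ne n01,
            Function.update_of_ne n01, Function.update_of_ne n12.symm,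
            Function.update_of_ne n12.symm, Function.update_of_ne n12.symm]
          unfold d2
          simp only [add_mul, mul_add, map_add, add_apply]
          abel
        · rw [Function.update_self, Function.update_self, Function.update_self,
            Function.update_of_ne n02, Function.update_of_ne n02,
            Function.update_of_ne n02, Function.update_of_ne n12,
            Function.update_of_ne n12, Function.update_of_ne n12]
          unfold d2
          simp only [mul_add, map_add]
          abel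
      map_update_smul' := by
        intro _ v i c x
        rcases fin3_cases i with rfl | rfl | rfl
        · rw [Function.update_self, Function.update_self,
            Function.update_of_ne n01.symm, Function.update_of_ne n01.symm,
            Function.update_of_ne n02.symm, Function.update_of_ne n02.symm]
          unfold d2
          simp only [smul_mul_assoc, map_smul, smul_apply, smul_add, smul_sub]
        · rw [Function.update_self, Function.update_self,
            Function.update_of_ne n01, Function.update_of_ne n01,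
            Function.update_of_ne n12.symm, Function.update_of_ne n12.symm]
          unfold d2
          simp only [smul_mul_assoc, mul_smul_comm, map_smul, smul_apply, smul_add,
            smul_sub]
        · rw [Function.update_self, Function.update_self,
            Function.update_of_ne n02, Function.update_of_ne n02,
            Function.update_of_ne n12, Function.update_of_ne n12]
          unfold d2
          simp only [mul_smul_comm, map_smul, smul_add, smul_sub] }
    δ (fun v => by
      have h1 := h (v 0) (v 1) (v 2)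
      have h2 : δ * ∏ i, ‖v i‖ = δ * ‖v 0‖ * ‖v 1‖ * ‖v 2‖ := by
        rw [Fin.prod_univ_three, ← mul_assoc, ← mul_assoc]
      rw [h2]
      exact h1)

lemma cm3_apply (f : A →L[ℂ] A →L[ℂ] A) (δ : ℝ)
    (h : ∀ x y z, ‖d2 (fun a b => f a b) x y z‖ ≤ δ * ‖x‖ * ‖y‖ * ‖z‖) (v : Fin 3 → A) :
    cm3 f δ h v = d2 (fun a b => f a b) (v 0) (v 1) (v 2) := rfl

lemma hd1 (φ : (Fin 1 → A) → A) (a : Fin 2 → A) :
    hochschildDiff φ a = a 0 * φ (fun _ => a 1) - φ (fun _ => a 0 * a 1) + φ (fun _ => a 0) * a 1 := by
  unfold hochschildDiff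
  have h0 : (fun i : Fin 1 => a i.succ) = fun _ => a 1 := by
    funext i; fin_cases i; rfl
  have h1 : (mergeArgs (0 : Fin 1) a) = fun _ => a 0 * a 1 := by
    funext i; fin_cases i; simp [mergeArgs]
  have h2 : (fun i : Fin 1 => a i.castSucc) = fun _ => a 0 := by
    funext i; fin_cases i; rfl
  rw [Fin.sum_univ_one, h0, h1, h2]
  simp
  abel

lemma hd2 (f : (Fin 2 → A) → A) (a : Fin 3 → A) :
    hochschildDiff f a = a 0 * f ![a 1, a 2] - f ![a 0 * a 1, a 2] + f ![a 0, a 1 * a 2]
      - f ![a 0, a 1] * a 2 := by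
  unfold hochschildDiff
  have h0 : (fun i : Fin 2 => a i.succ) = ![a 1, a 2] := by
    funext i; fin_cases i <;> rfl
  have h1 : (mergeArgs (0 : Fin 2) a) = ![a 0 * a 1, a 2] := by
    funext i; fin_cases i <;> simp [mergeArgs]
  have h1' : (mergeArgs (1 : Fin 2) a) = ![a 0, a 1 * a 2] := by
    funext i; fin_cases i <;> simp [mergeArgs]
  have h2 : (fun i : Fin 2 => a i.castSucc) = ![a 0, a 1] := by
    funext i; fin_cases i <;> rfl
  rw [Fin.sum_univ_two, h0, h1, h1', h2]
  have h3 : (Fin.last 2 : Fin 3) = 2 := rfl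
  rw [h3]
  simp
  abel

lemma hd3 (f : (Fin 3 → A) → A) (a : Fin 4 → A) :
    hochschildDiff f a = a 0 * f ![a 1, a 2, a 3] - f ![a 0 * a 1, a 2, a 3]
      + f ![a 0, a 1 * a 2, a 3] - f ![a 0, a 1, a 2 * a 3] + f ![a 0, a 1, a 2] * a 3 := by
  unfold hochschildDiff
  have h0 : (fun i : Fin 3 => a i.succ) = ![a 1, a 2, a 3] := by
    funext i; fin_cases i <;> rfl
  have h1 : (mergeArgs (0 : Fin 3) a) = ![a 0 * a 1, a 2, a 3] := by
    funext i; fin_cases i <;> simp [mergeArgs]
  have h1' : (mergeArgs (1 : Fin 3) a) = ![a 0, a 1 * a 2, a 3] := by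
    funext i; fin_cases i <;> simp [mergeArgs]
  have h1'' : (mergeArgs (2 : Fin 3) a) = ![a 0, a 1, a 2 * a 3] := by
    funext i; fin_cases i <;> simp [mergeArgs]
  have h2 : (fun i : Fin 3 => a i.castSucc) = ![a 0, a 1, a 2] := by
    funext i; fin_cases i <;> rfl
  rw [Fin.sum_univ_three, h0, h1, h1', h1'', h2]
  have h3 : (Fin.last 3 : Fin 4) = 3 := rfl
  rw [h3]
  simp
  abel

/-- `d ∘ d = 0` -/
lemma hd3_d2 (f : A →L[ℂ] A →L[ℂ] A) (δ : ℝ)
    (h : ∀ x y z, ‖d2 (fun a b => f a b) x y z‖ ≤ δ * ‖x‖ * ‖y‖ * ‖z‖) (a : Fin 4 → A) :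
    hochschildDiff (cm3 f δ h) a = 0 := by
  rw [hd3]
  simp only [cm3_apply, Matrix.cons_val_zero, Matrix.cons_val_one, Matrix.cons_val_two,
    Matrix.head_cons, Matrix.tail_cons]
  unfold d2
  simp only [mul_add, add_mul, mul_sub, sub_mul, mul_assoc]
  abel

/-- From exact cohomology vanishing with constants to the approximate one. -/
theorem ah_of
    (G1 : ∀ f : ContinuousMultilinearMap ℂ (fun _ : Fin 2 => A) A,
      (∀ a : Fin 3 → A, hochschildDiff f a = 0) →
      ∃ g : ContinuousMultilinearMap ℂ (fun _ : Fin 1 => A) A, ‖g‖ ≤ 11 * ‖f‖ ∧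
        ∀ a : Fin 2 → A, hochschildDiff g a = f a)
    (G2 : ∀ f : ContinuousMultilinearMap ℂ (fun _ : Fin 3 => A) A,
      (∀ a : Fin 4 → A, hochschildDiff f a = 0) →
      ∃ g : ContinuousMultilinearMap ℂ (fun _ : Fin 2 => A) A, ‖g‖ ≤ 15 * ‖f‖ ∧
        ∀ a : Fin 3 → A, hochschildDiff g a = f a) : AH A 11 15 := by
  intro f δ hδ hf
  obtain ⟨h, hhn, hh⟩ := G2 (cm3 f δ hf) (hd3_d2 f δ hf)
  have hn3 : ‖cm3 f δ hf‖ ≤ δ := MultilinearMap.mkContinuous_norm_le _ hδ _
  have hhn' : ‖h‖ ≤ 15 * δ := hhn.trans (by gcongr)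
  have hcoc : ∀ a : Fin 3 → A, hochschildDiff (cm2 f - h) a = 0 := by
    intro a
    have h1 := hh a
    rw [hd2, cm3_apply] at h1
    rw [hd2]
    simp only [ContinuousMultilinearMap.sub_apply, cm2_apply]
    unfold d2 at h1
    simp only [Matrix.cons_val_zero, Matrix.cons_val_one]
    simp only [mul_sub, sub_mul]
    rw [← sub_eq_zero] at h1
    rw [← neg_eq_zero, ← h1]
    abel
  obtain ⟨g, hgn, hg⟩ := G1 _ hcoc
  have hgn' : ‖g‖ ≤ 11 * (‖f‖ + 15 * δ) := by
    refine hgn.trans ?_
    gcongr
    refine (norm_sub_le _ _).trans ?_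
    gcongr
    exact norm_cm2_le f
  obtain ⟨φ, hφ, hφn⟩ := exists_curry1 g
  refine ⟨φ, hφn.trans hgn', fun x y => ?_⟩
  have h1 := hg ![x, y]
  rw [hd1] at h1
  have h3 : d1 φ x y - f x y = - h ![x, y] := by
    unfold d1
    rw [hφ, hφ, hφ]
    simp only [Matrix.cons_val_zero, Matrix.cons_val_one] at h1
    rw [h1, ContinuousMultilinearMap.sub_apply, cm2_apply]
    simp only [Matrix.cons_val_zero, Matrix.cons_val_one]
    abel
  rw [h3, norm_neg]
  have h4 := h.le_opNorm ![x, y]
  rw [Fin.prod_univ_two] at h4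
  simp only [Matrix.cons_val_zero, Matrix.cons_val_one] at h4
  refine h4.trans ?_
  rw [← mul_assoc]
  gcongr

end Gen

variable {H : Type*} [NormedAddCommGroup H] [InnerProductSpace ℂ H] [CompleteSpace H]

/-- approximate vanishing of the second cohomology of a von Neumann algebra -/
theorem ah (M : VonNeumannAlgebra H) : AH (Al M) 11 15 := by
  have G2 := GoodConst.good_const M 2
  have G1 := GoodConst.good_const M 1
  norm_num at G1 G2
  refine ah_of (fun f hf => ?_) (fun f hf => ?_)
  · obtain ⟨g, h1, h2⟩ := G1 f hf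
    exact ⟨g, h1, fun a => (h2 a).trans (mul_one _)⟩
  · obtain ⟨g, h1, h2⟩ := G2 f hf
    exact ⟨g, h1, fun a => (h2 a).trans (mul_one _)⟩

end

end Crest.Agent.R078.Z.AHM
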