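import Mathlib

/-!
# R78 / S0103, block N2-HALMOS (helper938)

From linear letters `a` (in `M ⊗ B(K)`) and `b` (in the commutant) to the unitary letters
`T = [[(1-aa*)^{1/2}, c a], [-c̄ a*, (1-a*a)^{1/2}]]`, `S = [[(1-b*b)^{1/2}, c̄ b*], [-c b, (1-bb*)^{1/2}]]`.
-/

set_option autoImplicit false

open scoped ComplexConjugate

namespace Crest.Agent.R078.S103.Halmos

section Algebra

variable {B : Type*} [CStarAlgebra B]

/-- `sq x = (1 - x)^{1/2}`. -/
noncomputable def sq (x : B) : B := cfc (fun t : ℝ => Real.sqrt (1 - t)) x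

theorem continuous_sqrt_one_sub : Continuous (fun t : ℝ => Real.sqrt (1 - t)) := by fun_prop

theorem spectrum_star_mul_self_le {a : B} {t : ℝ} (ht : t ∈ spectrum ℝ (star a * a)) :
    0 ≤ t ∧ t ≤ ‖a‖ ^ 2 := by
  refine ⟨spectrum_star_mul_self_nonneg t ht, ?_⟩
  have h1 := IsometricContinuousFunctionalCalculus.norm_spectrum_le (𝕜 := ℝ) (star a * a) ht
    (IsSelfAdjoint.star_mul_self a)
  rw [CStarRing.norm_star_mul_self] at h1
  have := le_abs_self t
  rw [Real.norm_eq_abs] at h1
  nlinarith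

theorem spectrum_mul_star_self_le {a : B} {t : ℝ} (ht : t ∈ spectrum ℝ (a * star a)) :
    0 ≤ t ∧ t ≤ ‖a‖ ^ 2 := by
  have := spectrum_star_mul_self_le (a := star a) (t := t) (by rwa [star_star])
  rwa [norm_star] at this

/-- uniform polynomial approximation of a continuous function on `[0,1]`, evaluated by the
continuous functional calculus. -/
theorem exists_poly_approx (f : ℝ → ℝ) (hf : Continuous f) {ε : ℝ} (hε : 0 < ε) :
    ∃ p : Polynomial ℝ, ∀ (x : B), IsSelfAdjoint x → (∀ t ∈ spectrum ℝ x, 0 ≤ t ∧ t ≤ 1) →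
      ‖cfc f x - Polynomial.aeval x p‖ ≤ ε := by
  obtain ⟨p, hp⟩ := exists_polynomial_near_of_continuousOn 0 1 f hf.continuousOn ε hε
  refine ⟨p, fun x hx hs => ?_⟩
  rw [← cfc_polynomial p x, ← cfc_sub f _ x]
  refine norm_cfc_le hε.le fun t ht => ?_
  have h := hp t ⟨(hs t ht).1, (hs t ht).2⟩
  rw [Real.norm_eq_abs, abs_sub_comm]
  exact h.le

theorem semiconj_aeval (a x y : B) (h : a * x = y * a) (p : Polynomial ℝ) :
    a * Polynomial.aeval x p = Polynomial.aeval y p * a := by
  have hpow : ∀ n : ℕ, a * x ^ n = y ^ n * a := by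
    intro n
    induction n with
    | zero => simp
    | succ n ih => rw [pow_succ, ← mul_assoc, ih, mul_assoc, h, ← mul_assoc, ← pow_succ]
  induction p using Polynomial.induction_on' with
  | add p q hp hq => rw [map_add, map_add, mul_add, add_mul, hp, hq]
  | monomial n c =>
    rw [Polynomial.aeval_monomial, Polynomial.aeval_monomial, ← mul_assoc,
      ← Algebra.commutes c a, mul_assoc, hpow, ← mul_assoc]

/-- the intertwining relation `a f(a*a) = f(aa*) a`. -/
theorem semiconj_cfc (a : B) (ha : ‖a‖ ≤ 1) (f : ℝ → ℝ) (hf : Continuous f) :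
    a * cfc f (star a * a) = cfc f (a * star a) * a := by
  have key : ∀ ε : ℝ, 0 < ε → ‖a * cfc f (star a * a) - cfc f (a * star a) * a‖ ≤ 2 * ε := by
    intro ε hε
    obtain ⟨p, hp⟩ := exists_poly_approx (B := B) f hf hε
    have h1 := hp (star a * a) (IsSelfAdjoint.star_mul_self a) (fun t ht => by
      have := spectrum_star_mul_self_le ht
      have hn := norm_nonneg a
      exact ⟨this.1, this.2.trans (by nlinarith)⟩)
    have h2 := hp (a * star a) (IsSelfAdjoint.mul_star_self a) (fun t ht => by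
      have := spectrum_mul_star_self_le ht
      have hn := norm_nonneg a
      exact ⟨this.1, this.2.trans (by nlinarith)⟩)
    have h3 := semiconj_aeval a (star a * a) (a * star a) (by rw [mul_assoc]) p
    have h4 : a * cfc f (star a * a) - cfc f (a * star a) * a
        = a * (cfc f (star a * a) - Polynomial.aeval (star a * a) p)
          - (cfc f (a * star a) - Polynomial.aeval (a * star a) p) * a := by
      rw [mul_sub, sub_mul, h3]; abel
    rw [h4]
    calc _ ≤ ‖a * (cfc f (star a * a) - Polynomial.aeval (star a * a) p)‖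
          + ‖(cfc f (a * star a) - Polynomial.aeval (a * star a) p) * a‖ := norm_sub_le _ _
      _ ≤ ‖a‖ * ‖cfc f (star a * a) - Polynomial.aeval (star a * a) p‖
          + ‖cfc f (a * star a) - Polynomial.aeval (a * star a) p‖ * ‖a‖ :=
          add_le_add (norm_mul_le _ _) (norm_mul_le _ _)
      _ ≤ 1 * ε + ε * 1 := by gcongr
      _ = 2 * ε := by ring
  have h0 : ‖a * cfc f (star a * a) - cfc f (a * star a) * a‖ ≤ 0 := by
    refine le_of_forall_pos_le_add fun ε hε => ?_
    have := key (ε / 2) (by positivity)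
    linarith
  exact sub_eq_zero.mp (norm_le_zero_iff.mp h0)

theorem isSelfAdjoint_sq (x : B) : IsSelfAdjoint (sq x) := by
  unfold sq
  exact cfc_predicate _ x

theorem star_sq (x : B) : star (sq x) = sq x := (isSelfAdjoint_sq x).star_eq

theorem sq_mul_sq {x : B} (hx : IsSelfAdjoint x) (hs : ∀ t ∈ spectrum ℝ x, t ≤ 1) :
    sq x * sq x = 1 - x := by
  unfold sq
  rw [← cfc_mul _ _ x]
  have : cfc (fun t : ℝ => Real.sqrt (1 - t) * Real.sqrt (1 - t)) x
      = cfc (fun t : ℝ => 1 - t) x := by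
    refine cfc_congr fun t ht => ?_
    have := hs t ht
    rw [Real.mul_self_sqrt (by linarith)]
  rw [this, cfc_sub (fun _ => (1 : ℝ)) (fun t => t) x, cfc_const_one ℝ x, cfc_id' ℝ x]

theorem commute_sq {x b : B} (h : Commute x b) : Commute (sq x) b := by
  unfold sq
  exact h.cfc_real _

theorem mul_sq (a : B) (ha : ‖a‖ ≤ 1) : a * sq (star a * a) = sq (a * star a) * a :=
  semiconj_cfc a ha _ continuous_sqrt_one_sub

/-- the Halmos dilation with phase `c`. -/
noncomputable def hal (a : B) (c : ℂ) : Matrix (Fin 2) (Fin 2) B :=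
  !![sq (a * star a), c • a; -(conj c • star a), sq (star a * a)]

theorem star_hal (a : B) (c : ℂ) : star (hal a c) = hal a (-c) := by
  rw [Matrix.star_eq_conjTranspose]
  ext i j
  fin_cases i <;> fin_cases j <;>
    simp [hal, star_sq, star_smul]

theorem hal_mul_star (a : B) (ha : ‖a‖ ≤ 1) (c : ℂ) (hc : ‖c‖ = 1) :
    hal a c * star (hal a c) = 1 := by
  have hs1 : ∀ t ∈ spectrum ℝ (a * star a), t ≤ 1 := fun t ht => by
    have := spectrum_mul_star_self_le ht
    have hn := norm_nonneg a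
    exact this.2.trans (by nlinarith)
  have hs2 : ∀ t ∈ spectrum ℝ (star a * a), t ≤ 1 := fun t ht => by
    have := spectrum_star_mul_self_le ht
    have hn := norm_nonneg a
    exact this.2.trans (by nlinarith)
  have hcc : c * conj c = 1 := by
    rw [Complex.mul_conj, Complex.normSq_eq_norm_sq, hc]; simp
  have hcc' : conj c * c = 1 := by rw [mul_comm]; exact hcc
  have e1 := sq_mul_sq (IsSelfAdjoint.mul_star_self a) hs1
  have e2 := sq_mul_sq (IsSelfAdjoint.star_mul_self a) hs2
  have e3 := mul_sq a ha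
  have e4 : star a * sq (a * star a) = sq (star a * a) * star a := by
    have := congrArg star e3
    rw [star_mul, star_mul, star_sq, star_sq] at this
    exact this.symm
  rw [star_hal]
  ext i j
  fin_cases i <;> fin_cases j <;>
    simp [hal, Matrix.mul_apply, Fin.sum_univ_two, e1, e2, smul_smul, hcc, hcc', e3, e4]

theorem star_hal_mul (a : B) (ha : ‖a‖ ≤ 1) (c : ℂ) (hc : ‖c‖ = 1) :
    star (hal a c) * hal a c = 1 := by
  have h := hal_mul_star a ha (-c) (by rwa [norm_neg])
  rw [star_hal, neg_neg] at h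
  rw [star_hal]
  exact h

theorem hal_mem_unitary (a : B) (ha : ‖a‖ ≤ 1) (c : ℂ) (hc : ‖c‖ = 1) :
    hal a c ∈ unitary (Matrix (Fin 2) (Fin 2) B) :=
  ⟨star_hal_mul a ha c hc, hal_mul_star a ha c hc⟩

/-- the `M'`-side letter. -/
noncomputable def halS (b : B) (c : ℂ) : Matrix (Fin 2) (Fin 2) B := hal (star b) (conj c)

theorem star_halS (b : B) (c : ℂ) : star (halS b c) = halS b (-c) := by
  unfold halS
  rw [star_hal, map_neg]

theorem halS_mem_unitary (b : B) (hb : ‖b‖ ≤ 1) (c : ℂ) (hc : ‖c‖ = 1) :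
    halS b c ∈ unitary (Matrix (Fin 2) (Fin 2) B) :=
  hal_mem_unitary (star b) (by rwa [norm_star]) (conj c) (by rwa [Complex.norm_conj])

theorem hal_apply_00 (a : B) (c : ℂ) : hal a c 0 0 = sq (a * star a) := rfl
theorem hal_apply_01 (a : B) (c : ℂ) : hal a c 0 1 = c • a := rfl
theorem hal_apply_10 (a : B) (c : ℂ) : hal a c 1 0 = -(conj c • star a) := rfl
theorem hal_apply_11 (a : B) (c : ℂ) : hal a c 1 1 = sq (star a * a) := rfl

theorem halS_apply_00 (b : B) (c : ℂ) : halS b c 0 0 = sq (star b * b) := by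
  unfold halS
  rw [hal_apply_00, star_star]
theorem halS_apply_01 (b : B) (c : ℂ) : halS b c 0 1 = conj c • star b := rfl
theorem halS_apply_10 (b : B) (c : ℂ) : halS b c 1 0 = -(c • b) := by
  unfold halS
  rw [hal_apply_10, star_star, Complex.conj_conj]
theorem halS_apply_11 (b : B) (c : ℂ) : halS b c 1 1 = sq (b * star b) := by
  unfold halS
  rw [hal_apply_11, star_star]

/-- the four phases. -/
noncomputable def ph (k : Fin 4) : ℂ := ![1, Complex.I, -1, -Complex.I] k

theorem norm_ph (k : Fin 4) : ‖ph k‖ = 1 := by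
  fin_cases k <;> simp [ph]

theorem ph_add_two (k : Fin 4) : ph (k + 2) = -ph k := by
  fin_cases k <;> simp [ph]

theorem sum_ph : ∑ k : Fin 4, ph k = 0 := by
  simp [Fin.sum_univ_four, ph]

theorem sum_conj_ph : ∑ k : Fin 4, conj (ph k) = 0 := by
  simp [Fin.sum_univ_four, ph]

theorem conj_mul_ph (k : Fin 4) : conj (ph k) * ph k = 1 := by
  rw [mul_comm, Complex.mul_conj, Complex.normSq_eq_norm_sq, norm_ph]; simp

theorem ph_mul_conj (k : Fin 4) : ph k * conj (ph k) = 1 := by
  rw [mul_comm, conj_mul_ph]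

theorem sum_ph_mul_ph : ∑ k : Fin 4, ph k * ph k = 0 := by
  simp [Fin.sum_univ_four, ph]

theorem sum_conj_ph_mul : ∑ k : Fin 4, conj (ph k) * conj (ph k) = 0 := by
  simp [Fin.sum_univ_four, ph]

/-- exact averaging over the phases, `M`-side: only the corner `(0,1)` survives. -/
theorem sum_conj_ph_smul_hal (a : B) (i j : Fin 2) :
    ∑ k : Fin 4, conj (ph k) • hal a (ph k) i j = if i = 0 ∧ j = 1 then (4 : ℂ) • a else 0 := by
  fin_cases i <;> fin_cases j
  · simp only [Fin.zero_eta, Fin.isValue, hal_apply_00, ← Finset.sum_smul, sum_conj_ph]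
    simp
  · simp only [Fin.zero_eta, Fin.isValue, Fin.mk_one, hal_apply_01, smul_smul, conj_mul_ph]
    simp only [one_smul, Finset.sum_const, Finset.card_univ, Fintype.card_fin, and_self, if_true]
    rw [← Nat.cast_smul_eq_nsmul ℂ]
    norm_num
  · simp only [Fin.zero_eta, Fin.isValue, Fin.mk_one, hal_apply_10, smul_neg, smul_smul]
    rw [Finset.sum_neg_distrib, ← Finset.sum_smul, sum_conj_ph_mul]
    simp
  · simp only [Fin.isValue, Fin.mk_one, hal_apply_11, ← Finset.sum_smul, sum_conj_ph]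
    simp

/-- exact averaging over the phases, `M'`-side: only the corner `(0,1)` survives. -/
theorem sum_ph_smul_halS (b : B) (i j : Fin 2) :
    ∑ k : Fin 4, ph k • halS b (ph k) i j = if i = 0 ∧ j = 1 then (4 : ℂ) • star b else 0 := by
  fin_cases i <;> fin_cases j
  · simp only [Fin.zero_eta, Fin.isValue, halS_apply_00, ← Finset.sum_smul, sum_ph]
    simp
  · simp only [Fin.zero_eta, Fin.isValue, Fin.mk_one, halS_apply_01, smul_smul, ph_mul_conj]
    simp only [one_smul, Finset.sum_const, Finset.card_univ, Fintype.card_fin, and_self, if_true]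
    rw [← Nat.cast_smul_eq_nsmul ℂ]
    norm_num
  · simp only [Fin.zero_eta, Fin.isValue, Fin.mk_one, halS_apply_10, smul_neg, smul_smul]
    rw [Finset.sum_neg_distrib, ← Finset.sum_smul, sum_ph_mul_ph]
    simp
  · simp only [Fin.isValue, Fin.mk_one, halS_apply_11, ← Finset.sum_smul, sum_ph]
    simp

/-- the entries of `hal a c` commute with everything commuting with `a` and `a*`. -/
theorem commute_hal {a b : B} (h1 : Commute a b) (h2 : Commute (star a) b) (c : ℂ) (i j : Fin 2) :
    Commute (hal a c i j) b := by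
  fin_cases i <;> fin_cases j
  · exact commute_sq (h1.mul_left h2)
  · exact h1.smul_left c
  · exact (h2.smul_left _).neg_left
  · exact commute_sq (h2.mul_left h1)

theorem commute_halS {a b : B} (h1 : Commute b a) (h2 : Commute (star b) a) (c : ℂ) (i j : Fin 2) :
    Commute (halS b c i j) a := by
  unfold halS
  exact commute_hal h2 (by rwa [star_star]) _ i j

end Algebra

section Vector

variable {G : Type*} [NormedAddCommGroup G] [InnerProductSpace ℂ G]

/-- If `P ≥ m` then `‖P v‖ ≥ m ‖v‖`. -/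
theorem norm_le_of_le_real_inner (P : G →L[ℂ] G) (m : ℝ)
    (h : ∀ v : G, m * ‖v‖ ^ 2 ≤ (inner ℂ v (P v) : ℂ).re) (v : G) : m * ‖v‖ ≤ ‖P v‖ := by
  rcases eq_or_ne v 0 with rfl | hv
  · simp
  have hv' : 0 < ‖v‖ := norm_pos_iff.mpr hv
  have h1 := h v
  have h2 : (inner ℂ v (P v) : ℂ).re ≤ ‖v‖ * ‖P v‖ :=
    (Complex.re_le_norm _).trans (norm_inner_le_norm _ _)
  have h3 : m * ‖v‖ * ‖v‖ ≤ ‖P v‖ * ‖v‖ := by nlinarith
  exact le_of_mul_le_mul_right h3 hv'

variable [CompleteSpace G]

/-- `sq x ≥ 1/2` for a self-adjoint operator `x` with spectrum in `(-∞,1/4]`. -/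
theorem sq_ge (x : G →L[ℂ] G) (hx : IsSelfAdjoint x) (hs : ∀ t ∈ spectrum ℝ x, t ≤ 1 / 4) (v : G) :
    (1 / 2 : ℝ) * ‖v‖ ^ 2 ≤ (inner ℂ v (sq x v) : ℂ).re := by
  have h1 : (algebraMap ℝ (G →L[ℂ] G) (1 / 2)) ≤ sq x := by
    unfold sq
    rw [algebraMap_le_cfc_iff (fun t : ℝ => Real.sqrt (1 - t)) (1 / 2) x]
    intro t ht
    have := hs t ht
    apply Real.le_sqrt_of_sq_le
    norm_num
    linarith
  have h2 : (0 : G →L[ℂ] G) ≤ sq x - algebraMap ℝ (G →L[ℂ] G) (1 / 2) := sub_nonneg.mpr h1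
  rw [ContinuousLinearMap.nonneg_iff_isPositive] at h2
  have h3 := h2.re_inner_nonneg_right v
  have h4 : (sq x - algebraMap ℝ (G →L[ℂ] G) (1 / 2)) v = sq x v - ((1 / 2 : ℝ) : ℂ) • v := by
    rw [Algebra.algebraMap_eq_smul_one]
    change sq x v - (1 / 2 : ℝ) • v = _
    rw [Complex.coe_smul]
  rw [h4, inner_sub_right, inner_smul_right, inner_self_eq_norm_sq_to_K] at h3
  simp only [RCLike.re_to_complex, Complex.sub_re] at h3
  have h6 : (((1 / 2 : ℝ) : ℂ) * (((‖v‖ : ℝ) : ℂ)) ^ 2).re = (1 / 2) * ‖v‖ ^ 2 := by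
    norm_cast
  erw [h6] at h3
  linarith

/-- Lipschitz bound for `sq` on commuting operators. -/
theorem norm_sq_sub_sq_apply_le (x y : G →L[ℂ] G) (hx : IsSelfAdjoint x) (hy : IsSelfAdjoint y)
    (hxy : Commute x y) (hsx : ∀ t ∈ spectrum ℝ x, t ≤ 1 / 4)
    (hsy : ∀ t ∈ spectrum ℝ y, t ≤ 1 / 4) (v : G) :
    ‖sq x v - sq y v‖ ≤ ‖x v - y v‖ := by
  have c1 : Commute (sq x) y := commute_sq hxy
  have c2 : Commute (sq x) (sq y) := (commute_sq c1.symm).symm
  have e1 : sq x * sq x = 1 - x := sq_mul_sq hx (fun t ht => (hsx t ht).trans (by norm_num))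
  have e2 : sq y * sq y = 1 - y := sq_mul_sq hy (fun t ht => (hsy t ht).trans (by norm_num))
  have e3 : (sq x + sq y) * (sq x - sq y) = y - x := by
    rw [add_mul, mul_sub, mul_sub, e1, e2, c2.eq]; abel
  have e4 : (sq x + sq y) (sq x v - sq y v) = y v - x v := by
    have := congrArg (fun A : G →L[ℂ] G => A v) e3
    exact this
  have h5 := norm_le_of_le_real_inner (sq x + sq y) 1 (fun w => by
    have h1 := sq_ge x hx hsx w
    have h2 := sq_ge y hy hsy w
    have h3 : (inner ℂ w ((sq x + sq y) w) : ℂ) = inner ℂ w (sq x w) + inner ℂ w (sq y w) := by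
      rw [← inner_add_right]; rfl
    rw [h3, Complex.add_re]
    linarith) (sq x v - sq y v)
  rw [e4, one_mul] at h5
  rwa [← norm_sub_rev (y v) (x v)]

/-- **partner property of the Halmos letters** (entrywise): `T_ij ζ = (S_ij)^* ζ + O(ε)`. -/
theorem norm_hal_sub_star_halS_le (a b : G →L[ℂ] G) (ha : ‖a‖ ≤ 1 / 2) (hb : ‖b‖ ≤ 1 / 2)
    (hab : Commute a b) (hab' : Commute a (star b)) (ζ : G) (ε : ℝ)
    (h1 : ‖a ζ - b ζ‖ ≤ ε) (h2 : ‖star a ζ - star b ζ‖ ≤ ε) (c : ℂ) (hc : ‖c‖ = 1) (i j : Fin 2) :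
    ‖hal a c i j ζ - star (halS b c i j) ζ‖ ≤ ε := by
  have hε : 0 ≤ ε := (norm_nonneg _).trans h1
  have hsa : ‖star a‖ ≤ 1 / 2 := by rwa [norm_star]
  have hsb : ‖star b‖ ≤ 1 / 2 := by rwa [norm_star]
  have hab1 : Commute (star a) b := by
    have := congrArg star hab'.eq
    rw [star_mul, star_mul, star_star] at this
    exact this.symm
  have hab2 : Commute (star a) (star b) := by
    have := congrArg star hab.eq
    rw [star_mul, star_mul] at this
    exact this.symm
  have spec1 : ∀ z : G →L[ℂ] G, ‖z‖ ≤ 1 / 2 → ∀ t ∈ spectrum ℝ (star z * z), t ≤ 1 / 4 := by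
    intro z hz t ht
    have := (spectrum_star_mul_self_le ht).2
    have hn := norm_nonneg z
    nlinarith
  have spec2 : ∀ z : G →L[ℂ] G, ‖z‖ ≤ 1 / 2 → ∀ t ∈ spectrum ℝ (z * star z), t ≤ 1 / 4 := by
    intro z hz t ht
    have := (spectrum_mul_star_self_le ht).2
    have hn := norm_nonneg z
    nlinarith
  fin_cases i <;> fin_cases j
  · change ‖hal a c 0 0 ζ - star (halS b c 0 0) ζ‖ ≤ ε
    rw [hal_apply_00, halS_apply_00, star_sq]
    refine (norm_sq_sub_sq_apply_le (a * star a) (star b * b) (IsSelfAdjoint.mul_star_self a)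
      (IsSelfAdjoint.star_mul_self b) ?_ (spec2 a ha) (spec1 b hb) ζ).trans ?_
    · exact (hab'.mul_right hab).mul_left (hab2.mul_right hab1)
    · have e : (a * star a) ζ - (star b * b) ζ
          = a (star a ζ - star b ζ) + star b (a ζ - b ζ) := by
        have e1 : a (star b ζ) = star b (a ζ) := by
          have := congrArg (fun A : G →L[ℂ] G => A ζ) hab'.eq
          exact this
        rw [map_sub, map_sub, e1]
        change a (star a ζ) - star b (b ζ) = _
        abel
      rw [e]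
      calc _ ≤ ‖a (star a ζ - star b ζ)‖ + ‖star b (a ζ - b ζ)‖ := norm_add_le _ _
        _ ≤ ‖a‖ * ‖star a ζ - star b ζ‖ + ‖star b‖ * ‖a ζ - b ζ‖ :=
          add_le_add (a.le_opNorm _) ((star b).le_opNorm _)
        _ ≤ 1 / 2 * ε + 1 / 2 * ε := by gcongr
        _ = ε := by ring
  · change ‖hal a c 0 1 ζ - star (halS b c 0 1) ζ‖ ≤ ε
    rw [hal_apply_01, halS_apply_01, star_smul, star_star]
    have e : (c • a) ζ - (star (conj c) • b) ζ = c • (a ζ - b ζ) := by
      simp [smul_sub]
    rw [e, norm_smul, hc, one_mul]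
    exact h1
  · change ‖hal a c 1 0 ζ - star (halS b c 1 0) ζ‖ ≤ ε
    rw [hal_apply_10, halS_apply_10, star_neg, star_smul]
    have e : (-(conj c • star a)) ζ - (-(star c • star b)) ζ = -(conj c • (star a ζ - star b ζ)) := by
      simp [smul_sub]
      abel
    rw [e, norm_neg, norm_smul, Complex.norm_conj, hc, one_mul]
    exact h2
  · change ‖hal a c 1 1 ζ - star (halS b c 1 1) ζ‖ ≤ ε
    rw [hal_apply_11, halS_apply_11, star_sq]
    refine (norm_sq_sub_sq_apply_le (star a * a) (b * star b) (IsSelfAdjoint.star_mul_self a)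
      (IsSelfAdjoint.mul_star_self b) ?_ (spec1 a ha) (spec2 b hb) ζ).trans ?_
    · exact (hab1.mul_right hab2).mul_left (hab.mul_right hab')
    · have e : (star a * a) ζ - (b * star b) ζ
          = star a (a ζ - b ζ) + b (star a ζ - star b ζ) := by
        have e1 : star a (b ζ) = b (star a ζ) := by
          have := congrArg (fun A : G →L[ℂ] G => A ζ) hab1.eq
          exact this
        rw [map_sub, map_sub, e1]
        change star a (a ζ) - b (star b ζ) = _
        abel
      rw [e]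
      calc _ ≤ ‖star a (a ζ - b ζ)‖ + ‖b (star a ζ - star b ζ)‖ := norm_add_le _ _
        _ ≤ ‖star a‖ * ‖a ζ - b ζ‖ + ‖b‖ * ‖star a ζ - star b ζ‖ :=
          add_le_add ((star a).le_opNorm _) (b.le_opNorm _)
        _ ≤ 1 / 2 * ε + 1 / 2 * ε := by gcongr
        _ = ε := by ring

end Vector

end Crest.Agent.R078.S103.Halmos
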