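import Mathlib

/-!
# R78 / S0103: the interface between the letter lemma and the walk (helper938)

* `LetterOut`     : output of the LETTER LEMMA (linear letters `a(Y)`, `b(Y)`).
* `LetterSystem`  : unitary letters, input of the walk.
-/

set_option autoImplicit false

open scoped ComplexConjugate

noncomputable section

namespace Crest.Agent.R078.S103.LSys

universe u

variable {H : Type u} [NormedAddCommGroup H] [InnerProductSpace ℂ H]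

/-- the operator on `H^J` with operator matrix `x`. -/
def opM {J : Type*} [Fintype J] (x : Matrix J J (H →L[ℂ] H)) :
    PiLp 2 (fun _ : J => H) →L[ℂ] PiLp 2 (fun _ : J => H) :=
  (PiLp.continuousLinearEquiv 2 ℂ (fun _ : J => H)).symm.toContinuousLinearMap ∘L
    ContinuousLinearMap.pi fun i => ∑ j, (x i j) ∘L (PiLp.proj 2 (fun _ : J => H) j)

@[simp] theorem opM_apply {J : Type*} [Fintype J] (x : Matrix J J (H →L[ℂ] H))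
    (v : PiLp 2 (fun _ : J => H)) (i : J) : opM x v i = ∑ j, x i j (v j) := by
  simp [opM]

/-- `x` acting on the first leg. -/
def leg1 {I : Type*} [DecidableEq I] (x : Matrix I I (H →L[ℂ] H)) :
    Matrix (I × I) (I × I) (H →L[ℂ] H) :=
  fun p q => if p.2 = q.2 then x p.1 q.1 else 0

/-- `x` acting on the second leg. -/
def leg2 {I : Type*} [DecidableEq I] (x : Matrix I I (H →L[ℂ] H)) :
    Matrix (I × I) (I × I) (H →L[ℂ] H) :=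
  fun p q => if p.1 = q.1 then x p.2 q.2 else 0

/-- a scalar matrix acting on the second leg of `ℂ^I ⊗ ℂ^I`. -/
def leg2c {I : Type*} [Fintype I] (k : Matrix I I ℂ) (z : I × I → ℂ) : I × I → ℂ :=
  fun p => ∑ j, k p.2 j * z (p.1, j)

/-- the vector `w ⊗ z` of `H^J`. -/
def tv {J : Type*} (w : H) (z : J → ℂ) : PiLp 2 (fun _ : J => H) :=
  WithLp.toLp 2 (fun p => z p • w)

@[simp] theorem tv_apply {J : Type*} (w : H) (z : J → ℂ) (p : J) : tv w z p = z p • w := rfl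

/-- the four phases. -/
def ph (k : Fin 4) : ℂ := ![1, Complex.I, -1, -Complex.I] k

variable [CompleteSpace H]

/-- Output of the LETTER LEMMA for `(M, ξ)`, operators `Y a ∈ M`, and `A a, B a` (in `M'`; the
vectors are `α_a = A a ξ`, `β_a = B a ξ`). -/
structure LetterOut (M : VonNeumannAlgebra H) (ξ : H) {m : ℕ} (Y A B : Fin m → (H →L[ℂ] H))
    (κ K ε : ℝ) where
  n : ℕ
  om : Fin n → ℝ
  om_pos : ∀ i, 0 < om i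
  sum_om : ∑ i, om i = 1
  a : (H →L[ℂ] H) →ₗ[ℂ] Matrix (Fin n) (Fin n) (H →L[ℂ] H)
  b : (H →L[ℂ] H) →ₗ[ℂ] Matrix (Fin n) (Fin n) (H →L[ℂ] H)
  a_mem : ∀ y ∈ M, ∀ i j, a y i j ∈ M
  b_mem : ∀ y ∈ M, ∀ i j, b y i j ∈ M.commutant
  norm_a : ∀ y ∈ M, ‖y‖ ≤ 1 → ‖opM (a y)‖ ≤ 1 / 2
  norm_b : ∀ y ∈ M, ‖y‖ ≤ 1 → ‖opM (b y)‖ ≤ 1 / 2
  /-- `‖a ζ - b ζ‖ ≤ ε` -/
  partner : ∀ y ∈ M, ‖y‖ ≤ 1 →
    ∑ i, ∑ j, ‖(Real.sqrt (om j) : ℂ) • a y i j ξ - (Real.sqrt (om i) : ℂ) • b y j i ξ‖ ^ 2 ≤ ε ^ 2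
  /-- `‖a* ζ - b* ζ‖ ≤ ε` -/
  partner_star : ∀ y ∈ M, ‖y‖ ≤ 1 →
    ∑ i, ∑ j, ‖(Real.sqrt (om j) : ℂ) • star (a y j i) ξ
      - (Real.sqrt (om i) : ℂ) • star (b y i j) ξ‖ ^ 2 ≤ ε ^ 2
  sum_inv : ∑ i, 1 / ((n : ℝ) * om i) ≤ K ^ 2
  /-- scalar recovery `⟨a(Y)(α ⊗ v₀), β ⊗ v₀⟩ = (1/2) ⟨Y α, β⟩ + O(κ)` -/
  recov : ∀ c : Fin m, ‖(1 / (n : ℂ)) * ∑ i, ∑ j, inner ℂ (B c ξ) (a (Y c) i j (A c ξ))
    - (1 / 2 : ℂ) * inner ℂ (B c ξ) (Y c (A c ξ))‖ ≤ κ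

/-- Unitary letters (input of the walk). Letters are pairs `(a, θ) : Fin m × Fin 4`, with weight
`μ a / 4` and phase `ph θ`; the involution is `(a, θ) ↦ (a, θ + 2)`.  The two legs are `ℂ^I`,
`T a θ` acts on leg 1 (entries in `M`), `S a θ` on leg 2 (entries in `M'`), `ζ = ξ ⊗ ζ₀`,
`k`, `k1` act on leg 2. -/
structure LetterSystem (M : VonNeumannAlgebra H) (ξ : H) {m : ℕ} (μ : Fin m → ℝ)
    (Y A B : Fin m → (H →L[ℂ] H)) (η : Fin m → H) (κ K ε : ℝ) where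
  I : Type
  [fI : Fintype I]
  [dI : DecidableEq I]
  ζ₀ : I × I → ℂ
  k : Matrix I I ℂ
  k1 : Matrix I I ℂ
  T : Fin m → Fin 4 → Matrix I I (H →L[ℂ] H)
  S : Fin m → Fin 4 → Matrix I I (H →L[ℂ] H)
  norm_ζ₀ : ∑ p, ‖ζ₀ p‖ ^ 2 = 1
  /-- Hilbert–Schmidt (hence operator) norm of `k`. -/
  norm_k : ∑ i, ∑ j, ‖k i j‖ ^ 2 ≤ K ^ 2
  norm_k1 : ∑ i, ∑ j, ‖k1 i j‖ ^ 2 ≤ K ^ 2
  norm_kζ₀ : ∑ p, ‖leg2c k ζ₀ p‖ ^ 2 = 1
  norm_k1ζ₀ : ∑ p, ‖leg2c k1 ζ₀ p‖ ^ 2 = 1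
  T_mem : ∀ a θ i j, T a θ i j ∈ M
  S_mem : ∀ a θ i j, S a θ i j ∈ M.commutant
  T_mul_star : ∀ a θ, T a θ * star (T a θ) = 1
  star_T_mul : ∀ a θ, star (T a θ) * T a θ = 1
  S_mul_star : ∀ a θ, S a θ * star (S a θ) = 1
  star_S_mul : ∀ a θ, star (S a θ) * S a θ = 1
  star_T : ∀ a θ, star (T a θ) = T a (θ + 2)
  star_S : ∀ a θ, star (S a θ) = S a (θ + 2)
  /-- (a) -/
  partner : ∀ a θ, ‖opM (leg1 (T a θ)) (opM (leg2 (S a θ)) (tv ξ ζ₀)) - tv ξ ζ₀‖ ≤ ε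
  /-- (b) `∑ μ_l ⟨h, c_l η_l⟩ T_l = 0` (physics convention), entrywise. -/
  relT : ∀ (h : H) (i j : I),
    ∑ a, ∑ θ, ((μ a : ℂ) * inner ℂ (ph θ • η a) h) • T a θ i j = 0
  /-- (c) `∑ μ_l c_l S_l η_l = 0`, entrywise. -/
  relS : ∀ (i j : I), ∑ a, ∑ θ, ((μ a : ℂ) * ph θ) • S a θ i j (η a) = 0
  /-- (d) -/
  value : ‖(∑ a, ∑ θ, ((μ a : ℂ) / 4) * inner ℂ (tv (B a ξ) (fun p => ph θ * leg2c k1 ζ₀ p))
      (opM (leg1 (T a θ)) (tv (A a ξ) (leg2c k ζ₀))))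
    - (1 / 2 : ℂ) * ∑ a, (μ a : ℂ) * inner ℂ (B a ξ) (Y a (A a ξ))‖ ≤ κ

attribute [instance] LetterSystem.fI LetterSystem.dI

end Crest.Agent.R078.S103.LSys
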