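import Mathlib
import Crest.Agent.R078.S103Halmos938
import Crest.Agent.R078.S103LSys938

/-!
# R78 / S0103, HAL-2 (helper938): `LetterOut → LetterSystem`.
-/

set_option autoImplicit false

open scoped ComplexConjugate

noncomputable section

namespace Crest.Agent.R078.S103.Hal2

open Crest.Agent.R078.S103.Halmos (hal halS star_hal hal_mul_star star_hal_mul star_halS
  commute_hal commute_halS norm_hal_sub_star_halS_le)
open Crest.Agent.R078.S103.Halmos (continuous_sqrt_one_sub)
open Crest.Agent.R078.S103.LSys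

universe u

section OpM

variable {H : Type u} [NormedAddCommGroup H] [InnerProductSpace ℂ H]
variable {J : Type*} [Fintype J]

theorem opM_ext {X Y : PiLp 2 (fun _ : J => H) →L[ℂ] PiLp 2 (fun _ : J => H)}
    (h : ∀ v i, X v i = Y v i) : X = Y := by
  ext v i
  exact h v i

theorem opM_mul (x y : Matrix J J (H →L[ℂ] H)) : opM (x * y) = opM x * opM y := by
  refine opM_ext fun v i => ?_
  change opM (x * y) v i = opM x (opM y v) i
  rw [opM_apply, opM_apply]
  simp only [Matrix.mul_apply, opM_apply, map_sum]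
  have h1 : ∀ j, (∑ k, x i k * y k j) (v j) = ∑ k, x i k (y k j (v j)) := by
    intro j
    rw [_root_.sum_apply]
    rfl
  simp only [h1]
  rw [Finset.sum_comm]

theorem opM_add (x y : Matrix J J (H →L[ℂ] H)) : opM (x + y) = opM x + opM y := by
  refine opM_ext fun v i => ?_
  change opM (x + y) v i = opM x v i + opM y v i
  rw [opM_apply, opM_apply, opM_apply, ← Finset.sum_add_distrib]
  rfl

theorem opM_smul (c : ℂ) (x : Matrix J J (H →L[ℂ] H)) : opM (c • x) = c • opM x := by
  refine opM_ext fun v i => ?_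
  change opM (c • x) v i = c • opM x v i
  rw [opM_apply, opM_apply, Finset.smul_sum]
  rfl

theorem opM_zero : opM (0 : Matrix J J (H →L[ℂ] H)) = 0 := by
  refine opM_ext fun v i => ?_
  rw [opM_apply]
  simp

theorem opM_one [DecidableEq J] : opM (1 : Matrix J J (H →L[ℂ] H)) = 1 := by
  refine opM_ext fun v i => ?_
  rw [opM_apply, Finset.sum_eq_single i]
  · simp
  · intro j _ hj
    rw [Matrix.one_apply_ne (Ne.symm hj)]
    simp
  · simp

theorem opM_star [CompleteSpace H] (x : Matrix J J (H →L[ℂ] H)) :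
    opM (star x) = star (opM x) := by
  rw [ContinuousLinearMap.star_eq_adjoint, ContinuousLinearMap.eq_adjoint_iff]
  intro v w
  rw [PiLp.inner_apply, PiLp.inner_apply]
  simp only [opM_apply, sum_inner, inner_sum, Matrix.star_apply,
    ContinuousLinearMap.star_eq_adjoint, ContinuousLinearMap.adjoint_inner_left]
  exact Finset.sum_comm

variable [DecidableEq J]

/-- coordinate injection `H → H^J`. -/
def inj (j : J) : H →L[ℂ] PiLp 2 (fun _ : J => H) :=
  (PiLp.continuousLinearEquiv 2 ℂ (fun _ : J => H)).symm.toContinuousLinearMap ∘L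
    ContinuousLinearMap.single ℂ (fun _ : J => H) j

omit [Fintype J] in
theorem inj_apply [Fintype J] (j : J) (x : H) (i : J) : inj j x i = if i = j then x else 0 := by
  simp [inj, Pi.single_apply]

theorem sum_inj (v : PiLp 2 (fun _ : J => H)) : ∑ j, inj j (v j) = v := by
  ext i
  rw [WithLp.ofLp_sum, Finset.sum_apply]
  simp only [inj_apply]
  simp

/-- matrix of an operator on `H^J`. -/
def mat (X : PiLp 2 (fun _ : J => H) →L[ℂ] PiLp 2 (fun _ : J => H)) : Matrix J J (H →L[ℂ] H) :=
  fun i j => (PiLp.proj 2 (fun _ : J => H) i) ∘L X ∘L inj j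

theorem mat_apply (X : PiLp 2 (fun _ : J => H) →L[ℂ] PiLp 2 (fun _ : J => H)) (i j : J) (x : H) :
    mat X i j x = X (inj j x) i := by
  simp [mat]

theorem opM_mat (X : PiLp 2 (fun _ : J => H) →L[ℂ] PiLp 2 (fun _ : J => H)) :
    opM (mat X) = X := by
  refine opM_ext fun v i => ?_
  rw [opM_apply]
  simp only [mat_apply]
  conv_rhs => rw [← sum_inj v, map_sum, WithLp.ofLp_sum, Finset.sum_apply]

theorem mat_opM (x : Matrix J J (H →L[ℂ] H)) : mat (opM x) = x := by
  ext i j w
  rw [mat_apply, opM_apply]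
  simp only [inj_apply]
  rw [Finset.sum_eq_single j]
  · simp
  · intro k _ hk
    simp [hk]
  · simp

theorem opM_injective : Function.Injective
    (opM : Matrix J J (H →L[ℂ] H) → _) := fun x y h => by
  rw [← mat_opM x, h, mat_opM]

theorem mat_injective : Function.Injective
    (mat : (PiLp 2 (fun _ : J => H) →L[ℂ] PiLp 2 (fun _ : J => H)) → _) := fun x y h => by
  rw [← opM_mat x, h, opM_mat]

theorem mat_mul (X Y : PiLp 2 (fun _ : J => H) →L[ℂ] PiLp 2 (fun _ : J => H)) :
    mat (X * Y) = mat X * mat Y := by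
  apply opM_injective
  rw [opM_mat, opM_mul, opM_mat, opM_mat]

theorem mat_add (X Y : PiLp 2 (fun _ : J => H) →L[ℂ] PiLp 2 (fun _ : J => H)) :
    mat (X + Y) = mat X + mat Y := by
  apply opM_injective
  rw [opM_mat, opM_add, opM_mat, opM_mat]

theorem mat_smul (c : ℂ) (X : PiLp 2 (fun _ : J => H) →L[ℂ] PiLp 2 (fun _ : J => H)) :
    mat (c • X) = c • mat X := by
  apply opM_injective
  rw [opM_mat, opM_smul, opM_mat]

theorem mat_zero : mat (0 : PiLp 2 (fun _ : J => H) →L[ℂ] PiLp 2 (fun _ : J => H)) = 0 := by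
  apply opM_injective
  rw [opM_mat, opM_zero]

theorem mat_one : mat (1 : PiLp 2 (fun _ : J => H) →L[ℂ] PiLp 2 (fun _ : J => H)) = 1 := by
  apply opM_injective
  rw [opM_mat, opM_one]

theorem mat_star [CompleteSpace H] (X : PiLp 2 (fun _ : J => H) →L[ℂ] PiLp 2 (fun _ : J => H)) :
    mat (star X) = star (mat X) := by
  apply opM_injective
  rw [opM_mat, opM_star, opM_mat]

theorem mat_sum {ι : Type*} (s : Finset ι)
    (X : ι → PiLp 2 (fun _ : J => H) →L[ℂ] PiLp 2 (fun _ : J => H)) :
    mat (∑ i ∈ s, X i) = ∑ i ∈ s, mat (X i) := by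
  classical
  induction s using Finset.induction_on with
  | empty => simp [mat_zero]
  | insert a s ha ih => rw [Finset.sum_insert ha, Finset.sum_insert ha, mat_add, ih]

/-- diagonal operator. -/
def diagM (y : H →L[ℂ] H) : PiLp 2 (fun _ : J => H) →L[ℂ] PiLp 2 (fun _ : J => H) :=
  opM (Matrix.diagonal fun _ => y)

theorem commute_diagM_iff (X : PiLp 2 (fun _ : J => H) →L[ℂ] PiLp 2 (fun _ : J => H))
    (y : H →L[ℂ] H) : Commute X (diagM y) ↔ ∀ i j, Commute (mat X i j) y := by
  constructor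
  · intro h i j
    have h1 := congrArg mat h.eq
    rw [mat_mul, mat_mul, diagM, mat_opM] at h1
    have h2 := congrFun (congrFun h1 i) j
    rw [Matrix.mul_diagonal, Matrix.diagonal_mul] at h2
    exact h2
  · intro h
    apply mat_injective
    rw [mat_mul, mat_mul, diagM, mat_opM]
    refine Matrix.ext fun i j => ?_
    rw [Matrix.mul_diagonal, Matrix.diagonal_mul]
    exact (h i j).eq

end OpM

section Legs

variable {H : Type u} [NormedAddCommGroup H] [InnerProductSpace ℂ H]
variable {I : Type*} [Fintype I] [DecidableEq I]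

theorem leg1_mul (x y : Matrix I I (H →L[ℂ] H)) : leg1 (x * y) = leg1 x * leg1 y := by
  ext p q : 2
  simp only [leg1, Matrix.mul_apply]
  rw [Fintype.sum_prod_type_right]
  simp only [ite_mul, zero_mul, mul_ite, mul_zero]
  by_cases h : p.2 = q.2
  · simp [h]
  · simp [h]

theorem leg2_mul (x y : Matrix I I (H →L[ℂ] H)) : leg2 (x * y) = leg2 x * leg2 y := by
  ext p q : 2
  simp only [leg2, Matrix.mul_apply]
  rw [Fintype.sum_prod_type]
  simp only [ite_mul, zero_mul, mul_ite, mul_zero]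
  by_cases h : p.1 = q.1
  · simp [h]
  · simp [h]

omit [Fintype I] in
theorem leg1_one : leg1 (1 : Matrix I I (H →L[ℂ] H)) = 1 := by
  ext p q : 2
  simp only [leg1, Matrix.one_apply, Prod.ext_iff]
  by_cases h : p.2 = q.2 <;> simp [h]

omit [Fintype I] in
theorem leg2_one : leg2 (1 : Matrix I I (H →L[ℂ] H)) = 1 := by
  ext p q : 2
  simp only [leg2, Matrix.one_apply, Prod.ext_iff]
  by_cases h : p.1 = q.1 <;> simp [h]

omit [Fintype I] in
theorem leg1_add (x y : Matrix I I (H →L[ℂ] H)) : leg1 (x + y) = leg1 x + leg1 y := by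
  ext p q : 2
  simp only [leg1, Matrix.add_apply]
  by_cases h : p.2 = q.2 <;> simp [h]

omit [Fintype I] in
theorem leg2_add (x y : Matrix I I (H →L[ℂ] H)) : leg2 (x + y) = leg2 x + leg2 y := by
  ext p q : 2
  simp only [leg2, Matrix.add_apply]
  by_cases h : p.1 = q.1 <;> simp [h]

omit [Fintype I] in
theorem leg1_smul (c : ℂ) (x : Matrix I I (H →L[ℂ] H)) : leg1 (c • x) = c • leg1 x := by
  ext p q : 2
  simp only [leg1, Matrix.smul_apply]
  by_cases h : p.2 = q.2 <;> simp [h]

omit [Fintype I] in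
theorem leg2_smul (c : ℂ) (x : Matrix I I (H →L[ℂ] H)) : leg2 (c • x) = c • leg2 x := by
  ext p q : 2
  simp only [leg2, Matrix.smul_apply]
  by_cases h : p.1 = q.1 <;> simp [h]

omit [Fintype I] in
theorem leg1_star [CompleteSpace H] (x : Matrix I I (H →L[ℂ] H)) :
    leg1 (star x) = star (leg1 x) := by
  ext p q : 2
  simp only [leg1, Matrix.star_apply]
  by_cases h : p.2 = q.2
  · simp [h]
  · simp [h, Ne.symm h]

omit [Fintype I] in
theorem leg2_star [CompleteSpace H] (x : Matrix I I (H →L[ℂ] H)) :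
    leg2 (star x) = star (leg2 x) := by
  ext p q : 2
  simp only [leg2, Matrix.star_apply]
  by_cases h : p.1 = q.1
  · simp [h]
  · simp [h, Ne.symm h]

theorem leg1_leg2_comm (x y : Matrix I I (H →L[ℂ] H))
    (h : ∀ i j k l, Commute (x i j) (y k l)) : leg1 x * leg2 y = leg2 y * leg1 x := by
  ext p q : 2
  rw [Matrix.mul_apply, Matrix.mul_apply]
  rw [Finset.sum_eq_single (q.1, p.2), Finset.sum_eq_single (p.1, q.2)]
  · simp [leg1, leg2, (h _ _ _ _).eq]
  · rintro ⟨a, b⟩ _ hab
    by_cases h1 : b = q.2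
    · by_cases h2 : p.1 = a
      · subst h1 h2; exact absurd rfl hab
      · simp [leg1, leg2, h2]
    · simp [leg1, leg2, h1]
  · simp
  · rintro ⟨a, b⟩ _ hab
    by_cases h1 : a = q.1
    · by_cases h2 : p.2 = b
      · subst h1 h2; exact absurd rfl hab
      · simp [leg1, leg2, h2]
    · simp [leg1, leg2, h1]
  · simp

variable [CompleteSpace H]

/-- the ampliation to leg 1, as a *-homomorphism. -/
def L1 : (PiLp 2 (fun _ : I => H) →L[ℂ] PiLp 2 (fun _ : I => H)) →⋆ₐ[ℂ]
    (PiLp 2 (fun _ : I × I => H) →L[ℂ] PiLp 2 (fun _ : I × I => H)) where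
  toFun X := opM (leg1 (mat X))
  map_one' := by rw [mat_one, leg1_one, opM_one]
  map_mul' X Y := by rw [mat_mul, leg1_mul, opM_mul]
  map_zero' := by
    rw [mat_zero]
    have : leg1 (0 : Matrix I I (H →L[ℂ] H)) = 0 := by
      have := leg1_smul (0 : ℂ) (0 : Matrix I I (H →L[ℂ] H))
      rwa [zero_smul, zero_smul] at this
    rw [this, opM_zero]
  map_add' X Y := by rw [mat_add, leg1_add, opM_add]
  commutes' c := by
    rw [Algebra.algebraMap_eq_smul_one, mat_smul, mat_one, leg1_smul, leg1_one, opM_smul, opM_one,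
      Algebra.algebraMap_eq_smul_one]
  map_star' X := by rw [mat_star, leg1_star, opM_star]

/-- the ampliation to leg 2, as a *-homomorphism. -/
def L2 : (PiLp 2 (fun _ : I => H) →L[ℂ] PiLp 2 (fun _ : I => H)) →⋆ₐ[ℂ]
    (PiLp 2 (fun _ : I × I => H) →L[ℂ] PiLp 2 (fun _ : I × I => H)) where
  toFun X := opM (leg2 (mat X))
  map_one' := by rw [mat_one, leg2_one, opM_one]
  map_mul' X Y := by rw [mat_mul, leg2_mul, opM_mul]
  map_zero' := by
    rw [mat_zero]
    have : leg2 (0 : Matrix I I (H →L[ℂ] H)) = 0 := by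
      have := leg2_smul (0 : ℂ) (0 : Matrix I I (H →L[ℂ] H))
      rwa [zero_smul, zero_smul] at this
    rw [this, opM_zero]
  map_add' X Y := by rw [mat_add, leg2_add, opM_add]
  commutes' c := by
    rw [Algebra.algebraMap_eq_smul_one, mat_smul, mat_one, leg2_smul, leg2_one, opM_smul, opM_one,
      Algebra.algebraMap_eq_smul_one]
  map_star' X := by rw [mat_star, leg2_star, opM_star]

theorem L1_apply (X : PiLp 2 (fun _ : I => H) →L[ℂ] PiLp 2 (fun _ : I => H)) :
    L1 (H := H) (I := I) X = opM (leg1 (mat X)) := rfl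

theorem L2_apply (X : PiLp 2 (fun _ : I => H) →L[ℂ] PiLp 2 (fun _ : I => H)) :
    L2 (H := H) (I := I) X = opM (leg2 (mat X)) := rfl

/-- *-homomorphisms between C*-algebras commute with `hal`. -/
theorem map_hal {B C : Type*} [CStarAlgebra B] [CStarAlgebra C] (φ : B →⋆ₐ[ℂ] C) (a : B) (c : ℂ)
    (i j : Fin 2) : φ (hal a c i j) = hal (φ a) c i j := by
  have hφ : Continuous φ :=
    AddMonoidHomClass.continuous_of_bound φ 1
      (by simpa only [one_mul] using NonUnitalStarAlgHom.norm_apply_le φ)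
  have key : ∀ x : B, IsSelfAdjoint x → φ (Halmos.sq x) = Halmos.sq (φ x) := by
    intro x hx
    unfold Halmos.sq
    exact StarAlgHomClass.map_cfc φ (fun t : ℝ => Real.sqrt (1 - t)) x
      continuous_sqrt_one_sub.continuousOn hφ hx (hx.map φ)
  fin_cases i <;> fin_cases j
  · change φ (Halmos.sq (a * star a)) = Halmos.sq (φ a * star (φ a))
    rw [key _ (IsSelfAdjoint.mul_star_self a), map_mul, map_star]
  · change φ (c • a) = c • φ a
    rw [map_smul]
  · change φ (-(conj c • star a)) = -(conj c • star (φ a))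
    rw [map_neg, map_smul, map_star]
  · change φ (Halmos.sq (star a * a)) = Halmos.sq (star (φ a) * φ a)
    rw [key _ (IsSelfAdjoint.star_mul_self a), map_mul, map_star]

end Legs

section FromHal

variable {H : Type u} [NormedAddCommGroup H] [InnerProductSpace ℂ H] [CompleteSpace H]
variable {n : ℕ}

/-- a `2 × 2` matrix over `B(H^n)` as a matrix over `B(H)` indexed by `Fin n × Fin 2`. -/
def fH (h : Matrix (Fin 2) (Fin 2)
    (PiLp 2 (fun _ : Fin n => H) →L[ℂ] PiLp 2 (fun _ : Fin n => H))) :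
    Matrix (Fin n × Fin 2) (Fin n × Fin 2) (H →L[ℂ] H) :=
  fun p q => mat (h p.2 q.2) p.1 q.1

theorem fH_mul (h g : Matrix (Fin 2) (Fin 2)
    (PiLp 2 (fun _ : Fin n => H) →L[ℂ] PiLp 2 (fun _ : Fin n => H))) :
    fH (h * g) = fH h * fH g := by
  refine Matrix.ext fun p q => ?_
  change mat ((h * g) p.2 q.2) p.1 q.1 = _
  rw [Matrix.mul_apply, Matrix.mul_apply, mat_sum, Fintype.sum_prod_type_right, Matrix.sum_apply]
  refine Finset.sum_congr rfl fun s _ => ?_
  rw [mat_mul, Matrix.mul_apply]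
  rfl

theorem fH_one : fH (1 : Matrix (Fin 2) (Fin 2)
    (PiLp 2 (fun _ : Fin n => H) →L[ℂ] PiLp 2 (fun _ : Fin n => H))) = 1 := by
  refine Matrix.ext fun p q => ?_
  change mat ((1 : Matrix (Fin 2) (Fin 2) _) p.2 q.2) p.1 q.1 = _
  obtain ⟨i, s⟩ := p
  obtain ⟨j, t⟩ := q
  rw [Matrix.one_apply, Matrix.one_apply]
  by_cases h : s = t
  · subst h
    simp [mat_one, Matrix.one_apply]
  · simp [h, mat_zero]

theorem fH_star (h : Matrix (Fin 2) (Fin 2)
    (PiLp 2 (fun _ : Fin n => H) →L[ℂ] PiLp 2 (fun _ : Fin n => H))) :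
    fH (star h) = star (fH h) := by
  refine Matrix.ext fun p q => ?_
  change mat (star (h q.2 p.2)) p.1 q.1 = star (mat (h q.2 p.2) q.1 p.1)
  rw [mat_star, Matrix.star_apply]

end FromHal

section Vec

variable {H : Type u} [NormedAddCommGroup H] [InnerProductSpace ℂ H]
variable {I : Type*} [Fintype I] [DecidableEq I]

/-- diagonal coefficient vector. -/
def zd (f : I → ℂ) : I × I → ℂ := fun p => if p.1 = p.2 then f p.1 else 0

theorem leg1_zd (x : Matrix I I (H →L[ℂ] H)) (ξ : H) (f : I → ℂ) (p : I × I) :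
    opM (leg1 x) (tv ξ (zd f)) p = f p.2 • x p.1 p.2 ξ := by
  rw [opM_apply, Finset.sum_eq_single (p.2, p.2)]
  · simp [leg1, zd]
  · rintro ⟨a, b⟩ _ hab
    by_cases h1 : p.2 = b
    · by_cases h2 : a = b
      · subst h1 h2; exact absurd rfl hab
      · simp [zd, h2]
    · simp [leg1, h1]
  · simp

theorem leg2_zd (x : Matrix I I (H →L[ℂ] H)) (ξ : H) (f : I → ℂ) (p : I × I) :
    opM (leg2 x) (tv ξ (zd f)) p = f p.1 • x p.2 p.1 ξ := by
  rw [opM_apply, Finset.sum_eq_single (p.1, p.1)]
  · simp [leg2, zd]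
  · rintro ⟨a, b⟩ _ hab
    by_cases h1 : p.1 = a
    · by_cases h2 : a = b
      · subst h1 h2; exact absurd rfl hab
      · simp [zd, h2]
    · simp [leg2, h1]
  · simp

end Vec

section Mem

variable {H : Type u} [NormedAddCommGroup H] [InnerProductSpace ℂ H] [CompleteSpace H]

theorem mem_of_commute (M : VonNeumannAlgebra H) (x : H →L[ℂ] H)
    (h : ∀ y ∈ M.commutant, Commute x y) : x ∈ M := by
  rw [← M.commutant_commutant, VonNeumannAlgebra.mem_commutant_iff]
  intro g hg
  exact (h g hg).eq.symm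

theorem mem_commutant_of_commute (M : VonNeumannAlgebra H) (x : H →L[ℂ] H)
    (h : ∀ y ∈ M, Commute x y) : x ∈ M.commutant := by
  rw [VonNeumannAlgebra.mem_commutant_iff]
  intro g hg
  exact (h g hg).eq.symm

theorem commute_of_mem (M : VonNeumannAlgebra H) {x y : H →L[ℂ] H} (hx : x ∈ M)
    (hy : y ∈ M.commutant) : Commute x y := by
  rw [VonNeumannAlgebra.mem_commutant_iff] at hy
  exact hy x hx

end Mem

end Crest.Agent.R078.S103.Hal2
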