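import Mathlib
import Crest.Agent.R078.S103Hal2_938

/-!
# R78 / S0103, HAL-2 (helper938): `LetterOut → LetterSystem`, the theorem.
-/

set_option autoImplicit false

open scoped ComplexConjugate

noncomputable section

namespace Crest.Agent.R078.S103.Hal3

open Crest.Agent.R078.S103.Halmos (hal halS star_hal hal_mul_star star_hal_mul star_halS
  commute_hal commute_halS norm_hal_sub_star_halS_le norm_ph ph_add_two sum_conj_ph_smul_hal
  sum_ph_smul_halS conj_mul_ph)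
open Crest.Agent.R078.S103.LSys
open Crest.Agent.R078.S103.Hal2

universe u

variable {H : Type u} [NormedAddCommGroup H] [InnerProductSpace ℂ H] [CompleteSpace H]

theorem ph_eq : (Halmos.ph : Fin 4 → ℂ) = LSys.ph := rfl

/-- `∑ μ_a X_a^* η_a = 0` for a linear image `X_a` of `Y_a`. -/
theorem sum_star_apply_eq_zero {m : ℕ} (μ : Fin m → ℝ) (X : Fin m → (H →L[ℂ] H)) (η : Fin m → H)
    (h : ∀ e : H, ∑ a, ((μ a : ℂ) * inner ℂ (η a) e) • X a = 0) :
    ∑ a, (μ a : ℂ) • star (X a) (η a) = 0 := by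
  classical
  let V : Submodule ℂ H := Submodule.span ℂ (Set.range η)
  have : FiniteDimensional ℂ V := FiniteDimensional.span_of_finite ℂ (Set.finite_range η)
  let e := stdOrthonormalBasis ℂ V
  have hη : ∀ a, η a = ∑ k, (inner ℂ ((e k : V) : H) (η a) : ℂ) • ((e k : V) : H) := by
    intro a
    have hm : η a ∈ V := Submodule.subset_span ⟨a, rfl⟩
    have h1 := e.sum_repr' ⟨η a, hm⟩
    have h2 := congrArg (fun v : V => (v : H)) h1
    simp only [Submodule.coe_sum, Submodule.coe_smul, Submodule.coe_inner] at h2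
    exact h2.symm
  have h1 : ∀ a, (μ a : ℂ) • star (X a) (η a)
      = ∑ k, ((μ a : ℂ) * inner ℂ ((e k : V) : H) (η a)) • star (X a) ((e k : V) : H) := by
    intro a
    conv_lhs => rw [hη a]
    rw [map_sum, Finset.smul_sum]
    refine Finset.sum_congr rfl fun k _ => ?_
    rw [map_smul, smul_smul]
  simp only [h1]
  rw [Finset.sum_comm]
  refine Finset.sum_eq_zero fun k _ => ?_
  have h2 := congrArg star (h ((e k : V) : H))
  rw [star_sum, star_zero] at h2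
  have h3 := congrArg (fun Z : H →L[ℂ] H => Z ((e k : V) : H)) h2
  simp only [star_smul] at h3
  rw [_root_.sum_apply] at h3
  rw [← h3.trans (by simp : (0 : H →L[ℂ] H) ((e k : V) : H) = 0)]
  refine Finset.sum_congr rfl fun a _ => ?_
  have h4 : star ((μ a : ℂ) * inner ℂ (η a) ((e k : V) : H))
      = (μ a : ℂ) * inner ℂ ((e k : V) : H) (η a) := by
    rw [star_mul', Complex.star_def, Complex.conj_ofReal, inner_conj_symm]
  rw [h4]
  rfl

section Main

variable (M : VonNeumannAlgebra H) (ξ : H) {m : ℕ} (Y A B : Fin m → (H →L[ℂ] H)) {κ K ε : ℝ}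

/-- the `M`-side letter matrix. -/
def TT (o : LetterOut M ξ Y A B κ K ε) (a : Fin m) (θ : Fin 4) :
    Matrix (Fin o.n × Fin 2) (Fin o.n × Fin 2) (H →L[ℂ] H) :=
  fH (hal (opM (o.a (Y a))) (LSys.ph θ))

/-- the `M'`-side letter matrix. -/
def SS (o : LetterOut M ξ Y A B κ K ε) (a : Fin m) (θ : Fin 4) :
    Matrix (Fin o.n × Fin 2) (Fin o.n × Fin 2) (H →L[ℂ] H) :=
  fH (halS (opM (o.b (Y a))) (LSys.ph θ))

theorem norm_ph' (θ : Fin 4) : ‖LSys.ph θ‖ = 1 := norm_ph θ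

theorem ph_add_two' (θ : Fin 4) : LSys.ph (θ + 2) = - LSys.ph θ := ph_add_two θ

variable {M ξ Y A B}

theorem star_TT (o : LetterOut M ξ Y A B κ K ε) (a : Fin m) (θ : Fin 4) :
    star (TT M ξ Y A B o a θ) = TT M ξ Y A B o a (θ + 2) := by
  unfold TT
  rw [← fH_star, star_hal, ph_add_two']

theorem star_SS (o : LetterOut M ξ Y A B κ K ε) (a : Fin m) (θ : Fin 4) :
    star (SS M ξ Y A B o a θ) = SS M ξ Y A B o a (θ + 2) := by
  unfold SS
  rw [← fH_star, star_halS, ph_add_two']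

theorem TT_mul_star (o : LetterOut M ξ Y A B κ K ε) (hY : ∀ a, Y a ∈ M) (hY1 : ∀ a, ‖Y a‖ ≤ 1)
    (a : Fin m) (θ : Fin 4) : TT M ξ Y A B o a θ * star (TT M ξ Y A B o a θ) = 1 := by
  unfold TT
  rw [← fH_star, ← fH_mul, hal_mul_star _ ((o.norm_a _ (hY a) (hY1 a)).trans (by norm_num)) _
    (norm_ph' θ), fH_one]

theorem star_TT_mul (o : LetterOut M ξ Y A B κ K ε) (hY : ∀ a, Y a ∈ M) (hY1 : ∀ a, ‖Y a‖ ≤ 1)
    (a : Fin m) (θ : Fin 4) : star (TT M ξ Y A B o a θ) * TT M ξ Y A B o a θ = 1 := by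
  unfold TT
  rw [← fH_star, ← fH_mul, star_hal_mul _ ((o.norm_a _ (hY a) (hY1 a)).trans (by norm_num)) _
    (norm_ph' θ), fH_one]

theorem SS_mul_star (o : LetterOut M ξ Y A B κ K ε) (hY : ∀ a, Y a ∈ M) (hY1 : ∀ a, ‖Y a‖ ≤ 1)
    (a : Fin m) (θ : Fin 4) : SS M ξ Y A B o a θ * star (SS M ξ Y A B o a θ) = 1 := by
  unfold SS
  rw [← fH_star, ← fH_mul, (Halmos.halS_mem_unitary _
    ((o.norm_b _ (hY a) (hY1 a)).trans (by norm_num)) _ (norm_ph' θ)).2, fH_one]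

theorem star_SS_mul (o : LetterOut M ξ Y A B κ K ε) (hY : ∀ a, Y a ∈ M) (hY1 : ∀ a, ‖Y a‖ ≤ 1)
    (a : Fin m) (θ : Fin 4) : star (SS M ξ Y A B o a θ) * SS M ξ Y A B o a θ = 1 := by
  unfold SS
  rw [← fH_star, ← fH_mul, (Halmos.halS_mem_unitary _
    ((o.norm_b _ (hY a) (hY1 a)).trans (by norm_num)) _ (norm_ph' θ)).1, fH_one]

theorem TT_mem (o : LetterOut M ξ Y A B κ K ε) (hY : ∀ a, Y a ∈ M) (a : Fin m) (θ : Fin 4)
    (p q : Fin o.n × Fin 2) : TT M ξ Y A B o a θ p q ∈ M := by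
  refine mem_of_commute M _ fun y hy => ?_
  have h1 : Commute (opM (o.a (Y a))) (diagM y) := by
    rw [commute_diagM_iff]
    intro i j
    rw [mat_opM]
    exact commute_of_mem M (o.a_mem _ (hY a) i j) hy
  have h2 : Commute (star (opM (o.a (Y a)))) (diagM y) := by
    rw [← opM_star, commute_diagM_iff]
    intro i j
    rw [mat_opM]
    exact commute_of_mem M (star_mem (o.a_mem _ (hY a) j i)) hy
  have h3 := commute_hal h1 h2 (LSys.ph θ) p.2 q.2
  rw [commute_diagM_iff] at h3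
  exact h3 p.1 q.1

theorem SS_mem (o : LetterOut M ξ Y A B κ K ε) (hY : ∀ a, Y a ∈ M) (a : Fin m) (θ : Fin 4)
    (p q : Fin o.n × Fin 2) : SS M ξ Y A B o a θ p q ∈ M.commutant := by
  refine mem_commutant_of_commute M _ fun y hy => ?_
  have h1 : Commute (opM (o.b (Y a))) (diagM y) := by
    rw [commute_diagM_iff]
    intro i j
    rw [mat_opM]
    exact (commute_of_mem M hy (o.b_mem _ (hY a) i j)).symm
  have h2 : Commute (star (opM (o.b (Y a)))) (diagM y) := by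
    rw [← opM_star, commute_diagM_iff]
    intro i j
    rw [mat_opM]
    exact (commute_of_mem M hy (star_mem (o.b_mem _ (hY a) j i))).symm
  have h3 := commute_halS h1 h2 (LSys.ph θ) p.2 q.2
  rw [commute_diagM_iff] at h3
  exact h3 p.1 q.1

/-- the diagonal coefficients of `ζ₀` -/
def fz (o : LetterOut M ξ Y A B κ K ε) (p : Fin o.n × Fin 2) : ℂ :=
  ((Real.sqrt (o.om p.1) / Real.sqrt 2 : ℝ) : ℂ)

/-- the entrywise partner estimate on `H^(n×n)`. -/
theorem entry_partner (o : LetterOut M ξ Y A B κ K ε) (hε : 0 ≤ ε) (hY : ∀ a, Y a ∈ M)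
    (hY1 : ∀ a, ‖Y a‖ ≤ 1) (a : Fin m) (θ : Fin 4) (s t : Fin 2) :
    ∑ i, ∑ j, ‖((Real.sqrt (o.om j) : ℝ) : ℂ) • mat (hal (opM (o.a (Y a))) (LSys.ph θ) s t) i j ξ
      - ((Real.sqrt (o.om i) : ℝ) : ℂ) •
        star (mat (halS (opM (o.b (Y a))) (LSys.ph θ) s t) i j) ξ‖ ^ 2 ≤ ε ^ 2 := by
  set hA := opM (o.a (Y a)) with hAdef
  set hB := opM (o.b (Y a)) with hBdef
  let g : Fin o.n → ℂ := fun i => ((Real.sqrt (o.om i) : ℝ) : ℂ)
  let ζ : PiLp 2 (fun _ : Fin o.n × Fin o.n => H) := tv ξ (zd g)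
  have hA1 : ‖(L1 (H := H) (I := Fin o.n) hA)‖ ≤ 1 / 2 :=
    (NonUnitalStarAlgHom.norm_apply_le _ _).trans (o.norm_a _ (hY a) (hY1 a))
  have hB1 : ‖(L2 (H := H) (I := Fin o.n) hB)‖ ≤ 1 / 2 :=
    (NonUnitalStarAlgHom.norm_apply_le _ _).trans (o.norm_b _ (hY a) (hY1 a))
  have c1 : Commute (L1 (H := H) (I := Fin o.n) hA) (L2 (H := H) (I := Fin o.n) hB) := by
    rw [L1_apply, L2_apply, commute_iff_eq, ← opM_mul, ← opM_mul, leg1_leg2_comm]
    intro i j k l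
    rw [hAdef, hBdef, mat_opM, mat_opM]
    exact commute_of_mem M (o.a_mem _ (hY a) i j) (o.b_mem _ (hY a) k l)
  have c2 : Commute (L1 (H := H) (I := Fin o.n) hA) (star (L2 (H := H) (I := Fin o.n) hB)) := by
    rw [← map_star, L1_apply, L2_apply, commute_iff_eq, ← opM_mul, ← opM_mul, leg1_leg2_comm]
    intro i j k l
    rw [hAdef, hBdef, mat_star, mat_opM, mat_opM]
    exact commute_of_mem M (o.a_mem _ (hY a) i j) (star_mem (o.b_mem _ (hY a) l k))
  have e1 : ‖L1 (H := H) (I := Fin o.n) hA ζ - L2 (H := H) (I := Fin o.n) hB ζ‖ ≤ ε := by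
    refine le_of_sq_le_sq ?_ hε
    rw [PiLp.norm_sq_eq_of_L2, Fintype.sum_prod_type]
    refine le_trans (le_of_eq ?_) (o.partner _ (hY a) (hY1 a))
    refine Finset.sum_congr rfl fun i _ => Finset.sum_congr rfl fun j _ => ?_
    rw [PiLp.sub_apply, L1_apply, L2_apply, leg1_zd, leg2_zd, hAdef, hBdef, mat_opM, mat_opM]
  have e2 : ‖star (L1 (H := H) (I := Fin o.n) hA) ζ - star (L2 (H := H) (I := Fin o.n) hB) ζ‖
      ≤ ε := by
    refine le_of_sq_le_sq ?_ hε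
    rw [PiLp.norm_sq_eq_of_L2, Fintype.sum_prod_type]
    refine le_trans (le_of_eq ?_) (o.partner_star _ (hY a) (hY1 a))
    refine Finset.sum_congr rfl fun i _ => Finset.sum_congr rfl fun j _ => ?_
    rw [PiLp.sub_apply, ← map_star, ← map_star, L1_apply, L2_apply, leg1_zd, leg2_zd, mat_star,
      mat_star, hAdef, hBdef, mat_opM, mat_opM]
    rfl
  have e3 := norm_hal_sub_star_halS_le _ _ hA1 hB1 c1 c2 ζ ε e1 e2 (LSys.ph θ) (norm_ph' θ) s t
  have e4 : ‖hal (L1 (H := H) (I := Fin o.n) hA) (LSys.ph θ) s t ζ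
      - star (halS (L2 (H := H) (I := Fin o.n) hB) (LSys.ph θ) s t) ζ‖ ^ 2 ≤ ε ^ 2 :=
    pow_le_pow_left₀ (norm_nonneg _) e3 2
  refine le_trans (le_of_eq ?_) e4
  rw [PiLp.norm_sq_eq_of_L2, Fintype.sum_prod_type]
  refine Finset.sum_congr rfl fun i _ => Finset.sum_congr rfl fun j _ => ?_
  have e5 : halS (L2 (H := H) (I := Fin o.n) hB) (LSys.ph θ) s t
      = L2 (H := H) (I := Fin o.n) (halS hB (LSys.ph θ) s t) := by
    unfold Halmos.halS
    rw [map_hal, map_star]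
  rw [← map_hal, e5, ← map_star, PiLp.sub_apply, L1_apply, L2_apply, leg1_zd, leg2_zd, mat_star]
  rfl

theorem sqrt_sq_coe {x : ℝ} (hx : 0 ≤ x) :
    ((Real.sqrt x : ℝ) : ℂ) * ((Real.sqrt x : ℝ) : ℂ) = (x : ℂ) := by
  rw [← Complex.ofReal_mul, Real.mul_self_sqrt hx]

/-- partner estimate for the letter matrices. -/
theorem TT_SS_partner (o : LetterOut M ξ Y A B κ K ε) (hε : 0 ≤ ε) (hY : ∀ a, Y a ∈ M)
    (hY1 : ∀ a, ‖Y a‖ ≤ 1) (a : Fin m) (θ : Fin 4) :
    ‖opM (leg1 (TT M ξ Y A B o a θ)) (tv ξ (zd (fz o)))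
      - opM (leg2 (star (SS M ξ Y A B o a θ))) (tv ξ (zd (fz o)))‖ ≤ 2 * ε := by
  refine le_of_sq_le_sq ?_ (by positivity)
  rw [PiLp.norm_sq_eq_of_L2, Fintype.sum_prod_type]
  have h1 : ∀ p q : Fin o.n × Fin 2,
      ‖(opM (leg1 (TT M ξ Y A B o a θ)) (tv ξ (zd (fz o)))
        - opM (leg2 (star (SS M ξ Y A B o a θ))) (tv ξ (zd (fz o)))).ofLp (p, q)‖ ^ 2
      = (1 / 2) * ‖((Real.sqrt (o.om q.1) : ℝ) : ℂ) •
          mat (hal (opM (o.a (Y a))) (LSys.ph θ) p.2 q.2) p.1 q.1 ξ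
        - ((Real.sqrt (o.om p.1) : ℝ) : ℂ) •
          star (mat (halS (opM (o.b (Y a))) (LSys.ph θ) p.2 q.2) p.1 q.1) ξ‖ ^ 2 := by
    intro p q
    rw [PiLp.sub_apply, leg1_zd, leg2_zd]
    have e : fz o (p, q).2 • (TT M ξ Y A B o a θ) (p, q).1 (p, q).2 ξ
        - fz o (p, q).1 • (star (SS M ξ Y A B o a θ)) (p, q).2 (p, q).1 ξ
        = (((Real.sqrt 2)⁻¹ : ℝ) : ℂ) • (((Real.sqrt (o.om q.1) : ℝ) : ℂ) •
          mat (hal (opM (o.a (Y a))) (LSys.ph θ) p.2 q.2) p.1 q.1 ξ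
        - ((Real.sqrt (o.om p.1) : ℝ) : ℂ) •
          star (mat (halS (opM (o.b (Y a))) (LSys.ph θ) p.2 q.2) p.1 q.1) ξ) := by
      rw [smul_sub, smul_smul, smul_smul]
      have f1 : ∀ r : Fin o.n × Fin 2, fz o r
          = (((Real.sqrt 2)⁻¹ : ℝ) : ℂ) * ((Real.sqrt (o.om r.1) : ℝ) : ℂ) := by
        intro r
        rw [fz, ← Complex.ofReal_mul]
        congr 1
        rw [div_eq_mul_inv, mul_comm]
      rw [f1, f1]
      rfl
    rw [e, norm_smul, mul_pow, Complex.norm_real, Real.norm_eq_abs, sq_abs, inv_pow,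
      Real.sq_sqrt (by norm_num)]
    norm_num
  simp only [h1]
  rw [Fintype.sum_prod_type_right]
  have h2 : ∀ s : Fin 2, ∑ i : Fin o.n, ∑ q : Fin o.n × Fin 2,
      (1 / 2) * ‖((Real.sqrt (o.om q.1) : ℝ) : ℂ) •
          mat (hal (opM (o.a (Y a))) (LSys.ph θ) s q.2) i q.1 ξ
        - ((Real.sqrt (o.om i) : ℝ) : ℂ) •
          star (mat (halS (opM (o.b (Y a))) (LSys.ph θ) s q.2) i q.1) ξ‖ ^ 2
      ≤ ε ^ 2 := by
    intro s
    have h3 : ∑ i : Fin o.n, ∑ q : Fin o.n × Fin 2,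
      (1 / 2) * ‖((Real.sqrt (o.om q.1) : ℝ) : ℂ) •
          mat (hal (opM (o.a (Y a))) (LSys.ph θ) s q.2) i q.1 ξ
        - ((Real.sqrt (o.om i) : ℝ) : ℂ) •
          star (mat (halS (opM (o.b (Y a))) (LSys.ph θ) s q.2) i q.1) ξ‖ ^ 2
      = (1 / 2) * ∑ t : Fin 2, ∑ i : Fin o.n, ∑ j : Fin o.n,
        ‖((Real.sqrt (o.om j) : ℝ) : ℂ) •
          mat (hal (opM (o.a (Y a))) (LSys.ph θ) s t) i j ξ
        - ((Real.sqrt (o.om i) : ℝ) : ℂ) •
          star (mat (halS (opM (o.b (Y a))) (LSys.ph θ) s t) i j) ξ‖ ^ 2 := by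
      rw [Finset.sum_comm' (s' := fun _ => Finset.univ) (t' := Finset.univ) (by simp)]
      rw [Fintype.sum_prod_type_right, Finset.mul_sum]
      refine Finset.sum_congr rfl fun t _ => ?_
      rw [Finset.sum_comm, Finset.mul_sum]
      refine Finset.sum_congr rfl fun i _ => ?_
      rw [Finset.mul_sum]
    rw [h3]
    have h4 : ∑ t : Fin 2, ∑ i : Fin o.n, ∑ j : Fin o.n,
        ‖((Real.sqrt (o.om j) : ℝ) : ℂ) •
          mat (hal (opM (o.a (Y a))) (LSys.ph θ) s t) i j ξ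
        - ((Real.sqrt (o.om i) : ℝ) : ℂ) •
          star (mat (halS (opM (o.b (Y a))) (LSys.ph θ) s t) i j) ξ‖ ^ 2
        ≤ ∑ _t : Fin 2, ε ^ 2 :=
      Finset.sum_le_sum fun t _ => entry_partner o hε hY hY1 a θ s t
    rw [Finset.sum_const, Finset.card_univ, Fintype.card_fin, nsmul_eq_mul] at h4
    push_cast at h4
    linarith
  calc _ ≤ ∑ _s : Fin 2, ε ^ 2 := Finset.sum_le_sum fun s _ => h2 s
    _ ≤ (2 * ε) ^ 2 := by
      rw [Finset.sum_const, Finset.card_univ, Fintype.card_fin, nsmul_eq_mul]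
      push_cast
      nlinarith [sq_nonneg ε]

section unit

variable {I : Type*} [Fintype I] [DecidableEq I]

/-- a unitary matrix acts isometrically on leg 1. -/
theorem norm_leg1_of_unitary (x : Matrix I I (H →L[ℂ] H)) (h : star x * x = 1)
    (v : PiLp 2 (fun _ : I × I => H)) : ‖opM (leg1 x) v‖ = ‖v‖ := by
  have h1 : star (opM (leg1 x)) * opM (leg1 x) = 1 := by
    rw [← opM_star, ← leg1_star, ← opM_mul, ← leg1_mul, h, leg1_one, opM_one]
  have h2 : ‖opM (leg1 x) v‖ ^ 2 = ‖v‖ ^ 2 := by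
    have h3 : (inner ℂ (opM (leg1 x) v) (opM (leg1 x) v) : ℂ) = inner ℂ v v := by
      rw [← ContinuousLinearMap.adjoint_inner_right, ← ContinuousLinearMap.star_eq_adjoint]
      have := congrArg (fun Z : PiLp 2 (fun _ : I × I => H) →L[ℂ] _ => Z v) h1
      change inner ℂ v ((star (opM (leg1 x)) * opM (leg1 x)) v) = _
      rw [h1]
      rfl
    have h4 := congrArg Complex.re h3
    have h5 : ∀ w : PiLp 2 (fun _ : I × I => H), (inner ℂ w w : ℂ).re = ‖w‖ ^ 2 := by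
      intro w
      exact inner_self_eq_norm_sq (𝕜 := ℂ) w
    rwa [h5, h5] at h4
  exact (pow_left_inj₀ (norm_nonneg _) (norm_nonneg _) two_ne_zero).mp h2

end unit

theorem partner_final (o : LetterOut M ξ Y A B κ K ε) (hε : 0 ≤ ε) (hY : ∀ a, Y a ∈ M)
    (hY1 : ∀ a, ‖Y a‖ ≤ 1) (a : Fin m) (θ : Fin 4) :
    ‖opM (leg1 (TT M ξ Y A B o a θ)) (opM (leg2 (SS M ξ Y A B o a θ)) (tv ξ (zd (fz o))))
      - tv ξ (zd (fz o))‖ ≤ 2 * ε := by
  set T := TT M ξ Y A B o a θ with hT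
  set S := SS M ξ Y A B o a θ with hS
  set ζ := tv ξ (zd (fz o)) with hζ
  have h1 : ζ = opM (leg1 T) (opM (leg1 (star T)) ζ) := by
    have : opM (leg1 T) * opM (leg1 (star T)) = 1 := by
      rw [← opM_mul, ← leg1_mul, hT, TT_mul_star o hY hY1, leg1_one, opM_one]
    change ζ = (opM (leg1 T) * opM (leg1 (star T))) ζ
    rw [this]
    rfl
  have h2 : opM (leg1 T) (opM (leg2 S) ζ) - ζ
      = opM (leg1 T) (opM (leg2 S) ζ - opM (leg1 (star T)) ζ) := by
    rw [map_sub, ← h1]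
  rw [h2, norm_leg1_of_unitary T (star_TT_mul o hY hY1 a θ), norm_sub_rev]
  have h3 := TT_SS_partner o hε hY hY1 a (θ + 2)
  rw [← star_TT, ← star_SS, star_star] at h3
  exact h3

/-- exact relation (b). -/
theorem relT_final (o : LetterOut M ξ Y A B κ K ε) (μ : Fin m → ℝ) (η : Fin m → H)
    (hrel : ∀ h : H, ∑ a, ((μ a : ℂ) * inner ℂ (η a) h) • Y a = 0) (h : H)
    (p q : Fin o.n × Fin 2) :
    ∑ a, ∑ θ, ((μ a : ℂ) * inner ℂ (LSys.ph θ • η a) h) • TT M ξ Y A B o a θ p q = 0 := by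
  have h1 : ∀ a, ∑ θ, ((μ a : ℂ) * inner ℂ (LSys.ph θ • η a) h) • TT M ξ Y A B o a θ p q
      = ((μ a : ℂ) * inner ℂ (η a) h) •
        mat (∑ θ, conj (Halmos.ph θ) • hal (opM (o.a (Y a))) (Halmos.ph θ) p.2 q.2) p.1 q.1 := by
    intro a
    rw [mat_sum, Matrix.sum_apply, Finset.smul_sum]
    refine Finset.sum_congr rfl fun θ _ => ?_
    rw [inner_smul_left, mat_smul, Matrix.smul_apply, smul_smul]
    congr 1
    rw [ph_eq]
    ring
  simp only [h1]
  simp only [sum_conj_ph_smul_hal]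
  by_cases hpq : p.2 = 0 ∧ q.2 = 1
  · simp only [hpq, and_self, if_true, mat_smul, mat_opM, Matrix.smul_apply]
    have h2 : ∑ a, ((μ a : ℂ) * inner ℂ (η a) h) • o.a (Y a) p.1 q.1 = 0 := by
      have h3 := congrArg (fun Z => o.a Z p.1 q.1) (hrel h)
      simp only [map_sum, map_smul, map_zero, Matrix.zero_apply] at h3
      rw [Matrix.sum_apply] at h3
      simpa only [Matrix.smul_apply] using h3
    have h4 : ∀ a, ((μ a : ℂ) * inner ℂ (η a) h) • (4 : ℂ) • o.a (Y a) p.1 q.1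
        = (4 : ℂ) • (((μ a : ℂ) * inner ℂ (η a) h) • o.a (Y a) p.1 q.1) := by
      intro a
      rw [smul_comm]
    simp only [h4]
    rw [← Finset.smul_sum, h2, smul_zero]
  · simp only [hpq, if_false, mat_zero, Matrix.zero_apply, smul_zero, Finset.sum_const_zero]

/-- exact relation (c). -/
theorem relS_final (o : LetterOut M ξ Y A B κ K ε) (μ : Fin m → ℝ) (η : Fin m → H)
    (hrel : ∀ h : H, ∑ a, ((μ a : ℂ) * inner ℂ (η a) h) • Y a = 0)
    (p q : Fin o.n × Fin 2) :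
    ∑ a, ∑ θ, ((μ a : ℂ) * LSys.ph θ) • SS M ξ Y A B o a θ p q (η a) = 0 := by
  have h1 : ∀ a, ∑ θ, ((μ a : ℂ) * LSys.ph θ) • SS M ξ Y A B o a θ p q (η a)
      = (μ a : ℂ) •
        (mat (∑ θ, Halmos.ph θ • halS (opM (o.b (Y a))) (Halmos.ph θ) p.2 q.2) p.1 q.1) (η a) := by
    intro a
    rw [mat_sum, Matrix.sum_apply, _root_.sum_apply, Finset.smul_sum]
    refine Finset.sum_congr rfl fun θ _ => ?_
    rw [mat_smul, Matrix.smul_apply, _root_.smul_apply, smul_smul, ph_eq]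
    rfl
  simp only [h1]
  simp only [sum_ph_smul_halS]
  by_cases hpq : p.2 = 0 ∧ q.2 = 1
  · simp only [hpq, and_self, if_true, mat_smul, mat_star, mat_opM, Matrix.smul_apply,
      Matrix.star_apply]
    have h2 : ∑ a, (μ a : ℂ) • star (o.b (Y a) q.1 p.1) (η a) = 0 := by
      refine sum_star_apply_eq_zero μ (fun a => o.b (Y a) q.1 p.1) η fun e => ?_
      have h3 := congrArg (fun Z => o.b Z q.1 p.1) (hrel e)
      simp only [map_sum, map_smul, map_zero, Matrix.zero_apply] at h3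
      rw [Matrix.sum_apply] at h3
      simpa only [Matrix.smul_apply] using h3
    have h4 : ∀ a, (μ a : ℂ) • ((4 : ℂ) • star (o.b (Y a) q.1 p.1)) (η a)
        = (4 : ℂ) • ((μ a : ℂ) • star (o.b (Y a) q.1 p.1) (η a)) := by
      intro a
      rw [_root_.smul_apply, smul_comm]
    simp only [h4]
    rw [← Finset.smul_sum, h2, smul_zero]
  · simp only [hpq, if_false, mat_zero, Matrix.zero_apply, _root_.zero_apply, smul_zero,
      Finset.sum_const_zero]

theorem n_pos (o : LetterOut M ξ Y A B κ K ε) : 0 < o.n := by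
  rcases Nat.eq_zero_or_pos o.n with h | h
  · exfalso
    have h1 := o.sum_om
    have : IsEmpty (Fin o.n) := by rw [h]; infer_instance
    rw [Finset.univ_eq_empty, Finset.sum_empty] at h1
    exact zero_ne_one h1
  · exact h

/-- the distinguished index `(0, 0)`. -/
def j0 (o : LetterOut M ξ Y A B κ K ε) : Fin o.n × Fin 2 := (⟨0, n_pos o⟩, 0)

/-- `k_s (e_i ⊗ f_t) = √2 δ_{st} (n ω_i)^{-1/2} e_{j0}`. -/
def kk (o : LetterOut M ξ Y A B κ K ε) (s : Fin 2) :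
    Matrix (Fin o.n × Fin 2) (Fin o.n × Fin 2) ℂ :=
  fun j p => if j = j0 o ∧ p.2 = s then
    ((Real.sqrt 2 / Real.sqrt ((o.n : ℝ) * o.om p.1) : ℝ) : ℂ) else 0

theorem norm_kk (o : LetterOut M ξ Y A B κ K ε) (s : Fin 2) :
    ∑ i, ∑ j, ‖kk o s i j‖ ^ 2 ≤ (2 * K) ^ 2 := by
  have hn : (0 : ℝ) < o.n := Nat.cast_pos.mpr (n_pos o)
  have h1 : ∑ i, ∑ j, ‖kk o s i j‖ ^ 2 = 2 * ∑ i, 1 / ((o.n : ℝ) * o.om i) := by
    rw [Finset.sum_eq_single (j0 o)]
    · rw [Fintype.sum_prod_type_right, Finset.sum_eq_single s]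
      · rw [Finset.mul_sum]
        refine Finset.sum_congr rfl fun i _ => ?_
        have hp : 0 < (o.n : ℝ) * o.om i := mul_pos hn (o.om_pos i)
        simp only [kk, and_self, if_true]
        rw [Complex.norm_real, Real.norm_eq_abs, sq_abs, div_pow, Real.sq_sqrt (by norm_num),
          Real.sq_sqrt hp.le]
        ring
      · intro t _ ht
        simp [kk, ht]
      · simp
    · intro j _ hj
      simp [kk, hj]
    · simp
  rw [h1]
  have := o.sum_inv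
  nlinarith [sq_nonneg K]

theorem leg2c_kk (o : LetterOut M ξ Y A B κ K ε) (s : Fin 2)
    (p : (Fin o.n × Fin 2) × (Fin o.n × Fin 2)) :
    leg2c (kk o s) (zd (fz o)) p =
      if p.2 = j0 o ∧ p.1.2 = s then (((Real.sqrt o.n)⁻¹ : ℝ) : ℂ) else 0 := by
  have hn : (0 : ℝ) < o.n := Nat.cast_pos.mpr (n_pos o)
  rw [leg2c, Finset.sum_eq_single p.1]
  · by_cases h : p.2 = j0 o ∧ p.1.2 = s
    · have ho := o.om_pos p.1.1
      simp only [kk, zd, h, and_self, if_true, fz]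
      rw [← Complex.ofReal_mul]
      congr 1
      rw [Real.sqrt_mul hn.le]
      have h2 : Real.sqrt 2 ≠ 0 := by positivity
      have h3 : Real.sqrt (o.om p.1.1) ≠ 0 := by positivity
      field_simp
    · simp only [kk, h, if_false, zero_mul]
  · intro q _ hq
    simp [zd, Ne.symm hq]
  · simp

theorem norm_leg2c_kk (o : LetterOut M ξ Y A B κ K ε) (s : Fin 2) :
    ∑ p, ‖leg2c (kk o s) (zd (fz o)) p‖ ^ 2 = 1 := by
  have hn : (0 : ℝ) < o.n := Nat.cast_pos.mpr (n_pos o)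
  simp only [leg2c_kk]
  rw [Fintype.sum_prod_type_right, Finset.sum_eq_single (j0 o)]
  · rw [Fintype.sum_prod_type_right, Finset.sum_eq_single s]
    · simp only [and_self, if_true]
      rw [Finset.sum_const, Finset.card_univ, Fintype.card_fin, nsmul_eq_mul, Complex.norm_real,
        Real.norm_eq_abs, sq_abs, inv_pow, Real.sq_sqrt hn.le]
      field_simp
    · intro t _ ht
      simp [ht]
    · simp
  · intro q _ hq
    simp [hq]
  · simp

theorem norm_zd (o : LetterOut M ξ Y A B κ K ε) : ∑ p, ‖zd (fz o) p‖ ^ 2 = 1 := by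
  have h1 : ∑ p, ‖zd (fz o) p‖ ^ 2 = ∑ p : Fin o.n × Fin 2, o.om p.1 / 2 := by
    rw [Fintype.sum_prod_type]
    refine Finset.sum_congr rfl fun p _ => ?_
    rw [Finset.sum_eq_single p]
    · simp only [zd, if_true, fz]
      rw [Complex.norm_real, Real.norm_eq_abs, sq_abs, div_pow,
        Real.sq_sqrt (o.om_pos p.1).le, Real.sq_sqrt (by norm_num : (0 : ℝ) ≤ 2)]
    · intro q _ hq
      simp [zd, Ne.symm hq]
    · simp
  rw [h1, Fintype.sum_prod_type_right]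
  simp only [← Finset.sum_div, o.sum_om]
  simp

/-- value of one letter. -/
theorem value_letter (o : LetterOut M ξ Y A B κ K ε) (a : Fin m) (θ : Fin 4) :
    inner ℂ (tv (B a ξ) (fun p => LSys.ph θ * leg2c (kk o 0) (zd (fz o)) p))
      (opM (leg1 (TT M ξ Y A B o a θ)) (tv (A a ξ) (leg2c (kk o 1) (zd (fz o)))))
    = (1 / (o.n : ℂ)) * ∑ i, ∑ j, inner ℂ (B a ξ) (o.a (Y a) i j (A a ξ)) := by
  have hn : (0 : ℝ) < o.n := Nat.cast_pos.mpr (n_pos o)
  rw [PiLp.inner_apply, Fintype.sum_prod_type_right, Finset.sum_eq_single (j0 o)]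
  · rw [Fintype.sum_prod_type_right, Finset.sum_eq_single (0 : Fin 2)]
    · rw [Finset.mul_sum]
      refine Finset.sum_congr rfl fun i _ => ?_
      rw [tv_apply, leg2c_kk, opM_apply, Finset.mul_sum]
      have h1 : ∑ q : (Fin o.n × Fin 2) × (Fin o.n × Fin 2),
          leg1 (TT M ξ Y A B o a θ) ((i, (0 : Fin 2)), j0 o) q
            ((tv (A a ξ) (leg2c (kk o 1) (zd (fz o)))).ofLp q)
          = ∑ j : Fin o.n, (((Real.sqrt o.n)⁻¹ : ℝ) : ℂ) • LSys.ph θ • o.a (Y a) i j (A a ξ) := by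
        rw [Fintype.sum_prod_type_right, Finset.sum_eq_single (j0 o)]
        · rw [Fintype.sum_prod_type_right, Finset.sum_eq_single (1 : Fin 2)]
          · refine Finset.sum_congr rfl fun j _ => ?_
            simp only [leg1, if_true, tv_apply, leg2c_kk, and_self]
            rw [map_smul]
            congr 1
            change mat (LSys.ph θ • opM (o.a (Y a))) i j (A a ξ) = _
            rw [mat_smul, mat_opM]
            rfl
          · intro t _ ht
            refine Finset.sum_eq_zero fun j _ => ?_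
            simp [leg2c_kk, ht]
          · simp
        · intro q _ hq
          refine Finset.sum_eq_zero fun j _ => ?_
          simp [leg1, Ne.symm hq]
        · simp
      rw [h1, inner_sum]
      refine Finset.sum_congr rfl fun j _ => ?_
      simp only [and_self, if_true]
      rw [inner_smul_left, inner_smul_right, inner_smul_right, map_mul, Complex.conj_ofReal]
      have h2 : conj (LSys.ph θ) * LSys.ph θ = 1 := conj_mul_ph θ
      have h3 : (((Real.sqrt o.n)⁻¹ : ℝ) : ℂ) * (((Real.sqrt o.n)⁻¹ : ℝ) : ℂ) = 1 / (o.n : ℂ) := by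
        rw [← Complex.ofReal_mul, ← mul_inv, Real.mul_self_sqrt hn.le]
        push_cast
        rw [one_div]
      calc _ = (conj (LSys.ph θ) * LSys.ph θ) *
            ((((Real.sqrt o.n)⁻¹ : ℝ) : ℂ) * (((Real.sqrt o.n)⁻¹ : ℝ) : ℂ)) *
            inner ℂ (B a ξ) (o.a (Y a) i j (A a ξ)) := by ring
        _ = _ := by rw [h2, h3, one_mul]
    · intro t _ ht
      refine Finset.sum_eq_zero fun i _ => ?_
      rw [tv_apply, leg2c_kk]
      simp [ht]
    · simp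
  · intro q _ hq
    refine Finset.sum_eq_zero fun i _ => ?_
    rw [tv_apply, leg2c_kk]
    simp [hq]
  · simp

theorem value_final (o : LetterOut M ξ Y A B κ K ε) (μ : Fin m → ℝ) (hμ : ∀ a, 0 ≤ μ a)
    (hμ1 : ∑ a, μ a ≤ 1) (hκ : 0 ≤ κ) :
    ‖(∑ a, ∑ θ : Fin 4, ((μ a : ℂ) / 4) *
        inner ℂ (tv (B a ξ) (fun p => LSys.ph θ * leg2c (kk o 0) (zd (fz o)) p))
      (opM (leg1 (TT M ξ Y A B o a θ)) (tv (A a ξ) (leg2c (kk o 1) (zd (fz o))))))
    - (1 / 2 : ℂ) * ∑ a, (μ a : ℂ) * inner ℂ (B a ξ) (Y a (A a ξ))‖ ≤ κ := by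
  simp only [value_letter]
  have h1 : (∑ a, ∑ _θ : Fin 4, ((μ a : ℂ) / 4) *
      ((1 / (o.n : ℂ)) * ∑ i, ∑ j, inner ℂ (B a ξ) (o.a (Y a) i j (A a ξ))))
    - (1 / 2 : ℂ) * ∑ a, (μ a : ℂ) * inner ℂ (B a ξ) (Y a (A a ξ))
    = ∑ a, (μ a : ℂ) * ((1 / (o.n : ℂ)) * ∑ i, ∑ j, inner ℂ (B a ξ) (o.a (Y a) i j (A a ξ))
      - (1 / 2 : ℂ) * inner ℂ (B a ξ) (Y a (A a ξ))) := by
    rw [Finset.mul_sum, ← Finset.sum_sub_distrib]
    refine Finset.sum_congr rfl fun a _ => ?_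
    rw [Finset.sum_const, Finset.card_univ, Fintype.card_fin, nsmul_eq_mul]
    push_cast
    ring
  rw [h1]
  calc _ ≤ ∑ a, ‖(μ a : ℂ) * ((1 / (o.n : ℂ)) * ∑ i, ∑ j, inner ℂ (B a ξ) (o.a (Y a) i j (A a ξ))
      - (1 / 2 : ℂ) * inner ℂ (B a ξ) (Y a (A a ξ)))‖ := norm_sum_le _ _
    _ ≤ ∑ a, μ a * κ := by
      refine Finset.sum_le_sum fun a _ => ?_
      rw [norm_mul, Complex.norm_real, Real.norm_eq_abs, abs_of_nonneg (hμ a)]
      exact mul_le_mul_of_nonneg_left (o.recov a) (hμ a)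
    _ = (∑ a, μ a) * κ := by rw [Finset.sum_mul]
    _ ≤ 1 * κ := by gcongr
    _ = κ := one_mul _

end Main

/-- **HAL-2**: the letter lemma output gives a letter system. -/
def letterSystem_of_letterOut (M : VonNeumannAlgebra H) (ξ : H) {m : ℕ} (μ : Fin m → ℝ)
    (hμ : ∀ a, 0 ≤ μ a) (hμ1 : ∑ a, μ a ≤ 1) (Y A B : Fin m → (H →L[ℂ] H)) (η : Fin m → H)
    (hY : ∀ a, Y a ∈ M) (hY1 : ∀ a, ‖Y a‖ ≤ 1)
    (hrel : ∀ h : H, ∑ a, ((μ a : ℂ) * inner ℂ (η a) h) • Y a = 0)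
    {κ K ε : ℝ} (hκ : 0 ≤ κ) (hε : 0 ≤ ε) (o : LetterOut M ξ Y A B κ K ε) :
    LetterSystem M ξ μ Y A B η κ (2 * K) (2 * ε) where
  I := Fin o.n × Fin 2
  ζ₀ := zd (fz o)
  k := kk o 1
  k1 := kk o 0
  T := TT M ξ Y A B o
  S := SS M ξ Y A B o
  norm_ζ₀ := norm_zd o
  norm_k := norm_kk o 1
  norm_k1 := norm_kk o 0
  norm_kζ₀ := norm_leg2c_kk o 1
  norm_k1ζ₀ := norm_leg2c_kk o 0
  T_mem := TT_mem o hY
  S_mem := SS_mem o hY
  T_mul_star := TT_mul_star o hY hY1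
  star_T_mul := star_TT_mul o hY hY1
  S_mul_star := SS_mul_star o hY hY1
  star_S_mul := star_SS_mul o hY hY1
  star_T := star_TT o
  star_S := star_SS o
  partner := partner_final o hε hY hY1
  relT := relT_final o μ η hrel
  relS := relS_final o μ η hrel
  value := value_final o μ hμ hμ1 hκ

end Crest.Agent.R078.S103.Hal3
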