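/-
R78 / S0103, block DBL (helper445): F1, F2, choice of `d`, doubling in `R`.
-/
import Crest.Agent.R078.S103Slot199
import Crest.Agent.R078.S103TBFrame

set_option autoImplicit false
set_option linter.unusedSectionVars false
open scoped InnerProductSpace
open Crest.Agent.R078.Z.Slot

namespace Crest.Agent.R078.Z.Dbl

universe u

section tensor

variable {K : Type*} [NormedAddCommGroup K] [InnerProductSpace ℂ K] [CompleteSpace K]
  {E : Type*} [NormedAddCommGroup E] [NormedSpace ℂ E] {ι : Type*} [Fintype ι]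

/-- weak relation + projection = strong relation -/
theorem proj_rel (W : Submodule ℂ K) (μ : ι → ℂ) (η : ι → K) (Y : ι → E)
    (h : ∀ v ∈ W, ∑ a, (μ a * ⟪η a, v⟫_ℂ) • Y a = 0) (x : K) :
    ∑ a, (μ a * ⟪((W.topologicalClosure.starProjection (η a)) : K), x⟫_ℂ) • Y a = 0 := by
  have : CompleteSpace W.topologicalClosure := W.isClosed_topologicalClosure.completeSpace_coe
  have h1 : ∀ v ∈ W.topologicalClosure, ∑ a, (μ a * ⟪η a, v⟫_ℂ) • Y a = 0 := by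
    intro v hv
    have hc : IsClosed {v : K | ∑ a, (μ a * ⟪η a, v⟫_ℂ) • Y a = 0} := by
      apply isClosed_eq _ continuous_const
      fun_prop
    have hsub : (W : Set K) ⊆ {v : K | ∑ a, (μ a * ⟪η a, v⟫_ℂ) • Y a = 0} := fun v hv => h v hv
    have := closure_minimal hsub hc
    exact this (by rwa [← Submodule.topologicalClosure_coe])
  have h2 := h1 (W.topologicalClosure.starProjection x)
    (Submodule.starProjection_apply_mem _ x)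
  rw [← h2]
  refine Finset.sum_congr rfl fun a _ => ?_
  rw [Submodule.inner_starProjection_left_eq_right]

/-- strong relation contracts with every linear map `E → K`. -/
theorem tensor_zero (μ : ι → ℂ) (η : ι → K) (Y : ι → E)
    (h : ∀ x, ∑ a, (μ a * ⟪η a, x⟫_ℂ) • Y a = 0) (T : E →ₗ[ℂ] K) :
    ∑ a, μ a * ⟪η a, T (Y a)⟫_ℂ = 0 := by
  set V : Submodule ℂ K := Submodule.span ℂ (Set.range η) with hV
  have : FiniteDimensional ℂ V := FiniteDimensional.span_of_finite ℂ (Set.finite_range η)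
  have hη : ∀ a, η a ∈ V := fun a => Submodule.subset_span ⟨a, rfl⟩
  let b := stdOrthonormalBasis ℂ V
  have hexp : ∀ a (y : K), ⟪η a, y⟫_ℂ = ∑ i, ⟪η a, (b i : K)⟫_ℂ * ⟪(b i : K), y⟫_ℂ := by
    intro a y
    have h1 : ⟪η a, y⟫_ℂ = ⟪(⟨η a, hη a⟩ : V), V.orthogonalProjectionOnto y⟫_ℂ := by
      rw [Submodule.inner_orthogonalProjectionOnto_eq_of_mem_left]
    rw [h1, ← b.sum_inner_mul_inner]
    refine Finset.sum_congr rfl fun i _ => ?_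
    rw [Submodule.inner_orthogonalProjectionOnto_eq_of_mem_left]
    rfl
  have : ∑ a, μ a * ⟪η a, T (Y a)⟫_ℂ
      = ∑ i, ⟪(b i : K), T (∑ a, (μ a * ⟪η a, (b i : K)⟫_ℂ) • Y a)⟫_ℂ := by
    rw [Finset.sum_congr rfl fun a _ => by rw [hexp a (T (Y a)), Finset.mul_sum]]
    rw [Finset.sum_comm]
    refine Finset.sum_congr rfl fun i _ => ?_
    rw [map_sum, inner_sum]
    refine Finset.sum_congr rfl fun a _ => ?_
    rw [map_smul, inner_smul_right, mul_assoc]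
  rw [this]
  refine Finset.sum_eq_zero fun i _ => ?_
  rw [h, map_zero, inner_zero_right]

end tensor

section F

variable {G : Type u} [NormedAddCommGroup G] [InnerProductSpace ℂ G] [CompleteSpace G]
  {M N : VonNeumannAlgebra G}

theorem sum_inner_le {κ : Type*} [Fintype κ] (x : G →L[ℂ] G) (α β : κ → G) {a b : ℝ}
    (ha : 0 ≤ a) (hb : 0 ≤ b) (hα : ∑ k, ‖α k‖ ^ 2 ≤ a ^ 2) (hβ : ∑ k, ‖β k‖ ^ 2 ≤ b ^ 2) :
    ‖∑ k, ⟪β k, x (α k)⟫_ℂ‖ ≤ ‖x‖ * (a * b) := by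
  have h1 : ‖∑ k, ⟪β k, x (α k)⟫_ℂ‖ ≤ ∑ k, ‖x‖ * (‖α k‖ * ‖β k‖) := by
    refine (norm_sum_le _ _).trans (Finset.sum_le_sum fun k _ => ?_)
    refine (norm_inner_le_norm _ _).trans ?_
    calc ‖β k‖ * ‖x (α k)‖ ≤ ‖β k‖ * (‖x‖ * ‖α k‖) := by
          gcongr; exact x.le_opNorm _
      _ = ‖x‖ * (‖α k‖ * ‖β k‖) := by ring
  refine h1.trans ?_
  rw [← Finset.mul_sum]
  gcongr
  refine (Real.sum_mul_le_sqrt_mul_sqrt _ _ _).trans ?_
  gcongr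
  · exact Real.sqrt_le_iff.2 ⟨ha, hα⟩
  · exact Real.sqrt_le_iff.2 ⟨hb, hβ⟩

/-- `y ↦ (y ξ_k)_k` -/
noncomputable def tov {κ : Type*} [Fintype κ] (ξ : κ → G) :
    (G →L[ℂ] G) →ₗ[ℂ] PiLp 2 (fun _ : κ => G) where
  toFun y := WithLp.toLp 2 (fun k => y (ξ k))
  map_add' x y := by ext k; simp
  map_smul' c x := by ext k; simp

theorem tov_apply {κ : Type*} [Fintype κ] (ξ : κ → G) (y : G →L[ℂ] G) (k : κ) :
    tov ξ y k = y (ξ k) := rfl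

/-- the subspace `{(n ξ_k)_k : n ∈ N}` -/
noncomputable def cycW (N : VonNeumannAlgebra G) {κ : Type*} [Fintype κ] (ξ : κ → G) :
    Submodule ℂ (PiLp 2 (fun _ : κ => G)) :=
  (Subalgebra.toSubmodule N.toSubalgebra).map (tov ξ)

theorem mem_cycW {κ : Type*} [Fintype κ] (ξ : κ → G) (v : PiLp 2 (fun _ : κ => G)) :
    v ∈ cycW N ξ ↔ ∃ n ∈ N, tov ξ n = v := by
  unfold cycW
  rw [Submodule.mem_map]
  rfl

theorem inner_tov {κ : Type*} [Fintype κ] (ξ η : κ → G) (y : G →L[ℂ] G) :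
    ⟪(WithLp.toLp 2 η : PiLp 2 (fun _ : κ => G)), tov ξ y⟫_ℂ = ∑ k, ⟪η k, y (ξ k)⟫_ℂ := by
  rw [PiLp.inner_apply]
  rfl

/-- (F1) -/
theorem relBd_one {δ R : ℝ} (hR : 0 ≤ R) (hMN : BallIn M N δ) :
    RelBd M N R ((1 + R) * δ) := by
  intro κ ι _ _ μ Y ξ α β η hμ hμ1 hYm hY1 hξ hα hβ hη hw hr
  choose Z hZm hZ1 hZ using fun a => hMN (Y a) (hYm a) (hY1 a)
  let η' : ι → PiLp 2 (fun _ : κ => G) := fun a => WithLp.toLp 2 (η a)
  have hη' : ∀ a, η' a = WithLp.toLp 2 (η a) := fun _ => rfl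
  have : CompleteSpace (cycW N ξ).topologicalClosure :=
    (cycW N ξ).isClosed_topologicalClosure.completeSpace_coe
  have hWr : ∀ v ∈ cycW N ξ, ∑ a, ((μ a : ℂ) * ⟪η' a, v⟫_ℂ) • Y a = 0 := by
    intro v hv
    obtain ⟨n, hn, rfl⟩ := (mem_cycW ξ v).1 hv
    rw [← hr n hn]
    exact Finset.sum_congr rfl fun a _ => by rw [hη', inner_tov]
  have hst := proj_rel (cycW N ξ) (fun a => (μ a : ℂ)) η' Y hWr
  set p : ι → PiLp 2 (fun _ : κ => G) := fun a =>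
    (cycW N ξ).topologicalClosure.starProjection (η' a) with hp
  have hTz := tensor_zero (fun a => (μ a : ℂ)) p Y hst (tov ξ)
  -- norms
  have hpn : ∀ a, ∑ k, ‖p a k‖ ^ 2 ≤ R ^ 2 := by
    intro a
    rw [← PiLp.norm_sq_eq_of_L2]
    have h1 : ‖p a‖ ≤ ‖η' a‖ := by
      rw [hp]
      exact Submodule.norm_starProjection_apply_le _ _
    have h2 : ‖η' a‖ ^ 2 ≤ R ^ 2 := by
      rw [PiLp.norm_sq_eq_of_L2]; exact hη a
    calc ‖p a‖ ^ 2 ≤ ‖η' a‖ ^ 2 := by gcongr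
      _ ≤ R ^ 2 := h2
  have hpin : ∀ a (y : G →L[ℂ] G), ⟪p a, tov ξ y⟫_ℂ = ∑ k, ⟪p a k, y (ξ k)⟫_ℂ := by
    intro a y
    rw [PiLp.inner_apply]; rfl
  -- splitting
  have hsplit : ∀ a, ∑ k, ⟪β a k, Y a (α a k)⟫_ℂ
      = ∑ k, ⟪β a k, (Y a - Z a) (α a k)⟫_ℂ + ∑ k, ⟪p a k, (Z a - Y a) (ξ k)⟫_ℂ
        + ⟪p a, tov ξ (Y a)⟫_ℂ := by
    intro a
    have h1 : ∑ k, ⟪β a k, Z a (α a k)⟫_ℂ = ∑ k, ⟪p a k, Z a (ξ k)⟫_ℂ := by
      rw [hw a (Z a) (hZm a), ← hpin, ← inner_tov, ← hη']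
      have hm : tov ξ (Z a) ∈ (cycW N ξ).topologicalClosure :=
        Submodule.le_topologicalClosure _ ((mem_cycW ξ _).2 ⟨Z a, hZm a, rfl⟩)
      rw [hp]
      simp only
      rw [Submodule.inner_starProjection_left_eq_right,
        Submodule.starProjection_eq_self_iff.2 hm]
    have h3 : ∑ k, ⟪β a k, Y a (α a k)⟫_ℂ = ∑ k, ⟪β a k, (Y a - Z a) (α a k)⟫_ℂ
        + ∑ k, ⟪β a k, Z a (α a k)⟫_ℂ := by
      rw [← Finset.sum_add_distrib]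
      refine Finset.sum_congr rfl fun k _ => ?_
      rw [sub_apply, inner_sub_right]; ring
    have h4 : ∑ k, ⟪p a k, Z a (ξ k)⟫_ℂ = ∑ k, ⟪p a k, (Z a - Y a) (ξ k)⟫_ℂ
        + ⟪p a, tov ξ (Y a)⟫_ℂ := by
      rw [hpin, ← Finset.sum_add_distrib]
      refine Finset.sum_congr rfl fun k _ => ?_
      rw [sub_apply, inner_sub_right]; ring
    rw [h3, h1, h4]; ring
  have hval : ∑ a, (μ a : ℂ) * ∑ k, ⟪β a k, Y a (α a k)⟫_ℂ
      = ∑ a, (μ a : ℂ) * (∑ k, ⟪β a k, (Y a - Z a) (α a k)⟫_ℂ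
        + ∑ k, ⟪p a k, (Z a - Y a) (ξ k)⟫_ℂ) := by
    rw [← sub_eq_zero, ← Finset.sum_sub_distrib, ← hTz]
    refine Finset.sum_congr rfl fun a _ => ?_
    rw [hsplit a]; ring
  rw [hval]
  refine (norm_sum_le _ _).trans ?_
  calc ∑ a, ‖(μ a : ℂ) * (∑ k, ⟪β a k, (Y a - Z a) (α a k)⟫_ℂ
        + ∑ k, ⟪p a k, (Z a - Y a) (ξ k)⟫_ℂ)‖ ≤ ∑ a, μ a * ((1 + R) * δ) := by
        refine Finset.sum_le_sum fun a _ => ?_
        rw [norm_mul, Complex.norm_real, Real.norm_of_nonneg (hμ a)]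
        refine mul_le_mul_of_nonneg_left ?_ (hμ a)
        refine (norm_add_le _ _).trans ?_
        have h1 := sum_inner_le (Y a - Z a) (α a) (β a) zero_le_one zero_le_one
          (by simpa using hα a) (by simpa using hβ a)
        have h2 := sum_inner_le (Z a - Y a) ξ (fun k => p a k) zero_le_one hR
          (by simpa using hξ) (hpn a)
        have h3 : ‖Z a - Y a‖ ≤ δ := by rw [norm_sub_rev]; exact hZ a
        have h4 : ‖Z a - Y a‖ * (1 * R) ≤ δ * R := by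
          rw [one_mul]; exact mul_le_mul_of_nonneg_right h3 hR
        have h5 := hZ a
        calc _ ≤ ‖Y a - Z a‖ * (1 * 1) + ‖Z a - Y a‖ * (1 * R) := add_le_add h1 h2
          _ ≤ (1 + R) * δ := by linarith
    _ = (1 + R) * δ := by rw [← Finset.sum_mul, hμ1, one_mul]

/-- (F2) -/
theorem RelBd.scale {R Λ c : ℝ} (h : RelBd M N R Λ) (hc : 1 ≤ c) : RelBd M N (c * R) (c * Λ) := by
  intro κ ι _ _ μ Y ξ α β η hμ hμ1 hYm hY1 hξ hα hβ hη hw hr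
  have hc0 : 0 < c := by linarith
  have hci : c⁻¹ ^ 2 ≤ 1 := by
    have : c⁻¹ ≤ 1 := inv_le_one_of_one_le₀ hc
    have h0 : 0 ≤ c⁻¹ := by positivity
    nlinarith
  have key := h κ ι μ Y ξ α (fun a k => ((c⁻¹ : ℝ) : ℂ) • β a k) (fun a k => ((c⁻¹ : ℝ) : ℂ) • η a k)
    hμ hμ1 hYm hY1 hξ hα ?_ ?_ ?_ ?_
  · have e : ∑ a, (μ a : ℂ) * ∑ k, ⟪((c⁻¹ : ℝ) : ℂ) • β a k, Y a (α a k)⟫_ℂ
        = ((c⁻¹ : ℝ) : ℂ) * ∑ a, (μ a : ℂ) * ∑ k, ⟪β a k, Y a (α a k)⟫_ℂ := by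
      rw [Finset.mul_sum]
      refine Finset.sum_congr rfl fun a _ => ?_
      simp only [inner_smul_left, Complex.conj_ofReal]
      rw [← Finset.mul_sum]; ring
    rw [e, norm_mul, Complex.norm_real, Real.norm_of_nonneg (by positivity),
      inv_mul_le_iff₀ hc0] at key
    exact key
  · intro a
    have : ∑ k, ‖((c⁻¹ : ℝ) : ℂ) • β a k‖ ^ 2 = c⁻¹ ^ 2 * ∑ k, ‖β a k‖ ^ 2 := by
      rw [Finset.mul_sum]
      refine Finset.sum_congr rfl fun k _ => ?_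
      rw [norm_smul, Complex.norm_real, Real.norm_of_nonneg (by positivity), mul_pow]
    rw [this]
    exact mul_le_one₀ hci (Finset.sum_nonneg fun k _ => by positivity) (hβ a)
  · intro a
    have : ∑ k, ‖((c⁻¹ : ℝ) : ℂ) • η a k‖ ^ 2 = c⁻¹ ^ 2 * ∑ k, ‖η a k‖ ^ 2 := by
      rw [Finset.mul_sum]
      refine Finset.sum_congr rfl fun k _ => ?_
      rw [norm_smul, Complex.norm_real, Real.norm_of_nonneg (by positivity), mul_pow]
    rw [this]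
    calc c⁻¹ ^ 2 * ∑ k, ‖η a k‖ ^ 2 ≤ c⁻¹ ^ 2 * (c * R) ^ 2 := by
          gcongr; exact hη a
      _ = R ^ 2 := by field_simp
  · intro a n hn
    simp only [inner_smul_left]
    rw [← Finset.mul_sum, ← Finset.mul_sum, hw a n hn]
  · intro n hn
    have := hr n hn
    have e : ∀ a, ((μ a : ℂ) * ∑ k, ⟪((c⁻¹ : ℝ) : ℂ) • η a k, n (ξ k)⟫_ℂ) • Y a
        = ((c⁻¹ : ℝ) : ℂ) • (((μ a : ℂ) * ∑ k, ⟪η a k, n (ξ k)⟫_ℂ) • Y a) := by
      intro a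
      simp only [inner_smul_left, Complex.conj_ofReal]
      rw [← Finset.mul_sum, smul_smul]
      congr 1; ring
    rw [Finset.sum_congr rfl fun a _ => e a, ← Finset.smul_sum, this, smul_zero]

theorem RelBd.mono {R R' Λ Λ' : ℝ} (h : RelBd M N R Λ) (hR' : 0 ≤ R') (hR : R' ≤ R)
    (hΛ : Λ ≤ Λ') : RelBd M N R' Λ' := by
  intro κ ι _ _ μ Y ξ α β η hμ hμ1 hYm hY1 hξ hα hβ hη hw hr
  refine (h κ ι μ Y ξ α β η hμ hμ1 hYm hY1 hξ hα hβ (fun a => (hη a).trans ?_) hw hr).trans hΛ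
  gcongr

end F

/-- `Λ_R ≤ Λ` for all stably `δ`-close pairs (in the universe `u`). -/
def RelAll (δ R Λ : ℝ) : Prop :=
  ∀ (H : Type u) [NormedAddCommGroup H] [InnerProductSpace ℂ H] [CompleteSpace H]
    (M N : VonNeumannAlgebra H), TB.SC δ M N → RelBd M N R Λ

theorem ballIn_of_SC {H : Type u} [NormedAddCommGroup H] [InnerProductSpace ℂ H] [CompleteSpace H]
    {M N : VonNeumannAlgebra H} {δ : ℝ} (h : TB.SC δ M N) : BallIn M N δ :=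
  h.ball.1

theorem relAll_one {δ : ℝ} : RelAll.{u} δ 1 (2 * δ) := by
  intro H _ _ _ M N h
  have := relBd_one (M := M) (N := N) zero_le_one (ballIn_of_SC h)
  have e : (1 + 1) * δ = 2 * δ := by ring
  rwa [e] at this

theorem RelAll.scale {δ R Λ c : ℝ} (h : RelAll.{u} δ R Λ) (hc : 1 ≤ c) :
    RelAll.{u} δ (c * R) (c * Λ) := by
  intro H _ _ _ M N hs
  exact RelBd.scale (h H M N hs) hc

theorem RelAll.mono {δ R R' Λ Λ' : ℝ} (h : RelAll.{u} δ R Λ) (hR' : 0 ≤ R') (hR : R' ≤ R)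
    (hΛ : Λ ≤ Λ') : RelAll.{u} δ R' Λ' := by
  intro H _ _ _ M N hs
  exact RelBd.mono (h H M N hs) hR' hR hΛ

/-- the right-hand side of the key inequality -/
noncomputable def keyRHS (δ Λ : ℝ) : ℝ :=
  2 * (3 * δ + 2 * Real.sqrt 3 * δ
    + (Λ + δ) * (Λ + (4 + 2 * Real.sqrt 3 + 2 * Real.sqrt 2) * δ))

/-- KEY INEQUALITY -/
def KeyIneq : Prop :=
  ∀ δ R Λ : ℝ, 0 ≤ δ → 1 ≤ R → 0 ≤ Λ → RelAll.{u} δ (Real.sqrt 3 * R) Λ →
    RelAll.{u} δ R (keyRHS δ Λ)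

theorem sqrt3_lt : Real.sqrt 3 < 1.7321 := by
  rw [Real.sqrt_lt' (by norm_num)]; norm_num

theorem sqrt2_lt : Real.sqrt 2 < 1.4143 := by
  rw [Real.sqrt_lt' (by norm_num)]; norm_num

theorem keyRHS_le {δ L : ℝ} (hδ : 0 ≤ δ) (hδ' : δ ≤ 1 / 1500) (hL : 0 ≤ L) (hL' : L ≤ 1 / 24) :
    keyRHS δ (Real.sqrt 3 * L) ≤ L / 2 + 14 * δ := by
  have h3 : Real.sqrt 3 * Real.sqrt 3 = 3 := Real.mul_self_sqrt (by norm_num)
  have h3' := sqrt3_lt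
  have h2' := sqrt2_lt
  have h3n : 0 ≤ Real.sqrt 3 := Real.sqrt_nonneg 3
  have h2n : 0 ≤ Real.sqrt 2 := Real.sqrt_nonneg 2
  unfold keyRHS
  have e : 2 * (3 * δ + 2 * Real.sqrt 3 * δ + (Real.sqrt 3 * L + δ)
      * (Real.sqrt 3 * L + (4 + 2 * Real.sqrt 3 + 2 * Real.sqrt 2) * δ))
      = 6 * δ + 4 * Real.sqrt 3 * δ + 2 * (Real.sqrt 3 * Real.sqrt 3) * (L * L)
        + 2 * Real.sqrt 3 * (L * δ)
        + 2 * ((4 * Real.sqrt 3 + 2 * (Real.sqrt 3 * Real.sqrt 3)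
          + 2 * Real.sqrt 2 * Real.sqrt 3)) * (L * δ)
        + 2 * (4 + 2 * Real.sqrt 3 + 2 * Real.sqrt 2) * (δ * δ) := by ring
  rw [e, h3]
  have h23 : Real.sqrt 2 * Real.sqrt 3 ≤ 2.45 := by
    calc Real.sqrt 2 * Real.sqrt 3 ≤ 1.4143 * 1.7321 := by gcongr
      _ ≤ 2.45 := by norm_num
  have hLL : L * L ≤ 1 / 24 * L := mul_le_mul_of_nonneg_right hL' hL
  have hLδ : L * δ ≤ 1 / 1500 * L := by
    rw [mul_comm]; exact mul_le_mul_of_nonneg_right hδ' hL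
  have hLδ0 : 0 ≤ L * δ := mul_nonneg hL hδ
  have hδδ : δ * δ ≤ 1 / 1500 * δ := mul_le_mul_of_nonneg_right hδ' hδ
  have hδδ0 : 0 ≤ δ * δ := mul_nonneg hδ hδ
  have t1 : 4 * Real.sqrt 3 * δ ≤ 6.93 * δ := by nlinarith
  have t2 : 2 * Real.sqrt 3 * (L * δ) ≤ 3.47 * (L * δ) := by nlinarith
  have t3 : 2 * (4 * Real.sqrt 3 + 2 * 3 + 2 * Real.sqrt 2 * Real.sqrt 3) * (L * δ)
      ≤ 36 * (L * δ) := by
    have : 2 * (4 * Real.sqrt 3 + 2 * 3 + 2 * Real.sqrt 2 * Real.sqrt 3) ≤ 36 := by nlinarith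
    exact mul_le_mul_of_nonneg_right this hLδ0
  have t4 : 2 * (4 + 2 * Real.sqrt 3 + 2 * Real.sqrt 2) * (δ * δ) ≤ 21 * (δ * δ) := by
    have : 2 * (4 + 2 * Real.sqrt 3 + 2 * Real.sqrt 2) ≤ 21 := by nlinarith
    exact mul_le_mul_of_nonneg_right this hδδ0
  nlinarith

theorem keyRHS_nonneg {δ L : ℝ} (hδ : 0 ≤ δ) (hL : 0 ≤ L) : 0 ≤ keyRHS δ L := by
  unfold keyRHS; positivity

/-- one step -/
theorem relAll_half (hK : KeyIneq.{u}) {δ R L : ℝ} (hδ : 0 ≤ δ) (hδ' : δ ≤ 1 / 1500) (hR : 1 ≤ R)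
    (hL : 0 ≤ L) (hL' : L ≤ 1 / 24) (h : RelAll.{u} δ R L) :
    RelAll.{u} δ R (L / 2 + 14 * δ) := by
  have h3n : 1 ≤ Real.sqrt 3 := by
    rw [Real.one_le_sqrt]; norm_num
  have h1 := hK δ R (Real.sqrt 3 * L) hδ hR (by positivity) (h.scale h3n)
  exact h1.mono (by linarith) le_rfl (keyRHS_le hδ hδ' hL hL')

theorem relAll_iter (hK : KeyIneq.{u}) {δ R L : ℝ} (hδ : 0 ≤ δ) (hδ' : δ ≤ 1 / 1500) (hR : 1 ≤ R)
    (hL : 0 ≤ L) (hL' : L ≤ 1 / 24) (h : RelAll.{u} δ R L) (n : ℕ) :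
    ∃ L' : ℝ, 0 ≤ L' ∧ L' ≤ 1 / 24 ∧ L' ≤ L / 2 ^ n + 28 * δ ∧ RelAll.{u} δ R L' := by
  induction n with
  | zero => exact ⟨L, hL, hL', by simp; positivity, h⟩
  | succ n ih =>
    obtain ⟨L', h0, h1, h2, h3⟩ := ih
    refine ⟨L' / 2 + 14 * δ, by positivity, by linarith, ?_, relAll_half hK hδ hδ' hR h0 h1 h3⟩
    rw [pow_succ, div_mul_eq_div_div]
    linarith

theorem relAll_improve (hK : KeyIneq.{u}) {δ R L : ℝ} (hδ : 0 < δ) (hδ' : δ ≤ 1 / 1500) (hR : 1 ≤ R)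
    (hL : 0 ≤ L) (hL' : L ≤ 1 / 24) (h : RelAll.{u} δ R L) : RelAll.{u} δ R (29 * δ) := by
  obtain ⟨n, hn⟩ := exists_pow_lt_of_lt_one hδ (by norm_num : (1 / 2 : ℝ) < 1)
  obtain ⟨L', _, _, h2, h3⟩ := relAll_iter hK hδ.le hδ' hR hL hL' h n
  refine h3.mono (by linarith) le_rfl (h2.trans ?_)
  have : L / 2 ^ n ≤ (1 / 2) ^ n := by
    rw [div_pow, one_pow]
    gcongr
    linarith
  linarith

/-- DOUBLING: `Λ_R ≤ 29 δ` for all `R`. -/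
theorem relAll_of_key (hK : KeyIneq.{u}) {δ : ℝ} (hδ : 0 < δ) (hδ' : δ ≤ 1 / 1500) (R : ℝ)
    (hR : 0 ≤ R) : RelAll.{u} δ R (29 * δ) := by
  have hpow : ∀ n : ℕ, RelAll.{u} δ ((2 : ℝ) ^ n) (29 * δ) := by
    intro n
    induction n with
    | zero =>
      rw [pow_zero]
      exact relAll_improve hK hδ hδ' le_rfl (by positivity) (by linarith) relAll_one
    | succ n ih =>
      have h1 := ih.scale (c := 2) (by norm_num)
      rw [pow_succ, mul_comm]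
      exact relAll_improve hK hδ hδ' (by
        have : (1 : ℝ) ≤ 2 ^ n := one_le_pow₀ (by norm_num)
        linarith) (by positivity) (by linarith) h1
  obtain ⟨n, hn⟩ := pow_unbounded_of_one_lt R (by norm_num : (1 : ℝ) < 2)
  exact (hpow n).mono hR hn.le le_rfl

/-! ### choice of `d` -/

/-- (NUM) -/
theorem exists_d {K η : ℝ} (hK : 0 ≤ K) (hη : 0 < η) : ∃ τ > 0, ∀ Kθ ε₁ : ℝ, 1 ≤ Kθ → 0 ≤ ε₁ →
    ε₁ * Kθ ≤ τ → ∃ d : ℕ, 0 < d ∧ Real.sqrt d * ε₁ ≤ η ∧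
      2 * (K * Kθ * ε₁ + K * (1 + K * Kθ * ε₁) * (Real.sqrt d * ε₁))
        + K * Kθ * (1 + K * Kθ * ε₁) / Real.sqrt d ≤ η ∧
      Real.sqrt 2 * Kθ / Real.sqrt d ≤ η := by
  set C : ℝ := 2 * K + 4 * K * (1 + K) + K * (1 + K) + 2 with hC
  have hC0 : 0 < C := by positivity
  set ρ : ℝ := min 1 (η / C) with hρ
  have hρ0 : 0 < ρ := lt_min one_pos (by positivity)
  have hρ1 : ρ ≤ 1 := min_le_left _ _
  have hρC : ρ * C ≤ η := by
    calc ρ * C ≤ η / C * C := by gcongr; exact min_le_right _ _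
      _ = η := by field_simp
  refine ⟨ρ ^ 2, by positivity, fun Kθ ε₁ hKθ hε hτ => ?_⟩
  have hKθ0 : 0 < Kθ := by linarith
  set d : ℕ := ⌈(Kθ / ρ) ^ 2⌉₊ with hd
  have hx : 1 ≤ (Kθ / ρ) ^ 2 := by
    have : 1 ≤ Kθ / ρ := by rw [le_div_iff₀ hρ0]; linarith
    nlinarith
  have hd0 : 0 < d := by
    rw [hd]; exact Nat.ceil_pos.2 (by linarith)
  have hd1 : (Kθ / ρ) ^ 2 ≤ d := Nat.le_ceil _
  have hd2 : (d : ℝ) ≤ (2 * (Kθ / ρ)) ^ 2 := by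
    have := (Nat.ceil_lt_add_one (by linarith : 0 ≤ (Kθ / ρ) ^ 2)).le
    calc (d : ℝ) ≤ (Kθ / ρ) ^ 2 + 1 := this
      _ ≤ (2 * (Kθ / ρ)) ^ 2 := by nlinarith
  have hs1 : Kθ / ρ ≤ Real.sqrt d := Real.le_sqrt_of_sq_le hd1
  have hs2 : Real.sqrt d ≤ 2 * (Kθ / ρ) := by
    rw [Real.sqrt_le_left (by positivity)]; exact hd2
  have hs0 : 0 < Real.sqrt d := by positivity
  have hq : Kθ / Real.sqrt d ≤ ρ := by
    rw [div_le_iff₀ hs0]
    calc Kθ = ρ * (Kθ / ρ) := by field_simp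
      _ ≤ ρ * Real.sqrt d := by gcongr
  have hD : Real.sqrt d * ε₁ ≤ 2 * ρ := by
    calc Real.sqrt d * ε₁ ≤ 2 * (Kθ / ρ) * ε₁ := by gcongr
      _ = 2 * (ε₁ * Kθ) / ρ := by ring
      _ ≤ 2 * ρ ^ 2 / ρ := by gcongr
      _ = 2 * ρ := by field_simp
  have hD0 : 0 ≤ Real.sqrt d * ε₁ := by positivity
  have hKe : K * Kθ * ε₁ ≤ K * ρ := by
    calc K * Kθ * ε₁ = K * (ε₁ * Kθ) := by ring
      _ ≤ K * ρ ^ 2 := by gcongr
      _ ≤ K * ρ := by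
        gcongr
        nlinarith
  have hKe' : K * Kθ * ε₁ ≤ K := hKe.trans (by nlinarith)
  have hKe0 : 0 ≤ K * Kθ * ε₁ := by positivity
  refine ⟨d, hd0, ?_, ?_, ?_⟩
  · refine hD.trans (le_trans ?_ hρC)
    rw [mul_comm]
    gcongr
    rw [hC]
    have : 0 ≤ 2 * K + 4 * K * (1 + K) + K * (1 + K) := by positivity
    linarith
  · have h1 : K * (1 + K * Kθ * ε₁) * (Real.sqrt d * ε₁) ≤ K * (1 + K) * (2 * ρ) := by gcongr
    have h2 : K * Kθ * (1 + K * Kθ * ε₁) / Real.sqrt d ≤ K * (1 + K) * ρ := by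
      calc K * Kθ * (1 + K * Kθ * ε₁) / Real.sqrt d
          = K * (1 + K * Kθ * ε₁) * (Kθ / Real.sqrt d) := by ring
        _ ≤ K * (1 + K) * ρ := by gcongr
    calc _ ≤ 2 * (K * ρ + K * (1 + K) * (2 * ρ)) + K * (1 + K) * ρ := by gcongr
      _ ≤ ρ * C := by rw [hC]; nlinarith
      _ ≤ η := hρC
  · calc Real.sqrt 2 * Kθ / Real.sqrt d = Real.sqrt 2 * (Kθ / Real.sqrt d) := by ring
      _ ≤ 2 * ρ := by
        gcongr
        linarith [sqrt2_lt]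
      _ ≤ ρ * C := by
        rw [mul_comm]
        gcongr
        rw [hC]
        have : 0 ≤ 2 * K + 4 * K * (1 + K) + K * (1 + K) := by positivity
        linarith
      _ ≤ η := hρC

end Crest.Agent.R078.Z.Dbl
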