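/-
R78 / S0103 (helper445): from slot systems with arbitrarily good letters to the key inequality.
-/
import Crest.Agent.R078.S103Dbl445

set_option autoImplicit false
set_option linter.unusedSectionVars false
open scoped InnerProductSpace
open Crest.Agent.R078.Z.Slot

namespace Crest.Agent.R078.Z.Dbl

universe u

/-- for every `κ, τ > 0` there are slot systems of every length `d`, with value `≥ v - κ` and
`ε₁ Kθ ≤ τ` (`K` fixed). -/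
def SlotsExist (δ R K Λ v : ℝ) : Prop :=
  ∀ κ > 0, ∀ τ > 0, ∃ Kθ ε₁ : ℝ, 1 ≤ Kθ ∧ 0 ≤ ε₁ ∧ ε₁ * Kθ ≤ τ ∧ ∀ d : ℕ, 0 < d →
    ∃ (G : Type u) (_ : NormedAddCommGroup G) (_ : InnerProductSpace ℂ G) (_ : CompleteSpace G)
      (M N : VonNeumannAlgebra G) (L : Type) (_ : Fintype L) (_ : DecidableEq L)
      (s : SlotSys M N d L δ R K Kθ ε₁),
      BallIn M N δ ∧ BallIn N M δ ∧ RelBd M N R Λ ∧ ∀ j, v - κ ≤ (s.value j).re

theorem value_le_of_slots (hW : WalkTarget.{u}) {δ R K Λ v : ℝ} (hδ : 0 ≤ δ) (hR : 1 ≤ R)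
    (hK : 0 ≤ K) (hΛ : 0 ≤ Λ) (hS : SlotsExist.{u} δ R K Λ v) :
    v ≤ 3 * δ + 2 * Real.sqrt 3 * δ
      + (Λ + δ) * (Λ + (4 + 2 * Real.sqrt 3 + 2 * Real.sqrt 2) * δ) := by
  refine le_of_forall_pos_le_add fun e he => ?_
  set η : ℝ := e / (2 * (2 + 4 * (Λ + δ))) with hη
  have hη0 : 0 < η := by positivity
  obtain ⟨τ, hτ, hd⟩ := exists_d hK hη0
  obtain ⟨Kθ, ε₁, hKθ, hε, hτ', hS'⟩ := hS (e / 2) (by positivity) τ hτ
  obtain ⟨d, hd0, hD, hE, hL⟩ := hd Kθ ε₁ hKθ hε hτ'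
  obtain ⟨G, _, _, _, M, N, L, _, _, s, hMN, hNM, hrel, hv⟩ := hS' d hd0
  have key := hW G M N d L δ R K Kθ ε₁ Λ (v - e / 2) s hd0 hδ hR hK hKθ hε hΛ hMN hNM hrel hv
  have hD' : s.D ≤ η := hD
  have hE' : s.Efl ≤ η := hE
  have h3 := sqrt3_lt
  have h3n : 0 ≤ Real.sqrt 3 := Real.sqrt_nonneg 3
  have h1 : Real.sqrt 3 * (2 * δ + s.D) ≤ 2 * Real.sqrt 3 * δ + 2 * η := by
    have : Real.sqrt 3 * s.D ≤ 2 * η := by
      calc Real.sqrt 3 * s.D ≤ Real.sqrt 3 * η := by gcongr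
        _ ≤ 2 * η := by gcongr; linarith
    linarith
  have hΛδ : 0 ≤ Λ + δ := by positivity
  have h2 : (Λ + δ) * (Λ + 4 * δ + Real.sqrt 3 * (2 * δ + s.D) + s.Efl
        + (2 * Real.sqrt 2 * δ + Real.sqrt 2 * Kθ / Real.sqrt d))
      ≤ (Λ + δ) * (Λ + (4 + 2 * Real.sqrt 3 + 2 * Real.sqrt 2) * δ + 4 * η) := by
    refine mul_le_mul_of_nonneg_left ?_ hΛδ
    linarith
  have h4 : 2 * η + (Λ + δ) * (4 * η) = e / 2 := by
    rw [hη]; field_simp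
  have h5 : (Λ + δ) * (Λ + (4 + 2 * Real.sqrt 3 + 2 * Real.sqrt 2) * δ + 4 * η)
      = (Λ + δ) * (Λ + (4 + 2 * Real.sqrt 3 + 2 * Real.sqrt 2) * δ) + (Λ + δ) * (4 * η) := by ring
  rw [h5] at h2
  linarith

/-- a version with the factor `r = 1/2` of the letters: value `= v / 2` -/
theorem value_le_keyRHS (hW : WalkTarget.{u}) {δ R K Λ v : ℝ} (hδ : 0 ≤ δ) (hR : 1 ≤ R)
    (hK : 0 ≤ K) (hΛ : 0 ≤ Λ) (hS : SlotsExist.{u} δ R K Λ (v / 2)) : v ≤ keyRHS δ Λ := by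
  have := value_le_of_slots hW hδ hR hK hΛ hS
  unfold keyRHS
  linarith

end Crest.Agent.R078.Z.Dbl
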