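/-
R78 / S0103 (helper45): elementary facts on relation bounds: scaling (F2), monotonicity, base case (F1),
the numerical bootstrap.
-/
import Crest.Agent.R078.S103Slot199

set_option autoImplicit false
open scoped InnerProductSpace

namespace Crest.Agent.R078.Z.Key

open Slot

universe u

section
variable {G : Type u} [NormedAddCommGroup G] [InnerProductSpace ℂ G] [CompleteSpace G]
variable {M N : VonNeumannAlgebra G}

theorem relBd_mono {R Λ Λ' : ℝ} (h : RelBd M N R Λ) (hΛ : Λ ≤ Λ') : RelBd M N R Λ' := by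
  intro κ ι _ _ μ Y ξ α β η h1 h2 h3 h4 h5 h6 h7 h8 h9 h10
  exact (h κ ι μ Y ξ α β η h1 h2 h3 h4 h5 h6 h7 h8 h9 h10).trans hΛ

theorem relBd_anti {R R' Λ : ℝ} (h : RelBd M N R Λ) (hR' : 0 ≤ R') (hR : R' ≤ R) :
    RelBd M N R' Λ := by
  intro κ ι _ _ μ Y ξ α β η h1 h2 h3 h4 h5 h6 h7 h8 h9 h10
  exact h κ ι μ Y ξ α β η h1 h2 h3 h4 h5 h6 h7
    (fun a => (h8 a).trans (pow_le_pow_left₀ hR' hR 2)) h9 h10

/-- (F2) -/
theorem relBd_scale {R Λ c : ℝ} (hc : 1 ≤ c) (h : RelBd M N R Λ) : RelBd M N (c * R) (c * Λ) := by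
  intro κ ι _ _ μ Y ξ α β η h1 h2 h3 h4 h5 h6 h7 h8 h9 h10
  have hc0 : 0 < c := by linarith
  have hci : ‖(c : ℂ)⁻¹‖ = c⁻¹ := by
    rw [norm_inv, Complex.norm_real, Real.norm_of_nonneg hc0.le]
  have hci1 : c⁻¹ ≤ 1 := inv_le_one_of_one_le₀ hc
  have key := h κ ι μ Y ξ α (fun a k => (c : ℂ)⁻¹ • β a k) (fun a k => (c : ℂ)⁻¹ • η a k)
    h1 h2 h3 h4 h5 h6 (fun a => ?_) (fun a => ?_) (fun a n hn => ?_) (fun n hn => ?_)
  · have e : ∑ a, (μ a : ℂ) * ∑ k, ⟪(c : ℂ)⁻¹ • β a k, Y a (α a k)⟫_ℂ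
        = (c : ℂ)⁻¹ * ∑ a, (μ a : ℂ) * ∑ k, ⟪β a k, Y a (α a k)⟫_ℂ := by
      simp only [inner_smul_left, ← Finset.mul_sum, map_inv₀, Complex.conj_ofReal]
      rw [Finset.mul_sum]
      refine Finset.sum_congr rfl fun a _ => ?_
      ring
    simp only [e, norm_mul, hci] at key
    rwa [inv_mul_le_iff₀ hc0] at key
  · simp only [norm_smul, hci, mul_pow, ← Finset.mul_sum]
    calc c⁻¹ ^ 2 * ∑ k, ‖β a k‖ ^ 2 ≤ 1 * 1 := by
          refine mul_le_mul ?_ (h7 a) (by positivity) zero_le_one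
          exact pow_le_one₀ (by positivity) hci1
      _ = 1 := one_mul 1
  · simp only [norm_smul, hci, mul_pow, ← Finset.mul_sum]
    calc c⁻¹ ^ 2 * ∑ k, ‖η a k‖ ^ 2 ≤ c⁻¹ ^ 2 * (c * R) ^ 2 := by
          refine mul_le_mul_of_nonneg_left (h8 a) (by positivity)
      _ = R ^ 2 := by field_simp
  · simp only [inner_smul_left, ← Finset.mul_sum]
    rw [h9 a n hn]
  · have := h10 n hn
    simp only [inner_smul_left, ← Finset.mul_sum, map_inv₀, Complex.conj_ofReal]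
    have e : ∀ a, ((μ a : ℂ) * ((c : ℂ)⁻¹ * ∑ k, ⟪η a k, n (ξ k)⟫_ℂ)) • Y a
        = (c : ℂ)⁻¹ • (((μ a : ℂ) * ∑ k, ⟪η a k, n (ξ k)⟫_ℂ) • Y a) := by
      intro a
      rw [smul_smul]
      congr 1
      ring
    simp only [e, ← Finset.smul_sum, this, smul_zero]

end

section base
variable {G : Type u} [NormedAddCommGroup G] [InnerProductSpace ℂ G] [CompleteSpace G]
variable {κ : Type} [Fintype κ]

/-- the vector of `G ⊗ ℂ^κ` -/
noncomputable def vc (x : κ → G) : PiLp 2 (fun _ : κ => G) := WithLp.toLp 2 x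

@[simp] theorem vc_apply (x : κ → G) (k : κ) : vc x k = x k := rfl

theorem inner_vc (x y : κ → G) : ⟪vc x, vc y⟫_ℂ = ∑ k, ⟪x k, y k⟫_ℂ := by
  simp [PiLp.inner_apply]

theorem norm_vc_sq (x : κ → G) : ‖vc x‖ ^ 2 = ∑ k, ‖x k‖ ^ 2 := by
  simp [PiLp.norm_sq_eq_of_L2]

/-- diagonal action on `G ⊗ ℂ^κ` -/
noncomputable def dg (x : G →L[ℂ] G) : PiLp 2 (fun _ : κ => G) →L[ℂ] PiLp 2 (fun _ : κ => G) :=
  (PiLp.continuousLinearEquiv 2 ℂ (fun _ : κ => G)).symm.toContinuousLinearMap ∘L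
    ContinuousLinearMap.pi fun i => x ∘L (PiLp.proj 2 (fun _ : κ => G) i)

@[simp] theorem dg_apply (x : G →L[ℂ] G) (v : PiLp 2 (fun _ : κ => G)) (i : κ) :
    dg x v i = x (v i) := by
  simp [dg]

theorem dg_vc (x : G →L[ℂ] G) (v : κ → G) : dg x (vc v) = vc fun k => x (v k) := by
  ext i; simp

theorem ofLp_eq_vc (v : PiLp 2 (fun _ : κ => G)) : v = vc (fun k => v k) := rfl

end base

/-- ABSTRACT EXACTNESS: if `∑ c_a ⟪η_a, h⟫ Y_a = 0` for all `h`, then every form `B(Y, η)` linear in `Y`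
and conjugate linear in `η` kills the tensor. -/
theorem sum_form_eq_zero {E F : Type*} [NormedAddCommGroup E] [InnerProductSpace ℂ E]
    [AddCommGroup F] [Module ℂ F] {W : Type*} [AddCommGroup W] [Module ℂ W]
    {ι : Type*} [Fintype ι] (c : ι → ℂ) (Y : ι → F) (η : ι → E)
    (h : ∀ x : E, ∑ a, (c a * ⟪η a, x⟫_ℂ) • Y a = 0)
    (B : E →ₗ⋆[ℂ] F →ₗ[ℂ] W) : ∑ a, c a • B (η a) (Y a) = 0 := by
  classical
  let S : Submodule ℂ E := Submodule.span ℂ (Set.range η)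
  haveI : FiniteDimensional ℂ S := FiniteDimensional.span_of_finite ℂ (Set.finite_range η)
  let f := stdOrthonormalBasis ℂ S
  have hη : ∀ a, η a = ∑ i, ⟪(f i : E), η a⟫_ℂ • (f i : E) := by
    intro a
    have hmem : η a ∈ S := Submodule.subset_span ⟨a, rfl⟩
    have := f.sum_repr' ⟨η a, hmem⟩
    have h2 := congrArg (fun v : S => (v : E)) this
    simp only [Submodule.coe_sum, Submodule.coe_smul, Submodule.coe_inner] at h2
    exact h2.symm
  have e : ∀ a, c a • B (η a) (Y a) = ∑ i, (c a * ⟪η a, (f i : E)⟫_ℂ) • B (f i : E) (Y a) := by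
    intro a
    conv_lhs => rw [hη a]
    rw [map_sum, LinearMap.sum_apply, Finset.smul_sum]
    refine Finset.sum_congr rfl fun i _ => ?_
    rw [LinearMap.map_smulₛₗ, LinearMap.smul_apply, smul_smul]
    congr 2
    simp
  simp only [e]
  rw [Finset.sum_comm]
  refine Finset.sum_eq_zero fun i _ => ?_
  have := congrArg (B (f i : E)) (h (f i : E))
  simpa [map_sum] using this

end Crest.Agent.R078.Z.Key
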