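/-
R78 / S0103 (helper45): base case (F1) `RelBd M N R ((1+R)δ)` and the numerical bootstrap.
-/
import Crest.Agent.R078.S103Key45A

set_option autoImplicit false
set_option linter.unusedSectionVars false
open scoped InnerProductSpace

namespace Crest.Agent.R078.Z.Key

open Slot

universe u

/-- projecting the `η_a` onto a closed subspace `K` on which the relation holds -/
theorem exists_proj_eta {E F : Type*} [NormedAddCommGroup E] [InnerProductSpace ℂ E]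
    [CompleteSpace E] [NormedAddCommGroup F] [NormedSpace ℂ F] {ι : Type*} [Fintype ι]
    (K0 : Submodule ℂ E) (c : ι → ℂ) (Y : ι → F) (η : ι → E)
    (h : ∀ x ∈ K0, ∑ a, (c a * ⟪η a, x⟫_ℂ) • Y a = 0) :
    ∀ x : E, ∑ a, (c a * ⟪K0.topologicalClosure.starProjection (η a), x⟫_ℂ) • Y a = 0 := by
  classical
  intro x
  set K := K0.topologicalClosure with hK
  have h1 : ∀ a, ⟪K.starProjection (η a), x⟫_ℂ = ⟪η a, K.starProjection x⟫_ℂ := by
    intro a
    exact (Submodule.starProjection_isSymmetric K) (η a) x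
  have h2 : ∑ a, (c a * ⟪K.starProjection (η a), x⟫_ℂ) • Y a
      = ∑ a, (c a * ⟪η a, K.starProjection x⟫_ℂ) • Y a :=
    Finset.sum_congr rfl fun a _ => by rw [h1 a]
  rw [h2]
  have hx : K.starProjection x ∈ closure (K0 : Set E) := by
    have h3 : K.starProjection x ∈ K := Submodule.starProjection_apply_mem K x
    have h4 : (K : Set E) = closure (K0 : Set E) := Submodule.topologicalClosure_coe K0
    rw [← h4]
    exact h3
  have hcont : Continuous fun y : E => ∑ a, (c a * ⟪η a, y⟫_ℂ) • Y a := by fun_prop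
  have hcl : IsClosed {y : E | ∑ a, (c a * ⟪η a, y⟫_ℂ) • Y a = 0} :=
    isClosed_eq hcont continuous_const
  exact hcl.closure_subset_iff.mpr (fun y hy => h y hy) hx

theorem proj_eta_inner {E : Type*} [NormedAddCommGroup E] [InnerProductSpace ℂ E]
    [CompleteSpace E] (K0 : Submodule ℂ E) (v x : E) (hx : x ∈ K0) :
    ⟪K0.topologicalClosure.starProjection v, x⟫_ℂ = ⟪v, x⟫_ℂ := by
  have h := (Submodule.starProjection_isSymmetric K0.topologicalClosure) v x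
  refine h.trans ?_
  congr 1
  exact Submodule.starProjection_eq_self_iff.mpr (Submodule.le_topologicalClosure K0 hx)

section
variable {G : Type u} [NormedAddCommGroup G] [InnerProductSpace ℂ G] [CompleteSpace G]
variable {M N : VonNeumannAlgebra G} {κ : Type} [Fintype κ]

/-- `{(n ξ_k)_k : n ∈ N}` -/
noncomputable def orb (N : VonNeumannAlgebra G) (ξ : κ → G) :
    Submodule ℂ (PiLp 2 (fun _ : κ => G)) where
  carrier := {x | ∃ n ∈ N, x = vc fun k => n (ξ k)}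
  add_mem' := by
    rintro _ _ ⟨n, hn, rfl⟩ ⟨m, hm, rfl⟩
    exact ⟨n + m, add_mem hn hm, by ext i; simp⟩
  zero_mem' := ⟨0, zero_mem _, by ext i; simp⟩
  smul_mem' := by
    rintro c _ ⟨n, hn, rfl⟩
    exact ⟨c • n, N.toStarSubalgebra.smul_mem hn c, by ext i; simp⟩

theorem mem_orb {ξ : κ → G} {n : G →L[ℂ] G} (hn : n ∈ N) : vc (fun k => n (ξ k)) ∈ orb N ξ :=
  ⟨n, hn, rfl⟩

/-- (F1) -/
theorem relBd_base {δ R : ℝ} (hδ : 0 ≤ δ) (hR : 0 ≤ R) (hMN : BallIn M N δ) :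
    RelBd M N R ((1 + R) * δ) := by
  classical
  intro κ ι _ _ μ Y ξ α β η h1 h2 h3 h4 h5 h6 h7 h8 h9 h10
  choose y hyN hy1 hyδ using fun a => hMN (Y a) (h3 a) (h4 a)
  set P := (orb N ξ).topologicalClosure.starProjection with hP
  have hrel : ∀ x : PiLp 2 (fun _ : κ => G),
      ∑ a, ((μ a : ℂ) * ⟪P (vc (η a)), x⟫_ℂ) • Y a = 0 := by
    refine exists_proj_eta (orb N ξ) (fun a => (μ a : ℂ)) Y (fun a => vc (η a)) ?_
    rintro _ ⟨n, hn, rfl⟩
    simpa only [inner_vc] using h10 n hn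
  -- `∑ μ ⟪P η_a, Y_a ξ⟫ = 0`
  have hz : ∑ a, (μ a : ℂ) * ⟪P (vc (η a)), vc fun k => Y a (ξ k)⟫_ℂ = 0 := by
    let B : PiLp 2 (fun _ : κ => G) →ₗ⋆[ℂ] (G →L[ℂ] G) →ₗ[ℂ] ℂ :=
      LinearMap.mk₂'ₛₗ (starRingEnd ℂ) (RingHom.id ℂ)
        (fun e x => ⟪e, vc fun k => x (ξ k)⟫_ℂ)
        (fun e e' x => by simp [inner_add_left])
        (fun c e x => by simp [inner_smul_left, mul_comm])
        (fun e x x' => by
          rw [← inner_add_right]; congr 1)
        (fun c e x => by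
          rw [RingHom.id_apply, smul_eq_mul, ← inner_smul_right]; congr 1)
    have := sum_form_eq_zero (fun a => (μ a : ℂ)) Y (fun a => P (vc (η a))) hrel B
    simpa [B] using this
  have hPn : ∀ a, ‖P (vc (η a))‖ ≤ R := by
    intro a
    have h11 : ‖P (vc (η a))‖ ≤ ‖vc (η a)‖ :=
      Submodule.norm_starProjection_apply_le _ _
    have h12 : ‖vc (η a)‖ ^ 2 ≤ R ^ 2 := by rw [norm_vc_sq]; exact h8 a
    exact h11.trans (abs_le_of_sq_le_sq' h12 hR).2
  have hξ : ‖vc ξ‖ ≤ 1 := by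
    have : ‖vc ξ‖ ^ 2 ≤ 1 ^ 2 := by rw [norm_vc_sq]; simpa using h5
    exact (abs_le_of_sq_le_sq' this zero_le_one).2
  have hterm : ∀ a, ∑ k, ⟪β a k, Y a (α a k)⟫_ℂ
      = ⟪vc (β a), dg (Y a - y a) (vc (α a))⟫_ℂ
        - ⟪P (vc (η a)), dg (Y a - y a) (vc ξ)⟫_ℂ
        + ⟪P (vc (η a)), vc fun k => Y a (ξ k)⟫_ℂ := by
    intro a
    have e1 : ∑ k, ⟪β a k, Y a (α a k)⟫_ℂ = ⟪vc (β a), dg (Y a - y a) (vc (α a))⟫_ℂ
        + ∑ k, ⟪β a k, y a (α a k)⟫_ℂ := by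
      rw [dg_vc, inner_vc, ← Finset.sum_add_distrib]
      refine Finset.sum_congr rfl fun k _ => ?_
      rw [← inner_add_right]
      simp
    have e2 : ∑ k, ⟪β a k, y a (α a k)⟫_ℂ = ⟪P (vc (η a)), vc fun k => y a (ξ k)⟫_ℂ := by
      rw [h9 a (y a) (hyN a), hP, proj_eta_inner _ _ _ (mem_orb (hyN a)), inner_vc]
    have e3 : ⟪P (vc (η a)), vc fun k => y a (ξ k)⟫_ℂ
        = ⟪P (vc (η a)), vc fun k => Y a (ξ k)⟫_ℂ
          - ⟪P (vc (η a)), dg (Y a - y a) (vc ξ)⟫_ℂ := by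
      rw [← inner_sub_right]
      congr 1
      ext k
      simp
    rw [e1, e2, e3]
    ring
  have hdg : ∀ a (v : PiLp 2 (fun _ : κ => G)), ‖v‖ ≤ 1 → ‖dg (Y a - y a) v‖ ≤ δ := by
    intro a v hv
    have : ‖dg (Y a - y a) v‖ ^ 2 ≤ δ ^ 2 := by
      rw [PiLp.norm_sq_eq_of_L2]
      calc ∑ k, ‖dg (Y a - y a) v k‖ ^ 2 ≤ ∑ k, δ ^ 2 * ‖v k‖ ^ 2 := by
            refine Finset.sum_le_sum fun k _ => ?_
            rw [dg_apply, ← mul_pow]
            refine pow_le_pow_left₀ (norm_nonneg _) ?_ 2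
            exact ((Y a - y a).le_opNorm _).trans
              (mul_le_mul_of_nonneg_right (hyδ a) (norm_nonneg _))
        _ = δ ^ 2 * ‖v‖ ^ 2 := by rw [PiLp.norm_sq_eq_of_L2, Finset.mul_sum]
        _ ≤ δ ^ 2 * 1 := by
            refine mul_le_mul_of_nonneg_left ?_ (by positivity)
            exact pow_le_one₀ (norm_nonneg _) hv
        _ = δ ^ 2 := mul_one _
    exact (abs_le_of_sq_le_sq' this hδ).2
  have hα : ∀ a, ‖vc (α a)‖ ≤ 1 := fun a => by
    have : ‖vc (α a)‖ ^ 2 ≤ 1 ^ 2 := by rw [norm_vc_sq]; simpa using h6 a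
    exact (abs_le_of_sq_le_sq' this zero_le_one).2
  have hβ : ∀ a, ‖vc (β a)‖ ≤ 1 := fun a => by
    have : ‖vc (β a)‖ ^ 2 ≤ 1 ^ 2 := by rw [norm_vc_sq]; simpa using h7 a
    exact (abs_le_of_sq_le_sq' this zero_le_one).2
  calc ‖∑ a, (μ a : ℂ) * ∑ k, ⟪β a k, Y a (α a k)⟫_ℂ‖
      = ‖∑ a, (μ a : ℂ) * (⟪vc (β a), dg (Y a - y a) (vc (α a))⟫_ℂ
        - ⟪P (vc (η a)), dg (Y a - y a) (vc ξ)⟫_ℂ)‖ := by
        congr 1
        rw [← sub_eq_zero, ← Finset.sum_sub_distrib, ← hz]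
        refine Finset.sum_congr rfl fun a _ => ?_
        rw [hterm a]; ring
    _ ≤ ∑ a, μ a * ((1 + R) * δ) := by
        refine (norm_sum_le _ _).trans (Finset.sum_le_sum fun a _ => ?_)
        rw [norm_mul, Complex.norm_real, Real.norm_of_nonneg (h1 a)]
        refine mul_le_mul_of_nonneg_left ?_ (h1 a)
        calc ‖⟪vc (β a), dg (Y a - y a) (vc (α a))⟫_ℂ
              - ⟪P (vc (η a)), dg (Y a - y a) (vc ξ)⟫_ℂ‖
            ≤ ‖⟪vc (β a), dg (Y a - y a) (vc (α a))⟫_ℂ‖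
              + ‖⟪P (vc (η a)), dg (Y a - y a) (vc ξ)⟫_ℂ‖ := norm_sub_le _ _
          _ ≤ 1 * δ + R * δ := by
              refine add_le_add ?_ ?_
              · exact (norm_inner_le_norm _ _).trans
                  (mul_le_mul (hβ a) (hdg a _ (hα a)) (norm_nonneg _) zero_le_one)
              · exact (norm_inner_le_norm _ _).trans
                  (mul_le_mul (hPn a) (hdg a _ hξ) (norm_nonneg _) hR)
          _ = (1 + R) * δ := by ring
    _ = (1 + R) * δ := by rw [← Finset.sum_mul, h2, one_mul]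

end

/-- NUMERICAL BOOTSTRAP.  `P R Λ` = "every relation of class `R` (all stably close pairs) has value
`≤ Λ`". -/
theorem bootstrap {δ : ℝ} (hδ0 : 0 ≤ δ) (hδ : δ ≤ 1 / 10000) (P : ℝ → ℝ → Prop)
    (hmono : ∀ R Λ Λ', P R Λ → Λ ≤ Λ' → P R Λ')
    (hanti : ∀ R R' Λ, 0 ≤ R' → R' ≤ R → P R Λ → P R' Λ)
    (hscale : ∀ R Λ c, 1 ≤ c → P R Λ → P (c * R) (c * Λ))
    (hbase : P 1 (2 * δ))
    (hkey : ∀ R Λ, 1 ≤ R → 0 ≤ Λ → P (Real.sqrt 3 * R) Λ →
      P R (2 * (3 * δ + 2 * Real.sqrt 3 * δ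
        + (Λ + δ) * (Λ + (4 + 2 * Real.sqrt 3 + 2 * Real.sqrt 2) * δ)))) :
    ∀ R, 0 ≤ R → P R (14 * δ) := by
  have h3 : Real.sqrt 3 ≤ 1.7321 := by
    rw [show (1.7321 : ℝ) = Real.sqrt (1.7321 ^ 2) by
      rw [Real.sqrt_sq]; norm_num]
    exact Real.sqrt_le_sqrt (by norm_num)
  have h30 : 0 ≤ Real.sqrt 3 := Real.sqrt_nonneg 3
  have h31 : 1 ≤ Real.sqrt 3 := by
    rw [show (1 : ℝ) = Real.sqrt 1 by simp]
    exact Real.sqrt_le_sqrt (by norm_num)
  have h2 : Real.sqrt 2 ≤ 1.4143 := by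
    rw [show (1.4143 : ℝ) = Real.sqrt (1.4143 ^ 2) by
      rw [Real.sqrt_sq]; norm_num]
    exact Real.sqrt_le_sqrt (by norm_num)
  have h20 : 0 ≤ Real.sqrt 2 := Real.sqrt_nonneg 2
  have step : ∀ R, 1 ≤ R → P R (14 * δ) → P (2 * R) (14 * δ) := by
    intro R hR h
    set c := Real.sqrt 3 * 2 with hc
    have hc1 : 1 ≤ c := by rw [hc]; nlinarith
    have hc2 : c ≤ 3.4642 := by rw [hc]; linarith
    have e : Real.sqrt 3 * (2 * R) = c * R := by rw [hc]; ring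
    have h' : P (Real.sqrt 3 * (2 * R)) (48.5 * δ) := by
      rw [e]
      refine hmono _ _ _ (hscale R (14 * δ) c hc1 h) ?_
      nlinarith
    have h'' := hkey (2 * R) (48.5 * δ) (by linarith) (by positivity) h'
    refine hmono _ _ _ h'' ?_
    have hd2 : δ * δ ≤ (1 / 10000) * δ := mul_le_mul_of_nonneg_right hδ hδ0
    have a1 : 2 * Real.sqrt 3 * δ ≤ 3.4642 * δ := by nlinarith
    have a2 : (48.5 * δ + δ) * (48.5 * δ + (4 + 2 * Real.sqrt 3 + 2 * Real.sqrt 2) * δ)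
        ≤ (49.5 * δ) * (58.8 * δ) := by
      have : 48.5 * δ + (4 + 2 * Real.sqrt 3 + 2 * Real.sqrt 2) * δ ≤ 58.8 * δ := by nlinarith
      calc (48.5 * δ + δ) * (48.5 * δ + (4 + 2 * Real.sqrt 3 + 2 * Real.sqrt 2) * δ)
          ≤ (48.5 * δ + δ) * (58.8 * δ) :=
            mul_le_mul_of_nonneg_left this (by positivity)
        _ = (49.5 * δ) * (58.8 * δ) := by ring
    nlinarith
  have hpow : ∀ k : ℕ, P (2 ^ k) (14 * δ) := by
    intro k
    induction k with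
    | zero => rw [pow_zero]; exact hmono _ _ _ hbase (by linarith)
    | succ k ih =>
      rw [pow_succ, mul_comm]
      exact step _ (one_le_pow₀ (by norm_num)) ih
  intro R hR
  obtain ⟨k, hk⟩ := pow_unbounded_of_one_lt R (one_lt_two)
  exact hanti _ _ _ hR hk.le (hpow k)

end Crest.Agent.R078.Z.Key
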