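/-
R78 / S0103 (helper45): the universal relation bound `RelAll`, the bootstrap over `R`.
-/
import Crest.Agent.R078.S103Key45B
import Crest.Agent.R078.S103TBFrame

set_option autoImplicit false
set_option linter.unusedSectionVars false
open scoped InnerProductSpace

namespace Crest.Agent.R078.Z.Key

open Slot

universe u

/-- `Λ_R ≤ Λ` for ALL stably `δ`-close pairs. -/
def RelAll (δ R Λ : ℝ) : Prop :=
  ∀ (H : Type u) [NormedAddCommGroup H] [InnerProductSpace ℂ H] [CompleteSpace H]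
    (M N : VonNeumannAlgebra H), TB.SC δ M N → RelBd M N R Λ

/-- THE KEY INEQUALITY -/
def KeyIneq : Prop :=
  ∀ δ R Λ : ℝ, 0 ≤ δ → 1 ≤ R → 0 ≤ Λ → RelAll.{u} δ (Real.sqrt 3 * R) Λ →
    RelAll.{u} δ R (2 * (3 * δ + 2 * Real.sqrt 3 * δ
      + (Λ + δ) * (Λ + (4 + 2 * Real.sqrt 3 + 2 * Real.sqrt 2) * δ)))

theorem relAll_mono {δ R Λ Λ' : ℝ} (h : RelAll.{u} δ R Λ) (hΛ : Λ ≤ Λ') : RelAll.{u} δ R Λ' :=
  fun H _ _ _ M N hSC => relBd_mono (h H M N hSC) hΛ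

theorem relAll_anti {δ R R' Λ : ℝ} (h : RelAll.{u} δ R Λ) (hR' : 0 ≤ R') (hR : R' ≤ R) :
    RelAll.{u} δ R' Λ :=
  fun H _ _ _ M N hSC => relBd_anti (h H M N hSC) hR' hR

theorem relAll_scale {δ R Λ c : ℝ} (h : RelAll.{u} δ R Λ) (hc : 1 ≤ c) :
    RelAll.{u} δ (c * R) (c * Λ) :=
  fun H _ _ _ M N hSC => relBd_scale hc (h H M N hSC)

theorem relAll_base {δ R : ℝ} (hδ : 0 ≤ δ) (hR : 0 ≤ R) : RelAll.{u} δ R ((1 + R) * δ) :=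
  fun _ _ _ _ _ _ hSC => relBd_base hδ hR hSC.ball.1

/-- `Λ_R ≤ 14 δ` for ALL `R`, provided `δ ≤ 1/10000`. -/
theorem relAll_of_key (hkey : KeyIneq.{u}) {δ : ℝ} (hδ0 : 0 ≤ δ) (hδ : δ ≤ 1 / 10000) :
    ∀ R, 0 ≤ R → RelAll.{u} δ R (14 * δ) :=
  bootstrap hδ0 hδ (fun R Λ => RelAll.{u} δ R Λ)
    (fun _ _ _ h hΛ => relAll_mono h hΛ)
    (fun _ _ _ hR' hR h => relAll_anti h hR' hR)
    (fun _ _ _ hc h => relAll_scale h hc)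
    (by have := relAll_base.{u} hδ0 (zero_le_one (α := ℝ)); rwa [show (1 + 1 : ℝ) = 2 by norm_num] at this)
    (fun R Λ hR hΛ h => hkey δ R Λ hδ0 hR hΛ h)

/-- LIFT: the linear near-identity map. -/
def Lift (H : Type u) [NormedAddCommGroup H] [InnerProductSpace ℂ H] [CompleteSpace H]
    (M N : VonNeumannAlgebra H) (Λ : ℝ) : Prop :=
  ∃ Θ : (H →L[ℂ] H) →ₗ[ℂ] (H →L[ℂ] H), (∀ Y ∈ M, Θ Y ∈ N) ∧ ∀ Y ∈ M, ‖Θ Y - Y‖ ≤ Λ * ‖Y‖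

end Crest.Agent.R078.Z.Key
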