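import Mathlib

/-!
# R078 / S0103: finite probability layer for the walk (helper666)

Words are functions `w : Fin d → I`, letters are i.i.d. with weights `mu : I → ℝ`.
-/

set_option autoImplicit false
open scoped BigOperators InnerProductSpace ComplexConjugate

namespace Crest.Agent.R078.Pb

section Basic

variable {I : Type*} [Fintype I] {d : ℕ}

/-- Product weight of a word. -/
noncomputable def wt (mu : I → ℝ) (w : Fin d → I) : ℝ := ∏ j, mu (w j)

theorem wt_nonneg {mu : I → ℝ} (h0 : ∀ i, 0 ≤ mu i) (w : Fin d → I) : 0 ≤ wt mu w :=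
  Finset.prod_nonneg fun _ _ => h0 _

theorem sum_wt {mu : I → ℝ} (h1 : ∑ i, mu i = 1) : ∑ w : Fin d → I, wt mu w = 1 := by
  classical
  unfold wt
  have := (Finset.prod_univ_sum (fun _ : Fin d => (Finset.univ : Finset I)) (fun _ i => mu i)).symm
  simpa [Fintype.piFinset_univ, h1] using this

/-- Expectation over words (real weights). -/
noncomputable def Ex {E : Type*} [AddCommMonoid E] [Module ℝ E] (mu : I → ℝ)
    (F : (Fin d → I) → E) : E := ∑ w, wt mu w • F w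

section Mod
variable {E E' : Type*} [AddCommGroup E] [Module ℝ E] [AddCommGroup E'] [Module ℝ E']
  (mu : I → ℝ)

theorem Ex_add (F G : (Fin d → I) → E) : Ex mu (fun w => F w + G w) = Ex mu F + Ex mu G := by
  simp [Ex, smul_add, Finset.sum_add_distrib]

theorem Ex_sub (F G : (Fin d → I) → E) : Ex mu (fun w => F w - G w) = Ex mu F - Ex mu G := by
  simp [Ex, smul_sub, Finset.sum_sub_distrib]

theorem Ex_neg (F : (Fin d → I) → E) : Ex mu (fun w => - F w) = - Ex mu F := by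
  simp [Ex, smul_neg, Finset.sum_neg_distrib]

theorem Ex_smul (c : ℝ) (F : (Fin d → I) → E) : Ex mu (fun w => c • F w) = c • Ex mu F := by
  simp [Ex, Finset.smul_sum, smul_comm c]

@[simp] theorem Ex_zero : Ex mu (fun _ : Fin d → I => (0 : E)) = 0 := by simp [Ex]

theorem Ex_sum {κ : Type*} (s : Finset κ) (F : κ → (Fin d → I) → E) :
    Ex mu (fun w => ∑ k ∈ s, F k w) = ∑ k ∈ s, Ex mu (F k) := by
  simp only [Ex, Finset.smul_sum]
  exact Finset.sum_comm

theorem Ex_const (h1 : ∑ i, mu i = 1) (c : E) : Ex mu (fun _ : Fin d → I => c) = c := by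
  rw [Ex, ← Finset.sum_smul, sum_wt h1, one_smul]

theorem Ex_linear (L : E →ₗ[ℝ] E') (F : (Fin d → I) → E) :
    Ex mu (fun w => L (F w)) = L (Ex mu F) := by
  simp [Ex, map_sum]

theorem Ex_congr {F G : (Fin d → I) → E} (h : ∀ w, F w = G w) : Ex mu F = Ex mu G := by
  simp [Ex, h]

end Mod

theorem Ex_cast (mu : I → ℝ) (F : (Fin d → I) → ℝ) :
    Ex mu (fun w => (F w : ℂ)) = ((Ex mu F : ℝ) : ℂ) := by
  simp [Ex]

theorem Ex_re (mu : I → ℝ) (F : (Fin d → I) → ℂ) :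
    (Ex mu F).re = Ex mu (fun w => (F w).re) := by
  simp [Ex]

theorem Ex_mul_left (mu : I → ℝ) (c : ℝ) (F : (Fin d → I) → ℝ) :
    Ex mu (fun w => c * F w) = c * Ex mu F := Ex_smul mu c F

theorem Ex_mul_left' (mu : I → ℝ) (c : ℂ) (F : (Fin d → I) → ℂ) :
    Ex mu (fun w => c * F w) = c * Ex mu F := by
  simp only [Ex, Finset.mul_sum]
  refine Finset.sum_congr rfl fun w _ => ?_
  simp only [Complex.real_smul]; ring

section Order
variable {mu : I → ℝ} (h0 : ∀ i, 0 ≤ mu i)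
include h0

theorem Ex_mono {F G : (Fin d → I) → ℝ} (h : ∀ w, F w ≤ G w) : Ex mu F ≤ Ex mu G :=
  Finset.sum_le_sum fun w _ => mul_le_mul_of_nonneg_left (h w) (wt_nonneg h0 w)

theorem Ex_nonneg {F : (Fin d → I) → ℝ} (h : ∀ w, 0 ≤ F w) : 0 ≤ Ex mu F :=
  Finset.sum_nonneg fun w _ => mul_nonneg (wt_nonneg h0 w) (h w)

theorem Ex_le_const (h1 : ∑ i, mu i = 1) {F : (Fin d → I) → ℝ} {c : ℝ} (h : ∀ w, F w ≤ c) :
    Ex mu F ≤ c := by
  calc Ex mu F ≤ Ex mu (fun _ => c) := Ex_mono h0 h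
    _ = c := Ex_const mu h1 c

theorem norm_Ex_le {E : Type*} [NormedAddCommGroup E] [NormedSpace ℝ E]
    (F : (Fin d → I) → E) : ‖Ex mu F‖ ≤ Ex mu (fun w => ‖F w‖) := by
  refine (norm_sum_le _ _).trans (Finset.sum_le_sum fun w _ => ?_)
  rw [norm_smul, Real.norm_of_nonneg (wt_nonneg h0 w)]; rfl

theorem Ex_sq_le (h1 : ∑ i, mu i = 1) (F : (Fin d → I) → ℝ) :
    (Ex mu F) ^ 2 ≤ Ex mu (fun w => F w ^ 2) := by
  have h := Finset.sum_sq_le_sum_mul_sum_of_sq_eq_mul (Finset.univ : Finset (Fin d → I))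
    (r := fun w => wt mu w * F w) (f := fun w => wt mu w) (g := fun w => wt mu w * F w ^ 2)
    (fun w _ => wt_nonneg h0 w)
    (fun w _ => mul_nonneg (wt_nonneg h0 w) (sq_nonneg _))
    (fun w _ => by ring)
  rw [sum_wt h1, one_mul] at h
  simpa [Ex, smul_eq_mul] using h

theorem Ex_le_sqrt (h1 : ∑ i, mu i = 1) (F : (Fin d → I) → ℝ) :
    Ex mu F ≤ Real.sqrt (Ex mu (fun w => F w ^ 2)) :=
  Real.le_sqrt_of_sq_le (Ex_sq_le h0 h1 F)

theorem Ex_norm_le_sqrt {E : Type*} [NormedAddCommGroup E]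
    (h1 : ∑ i, mu i = 1) (F : (Fin d → I) → E) :
    Ex mu (fun w => ‖F w‖) ≤ Real.sqrt (Ex mu (fun w => ‖F w‖ ^ 2)) :=
  Ex_le_sqrt h0 h1 _

theorem Ex_norm_le_of_sq_le {E : Type*} [NormedAddCommGroup E]
    (h1 : ∑ i, mu i = 1) (F : (Fin d → I) → E) {B : ℝ} (hB : 0 ≤ B)
    (h : Ex mu (fun w => ‖F w‖ ^ 2) ≤ B ^ 2) : Ex mu (fun w => ‖F w‖) ≤ B := by
  refine (Ex_norm_le_sqrt h0 h1 F).trans ?_
  rw [← Real.sqrt_sq hB]
  exact Real.sqrt_le_sqrt h

/-- Markov-type positivity: an average that is `≤ c` is attained by some word `≤ c`. -/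
theorem exists_le_of_Ex_le (h1 : ∑ i, mu i = 1) (F : (Fin d → I) → ℝ) :
    ∃ w, F w ≤ Ex mu F := by
  by_contra hcon
  push Not at hcon
  have h2 : ∑ w : Fin d → I, wt mu w * (F w - Ex mu F) = 0 := by
    simp only [mul_sub, Finset.sum_sub_distrib, ← Finset.sum_mul, sum_wt h1, one_mul]
    simp [Ex]
  have h3 : ∀ w ∈ (Finset.univ : Finset (Fin d → I)), wt mu w * (F w - Ex mu F) = 0 :=
    (Finset.sum_eq_zero_iff_of_nonneg
      (fun w _ => mul_nonneg (wt_nonneg h0 w) (sub_nonneg.2 (hcon w).le))).1 h2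
  have h4 : ∑ w : Fin d → I, wt mu w = 0 := by
    refine Finset.sum_eq_zero fun w hw => ?_
    rcases mul_eq_zero.1 (h3 w hw) with h | h
    · exact h
    · exact absurd h (sub_pos.2 (hcon w)).ne'
  rw [sum_wt h1] at h4
  exact one_ne_zero h4

end Order

/-! ### Integrating out one letter -/

section Update
variable [DecidableEq I] (mu : I → ℝ)

theorem wt_update (w : Fin d → I) (j : Fin d) (i : I) :
    wt mu (Function.update w j i) * mu (w j) = wt mu w * mu i := by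
  unfold wt
  rw [← Finset.mul_prod_erase Finset.univ (fun x => mu (Function.update w j i x)) (Finset.mem_univ j),
    ← Finset.mul_prod_erase Finset.univ (fun x => mu (w x)) (Finset.mem_univ j)]
  have : ∏ x ∈ Finset.univ.erase j, mu (Function.update w j i x)
      = ∏ x ∈ Finset.univ.erase j, mu (w x) := by
    refine Finset.prod_congr rfl fun x hx => ?_
    rw [Function.update_of_ne (Finset.ne_of_mem_erase hx)]
  rw [this]; simp only [Function.update_self]; ring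

/-- the swap `(w, i) ↦ (w with letter j replaced by i, old letter j)` -/
def swapE (j : Fin d) : ((Fin d → I) × I) ≃ ((Fin d → I) × I) where
  toFun p := (Function.update p.1 j p.2, p.1 j)
  invFun p := (Function.update p.1 j p.2, p.1 j)
  left_inv p := by ext <;> simp
  right_inv p := by ext <;> simp

variable {E : Type*} [AddCommGroup E] [Module ℝ E]

theorem Ex_update (h1 : ∑ i, mu i = 1) (j : Fin d) (F : (Fin d → I) → E) :
    Ex mu F = Ex mu (fun w => ∑ i, mu i • F (Function.update w j i)) := by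
  have e1 : Ex mu (fun w => ∑ i, mu i • F (Function.update w j i))
      = ∑ p : (Fin d → I) × I, (wt mu p.1 * mu p.2) • F (Function.update p.1 j p.2) := by
    rw [Fintype.sum_prod_type]
    simp only [Ex, Finset.smul_sum, smul_smul]
  rw [e1]
  have e2 : ∑ p : (Fin d → I) × I, (wt mu p.1 * mu p.2) • F (Function.update p.1 j p.2)
      = ∑ p : (Fin d → I) × I, (wt mu p.1 * mu p.2) • F p.1 := by
    rw [← Equiv.sum_comp (swapE j)]
    refine Finset.sum_congr rfl fun p _ => ?_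
    simp only [swapE, Equiv.coe_fn_mk, Function.update_idem, Function.update_eq_self]
    rw [wt_update]
  rw [e2, Fintype.sum_prod_type]
  simp only [Ex]
  refine Finset.sum_congr rfl fun w _ => ?_
  rw [← Finset.sum_smul, ← Finset.mul_sum, h1, mul_one]

/-- Expectation of a function of the letter `j` and of a part that does not see letter `j`. -/
theorem Ex_letter (h1 : ∑ i, mu i = 1) (j : Fin d) (F : I → (Fin d → I) → E)
    (hF : ∀ l w i, F l (Function.update w j i) = F l w) :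
    Ex mu (fun w => F (w j) w) = Ex mu (fun w => ∑ i, mu i • F i w) := by
  rw [Ex_update mu h1 j]
  refine Ex_congr mu fun w => Finset.sum_congr rfl fun i _ => ?_
  rw [Function.update_self, hF]

theorem Ex_single (h1 : ∑ i, mu i = 1) (j : Fin d) (f : I → E) :
    Ex mu (fun w : Fin d → I => f (w j)) = ∑ i, mu i • f i := by
  rw [Ex_letter mu h1 j (fun l _ => f l) (fun _ _ _ => rfl), Ex_const mu h1]

/-- If the average over letter `j` vanishes for every word, the expectation vanishes. -/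
theorem Ex_eq_zero (h1 : ∑ i, mu i = 1) (j : Fin d) (F : (Fin d → I) → E)
    (hF : ∀ w, ∑ i, mu i • F (Function.update w j i) = 0) : Ex mu F = 0 := by
  rw [Ex_update mu h1 j, Ex_congr mu hF, Ex_zero]

end Update

end Basic

/-! ### Orthogonality of martingale differences -/

section Martingale

variable {I : Type*} [Fintype I] [DecidableEq I] {d : ℕ} {mu : I → ℝ}
  {G : Type*} [NormedAddCommGroup G] [InnerProductSpace ℂ G]

theorem Ex_inner_eq_zero (h1 : ∑ i, mu i = 1) (h : Fin d → (Fin d → I) → G)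
    (hpred : ∀ i j, i < j → ∀ w l, h i (Function.update w j l) = h i w)
    (hmean : ∀ j w, ∑ l, mu l • h j (Function.update w j l) = 0) {i j : Fin d} (hij : i < j) :
    Ex mu (fun w => ⟪h i w, h j w⟫_ℂ) = 0 := by
  refine Ex_eq_zero mu h1 j _ fun w => ?_
  have : ∀ l, mu l • ⟪h i (Function.update w j l), h j (Function.update w j l)⟫_ℂ
      = ⟪h i w, mu l • h j (Function.update w j l)⟫_ℂ := by
    intro l
    rw [hpred i j hij w l, ← Complex.coe_smul (mu l) (h j (Function.update w j l)), inner_smul_right,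
      Complex.real_smul]
  rw [Finset.sum_congr rfl fun l _ => this l, ← inner_sum, hmean j w, inner_zero_right]

theorem Ex_norm_sq_sum (h1 : ∑ i, mu i = 1) (h : Fin d → (Fin d → I) → G)
    (hpred : ∀ i j, i < j → ∀ w l, h i (Function.update w j l) = h i w)
    (hmean : ∀ j w, ∑ l, mu l • h j (Function.update w j l) = 0) :
    Ex mu (fun w => ‖∑ j, h j w‖ ^ 2) = ∑ j, Ex mu (fun w => ‖h j w‖ ^ 2) := by
  have hz : ∀ i j : Fin d, i ≠ j → Ex mu (fun w => ⟪h i w, h j w⟫_ℂ) = 0 := by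
    intro i j hne
    rcases lt_or_gt_of_ne hne with hlt | hgt
    · exact Ex_inner_eq_zero h1 h hpred hmean hlt
    · have h2 := Ex_inner_eq_zero h1 h hpred hmean hgt
      have h3 : Ex mu (fun w => ⟪h i w, h j w⟫_ℂ)
          = (starRingEnd ℂ) (Ex mu (fun w => ⟪h j w, h i w⟫_ℂ)) := by
        simp only [Ex, map_sum, Complex.real_smul, map_mul, Complex.conj_ofReal, inner_conj_symm]
      rw [h3, h2, map_zero]
  have hc : ((Ex mu (fun w => ‖∑ j, h j w‖ ^ 2) : ℝ) : ℂ)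
      = ((∑ j, Ex mu (fun w => ‖h j w‖ ^ 2) : ℝ) : ℂ) := by
    rw [← Ex_cast]
    have e : ∀ w : Fin d → I, ((‖∑ j, h j w‖ ^ 2 : ℝ) : ℂ) = ∑ i, ∑ j, ⟪h i w, h j w⟫_ℂ := by
      intro w
      have := inner_self_eq_norm_sq_to_K (𝕜 := ℂ) (∑ j, h j w)
      rw [sum_inner] at this
      simp only [inner_sum] at this
      push_cast
      exact this.symm
    rw [Ex_congr mu e, Ex_sum]
    push_cast
    refine Finset.sum_congr rfl fun i _ => ?_
    rw [Ex_sum, Finset.sum_eq_single i (fun j _ hj => hz i j (Ne.symm hj)) (by simp), ← Ex_cast]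
    refine Ex_congr mu fun w => ?_
    rw [inner_self_eq_norm_sq_to_K]; push_cast; rfl
  exact_mod_cast hc

/-- Law of large numbers: `E ‖d⁻¹ ∑ h_j‖² ≤ B²/d`. -/
theorem Ex_norm_avg_sq_le (h0 : ∀ i, 0 ≤ mu i) (h1 : ∑ i, mu i = 1) (hd : 0 < d)
    (h : Fin d → (Fin d → I) → G)
    (hpred : ∀ i j, i < j → ∀ w l, h i (Function.update w j l) = h i w)
    (hmean : ∀ j w, ∑ l, mu l • h j (Function.update w j l) = 0)
    {B : ℝ} (hB : ∀ j, Ex mu (fun w => ‖h j w‖ ^ 2) ≤ B ^ 2) :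
    Ex mu (fun w => ‖(d : ℝ)⁻¹ • ∑ j, h j w‖ ^ 2) ≤ B ^ 2 / d := by
  have hd' : (0 : ℝ) < d := by exact_mod_cast hd
  have e : ∀ w : Fin d → I, ‖(d : ℝ)⁻¹ • ∑ j, h j w‖ ^ 2 = ((d : ℝ)⁻¹) ^ 2 * ‖∑ j, h j w‖ ^ 2 := by
    intro w
    rw [norm_smul, mul_pow, Real.norm_of_nonneg (by positivity)]
  rw [Ex_congr mu e, Ex_mul_left, Ex_norm_sq_sum h1 h hpred hmean]
  have : ∑ j : Fin d, Ex mu (fun w => ‖h j w‖ ^ 2) ≤ d * B ^ 2 := by
    calc _ ≤ ∑ _j : Fin d, B ^ 2 := Finset.sum_le_sum fun j _ => hB j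
      _ = d * B ^ 2 := by simp
  calc ((d : ℝ)⁻¹) ^ 2 * ∑ j : Fin d, Ex mu (fun w => ‖h j w‖ ^ 2)
      ≤ ((d : ℝ)⁻¹) ^ 2 * (d * B ^ 2) := by gcongr
    _ = B ^ 2 / d := by field_simp

theorem Ex_norm_avg_le (h0 : ∀ i, 0 ≤ mu i) (h1 : ∑ i, mu i = 1) (hd : 0 < d)
    (h : Fin d → (Fin d → I) → G)
    (hpred : ∀ i j, i < j → ∀ w l, h i (Function.update w j l) = h i w)
    (hmean : ∀ j w, ∑ l, mu l • h j (Function.update w j l) = 0)
    {B : ℝ} (hB0 : 0 ≤ B) (hB : ∀ j, Ex mu (fun w => ‖h j w‖ ^ 2) ≤ B ^ 2) :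
    Ex mu (fun w => ‖(d : ℝ)⁻¹ • ∑ j, h j w‖) ≤ B / Real.sqrt d := by
  refine Ex_norm_le_of_sq_le h0 h1 _ (by positivity) ?_
  rw [div_pow, Real.sq_sqrt (Nat.cast_nonneg d)]
  exact Ex_norm_avg_sq_le h0 h1 hd h hpred hmean hB

/-- Variance bound: centred letters. `∑ mu ‖g - ∑ mu g‖² ≤ ∑ mu ‖g‖²`. -/
theorem sum_norm_sub_mean_sq_le (h0 : ∀ i, 0 ≤ mu i) (h1 : ∑ i, mu i = 1) (g : I → G) :
    ∑ i, mu i * ‖g i - ∑ l, mu l • g l‖ ^ 2 ≤ ∑ i, mu i * ‖g i‖ ^ 2 := by
  set m : G := ∑ l, mu l • g l with hm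
  have e : ∀ i, ‖g i - m‖ ^ 2 = ‖g i‖ ^ 2 - 2 * RCLike.re ⟪g i, m⟫_ℂ + ‖m‖ ^ 2 := by
    intro i
    exact norm_sub_sq (𝕜 := ℂ) (g i) m
  have e2 : ∑ i, mu i * RCLike.re ⟪g i, m⟫_ℂ = ‖m‖ ^ 2 := by
    have : (⟪m, m⟫_ℂ) = ∑ i, (mu i : ℂ) * ⟪g i, m⟫_ℂ := by
      conv_lhs => rw [hm]
      rw [sum_inner]
      refine Finset.sum_congr rfl fun i _ => ?_
      rw [← Complex.coe_smul (mu i) (g i), inner_smul_left, Complex.conj_ofReal]
    have h3 := congrArg Complex.re this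
    rw [inner_self_eq_norm_sq_to_K] at h3
    simp only [Complex.re_sum, Complex.re_ofReal_mul] at h3
    have h4 : (((‖m‖ : ℝ) : ℂ) ^ 2).re = ‖m‖ ^ 2 := by
      rw [← Complex.ofReal_pow, Complex.ofReal_re]
    rw [← h4]
    exact h3.symm
  calc ∑ i, mu i * ‖g i - m‖ ^ 2
      = ∑ i, mu i * ‖g i‖ ^ 2 - 2 * ∑ i, mu i * RCLike.re ⟪g i, m⟫_ℂ + (∑ i, mu i) * ‖m‖ ^ 2 := by
        simp only [e, mul_add, mul_sub, Finset.sum_add_distrib, Finset.sum_sub_distrib,
          Finset.mul_sum, Finset.sum_mul]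
        congr 2
        refine Finset.sum_congr rfl fun i _ => by ring
    _ = ∑ i, mu i * ‖g i‖ ^ 2 - ‖m‖ ^ 2 := by rw [e2, h1]; ring
    _ ≤ ∑ i, mu i * ‖g i‖ ^ 2 := by nlinarith [sq_nonneg ‖m‖]

end Martingale

end Crest.Agent.R078.Pb
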