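import Crest.Agent.R078.S103SlotTargets199
import Crest.Agent.R078.S103Prob

/-!
# R78 / S0103: the `L2` bound (step (4) of the walk), helper330
-/

set_option autoImplicit false
set_option linter.unusedSectionVars false
open scoped InnerProductSpace

namespace Crest.Agent.R078.Z.L2

open Crest.Agent.R078.Z.Slot
open Crest.Agent.R078

universe u

section words

variable {A : Type*} [Monoid A] {L : Type*} {d : ℕ}

theorem pre_update_of_lt [DecidableEq L] (T : Fin d → L → A) (w : Fin d → L) (i : ℕ) (j : Fin d)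
    (h : i ≤ j) (l : L) : pre T (Function.update w j l) i = pre T w i := by
  unfold pre
  congr 1
  refine List.map_congr_left fun x hx => ?_
  have hx' : (x : ℕ) < i := by
    rw [List.mem_take_iff_getElem] at hx
    obtain ⟨k, hk, rfl⟩ := hx
    simp only [List.getElem_finRange, Fin.val_cast]
    exact lt_of_lt_of_le hk (min_le_left _ _)
  have : x ≠ j := by
    intro e
    subst e
    exact absurd hx' (not_lt.2 h)
  rw [Function.update_of_ne this]

theorem suf_update_of_lt [DecidableEq L] (T : Fin d → L → A) (w : Fin d → L) (i : ℕ) (j : Fin d)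
    (h : (j : ℕ) < i) (l : L) : suf T (Function.update w j l) i = suf T w i := by
  unfold suf
  congr 1
  refine List.map_congr_left fun x hx => ?_
  have hx' : i ≤ (x : ℕ) := by
    rw [List.mem_drop_iff_getElem] at hx
    obtain ⟨k, hk, rfl⟩ := hx
    simp
  have : x ≠ j := by
    intro e
    subst e
    exact absurd h (not_lt.2 hx')
  rw [Function.update_of_ne this]

theorem pre_commute (T : Fin d → L → A) (w : Fin d → L) (i : ℕ) (x : A)
    (h : ∀ j : Fin d, (j : ℕ) < i → Commute (T j (w j)) x) : Commute (pre T w i) x := by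
  unfold pre
  refine Commute.list_prod_left _ _ ?_
  intro y hy
  rw [List.mem_map] at hy
  obtain ⟨j, hj, rfl⟩ := hy
  refine h j ?_
  rw [List.mem_take_iff_getElem] at hj
  obtain ⟨k, hk, rfl⟩ := hj
  simp only [List.getElem_finRange, Fin.val_cast]
  exact lt_of_lt_of_le hk (min_le_left _ _)

theorem suf_commute (T : Fin d → L → A) (w : Fin d → L) (i : ℕ) (x : A)
    (h : ∀ j : Fin d, i ≤ (j : ℕ) → Commute (T j (w j)) x) : Commute (suf T w i) x := by
  unfold suf
  refine Commute.list_prod_left _ _ ?_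
  intro y hy
  rw [List.mem_map] at hy
  obtain ⟨j, hj, rfl⟩ := hy
  refine h j ?_
  rw [List.mem_drop_iff_getElem] at hj
  obtain ⟨k, hk, rfl⟩ := hj
  simp

end words

section mem

variable {G : Type u} [NormedAddCommGroup G] [InnerProductSpace ℂ G] [CompleteSpace G]
variable {M : VonNeumannAlgebra G} {d : ℕ} {L : Type}

theorem pre_mem (T : Fin d → L → G →L[ℂ] G) (w : Fin d → L) (h : ∀ j l, T j l ∈ M) (i : ℕ) :
    pre T w i ∈ M := by
  unfold pre
  refine list_prod_mem ?_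
  intro y hy
  rw [List.mem_map] at hy
  obtain ⟨j, _, rfl⟩ := hy
  exact h j _

theorem suf_mem (T : Fin d → L → G →L[ℂ] G) (w : Fin d → L) (h : ∀ j l, T j l ∈ M) (i : ℕ) :
    suf T w i ∈ M := by
  unfold suf
  refine list_prod_mem ?_
  intro y hy
  rw [List.mem_map] at hy
  obtain ⟨j, _, rfl⟩ := hy
  exact h j _

theorem pre_unitary (T : Fin d → L → G →L[ℂ] G) (w : Fin d → L)
    (h : ∀ j l, T j l ∈ unitary (G →L[ℂ] G)) (i : ℕ) : pre T w i ∈ unitary (G →L[ℂ] G) := by
  unfold pre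
  refine list_prod_mem ?_
  intro y hy
  rw [List.mem_map] at hy
  obtain ⟨j, _, rfl⟩ := hy
  exact h j _

theorem suf_unitary (T : Fin d → L → G →L[ℂ] G) (w : Fin d → L)
    (h : ∀ j l, T j l ∈ unitary (G →L[ℂ] G)) (i : ℕ) : suf T w i ∈ unitary (G →L[ℂ] G) := by
  unfold suf
  refine list_prod_mem ?_
  intro y hy
  rw [List.mem_map] at hy
  obtain ⟨j, _, rfl⟩ := hy
  exact h j _

theorem norm_le_one_of_unitary {u : G →L[ℂ] G} (h : u ∈ unitary (G →L[ℂ] G)) : ‖u‖ ≤ 1 := by
  refine ContinuousLinearMap.opNorm_le_bound _ zero_le_one fun x => ?_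
  have h1 : star u * u = 1 := (Unitary.mem_iff.1 h).1
  have h2 : ‖u x‖ ^ 2 = ‖x‖ ^ 2 := by
    rw [← inner_self_eq_norm_sq (𝕜 := ℂ), ← ContinuousLinearMap.adjoint_inner_left,
      ← ContinuousLinearMap.star_eq_adjoint, ← ContinuousLinearMap.mul_apply, h1,
      ContinuousLinearMap.one_apply, inner_self_eq_norm_sq]
  rw [one_mul]
  exact (sq_le_sq₀ (norm_nonneg _) (norm_nonneg _)).1 h2.le

theorem norm_apply_of_unitary {u : G →L[ℂ] G} (h : u ∈ unitary (G →L[ℂ] G)) (x : G) :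
    ‖u x‖ = ‖x‖ := by
  have h1 : star u * u = 1 := (Unitary.mem_iff.1 h).1
  have h2 : ‖u x‖ ^ 2 = ‖x‖ ^ 2 := by
    rw [← inner_self_eq_norm_sq (𝕜 := ℂ), ← ContinuousLinearMap.adjoint_inner_left,
      ← ContinuousLinearMap.star_eq_adjoint, ← ContinuousLinearMap.mul_apply, h1,
      ContinuousLinearMap.one_apply, inner_self_eq_norm_sq]
  exact (sq_eq_sq₀ (norm_nonneg _) (norm_nonneg _)).1 h2

theorem commute_of_mem_commutant {x y : G →L[ℂ] G} (hx : x ∈ M) (hy : y ∈ M.commutant) :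
    Commute x y := VonNeumannAlgebra.mem_commutant_iff.1 hy x hx

end mem

variable {G : Type u} [NormedAddCommGroup G] [InnerProductSpace ℂ G] [CompleteSpace G]
variable {M N : VonNeumannAlgebra G} {d : ℕ} {L : Type} [Fintype L] [DecidableEq L]
  {δ R K Kθ ε₁ : ℝ} (s : SlotSys M N d L δ R K Kθ ε₁)

/-- the word identity `S_X^* L_j S_{L_j} S_j = S_{R_j}^* L_j` -/
theorem word_S (w : Fin d → L) (j : Fin d) :
    star (suf s.S w 0) * (pre s.T w j * pre s.S w j * s.S j (w j)) =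
      star (suf s.S w (j + 1)) * pre s.T w j := by
  have hLM : pre s.T w j ∈ M := pre_mem s.T w s.T_mem j
  have hSX : suf s.S w 0 ∈ M.commutant := suf_mem s.S w s.S_mem 0
  have hSR : suf s.S w (j + 1) ∈ M.commutant := suf_mem s.S w s.S_mem (j + 1)
  have c1 : Commute (pre s.T w j) (star (suf s.S w 0)) :=
    commute_of_mem_commutant hLM (star_mem hSX)
  have c2 : Commute (pre s.T w j) (star (suf s.S w (j + 1))) :=
    commute_of_mem_commutant hLM (star_mem hSR)
  have u1 : star (pre s.S w j) * pre s.S w j = 1 :=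
    (Unitary.mem_iff.1 (pre_unitary s.S w s.S_unitary j)).1
  have u2 : star (s.S j (w j)) * s.S j (w j) = 1 :=
    (Unitary.mem_iff.1 (s.S_unitary j (w j))).1
  have e1 : star (suf s.S w 0) * pre s.S w j * s.S j (w j) = star (suf s.S w (j + 1)) := by
    rw [word_eq s.S w j, star_mul, star_mul]
    calc star (suf s.S w (j + 1)) * (star (s.S j (w j)) * star (pre s.S w j)) * pre s.S w j
          * s.S j (w j)
        = star (suf s.S w (j + 1)) * (star (s.S j (w j)) * (star (pre s.S w j) * pre s.S w j)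
          * s.S j (w j)) := by simp only [mul_assoc]
      _ = star (suf s.S w (j + 1)) := by rw [u1, mul_one, u2, mul_one]
  calc star (suf s.S w 0) * (pre s.T w j * pre s.S w j * s.S j (w j))
      = (star (suf s.S w 0) * pre s.T w j) * pre s.S w j * s.S j (w j) := by
        simp only [mul_assoc]
    _ = pre s.T w j * (star (suf s.S w 0) * pre s.S w j * s.S j (w j)) := by
        rw [← c1.eq]; simp only [mul_assoc]
    _ = star (suf s.S w (j + 1)) * pre s.T w j := by rw [e1, c2.eq]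

/-- `V_j u_j`, `u_j = S_j k_j^* η_j` -/
noncomputable def mart (j : Fin d) (w : Fin d → L) : G :=
  (pre s.T w j * pre s.S w j) (s.S j (w j) (star (s.k j) (s.η j (w j))))

theorem mart_pred (i j : Fin d) (hij : i < j) (w : Fin d → L) (l : L) :
    mart s i (Function.update w j l) = mart s i w := by
  unfold mart
  have hij' : (i : ℕ) ≤ j := hij.le
  rw [pre_update_of_lt _ _ _ _ hij', pre_update_of_lt _ _ _ _ hij',
    Function.update_of_ne (ne_of_lt hij)]

theorem mart_mean (j : Fin d) (w : Fin d → L) :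
    ∑ l, s.μ l • mart s j (Function.update w j l) = 0 := by
  have h := s.exact_S j
  have e : ∀ l, s.μ l • mart s j (Function.update w j l) =
      (pre s.T w j * pre s.S w j) ((s.μ l : ℂ) • s.S j l (star (s.k j) (s.η j l))) := by
    intro l
    unfold mart
    rw [pre_update_of_lt _ _ _ _ le_rfl, pre_update_of_lt _ _ _ _ le_rfl, Function.update_self,
      map_smul, Complex.coe_smul]
  simp only [e]
  rw [← map_sum, h, map_zero]

theorem norm_mart_le (hK : 0 ≤ Kθ) (j : Fin d) (w : Fin d → L) :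
    ‖mart s j w‖ ≤ Kθ * R := by
  unfold mart
  have hu : pre s.T w j * pre s.S w j ∈ unitary (G →L[ℂ] G) :=
    mul_mem (pre_unitary s.T w s.T_unitary j) (pre_unitary s.S w s.S_unitary j)
  rw [norm_apply_of_unitary hu, norm_apply_of_unitary (s.S_unitary j (w j))]
  refine (ContinuousLinearMap.le_opNorm _ _).trans ?_
  rw [norm_star]
  exact mul_le_mul (s.norm_k j) (s.norm_η j _) (norm_nonneg _) hK

/-- the vector `W = d⁻¹ ∑ V_j S_j k_j^* η_j` -/
noncomputable def Wv (w : Fin d → L) : G := (d : ℝ)⁻¹ • ∑ j, mart s j w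

theorem Ex_Wv (hd : 0 < d) (hR : 0 ≤ R) (hK : 0 ≤ Kθ) :
    s.Ex (fun w => ‖Wv s w‖) ≤ Kθ * R / Real.sqrt d := by
  refine Pb.Ex_norm_avg_le s.μ_nonneg s.μ_sum hd (mart s) (mart_pred s) (mart_mean s)
    (mul_nonneg hK hR) fun j => ?_
  refine Pb.Ex_le_const s.μ_nonneg s.μ_sum fun w => ?_
  exact pow_le_pow_left₀ (norm_nonneg _) (norm_mart_le s hK j w) 2

/-- the mismatch vectors `t'(S_{R_j})^* l_j η_j - S_{R_j}^* L_j η_j` -/
noncomputable def mis (j : Fin d) (w : Fin d → L) : G :=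
  star (s.tp j w) (s.lft j w (s.η j (w j))) -
    star (suf s.S w (j + 1)) (pre s.T w j (s.η j (w j)))

theorem norm_mis_le (hδ : 0 ≤ δ) (hR : 0 ≤ R) (j : Fin d) (w : Fin d → L) :
    ‖mis s j w‖ ≤ 2 * δ * R := by
  have e : mis s j w = star (s.tp j w - suf s.S w (j + 1)) (s.lft j w (s.η j (w j))) +
      star (suf s.S w (j + 1)) ((s.lft j w - pre s.T w j) (s.η j (w j))) := by
    unfold mis
    rw [star_sub, ContinuousLinearMap.sub_apply, ContinuousLinearMap.sub_apply, map_sub]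
    abel
  rw [e]
  have h1 : ‖star (s.tp j w - suf s.S w (j + 1)) (s.lft j w (s.η j (w j)))‖ ≤ δ * R := by
    refine (ContinuousLinearMap.le_opNorm _ _).trans ?_
    rw [norm_star, norm_sub_rev]
    refine mul_le_mul (s.tp_near j w) ?_ (norm_nonneg _) hδ
    refine (ContinuousLinearMap.le_opNorm _ _).trans ?_
    calc ‖s.lft j w‖ * ‖s.η j (w j)‖ ≤ 1 * R :=
          mul_le_mul (s.norm_lft j w) (s.norm_η j _) (norm_nonneg _) zero_le_one
      _ = R := one_mul R
  have h2 : ‖star (suf s.S w (j + 1)) ((s.lft j w - pre s.T w j) (s.η j (w j)))‖ ≤ δ * R := by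
    refine (ContinuousLinearMap.le_opNorm _ _).trans ?_
    rw [norm_star]
    calc ‖suf s.S w (j + 1)‖ * ‖(s.lft j w - pre s.T w j) (s.η j (w j))‖
        ≤ 1 * (δ * R) := by
          refine mul_le_mul (norm_le_one_of_unitary (suf_unitary s.S w s.S_unitary _)) ?_
            (norm_nonneg _) zero_le_one
          refine (ContinuousLinearMap.le_opNorm _ _).trans ?_
          rw [norm_sub_rev]
          exact mul_le_mul (s.lft_near j w) (s.norm_η j _) (norm_nonneg _) hδ
      _ = δ * R := one_mul _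
  calc _ ≤ δ * R + δ * R := (norm_add_le _ _).trans (add_le_add h1 h2)
    _ = 2 * δ * R := by ring

/-- the functional `q₂` -/
noncomputable def q2 (w : Fin d → L) (y : G →L[ℂ] G) : ℂ :=
  (d : ℂ)⁻¹ * ∑ j, ⟪s.lft j w (s.η j (w j)), y (s.k j (s.p' (s.tp j w s.ζ)))⟫_ℂ

/-- the base vector `ζ_*` -/
noncomputable def zs : Option (Fin d) → G
  | none => ((Real.sqrt 2)⁻¹ : ℝ) • s.ζ
  | some j => ((Real.sqrt (2 * d))⁻¹ : ℝ) • s.k j s.ζ

/-- the representing vector of `q₂` -/
noncomputable def etaq (w : Fin d → L) : Option (Fin d) → G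
  | none => (Real.sqrt 2 : ℝ) • star (suf s.S w 0) (Wv s w)
  | some j => (Real.sqrt (2 / d) : ℝ) • mis s j w

/-- the norm bound for `etaq` -/
noncomputable def hq (w : Fin d → L) : ℝ := Real.sqrt 2 * ‖Wv s w‖ + 2 * Real.sqrt 2 * δ * R

theorem zs_norm (hd : 0 < d) : ∑ k, ‖zs s k‖ ^ 2 ≤ 1 := by
  rw [Fintype.sum_option]
  have hd' : (0 : ℝ) < d := by exact_mod_cast hd
  have h1 : ‖zs s none‖ ^ 2 = 1 / 2 := by
    simp only [zs]
    rw [norm_smul, s.norm_ζ, mul_one, Real.norm_of_nonneg (by positivity), inv_pow,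
      Real.sq_sqrt (by norm_num)]
    norm_num
  have h2 : ∀ j, ‖zs s (some j)‖ ^ 2 = 1 / (2 * d) := by
    intro j
    simp only [zs]
    rw [norm_smul, s.norm_kζ, mul_one, Real.norm_of_nonneg (by positivity), inv_pow,
      Real.sq_sqrt (by positivity), one_div]
  rw [h1]
  simp only [h2]
  rw [Finset.sum_const, Finset.card_univ, Fintype.card_fin, nsmul_eq_mul]
  have : (d : ℝ) * (1 / (2 * d)) = 1 / 2 := by field_simp
  rw [this]
  norm_num

theorem hq_nonneg (hδ : 0 ≤ δ) (hR : 0 ≤ R) (w : Fin d → L) : 0 ≤ hq s w := by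
  unfold hq; positivity

theorem etaq_norm (hd : 0 < d) (hδ : 0 ≤ δ) (hR : 0 ≤ R) (w : Fin d → L) :
    ∑ k, ‖etaq s w k‖ ^ 2 ≤ (hq s w) ^ 2 := by
  rw [Fintype.sum_option]
  have hd' : (0 : ℝ) < d := by exact_mod_cast hd
  have h1 : ‖etaq s w none‖ ^ 2 ≤ (Real.sqrt 2 * ‖Wv s w‖) ^ 2 := by
    refine pow_le_pow_left₀ (norm_nonneg _) ?_ 2
    simp only [etaq]
    rw [norm_smul, Real.norm_of_nonneg (Real.sqrt_nonneg 2)]
    refine mul_le_mul_of_nonneg_left ?_ (Real.sqrt_nonneg 2)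
    refine (ContinuousLinearMap.le_opNorm _ _).trans ?_
    rw [norm_star]
    calc _ ≤ 1 * ‖Wv s w‖ := mul_le_mul_of_nonneg_right
          (norm_le_one_of_unitary (suf_unitary s.S w s.S_unitary _)) (norm_nonneg _)
      _ = _ := one_mul _
  have h2 : ∀ j, ‖etaq s w (some j)‖ ^ 2 ≤ (2 / d) * (2 * δ * R) ^ 2 := by
    intro j
    simp only [etaq]
    rw [norm_smul, mul_pow, Real.norm_of_nonneg (Real.sqrt_nonneg _), Real.sq_sqrt (by positivity)]
    refine mul_le_mul_of_nonneg_left ?_ (by positivity)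
    exact pow_le_pow_left₀ (norm_nonneg _) (norm_mis_le s hδ hR j w) 2
  have h3 : ∑ j : Fin d, ‖etaq s w (some j)‖ ^ 2 ≤ (2 * Real.sqrt 2 * δ * R) ^ 2 := by
    calc ∑ j : Fin d, ‖etaq s w (some j)‖ ^ 2 ≤ ∑ _j : Fin d, (2 / d) * (2 * δ * R) ^ 2 :=
          Finset.sum_le_sum fun j _ => h2 j
      _ = (2 * Real.sqrt 2 * δ * R) ^ 2 := by
          rw [Finset.sum_const, Finset.card_univ, Fintype.card_fin, nsmul_eq_mul]
          have h22 : Real.sqrt 2 ^ 2 = 2 := Real.sq_sqrt (by norm_num)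
          have : (2 * Real.sqrt 2 * δ * R) ^ 2 = 4 * Real.sqrt 2 ^ 2 * (δ * R) ^ 2 := by ring
          rw [this, h22]
          field_simp
          ring
  have h4 : 0 ≤ Real.sqrt 2 * ‖Wv s w‖ := by positivity
  have h5 : 0 ≤ 2 * Real.sqrt 2 * δ * R := by positivity
  unfold hq
  nlinarith [mul_nonneg h4 h5]

theorem Ex_hq (hd : 0 < d) (hR : 0 ≤ R) (hK : 0 ≤ Kθ) :
    s.Ex (hq s) ≤ R * (2 * Real.sqrt 2 * δ + Real.sqrt 2 * Kθ / Real.sqrt d) := by
  have e : s.Ex (hq s) = Real.sqrt 2 * s.Ex (fun w => ‖Wv s w‖) + 2 * Real.sqrt 2 * δ * R := by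
    have h1 : s.Ex (hq s) = Pb.Ex s.μ (fun w => Real.sqrt 2 * ‖Wv s w‖ + 2 * Real.sqrt 2 * δ * R) :=
      rfl
    rw [h1, Pb.Ex_add, Pb.Ex_mul_left, Pb.Ex_const s.μ s.μ_sum]
    rfl
  rw [e]
  have h := mul_le_mul_of_nonneg_left (Ex_Wv s hd hR hK) (Real.sqrt_nonneg 2)
  calc _ ≤ Real.sqrt 2 * (Kθ * R / Real.sqrt d) + 2 * Real.sqrt 2 * δ * R := by linarith
    _ = _ := by ring

/-- each summand of `q₂` -/
theorem q2_term (w : Fin d → L) (y : G →L[ℂ] G) (hy : y ∈ N) (j : Fin d) :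
    ⟪s.lft j w (s.η j (w j)), y (s.k j (s.p' (s.tp j w s.ζ)))⟫_ℂ =
      ⟪star (s.tp j w) (s.lft j w (s.η j (w j))), y (s.k j s.ζ)⟫_ℂ := by
  have c1 : y * s.p' = s.p' * y := (commute_of_mem_commutant hy s.p'_mem).eq
  have c2 : y * s.tp j w = s.tp j w * y := (commute_of_mem_commutant hy (s.tp_mem j w)).eq
  have c3 : s.lft j w * s.p' = s.p' * s.lft j w :=
    (commute_of_mem_commutant (s.lft_mem j w) s.p'_mem).eq
  have e1 : y (s.k j (s.p' (s.tp j w s.ζ))) = s.p' (s.tp j w (y (s.k j s.ζ))) := by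
    have : y * (s.k j * s.p') * s.tp j w = s.p' * s.tp j w * (y * s.k j) := by
      rw [← s.p'_k j]
      calc y * (s.p' * s.k j) * s.tp j w = (y * s.p') * (s.k j * s.tp j w) := by
            simp only [mul_assoc]
        _ = s.p' * (y * s.tp j w) * s.k j := by rw [c1, ← s.tp_k j w]; simp only [mul_assoc]
        _ = s.p' * s.tp j w * (y * s.k j) := by rw [c2]; simp only [mul_assoc]
    exact congrArg (fun A : G →L[ℂ] G => A s.ζ) this
  have e2 : s.p' (s.lft j w (s.η j (w j))) = s.lft j w (s.η j (w j)) := by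
    have : (s.p' * s.lft j w) (s.η j (w j)) = (s.lft j w * s.p') (s.η j (w j)) := by rw [c3]
    rw [ContinuousLinearMap.mul_apply, ContinuousLinearMap.mul_apply, s.p'_η] at this
    exact this
  rw [e1, ContinuousLinearMap.star_eq_adjoint, ContinuousLinearMap.adjoint_inner_left]
  conv_rhs => rw [← e2]
  conv_rhs => rw [← s.p'_sa, ContinuousLinearMap.star_eq_adjoint,
    ContinuousLinearMap.adjoint_inner_left]

theorem main_term (w : Fin d → L) (y : G →L[ℂ] G) (hy : y ∈ N) (j : Fin d) :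
    ⟪star (suf s.S w (j + 1)) (pre s.T w j (s.η j (w j))), y (s.k j s.ζ)⟫_ℂ =
      ⟪star (suf s.S w 0) (mart s j w), y s.ζ⟫_ℂ := by
  have c1 : y * s.k j = s.k j * y := (commute_of_mem_commutant hy (s.k_memN j)).eq
  have hLM : pre s.T w j ∈ M := pre_mem s.T w s.T_mem j
  have hk : star (s.k j) ∈ M.commutant := star_mem (s.k_memM j)
  have c2 : Commute (pre s.T w j) (star (s.k j)) := commute_of_mem_commutant hLM hk
  have c3 : Commute (suf s.S w (j + 1)) (s.k j) := by
    refine suf_commute _ _ _ _ fun i hi => ?_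
    have hne : j ≠ i := by
      intro e
      subst e
      exact absurd hi (by simp)
    exact (s.k_S j i (w i) hne).symm
  have c4 : Commute (star (suf s.S w (j + 1))) (star (s.k j)) := c3.star_star
  have e0 : y (s.k j s.ζ) = s.k j (y s.ζ) := congrArg (fun A : G →L[ℂ] G => A s.ζ) c1
  have e1 : star (suf s.S w 0) (mart s j w) =
      star (s.k j) (star (suf s.S w (j + 1)) (pre s.T w j (s.η j (w j)))) := by
    have : star (suf s.S w 0) * (pre s.T w j * pre s.S w j * s.S j (w j)) * star (s.k j) =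
        star (s.k j) * star (suf s.S w (j + 1)) * pre s.T w j := by
      rw [word_S, mul_assoc, c2.eq, ← mul_assoc, c4.eq]
    exact congrArg (fun A : G →L[ℂ] G => A (s.η j (w j))) this
  rw [e0, e1]
  conv_rhs => rw [ContinuousLinearMap.star_eq_adjoint (s.k j),
    ContinuousLinearMap.adjoint_inner_left]

theorem etaq_repr (hd : 0 < d) (w : Fin d → L) (y : G →L[ℂ] G) (hy : y ∈ N) :
    ∑ k, ⟪etaq s w k, y (zs s k)⟫_ℂ = q2 s w y := by
  have hd' : (0 : ℝ) < d := by exact_mod_cast hd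
  rw [Fintype.sum_option]
  have h1 : ⟪etaq s w none, y (zs s none)⟫_ℂ = (d : ℂ)⁻¹ *
      ∑ j : Fin d, ⟪star (suf s.S w (j + 1)) (pre s.T w j (s.η j (w j))), y (s.k j s.ζ)⟫_ℂ := by
    simp only [etaq, zs]
    have hs : Real.sqrt 2 * (Real.sqrt 2)⁻¹ = 1 := mul_inv_cancel₀ (by positivity)
    have : ⟪(Real.sqrt 2 : ℝ) • star (suf s.S w 0) (Wv s w),
        y (((Real.sqrt 2)⁻¹ : ℝ) • s.ζ)⟫_ℂ = ⟪star (suf s.S w 0) (Wv s w), y s.ζ⟫_ℂ := by
      rw [← Complex.coe_smul (Real.sqrt 2), ← Complex.coe_smul ((Real.sqrt 2)⁻¹), map_smul,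
        inner_smul_left, inner_smul_right, Complex.conj_ofReal, ← mul_assoc, ← Complex.ofReal_mul,
        hs, Complex.ofReal_one, one_mul]
    rw [this]
    unfold Wv
    rw [← Complex.coe_smul ((d : ℝ)⁻¹), map_smul, map_sum, inner_smul_left, Complex.conj_ofReal,
      sum_inner, Complex.ofReal_inv, Complex.ofReal_natCast]
    congr 1
    refine Finset.sum_congr rfl fun j _ => ?_
    exact (main_term s w y hy j).symm
  have h2 : ∀ j, ⟪etaq s w (some j), y (zs s (some j))⟫_ℂ =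
      (d : ℂ)⁻¹ * ⟪mis s j w, y (s.k j s.ζ)⟫_ℂ := by
    intro j
    simp only [etaq, zs]
    have hs : Real.sqrt (2 / d) * (Real.sqrt (2 * d))⁻¹ = (d : ℝ)⁻¹ := by
      rw [Real.sqrt_div (by norm_num), Real.sqrt_mul (by norm_num)]
      have h3 : Real.sqrt d * Real.sqrt d = d := Real.mul_self_sqrt hd'.le
      have h4 : Real.sqrt d ≠ 0 := by positivity
      have h5 : Real.sqrt 2 ≠ 0 := by positivity
      field_simp
      linarith
    rw [← Complex.coe_smul (Real.sqrt (2 / d)), ← Complex.coe_smul ((Real.sqrt (2 * d))⁻¹),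
      map_smul, inner_smul_left, inner_smul_right, Complex.conj_ofReal, ← mul_assoc,
      ← Complex.ofReal_mul, hs, Complex.ofReal_inv, Complex.ofReal_natCast]
  rw [h1]
  simp only [h2]
  rw [← Finset.mul_sum, ← mul_add, ← Finset.sum_add_distrib]
  unfold q2
  congr 1
  refine Finset.sum_congr rfl fun j _ => ?_
  rw [q2_term s w y hy j]
  unfold mis
  rw [inner_sub_left]
  ring

theorem q2_eq (w : Fin d → L) (y : G →L[ℂ] G) : s.q2 w y = q2 s w y := rfl

/-- helper199's `L2Target` -/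
theorem l2Target : L2Target.{u} := by
  intro G _ _ _ M N d L _ _ δ R K Kθ ε₁ s hd hδ hR hK
  refine ⟨zs s, etaq s, hq s, zs_norm s hd, hq_nonneg s hδ hR, etaq_norm s hd hδ hR, ?_, ?_⟩
  · intro w y hy
    rw [q2_eq]
    exact (etaq_repr s hd w y hy).symm
  · refine (Ex_hq s hd hR hK).trans (le_of_eq ?_)
    ring

end Crest.Agent.R078.Z.L2
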