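import Crest.Agent.R078.S103HB50

/-!
R078 / S0103, block HB (helper50), part 2: the extension lemma.
A finite sum of vector functionals which is bounded by `c` on the unit ball of a von Neumann
algebra `N` coincides on `N` with a finite sum of vector functionals of projective norm `≤ c + ε`.
-/

set_option autoImplicit false

open scoped ComplexConjugate InnerProductSpace

namespace Crest.Agent.R078.Z.HB

section Quot

variable {E : Type*} [AddCommGroup E] [Module ℂ E]

/-- the quotient seminorm `v ↦ inf_{w ∈ W} p (v - w)` on `E`. -/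
noncomputable def quotSem (p : Seminorm ℂ E) (W : Submodule ℂ E) : Seminorm ℂ E :=
  Seminorm.ofSMulLE (fun v => ⨅ w : W, p (v - w))
    (le_antisymm (by
        refine (ciInf_le ⟨0, ?_⟩ (0 : W)).trans ?_
        · rintro _ ⟨w, rfl⟩
          exact apply_nonneg p _
        · simp)
      (Real.iInf_nonneg fun w => apply_nonneg p _))
    (fun v v' => by
      refine le_ciInf_add_ciInf fun w w' => ?_
      refine (ciInf_le ⟨0, ?_⟩ (w + w')).trans ?_
      · rintro _ ⟨w, rfl⟩
        exact apply_nonneg p _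
      · have : v + v' - ((w + w' : W) : E) = (v - w) + (v' - w') := by
          rw [Submodule.coe_add]; abel
        rw [this]
        exact map_add_le_add p _ _)
    (fun c v => by
      rw [Real.mul_iInf_of_nonneg (norm_nonneg c)]
      refine le_ciInf fun w => ?_
      refine (ciInf_le ⟨0, ?_⟩ (c • w)).trans ?_
      · rintro _ ⟨w, rfl⟩
        exact apply_nonneg p _
      · have : c • v - ((c • w : W) : E) = c • (v - w) := by
          rw [Submodule.coe_smul, smul_sub]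
        rw [this, map_smul_eq_mul])

theorem quotSem_apply (p : Seminorm ℂ E) (W : Submodule ℂ E) (v : E) :
    quotSem p W v = ⨅ w : W, p (v - w) := rfl

theorem quotSem_le (p : Seminorm ℂ E) (W : Submodule ℂ E) (v : E) (w : W) :
    quotSem p W v ≤ p (v - w) :=
  ciInf_le ⟨0, by rintro _ ⟨w, rfl⟩; exact apply_nonneg p _⟩ w

theorem quotSem_le' (p : Seminorm ℂ E) (W : Submodule ℂ E) (v : E) : quotSem p W v ≤ p v := by
  simpa using quotSem_le p W v 0

theorem quotSem_eq_zero (p : Seminorm ℂ E) (W : Submodule ℂ E) (w : W) : quotSem p W w = 0 :=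
  le_antisymm (by simpa using quotSem_le p W w w) (apply_nonneg _ _)

/-- norming functional of a seminorm -/
theorem exists_dual_seminorm (p : Seminorm ℂ E) (x : E) :
    ∃ g : Module.Dual ℂ E, g x = p x ∧ ∀ y, ‖g y‖ ≤ p y := by
  classical
  by_cases hx : x = 0
  · exact ⟨0, by simp [hx], fun y => by simp⟩
  let f : Module.Dual ℂ (Submodule.span ℂ {x}) :=
    ((p x : ℝ) : ℂ) • (LinearEquiv.coord ℂ E x hx).toLinearMap
  obtain ⟨g, hg, hle⟩ := Module.Dual.exists_extension_of_le_seminorm (Submodule.span ℂ {x}) f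
    (p := p) (fun y => by
      obtain ⟨c, hc⟩ := Submodule.mem_span_singleton.1 y.2
      have hy : y = c • (⟨x, Submodule.mem_span_singleton_self x⟩ : Submodule.span ℂ {x}) :=
        Subtype.ext (by simp [hc])
      rw [hy, map_smul]
      have h1 : f ⟨x, Submodule.mem_span_singleton_self x⟩ = ((p x : ℝ) : ℂ) := by
        simp only [f, LinearMap.smul_apply, LinearEquiv.coe_coe]
        rw [LinearEquiv.coord_self]
        simp
      rw [h1, Submodule.coe_smul, map_smul_eq_mul, smul_eq_mul, norm_mul]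
      simp [abs_of_nonneg (apply_nonneg p x)])
  refine ⟨g, ?_, hle⟩
  rw [hg ⟨x, Submodule.mem_span_singleton_self x⟩]
  simp only [f, LinearMap.smul_apply, LinearEquiv.coe_coe]
  rw [LinearEquiv.coord_self]
  simp

end Quot

section Ext

variable {H : Type*} [NormedAddCommGroup H] [InnerProductSpace ℂ H] [CompleteSpace H]

/-- **Extension lemma**, free module form. -/
theorem exists_ext_finsupp (N : VonNeumannAlgebra H) (v₀ : (H × H) →₀ ℂ) (c : ℝ)
    (hc : ∀ n ∈ N, ‖n‖ ≤ 1 → ‖v₀.sum fun i z => z * ⟪i.2, n i.1⟫_ℂ‖ ≤ c) (ε : ℝ) (hε : 0 < ε) :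
    ∃ v : (H × H) →₀ ℂ,
      (∀ n ∈ N, (v.sum fun i z => z * ⟪i.2, n i.1⟫_ℂ) = v₀.sum fun i z => z * ⟪i.2, n i.1⟫_ℂ) ∧
      (v.sum fun i z => ‖z‖ * (‖i.1‖ * ‖i.2‖)) ≤ c + ε := by
  classical
  let wt : H × H → ℝ := fun i => ‖i.1‖ * ‖i.2‖
  have hwt : ∀ i, 0 ≤ wt i := fun i => by positivity
  let p := wSem wt hwt
  let W : Submodule ℂ ((H × H) →₀ ℂ) :=
    ⨅ n : {n : H →L[ℂ] H // n ∈ N}, LinearMap.ker (lf fun i => ⟪i.2, n.1 i.1⟫_ℂ)
  have hWmem : ∀ v, v ∈ W ↔ ∀ n ∈ N, lf (fun i => ⟪i.2, n i.1⟫_ℂ) v = 0 := fun v => by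
    simp [W, Submodule.mem_iInf]
  obtain ⟨g, hg0, hg⟩ := exists_dual_seminorm (quotSem p W) v₀
  let G : H → H → ℂ := fun α β => g (Finsupp.single (α, β) 1)
  have gW : ∀ w ∈ W, g w = 0 := fun w hw => by
    have := hg w
    rw [quotSem_eq_zero p W ⟨w, hw⟩] at this
    simpa using this
  have hgs : ∀ α β (z : ℂ), g (Finsupp.single (α, β) z) = z * G α β := fun α β z => by
    have : Finsupp.single ((α, β) : H × H) z = z • Finsupp.single ((α, β) : H × H) 1 := by simp
    rw [this, map_smul, smul_eq_mul]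
  have hadd1 : ∀ α α' β, G (α + α') β = G α β + G α' β := fun α α' β => by
    have h := gW (Finsupp.single ((α + α', β) : H × H) 1 - Finsupp.single ((α, β) : H × H) 1
      - Finsupp.single ((α', β) : H × H) 1) ((hWmem _).2 fun n _ => by
        simp only [map_sub, lf_single, map_add, inner_add_right]; ring)
    simp only [map_sub, hgs, one_mul] at h
    linear_combination h
  have hsmul1 : ∀ (z : ℂ) α β, G (z • α) β = z * G α β := fun z α β => by
    have h := gW (Finsupp.single ((z • α, β) : H × H) 1 - Finsupp.single ((α, β) : H × H) z)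
      ((hWmem _).2 fun n _ => by
        simp only [map_sub, lf_single, map_smul, inner_smul_right]; ring)
    simp only [map_sub, hgs, one_mul] at h
    linear_combination h
  have hadd2 : ∀ α β β', G α (β + β') = G α β + G α β' := fun α β β' => by
    have h := gW (Finsupp.single ((α, β + β') : H × H) 1 - Finsupp.single ((α, β) : H × H) 1
      - Finsupp.single ((α, β') : H × H) 1) ((hWmem _).2 fun n _ => by
        simp only [map_sub, lf_single, inner_add_left]; ring)
    simp only [map_sub, hgs, one_mul] at h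
    linear_combination h
  have hsmul2 : ∀ (z : ℂ) α β, G α (z • β) = conj z * G α β := fun z α β => by
    have h := gW (Finsupp.single ((α, z • β) : H × H) 1 - Finsupp.single ((α, β) : H × H) (conj z))
      ((hWmem _).2 fun n _ => by
        simp only [map_sub, lf_single, inner_smul_left]; ring)
    simp only [map_sub, hgs, one_mul] at h
    linear_combination h
  have hGb : ∀ α β, ‖G α β‖ ≤ 1 * ‖α‖ * ‖β‖ := fun α β => by
    refine ((hg _).trans (quotSem_le' p W _)).trans ?_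
    simp [p, wSem_apply, wt]
  have hcomm : ∀ n' ∈ N.commutant, ∀ α β, G (n' α) β = G α (star n' β) := fun n' hn' α β => by
    have h := gW (Finsupp.single ((n' α, β) : H × H) 1 - Finsupp.single ((α, star n' β) : H × H) 1)
      ((hWmem _).2 fun n hn => by
        have hcc : n (n' α) = n' (n α) :=
          congrArg (fun T : H →L[ℂ] H => T α) ((VonNeumannAlgebra.mem_commutant_iff.1 hn') n hn)
        simp only [map_sub, lf_single, hcc]
        rw [ContinuousLinearMap.star_eq_adjoint, ContinuousLinearMap.adjoint_inner_left, sub_self])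
    simp only [map_sub, hgs, one_mul] at h
    linear_combination h
  obtain ⟨y, hy⟩ := exists_op_of_form G 1 hadd1 hsmul1 hadd2 hsmul2 hGb
  have hyN : y ∈ N := by
    rw [← VonNeumannAlgebra.commutant_commutant N]
    refine VonNeumannAlgebra.mem_commutant_iff.2 fun n' hn' => ?_
    ext α
    refine ext_inner_left ℂ fun β => ?_
    change ⟪β, n' (y α)⟫_ℂ = ⟪β, y (n' α)⟫_ℂ
    rw [hy, hcomm n' hn', ← hy, ContinuousLinearMap.star_eq_adjoint,
      ContinuousLinearMap.adjoint_inner_left]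
  have hy1 : ‖y‖ ≤ 1 := by
    refine ContinuousLinearMap.opNorm_le_bound _ zero_le_one fun α => ?_
    have h1 : ‖y α‖ * ‖y α‖ ≤ ‖α‖ * ‖y α‖ := by
      have h2 := hGb α (y α)
      rw [← hy, inner_self_eq_norm_sq_to_K] at h2
      simpa [sq] using h2
    rw [one_mul]
    by_cases h0 : ‖y α‖ = 0
    · rw [h0]; positivity
    · exact le_of_mul_le_mul_right h1 (lt_of_le_of_ne (norm_nonneg _) (Ne.symm h0))
  have hgy : ∀ v, g v = v.sum fun i z => z * ⟪i.2, y i.1⟫_ℂ := fun v => by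
    have h1 : g = lf (fun i : H × H => ⟪i.2, y i.1⟫_ℂ) := by
      refine Finsupp.lhom_ext fun i z => ?_
      rw [lf_single]
      have := hgs i.1 i.2 z
      rw [Prod.mk.eta] at this
      rw [this, hy]
    rw [h1, lf_apply]
  have hq : quotSem p W v₀ ≤ c := by
    have h1 := hc y hyN hy1
    rw [← hgy, hg0] at h1
    refine le_trans (le_abs_self _) ?_
    simpa using h1
  obtain ⟨w, hw⟩ : ∃ w : W, p (v₀ - w) < c + ε := by
    refine exists_lt_of_ciInf_lt ?_
    rw [← quotSem_apply]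
    linarith
  refine ⟨v₀ - w, fun n hn => ?_, ?_⟩
  · have h1 := (hWmem _).1 w.2 n hn
    have h2 : lf (fun i : H × H => ⟪i.2, n i.1⟫_ℂ) (v₀ - w)
        = lf (fun i : H × H => ⟪i.2, n i.1⟫_ℂ) v₀ := by
      rw [map_sub, h1, sub_zero]
    rwa [lf_apply, lf_apply] at h2
  · exact hw.le

/-- **Extension lemma**: every functional `n ↦ ∑ k, ⟨n (a₀ k), b₀ k⟩` on `N` of norm `≤ c` can be
written with vectors satisfying `∑ ‖a k‖² ≤ c + ε` and `∑ ‖b k‖² ≤ c + ε`
(moreover `‖a k‖ = ‖b k‖` for all `k`). -/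
theorem exists_ext (N : VonNeumannAlgebra H) {κ : Type*} [Fintype κ] (a₀ b₀ : κ → H) (c : ℝ)
    (hc : ∀ n ∈ N, ‖n‖ ≤ 1 → ‖∑ k, ⟪b₀ k, n (a₀ k)⟫_ℂ‖ ≤ c) (ε : ℝ) (hε : 0 < ε) :
    ∃ (m : ℕ) (a b : Fin m → H),
      (∀ n ∈ N, (∑ k, ⟪b k, n (a k)⟫_ℂ) = ∑ k, ⟪b₀ k, n (a₀ k)⟫_ℂ) ∧
      (∀ k, ‖a k‖ = ‖b k‖) ∧
      (∑ k, ‖a k‖ ^ 2) ≤ c + ε ∧ (∑ k, ‖b k‖ ^ 2) ≤ c + ε := by
  classical
  let v₀ : (H × H) →₀ ℂ := ∑ k, Finsupp.single (a₀ k, b₀ k) 1
  have hv₀ : ∀ n : H →L[ℂ] H, (v₀.sum fun i z => z * ⟪i.2, n i.1⟫_ℂ)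
      = ∑ k, ⟪b₀ k, n (a₀ k)⟫_ℂ := fun n => by
    rw [← lf_apply (fun i : H × H => ⟪i.2, n i.1⟫_ℂ)]
    simp [v₀, lf_single]
  obtain ⟨v, hv, hvle⟩ := exists_ext_finsupp N v₀ c (fun n hn hn1 => by
    rw [hv₀]; exact hc n hn hn1) ε hε
  let e := v.support.equivFin.symm
  -- balanced vectors
  let r : H × H → ℝ := fun i => Real.sqrt (‖v i‖ * (‖i.1‖ * ‖i.2‖))
  have hbal : ∀ i : H × H, ∃ a b : H, ‖a‖ = ‖b‖ ∧ ‖a‖ ^ 2 = ‖v i‖ * (‖i.1‖ * ‖i.2‖) ∧
      ∀ n : H →L[ℂ] H, ⟪b, n a⟫_ℂ = v i * ⟪i.2, n i.1⟫_ℂ := fun i => by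
    by_cases h0 : ‖v i‖ * (‖i.1‖ * ‖i.2‖) = 0
    · refine ⟨0, 0, rfl, by simp [h0], fun n => ?_⟩
      rcases mul_eq_zero.1 h0 with h | h
      · rw [norm_eq_zero] at h; simp [h]
      · rcases mul_eq_zero.1 h with h | h <;> rw [norm_eq_zero] at h <;> simp [h]
    · have hr : 0 < r i := Real.sqrt_pos.2 (lt_of_le_of_ne (by positivity) (Ne.symm h0))
      have hrr : r i ^ 2 = ‖v i‖ * (‖i.1‖ * ‖i.2‖) := Real.sq_sqrt (by positivity)
      have h1 : ‖i.1‖ ≠ 0 := fun h => h0 (by rw [h]; ring)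
      have h2 : ‖i.2‖ ≠ 0 := fun h => h0 (by rw [h]; ring)
      have hv : ‖v i‖ ≠ 0 := fun h => h0 (by rw [h]; ring)
      refine ⟨((r i / ‖i.1‖ : ℝ) : ℂ) • i.1, (((r i / ‖i.2‖ : ℝ) : ℂ) *
        (conj (v i) / (‖v i‖ : ℂ))) • i.2, ?_, ?_, fun n => ?_⟩
      · rw [norm_smul, norm_smul, norm_mul, norm_div, Complex.norm_real, Complex.norm_real,
          Complex.norm_real, RCLike.norm_conj]
        simp only [norm_div, Real.norm_eq_abs, abs_of_pos hr, abs_norm]
        field_simp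
      · rw [norm_smul, Complex.norm_real, ← hrr]
        simp only [norm_div, Real.norm_eq_abs, abs_of_pos hr, abs_norm]
        field_simp
      · rw [map_smul, inner_smul_left, inner_smul_right]
        simp only [map_mul, map_div₀, Complex.conj_ofReal, Complex.conj_conj]
        have hrr' : ((r i : ℝ) : ℂ) ^ 2 = (‖v i‖ : ℂ) * ((‖i.1‖ : ℂ) * (‖i.2‖ : ℂ)) := by
          exact_mod_cast hrr
        have h1' : (‖i.1‖ : ℂ) ≠ 0 := by exact_mod_cast h1
        have h2' : (‖i.2‖ : ℂ) ≠ 0 := by exact_mod_cast h2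
        have hv' : (‖v i‖ : ℂ) ≠ 0 := by exact_mod_cast hv
        push_cast
        field_simp
        linear_combination (v i * ⟪i.2, n i.1⟫_ℂ) * hrr'
  choose a b hab ha2 hval using hbal
  have hsum : ∀ (V : Type) [AddCommMonoid V] (f : H × H → V),
      ∑ k, f (e k).1 = ∑ i ∈ v.support, f i := fun V _ f => by
    rw [← Finset.sum_coe_sort v.support, ← Equiv.sum_comp e]
  refine ⟨v.support.card, fun k => a (e k).1, fun k => b (e k).1, fun n hn => ?_,
    fun k => hab _, ?_, ?_⟩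
  · rw [← hv₀, ← hv n hn, Finsupp.sum, ← hsum ℂ fun i => v i * ⟪i.2, n i.1⟫_ℂ]
    exact Finset.sum_congr rfl fun k _ => hval _ n
  · rw [hsum ℝ fun i => ‖a i‖ ^ 2]
    refine le_trans (le_of_eq (Finset.sum_congr rfl fun i _ => ha2 i)) hvle
  · rw [hsum ℝ fun i => ‖b i‖ ^ 2]
    refine le_trans (le_of_eq (Finset.sum_congr rfl fun i _ => ?_)) hvle
    rw [← hab, ha2]

end Ext

end Crest.Agent.R078.Z.HB
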