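/-
R78 / S0103, block REC (helper445): recursion step (5) of helper43 #5919.
-/
import Crest.Agent.R078.S103Slot199
import Crest.Agent.R078.S103Prob

set_option autoImplicit false
set_option linter.unusedSectionVars false
open scoped InnerProductSpace
open Crest.Agent.R078.Z.Slot

namespace Crest.Agent.R078.Z.Rec

universe u

variable {G : Type u} [NormedAddCommGroup G] [InnerProductSpace ℂ G] [CompleteSpace G]

/-- (EXT): a vector functional of norm `≤ c` on `N` has an extension of norm `≤ c + ε` to `B(G)`,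
again a finite sum of vector functionals. -/
def ExtProp (N : VonNeumannAlgebra G) : Prop :=
  ∀ (κ : Type) [Fintype κ] (ξ η : κ → G) (c : ℝ), 0 ≤ c →
    (∀ y ∈ N, ‖y‖ ≤ 1 → ‖∑ k, ⟪η k, y (ξ k)⟫_ℂ‖ ≤ c) → ∀ ε > 0,
    ∃ (m : ℕ) (α β : Fin m → G),
      (∀ n ∈ N, ∑ i, ⟪β i, n (α i)⟫_ℂ = ∑ k, ⟪η k, n (ξ k)⟫_ℂ) ∧
      ∑ i, ‖α i‖ ^ 2 ≤ c + ε ∧ ∑ i, ‖β i‖ ^ 2 ≤ c + ε

theorem norm_sum_inner_le {κ : Type} [Fintype κ] (x : G →L[ℂ] G) (α β : κ → G) {c : ℝ}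
    (hα : ∑ k, ‖α k‖ ^ 2 ≤ c) (hβ : ∑ k, ‖β k‖ ^ 2 ≤ c) :
    ‖∑ k, ⟪β k, x (α k)⟫_ℂ‖ ≤ ‖x‖ * c := by
  have hc : 0 ≤ c := (Finset.sum_nonneg fun k _ => by positivity).trans hα
  have h1 : ‖∑ k, ⟪β k, x (α k)⟫_ℂ‖ ≤ ∑ k, ‖x‖ * (‖β k‖ * ‖α k‖) := by
    refine (norm_sum_le _ _).trans (Finset.sum_le_sum fun k _ => ?_)
    refine (norm_inner_le_norm _ _).trans ?_
    calc ‖β k‖ * ‖x (α k)‖ ≤ ‖β k‖ * (‖x‖ * ‖α k‖) := by
          gcongr; exact x.le_opNorm _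
      _ = ‖x‖ * (‖β k‖ * ‖α k‖) := by ring
  refine h1.trans ?_
  rw [← Finset.mul_sum]
  gcongr
  have h2 : ∑ k, ‖β k‖ * ‖α k‖ ≤ ∑ k, (‖β k‖ ^ 2 + ‖α k‖ ^ 2) / 2 :=
    Finset.sum_le_sum fun k _ => by nlinarith [sq_nonneg (‖β k‖ - ‖α k‖)]
  refine h2.trans ?_
  rw [← Finset.sum_div, Finset.sum_add_distrib]
  linarith

theorem sum_sigma_ite {W : Type} [Fintype W] [DecidableEq W] {m : W → ℕ} {E : Type*}
    [AddCommMonoid E] (f : (Σ w, Fin (m w)) → E) (w : W) :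
    ∑ p : Σ w, Fin (m w), (if p.1 = w then f p else 0) = ∑ i, f ⟨w, i⟩ := by
  rw [Fintype.sum_sigma]
  rw [Finset.sum_eq_single w]
  · simp
  · intro b _ hb
    simp [hb]
  · simp

/-- the recursion for one `ε` -/
theorem rec_general_eps (M N : VonNeumannAlgebra G) {R Λ δ : ℝ} (hext : ExtProp N)
    (hrel : RelBd M N R Λ) {W κ : Type} [Fintype W] [Fintype κ] (ν c : W → ℝ)
    (X X' : W → G →L[ℂ] G) (ξ : κ → G) (η : W → κ → G)
    (hν : ∀ w, 0 ≤ ν w) (hc : ∀ w, 0 ≤ c w)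
    (hXm : ∀ w, X w ∈ M) (hX1 : ∀ w, ‖X w‖ ≤ 1)
    (hXm' : ∀ w, X' w ∈ N) (hXX : ∀ w, ‖X w - X' w‖ ≤ δ)
    (hξ : ∑ k, ‖ξ k‖ ^ 2 ≤ 1) (hη : ∀ w, ∑ k, ‖η w k‖ ^ 2 ≤ (R * c w) ^ 2)
    (hb : ∀ w, ∀ y ∈ N, ‖y‖ ≤ 1 → ‖∑ k, ⟪η w k, y (ξ k)⟫_ℂ‖ ≤ c w)
    (hr : ∀ n ∈ N, ∑ w, ((ν w : ℂ) * ∑ k, ⟪η w k, n (ξ k)⟫_ℂ) • X w = 0)
    {ε : ℝ} (hε : 0 < ε) :
    ‖∑ w, (ν w : ℂ) * ∑ k, ⟪η w k, X' w (ξ k)⟫_ℂ‖ ≤ (Λ + δ) * ∑ w, ν w * (c w + ε) := by
  classical
  choose m α β hαβ hα hβ using fun w => hext κ ξ (η w) (c w) (hc w) (hb w) ε hε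
  set c' : W → ℝ := fun w => c w + ε with hc'
  have hc'0 : ∀ w, 0 < c' w := fun w => by have := hc w; simp only [hc']; linarith
  set S : ℝ := ∑ w, ν w * c' w with hS
  have hS0 : 0 ≤ S := Finset.sum_nonneg fun w _ => mul_nonneg (hν w) (hc'0 w).le
  rcases hS0.eq_or_lt with h0 | hSp
  · -- all weights vanish
    have hz : ∀ w, ν w = 0 := by
      intro w
      have := (Finset.sum_eq_zero_iff_of_nonneg (fun w _ => mul_nonneg (hν w) (hc'0 w).le)).1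
        (hS ▸ h0.symm) w (Finset.mem_univ _)
      rcases mul_eq_zero.1 this with h | h
      · exact h
      · exact absurd h (hc'0 w).ne'
    rw [← h0]
    simp [hz]
  -- the functional on X
  have key : ‖∑ w, (ν w : ℂ) * ∑ i, ⟪β w i, X w (α w i)⟫_ℂ‖ ≤ Λ * S := by
    have := hrel (κ ⊕ (Σ w, Fin (m w))) W (fun w => ν w * c' w / S) X (Sum.elim ξ 0)
      (fun w => Sum.elim 0 (fun p => if p.1 = w then (((Real.sqrt (c' p.1))⁻¹ : ℝ) : ℂ) • α p.1 p.2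
        else 0))
      (fun w => Sum.elim 0 (fun p => if p.1 = w then (((Real.sqrt (c' p.1))⁻¹ : ℝ) : ℂ) • β p.1 p.2
        else 0))
      (fun w => Sum.elim (fun k => (((c' w)⁻¹ : ℝ) : ℂ) • η w k) 0)
      (fun w => div_nonneg (mul_nonneg (hν w) (hc'0 w).le) hS0)
      (by rw [← Finset.sum_div, ← hS, div_self hSp.ne'])
      hXm hX1
      (by rw [Fintype.sum_sum_type]; simpa using hξ)
      ?_ ?_ ?_ ?_ ?_
    · have e1 : ∀ w, ∑ k : κ ⊕ (Σ w, Fin (m w)),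
          ⟪(Sum.elim 0 (fun p => if p.1 = w then (((Real.sqrt (c' p.1))⁻¹ : ℝ) : ℂ) • β p.1 p.2
            else 0) : κ ⊕ (Σ w, Fin (m w)) → G) k,
            X w ((Sum.elim 0 (fun p => if p.1 = w then (((Real.sqrt (c' p.1))⁻¹ : ℝ) : ℂ) • α p.1 p.2
            else 0) : κ ⊕ (Σ w, Fin (m w)) → G) k)⟫_ℂ
          = (((c' w)⁻¹ : ℝ) : ℂ) * ∑ i, ⟪β w i, X w (α w i)⟫_ℂ := by
        intro w
        rw [Fintype.sum_sum_type]
        simp only [Sum.elim_inl, Pi.zero_apply, map_zero, inner_zero_right, Finset.sum_const_zero,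
          Sum.elim_inr, zero_add]
        have : ∀ p : Σ w, Fin (m w),
            ⟪(if p.1 = w then (((Real.sqrt (c' p.1))⁻¹ : ℝ) : ℂ) • β p.1 p.2 else 0 : G),
              X w (if p.1 = w then (((Real.sqrt (c' p.1))⁻¹ : ℝ) : ℂ) • α p.1 p.2 else 0)⟫_ℂ
            = if p.1 = w then (((c' p.1)⁻¹ : ℝ) : ℂ) * ⟪β p.1 p.2, X w (α p.1 p.2)⟫_ℂ else 0 := by
          intro p
          split_ifs with h
          · rw [map_smul, inner_smul_left, inner_smul_right, Complex.conj_ofReal, ← mul_assoc,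
              ← Complex.ofReal_mul]
            congr 2
            rw [← mul_inv, Real.mul_self_sqrt (hc'0 _).le]
          · simp
        rw [Finset.sum_congr rfl fun p _ => this p, sum_sigma_ite, Finset.mul_sum]
      rw [Finset.sum_congr rfl fun w _ => by rw [e1 w]] at this
      have e2 : ∑ w, ((ν w * c' w / S : ℝ) : ℂ) * ((((c' w)⁻¹ : ℝ) : ℂ) *
          ∑ i, ⟪β w i, X w (α w i)⟫_ℂ) = ((S⁻¹ : ℝ) : ℂ) *
          ∑ w, (ν w : ℂ) * ∑ i, ⟪β w i, X w (α w i)⟫_ℂ := by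
        rw [Finset.mul_sum]
        refine Finset.sum_congr rfl fun w _ => ?_
        rw [← mul_assoc, ← Complex.ofReal_mul, ← mul_assoc, ← Complex.ofReal_mul]
        congr 2
        field_simp [(hc'0 w).ne']
      rw [e2, norm_mul, Complex.norm_real, Real.norm_of_nonneg (inv_nonneg.2 hS0)] at this
      rwa [inv_mul_le_iff₀ hSp, mul_comm] at this
    · intro w
      rw [Fintype.sum_sum_type]
      simp only [Sum.elim_inl, Pi.zero_apply, norm_zero, ne_eq, OfNat.ofNat_ne_zero,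
        not_false_eq_true, zero_pow, Finset.sum_const_zero, Sum.elim_inr, zero_add]
      have : ∀ p : Σ w, Fin (m w),
          ‖(if p.1 = w then (((Real.sqrt (c' p.1))⁻¹ : ℝ) : ℂ) • α p.1 p.2 else 0 : G)‖ ^ 2
          = if p.1 = w then (c' p.1)⁻¹ * ‖α p.1 p.2‖ ^ 2 else 0 := by
        intro p
        split_ifs with h
        · rw [norm_smul, mul_pow, Complex.norm_real, Real.norm_of_nonneg (by positivity), inv_pow,
            Real.sq_sqrt (hc'0 _).le]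
        · simp
      rw [Finset.sum_congr rfl fun p _ => this p, sum_sigma_ite]
      dsimp only
      rw [← Finset.mul_sum, inv_mul_le_iff₀ (hc'0 w), mul_one]
      exact hα w
    · intro w
      rw [Fintype.sum_sum_type]
      simp only [Sum.elim_inl, Pi.zero_apply, norm_zero, ne_eq, OfNat.ofNat_ne_zero,
        not_false_eq_true, zero_pow, Finset.sum_const_zero, Sum.elim_inr, zero_add]
      have : ∀ p : Σ w, Fin (m w),
          ‖(if p.1 = w then (((Real.sqrt (c' p.1))⁻¹ : ℝ) : ℂ) • β p.1 p.2 else 0 : G)‖ ^ 2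
          = if p.1 = w then (c' p.1)⁻¹ * ‖β p.1 p.2‖ ^ 2 else 0 := by
        intro p
        split_ifs with h
        · rw [norm_smul, mul_pow, Complex.norm_real, Real.norm_of_nonneg (by positivity), inv_pow,
            Real.sq_sqrt (hc'0 _).le]
        · simp
      rw [Finset.sum_congr rfl fun p _ => this p, sum_sigma_ite]
      dsimp only
      rw [← Finset.mul_sum, inv_mul_le_iff₀ (hc'0 w), mul_one]
      exact hβ w
    · intro w
      rw [Fintype.sum_sum_type]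
      simp only [Sum.elim_inl, Sum.elim_inr, Pi.zero_apply, norm_zero, ne_eq, OfNat.ofNat_ne_zero,
        not_false_eq_true, zero_pow, Finset.sum_const_zero, add_zero]
      have : ∀ k, ‖(((c' w)⁻¹ : ℝ) : ℂ) • η w k‖ ^ 2 = ((c' w) ^ 2)⁻¹ * ‖η w k‖ ^ 2 := by
        intro k
        rw [norm_smul, mul_pow, Complex.norm_real,
          Real.norm_of_nonneg (inv_nonneg.2 (hc'0 w).le), inv_pow]
      rw [Finset.sum_congr rfl fun k _ => this k, ← Finset.mul_sum,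
        inv_mul_le_iff₀ (by have := hc'0 w; positivity)]
      refine (hη w).trans ?_
      rw [mul_pow, mul_comm]
      have h1 := hc w
      have h2 : c w ≤ c' w := by simp only [hc']; linarith
      have h3 : c w ^ 2 ≤ c' w ^ 2 := by gcongr
      exact mul_le_mul_of_nonneg_right h3 (sq_nonneg R)
    · intro w n hn
      rw [Fintype.sum_sum_type, Fintype.sum_sum_type]
      simp only [Sum.elim_inl, Pi.zero_apply, map_zero, inner_zero_right, Finset.sum_const_zero,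
        Sum.elim_inr, zero_add, add_zero]
      have : ∀ p : Σ w, Fin (m w),
          ⟪(if p.1 = w then (((Real.sqrt (c' p.1))⁻¹ : ℝ) : ℂ) • β p.1 p.2 else 0 : G),
            n (if p.1 = w then (((Real.sqrt (c' p.1))⁻¹ : ℝ) : ℂ) • α p.1 p.2 else 0)⟫_ℂ
          = if p.1 = w then (((c' p.1)⁻¹ : ℝ) : ℂ) * ⟪β p.1 p.2, n (α p.1 p.2)⟫_ℂ else 0 := by
        intro p
        split_ifs with h
        · rw [map_smul, inner_smul_left, inner_smul_right, Complex.conj_ofReal, ← mul_assoc,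
            ← Complex.ofReal_mul]
          congr 2
          rw [← mul_inv, Real.mul_self_sqrt (hc'0 _).le]
        · simp
      rw [Finset.sum_congr rfl fun p _ => this p, sum_sigma_ite]
      dsimp only
      rw [← Finset.mul_sum, hαβ w n hn, Finset.mul_sum]
      refine Finset.sum_congr rfl fun k _ => ?_
      rw [inner_smul_left, Complex.conj_ofReal]
    · intro n hn
      have h := hr n hn
      have e : ∀ w, (((ν w * c' w / S : ℝ) : ℂ) * ∑ k : κ ⊕ (Σ w, Fin (m w)),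
          ⟪(Sum.elim (fun k => (((c' w)⁻¹ : ℝ) : ℂ) • η w k) 0 : κ ⊕ (Σ w, Fin (m w)) → G) k,
            n ((Sum.elim ξ 0 : κ ⊕ (Σ w, Fin (m w)) → G) k)⟫_ℂ) • X w
          = ((S⁻¹ : ℝ) : ℂ) • (((ν w : ℂ) * ∑ k, ⟪η w k, n (ξ k)⟫_ℂ) • X w) := by
        intro w
        rw [Fintype.sum_sum_type]
        simp only [Sum.elim_inl, Sum.elim_inr, Pi.zero_apply, map_zero, inner_zero_right,
          Finset.sum_const_zero, add_zero, inner_smul_left, Complex.conj_ofReal]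
        rw [← Finset.mul_sum, smul_smul, ← mul_assoc, ← Complex.ofReal_mul, ← mul_assoc,
          ← Complex.ofReal_mul]
        congr 3
        field_simp [(hc'0 w).ne']
      rw [Finset.sum_congr rfl fun w _ => e w, ← Finset.smul_sum, h, smul_zero]
  -- transfer to X'
  have e3 : ∑ w, (ν w : ℂ) * ∑ k, ⟪η w k, X' w (ξ k)⟫_ℂ
      = ∑ w, (ν w : ℂ) * ∑ i, ⟪β w i, X w (α w i)⟫_ℂ
        - ∑ w, (ν w : ℂ) * ∑ i, ⟪β w i, (X w - X' w) (α w i)⟫_ℂ := by
    rw [← Finset.sum_sub_distrib]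
    refine Finset.sum_congr rfl fun w _ => ?_
    rw [← mul_sub, ← hαβ w (X' w) (hXm' w), ← Finset.sum_sub_distrib]
    congr 1
    refine Finset.sum_congr rfl fun i _ => ?_
    rw [sub_apply, inner_sub_right]
    ring
  rw [e3]
  refine (norm_sub_le _ _).trans ?_
  have h5 : ‖∑ w, (ν w : ℂ) * ∑ i, ⟪β w i, (X w - X' w) (α w i)⟫_ℂ‖ ≤ δ * S := by
    refine (norm_sum_le _ _).trans ?_
    rw [hS, Finset.mul_sum]
    refine Finset.sum_le_sum fun w _ => ?_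
    rw [norm_mul, Complex.norm_real, Real.norm_of_nonneg (hν w)]
    have h6 := norm_sum_inner_le (X w - X' w) (α w) (β w) (hα w) (hβ w)
    have h7 : ‖X w - X' w‖ * (c w + ε) ≤ δ * c' w :=
      mul_le_mul_of_nonneg_right (hXX w) (hc'0 w).le
    calc ν w * ‖∑ i, ⟪β w i, (X w - X' w) (α w i)⟫_ℂ‖ ≤ ν w * (δ * c' w) :=
          mul_le_mul_of_nonneg_left (h6.trans h7) (hν w)
      _ = δ * (ν w * c' w) := by ring
  calc _ ≤ Λ * S + δ * S := add_le_add key h5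
    _ = (Λ + δ) * S := by ring

/-- (REC-A) the recursion lemma for a general pair. -/
theorem rec_general (M N : VonNeumannAlgebra G) {R Λ δ : ℝ} (hext : ExtProp N)
    (hrel : RelBd M N R Λ) {W κ : Type} [Fintype W] [Fintype κ] (ν c : W → ℝ)
    (X X' : W → G →L[ℂ] G) (ξ : κ → G) (η : W → κ → G)
    (hν : ∀ w, 0 ≤ ν w) (hc : ∀ w, 0 ≤ c w)
    (hXm : ∀ w, X w ∈ M) (hX1 : ∀ w, ‖X w‖ ≤ 1)
    (hXm' : ∀ w, X' w ∈ N) (hXX : ∀ w, ‖X w - X' w‖ ≤ δ)
    (hξ : ∑ k, ‖ξ k‖ ^ 2 ≤ 1) (hη : ∀ w, ∑ k, ‖η w k‖ ^ 2 ≤ (R * c w) ^ 2)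
    (hb : ∀ w, ∀ y ∈ N, ‖y‖ ≤ 1 → ‖∑ k, ⟪η w k, y (ξ k)⟫_ℂ‖ ≤ c w)
    (hr : ∀ n ∈ N, ∑ w, ((ν w : ℂ) * ∑ k, ⟪η w k, n (ξ k)⟫_ℂ) • X w = 0) :
    ‖∑ w, (ν w : ℂ) * ∑ k, ⟪η w k, X' w (ξ k)⟫_ℂ‖ ≤ (Λ + δ) * ∑ w, ν w * c w := by
  refine le_of_forall_pos_le_add fun e he => ?_
  set B : ℝ := |Λ + δ| * ∑ w, ν w with hB
  have hB0 : 0 ≤ B := mul_nonneg (abs_nonneg _) (Finset.sum_nonneg fun w _ => hν w)
  have hε : 0 < e / (B + 1) := by positivity
  refine (rec_general_eps M N hext hrel ν c X X' ξ η hν hc hXm hX1 hXm' hXX hξ hη hb hr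
    hε).trans ?_
  have : ∑ w, ν w * (c w + e / (B + 1)) = ∑ w, ν w * c w + (∑ w, ν w) * (e / (B + 1)) := by
    rw [Finset.sum_mul, ← Finset.sum_add_distrib]
    exact Finset.sum_congr rfl fun w _ => by ring
  rw [this, mul_add]
  gcongr
  calc (Λ + δ) * ((∑ w, ν w) * (e / (B + 1))) ≤ |Λ + δ| * ((∑ w, ν w) * (e / (B + 1))) := by
        gcongr
        · exact mul_nonneg (Finset.sum_nonneg fun w _ => hν w) hε.le
        · exact le_abs_self _
    _ = B / (B + 1) * e := by rw [hB]; ring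
    _ ≤ 1 * e := by
        gcongr
        rw [div_le_one (by positivity)]
        linarith
    _ = e := one_mul e

end Crest.Agent.R078.Z.Rec
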