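/-
R78 / S0103.  Step targets for the walk theorem on the abstract slot system (helper199).
Each is a `Prop`; the blocks prove them in parallel, `S103SlotFinal199.lean` assembles `WalkTarget`.
-/
import Crest.Agent.R078.S103Slot199

set_option autoImplicit false
open scoped InnerProductSpace

namespace Crest.Agent.R078.Z.Slot

universe u

/-- [DRIFT] both drifts; `D = √d ε₁`.  (`Ex` of the square.) -/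
def DriftTarget : Prop :=
  ∀ (G : Type u) [NormedAddCommGroup G] [InnerProductSpace ℂ G] [CompleteSpace G]
    (M N : VonNeumannAlgebra G) (d : ℕ) (L : Type) [Fintype L] [DecidableEq L]
    (δ R K Kθ ε₁ : ℝ) (s : SlotSys M N d L δ R K Kθ ε₁), 0 ≤ ε₁ → ∀ j : Fin d,
    s.Ex (fun w => ‖s.V w j s.ζ - s.ζ‖ ^ 2) ≤ s.D ^ 2 ∧
    s.Ex (fun w => ‖star (suf s.T w (j + 1)) s.ζ - suf s.S w (j + 1) s.ζ‖ ^ 2) ≤ s.D ^ 2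

/-- [Q1] steps (2): splitting and the bound of `q_1`. -/
def Q1Target : Prop :=
  ∀ (G : Type u) [NormedAddCommGroup G] [InnerProductSpace ℂ G] [CompleteSpace G]
    (M N : VonNeumannAlgebra G) (d : ℕ) (L : Type) [Fintype L] [DecidableEq L]
    (δ R K Kθ ε₁ : ℝ) (s : SlotSys M N d L δ R K Kθ ε₁), 0 < d → 0 ≤ δ → 0 ≤ ε₁ →
    (∀ w, ∀ y ∈ N, s.q w y = s.q1 w y + s.q2 w y) ∧
    ∃ n1 : (Fin d → L) → ℝ, (∀ w, 0 ≤ n1 w) ∧ (∀ w y, ‖y‖ ≤ 1 → ‖s.q1 w y‖ ≤ n1 w) ∧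
      s.Ex n1 ≤ Real.sqrt 3 * (2 * δ + s.D)

/-- [VAL] step (1). -/
def ValTarget : Prop :=
  ∀ (G : Type u) [NormedAddCommGroup G] [InnerProductSpace ℂ G] [CompleteSpace G]
    (M N : VonNeumannAlgebra G) (d : ℕ) (L : Type) [Fintype L] [DecidableEq L]
    (δ R K Kθ ε₁ : ℝ) (s : SlotSys M N d L δ R K Kθ ε₁), 0 < d → 0 ≤ δ →
    ∀ Xh : (Fin d → L) → G →L[ℂ] G, (∀ w, Xh w ∈ N) → (∀ w, ‖Xh w‖ ≤ 1) →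
    (∀ w, ‖s.X w - Xh w‖ ≤ δ) →
    ‖s.Ex (fun w => s.q w (Xh w)) - (d : ℂ)⁻¹ * ∑ j, s.value j‖ ≤ 3 * δ

/-- [L1] step (3). -/
def L1Target : Prop :=
  ∀ (G : Type u) [NormedAddCommGroup G] [InnerProductSpace ℂ G] [CompleteSpace G]
    (M N : VonNeumannAlgebra G) (d : ℕ) (L : Type) [Fintype L] [DecidableEq L]
    (δ R K Kθ ε₁ Λ : ℝ) (s : SlotSys M N d L δ R K Kθ ε₁),
    0 < d → 0 ≤ δ → 0 ≤ R → 0 ≤ K → 0 ≤ Kθ → 0 ≤ ε₁ → 0 ≤ Λ →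
    BallIn M N δ → BallIn N M δ → RelBd M N R Λ →
    ∃ nq : (Fin d → L) → ℝ, (∀ w, 0 ≤ nq w) ∧
      (∀ w, ∀ y ∈ N, ‖y‖ ≤ 1 → ‖s.q w y‖ ≤ nq w) ∧
      s.Ex nq ≤ Λ + 4 * δ + s.Efl

/-- [L2] step (4): `q_2(y) = Σ_k ⟪ηq w k, y (ζs k)⟫` on `N`, `ζs` in `G ⊗ ℂ^{d+1}`. -/
def L2Target : Prop :=
  ∀ (G : Type u) [NormedAddCommGroup G] [InnerProductSpace ℂ G] [CompleteSpace G]
    (M N : VonNeumannAlgebra G) (d : ℕ) (L : Type) [Fintype L] [DecidableEq L]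
    (δ R K Kθ ε₁ : ℝ) (s : SlotSys M N d L δ R K Kθ ε₁),
    0 < d → 0 ≤ δ → 0 ≤ R → 0 ≤ Kθ →
    ∃ (ζs : Option (Fin d) → G) (ηq : (Fin d → L) → Option (Fin d) → G)
      (nη : (Fin d → L) → ℝ),
      ∑ k, ‖ζs k‖ ^ 2 ≤ 1 ∧ (∀ w, 0 ≤ nη w) ∧
      (∀ w, ∑ k, ‖ηq w k‖ ^ 2 ≤ nη w ^ 2) ∧
      (∀ w, ∀ y ∈ N, s.q2 w y = ∑ k, ⟪ηq w k, y (ζs k)⟫_ℂ) ∧
      s.Ex nη ≤ 2 * Real.sqrt 2 * δ * R + Real.sqrt 2 * Kθ * R / Real.sqrt d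

/-- [REL] first half of step (5): `(X, q_2)` is a relation. -/
def RelTarget : Prop :=
  ∀ (G : Type u) [NormedAddCommGroup G] [InnerProductSpace ℂ G] [CompleteSpace G]
    (M N : VonNeumannAlgebra G) (d : ℕ) (L : Type) [Fintype L] [DecidableEq L]
    (δ R K Kθ ε₁ : ℝ) (s : SlotSys M N d L δ R K Kθ ε₁),
    ∀ n ∈ N, ∑ w, ((s.wt w : ℂ) * s.q2 w n) • s.X w = 0

/-- [REC] second half of step (5) (helper445's Lam2): general, no slot system. -/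
def RecTarget : Prop :=
  ∀ (G : Type u) [NormedAddCommGroup G] [InnerProductSpace ℂ G] [CompleteSpace G]
    (M N : VonNeumannAlgebra G) (δ R Λ : ℝ), 0 ≤ δ → 0 < R → 0 ≤ Λ → RelBd M N R Λ →
    ∀ (κ W : Type) [Fintype κ] [Fintype W] (ν : W → ℝ) (X Xh : W → G →L[ℂ] G) (ξ : κ → G)
      (η : W → κ → G) (c : W → ℝ),
      (∀ w, 0 ≤ ν w) → (∀ w, 0 ≤ c w) → (∀ w, X w ∈ M) → (∀ w, ‖X w‖ ≤ 1) →
      (∀ w, Xh w ∈ N) → (∀ w, ‖Xh w‖ ≤ 1) → (∀ w, ‖X w - Xh w‖ ≤ δ) →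
      ∑ k, ‖ξ k‖ ^ 2 ≤ 1 → (∀ w, ∑ k, ‖η w k‖ ^ 2 ≤ (R * c w) ^ 2) →
      (∀ w, ∀ y ∈ N, ‖y‖ ≤ 1 → ‖∑ k, ⟪η w k, y (ξ k)⟫_ℂ‖ ≤ c w) →
      (∀ n ∈ N, ∑ w, ((ν w : ℂ) * ∑ k, ⟪η w k, n (ξ k)⟫_ℂ) • X w = 0) →
      ‖∑ w, (ν w : ℂ) * ∑ k, ⟪η w k, Xh w (ξ k)⟫_ℂ‖ ≤ (Λ + δ) * ∑ w, ν w * c w

end Crest.Agent.R078.Z.Slot
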