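/-
R78 / S0103, block REC (helper445): `RelTarget` and `RecTarget` of S103SlotTargets199.lean.
-/
import Crest.Agent.R078.S103SlotTargets199
import Crest.Agent.R078.S103Rec445
import Crest.Agent.R078.S103HB50Ext

set_option autoImplicit false
set_option linter.unusedSectionVars false
open scoped InnerProductSpace
open Crest.Agent.R078.Z.Slot

namespace Crest.Agent.R078.Z.Rec

universe u

section upd

variable {A : Type*} [Monoid A] {L : Type*}

theorem lt_of_mem_take {d : ℕ} {j : ℕ} {i : Fin d} (h : i ∈ (List.finRange d).take j) :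
    (i : ℕ) < j := by
  rw [List.mem_take_iff_getElem] at h
  obtain ⟨n, hn, hi⟩ := h
  rw [List.getElem_finRange] at hi
  have : (i : ℕ) = n := by rw [← hi]; rfl
  omega

theorem le_of_mem_drop {d : ℕ} {j : ℕ} {i : Fin d} (h : i ∈ (List.finRange d).drop j) :
    j ≤ (i : ℕ) := by
  rw [List.mem_drop_iff_getElem] at h
  obtain ⟨n, hn, hi⟩ := h
  rw [List.getElem_finRange] at hi
  have : (i : ℕ) = j + n := by rw [← hi]; rfl
  omega

theorem pre_congr {d : ℕ} (T : Fin d → L → A) {w w' : Fin d → L} {j : ℕ}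
    (h : ∀ i : Fin d, (i : ℕ) < j → w i = w' i) : pre T w j = pre T w' j := by
  unfold pre
  congr 1
  exact List.map_congr_left fun i hi => by rw [h i (lt_of_mem_take hi)]

theorem suf_congr {d : ℕ} (T : Fin d → L → A) {w w' : Fin d → L} {j : ℕ}
    (h : ∀ i : Fin d, j ≤ (i : ℕ) → w i = w' i) : suf T w j = suf T w' j := by
  unfold suf
  congr 1
  exact List.map_congr_left fun i hi => by rw [h i (le_of_mem_drop hi)]

theorem pre_update {d : ℕ} [DecidableEq L] (T : Fin d → L → A) (w : Fin d → L) (j : Fin d) (l : L) :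
    pre T (Function.update w j l) j = pre T w j :=
  pre_congr T fun i hi => by
    rw [Function.update_of_ne]
    rintro rfl
    exact lt_irrefl _ hi

theorem suf_update {d : ℕ} [DecidableEq L] (T : Fin d → L → A) (w : Fin d → L) (j : Fin d) (l : L) :
    suf T (Function.update w j l) (j + 1) = suf T w (j + 1) :=
  suf_congr T fun i hi => by
    rw [Function.update_of_ne]
    rintro rfl
    omega

/-- `X` with letter `j` replaced. -/
theorem word_update {d : ℕ} [DecidableEq L] (T : Fin d → L → A) (w : Fin d → L) (j : Fin d)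
    (l : L) : suf T (Function.update w j l) 0 = pre T w j * T j l * suf T w (j + 1) := by
  rw [word_eq T _ j, pre_update, suf_update, Function.update_self]

end upd

/-- second half of step (5) -/
theorem recTarget : RecTarget.{u} := by
  intro G _ _ _ M N δ R Λ _ _ _ hrel κ W _ _ ν X Xh ξ η c hν hc hXm hX1 hXhm _ hXX hξ hη hb hr
  refine rec_general M N ?_ hrel ν c X Xh ξ η hν hc hXm hX1 hXhm hXX hξ hη hb hr
  intro κ _ ξ η c _ hb ε hε
  obtain ⟨m, a, b, h1, _, h3, h4⟩ := HB.exists_ext N ξ η c hb ε hε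
  exact ⟨m, a, b, h1, h3, h4⟩

/-- first half of step (5): `(X, q_2)` is a relation. -/
theorem relTarget : RelTarget.{u} := by
  intro G _ _ _ M N d L _ _ δ R K Kθ ε₁ s n hn
  have e1 : ∀ w, ((s.wt w : ℂ) * s.q2 w n) • s.X w
      = ∑ j, Pb.wt s.μ w • (((d : ℂ)⁻¹ * ⟪s.lft j w (s.η j (w j)), n (s.k j (s.sig w j))⟫_ℂ) •
        s.X w) := by
    intro w
    rw [← Finset.smul_sum, ← Finset.sum_smul, ← Finset.mul_sum]
    change ((s.wt w : ℂ) * s.q2 w n) • s.X w = s.wt w • (s.q2 w n • s.X w)
    rw [mul_smul]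
    exact Complex.coe_smul _ _
  rw [Finset.sum_congr rfl fun w _ => e1 w, Finset.sum_comm]
  refine Finset.sum_eq_zero fun j _ => ?_
  change Pb.Ex s.μ (fun w => ((d : ℂ)⁻¹ * ⟪s.lft j w (s.η j (w j)), n (s.k j (s.sig w j))⟫_ℂ) •
        s.X w) = 0
  refine Pb.Ex_eq_zero s.μ s.μ_sum j _ fun w => ?_
  -- the average over letter `j`
  have e2 : ∀ l, s.μ l • (((d : ℂ)⁻¹ * ⟪s.lft j (Function.update w j l)
        (s.η j (Function.update w j l j)), n (s.k j (s.sig (Function.update w j l) j))⟫_ℂ) •
        s.X (Function.update w j l))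
      = (d : ℂ)⁻¹ • (pre s.T w j * (((s.μ l : ℂ) *
          ⟪s.η j l, star (s.lft j w) (n (s.k j (s.sig w j)))⟫_ℂ) • s.T j l)
          * suf s.T w (j + 1)) := by
    intro l
    have h1 : s.sig (Function.update w j l) j = s.sig w j := by
      unfold SlotSys.sig
      rw [s.tp_upd]
    have h2 : s.X (Function.update w j l) = pre s.T w j * s.T j l * suf s.T w (j + 1) :=
      word_update s.T w j l
    rw [h1, h2, s.lft_upd, Function.update_self]
    have h3 : ⟪s.lft j w (s.η j l), n (s.k j (s.sig w j))⟫_ℂ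
        = ⟪s.η j l, star (s.lft j w) (n (s.k j (s.sig w j)))⟫_ℂ := by
      rw [ContinuousLinearMap.star_eq_adjoint, ContinuousLinearMap.adjoint_inner_right]
    rw [h3, mul_smul_comm, smul_mul_assoc, smul_smul, ← Complex.coe_smul, smul_smul]
    congr 1
    ring
  rw [Finset.sum_congr rfl fun l _ => e2 l, ← Finset.smul_sum, ← Finset.sum_mul,
    ← Finset.mul_sum, s.exact_T j]
  simp

end Crest.Agent.R078.Z.Rec
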