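import Mathlib
import Crest.Agent.R078.S103Prob

/-!
# R078 / S0103: the drift estimate (helper666)

`E ‖U_1 ⋯ U_k ζ - ζ‖² ≤ k ε²` for i.i.d. letters, each with its own ancilla.
-/

set_option autoImplicit false
open scoped BigOperators InnerProductSpace ComplexConjugate

namespace Crest.Agent.R078.Pb

section Contraction

variable {G : Type*} [NormedAddCommGroup G] [InnerProductSpace ℂ G] [CompleteSpace G]

theorem one_sub_pow_le (k : ℕ) (t : ℝ) (h1 : -1 ≤ t) (h2 : t ≤ 1) :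
    0 ≤ (k : ℝ) * (1 - t) - (1 - t ^ k) := by
  induction k with
  | zero => simp
  | succ n ih =>
    have h3 : t ^ n ≤ 1 := by
      calc t ^ n ≤ |t ^ n| := le_abs_self _
        _ = |t| ^ n := abs_pow _ _
        _ ≤ 1 := pow_le_one₀ (abs_nonneg t) (abs_le.2 ⟨h1, h2⟩)
    push_cast
    have h4 : 0 ≤ (1 - t ^ n) * (1 - t) := mul_nonneg (by linarith) (by linarith)
    have h5 : t ^ (n + 1) = t ^ n * t := pow_succ t n
    rw [h5]
    nlinarith

/-- For a self-adjoint contraction, `⟨(1 - T^k) x, x⟩ ≤ k ⟨(1 - T) x, x⟩`. -/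
theorem norm_sq_sub_inner_pow_le {T : G →L[ℂ] G} (hT : IsSelfAdjoint T) (hT1 : ‖T‖ ≤ 1)
    (k : ℕ) (x : G) :
    ‖x‖ ^ 2 - RCLike.re ⟪(T ^ k) x, x⟫_ℂ ≤ k * (‖x‖ ^ 2 - RCLike.re ⟪T x, x⟫_ℂ) := by
  rcases subsingleton_or_nontrivial G with hG | hG
  · have : x = 0 := Subsingleton.elim _ _
    subst this; simp
  have hspec : ∀ t ∈ spectrum ℝ T, 0 ≤ (k : ℝ) * (1 - t) - (1 - t ^ k) := by
    intro t ht
    have h := (spectrum.norm_le_norm_of_mem ht).trans hT1
    rw [Real.norm_eq_abs, abs_le] at h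
    exact one_sub_pow_le k t h.1 h.2
  have hpos : 0 ≤ cfc (fun t : ℝ => (k : ℝ) * (1 - t) - (1 - t ^ k)) T := cfc_nonneg hspec
  have heq : cfc (fun t : ℝ => (k : ℝ) * (1 - t) - (1 - t ^ k)) T
      = (k : ℝ) • (1 - T) - (1 - T ^ k) := by
    rw [cfc_sub (fun t : ℝ => (k : ℝ) * (1 - t)) (fun t => 1 - t ^ k) T,
      cfc_const_mul (k : ℝ) (fun t : ℝ => 1 - t) T, cfc_sub (fun _ : ℝ => (1 : ℝ)) (fun t => t) T,
      cfc_sub (fun _ : ℝ => (1 : ℝ)) (fun t => t ^ k) T, cfc_const (1 : ℝ) T,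
      cfc_pow (fun t : ℝ => t) k T]
    have : cfc (fun t : ℝ => t) T = T := cfc_id ℝ T
    rw [this]; simp
  rw [heq] at hpos
  have h := ((ContinuousLinearMap.nonneg_iff_isPositive _).1 hpos).re_inner_nonneg_left x
  have e : RCLike.re ⟪((k : ℝ) • (1 - T) - (1 - T ^ k) : G →L[ℂ] G) x, x⟫_ℂ
      = k * (‖x‖ ^ 2 - RCLike.re ⟪T x, x⟫_ℂ) - (‖x‖ ^ 2 - RCLike.re ⟪(T ^ k) x, x⟫_ℂ) := by
    have e1 : ((k : ℝ) • (1 - T) - (1 - T ^ k) : G →L[ℂ] G) x
        = ((k : ℝ) : ℂ) • (x - T x) - (x - (T ^ k) x) := by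
      simp only [sub_apply, smul_apply, Complex.coe_smul]
      rfl
    rw [e1, inner_sub_left, inner_smul_left, inner_sub_left, inner_sub_left,
      Complex.conj_ofReal]
    have hx : RCLike.re ⟪x, x⟫_ℂ = ‖x‖ ^ 2 := inner_self_eq_norm_sq x
    have hx' : (⟪x, x⟫_ℂ).re = ‖x‖ ^ 2 := hx
    simp only [map_sub, RCLike.re_to_complex] at hx ⊢
    simp only [Complex.re_ofReal_mul, Complex.sub_re, hx']
  rw [e] at h
  linarith

end Contraction

/-! ### Ordered products over a list of slots -/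

section Slots

variable {I : Type*} {d : ℕ} {A : Type*} [Monoid A]

/-- Ordered product `∏_{j ∈ s} U j (w j)` along a list of slots. -/
def wprod (U : Fin d → I → A) (s : List (Fin d)) (w : Fin d → I) : A :=
  (s.map fun j => U j (w j)).prod

@[simp] theorem wprod_nil (U : Fin d → I → A) (w : Fin d → I) : wprod U [] w = 1 := rfl

@[simp] theorem wprod_cons (U : Fin d → I → A) (j : Fin d) (s : List (Fin d)) (w : Fin d → I) :
    wprod U (j :: s) w = U j (w j) * wprod U s w := by simp [wprod]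

theorem wprod_append (U : Fin d → I → A) (s t : List (Fin d)) (w : Fin d → I) :
    wprod U (s ++ t) w = wprod U s w * wprod U t w := by simp [wprod]

theorem wprod_update [DecidableEq I] (U : Fin d → I → A) {s : List (Fin d)} {j : Fin d}
    (hj : j ∉ s) (w : Fin d → I) (i : I) :
    wprod U s (Function.update w j i) = wprod U s w := by
  unfold wprod
  congr 1
  refine List.map_congr_left fun x hx => ?_
  have hne : x ≠ j := fun h => hj (h ▸ hx)
  rw [Function.update_of_ne hne]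

theorem wprod_commute {U : Fin d → I → A} {s : List (Fin d)} {q : A}
    (h : ∀ j ∈ s, ∀ l, Commute q (U j l)) (w : Fin d → I) : Commute q (wprod U s w) := by
  unfold wprod
  refine Commute.list_prod_right _ _ fun x hx => ?_
  obtain ⟨j, hj, rfl⟩ := List.mem_map.1 hx
  exact h j hj _

theorem wprod_mul_of_commute {T S : Fin d → I → A} (s : List (Fin d)) (w : Fin d → I)
    (h : ∀ i j, Commute (T i (w i)) (S j (w j))) :
    wprod (fun j l => T j l * S j l) s w = wprod T s w * wprod S s w := by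
  induction s with
  | nil => simp
  | cons j s ih =>
    simp only [wprod_cons, ih]
    have hc : Commute (S j (w j)) (wprod T s w) := by
      unfold wprod
      refine Commute.list_prod_right _ _ fun x hx => ?_
      obtain ⟨i, _, rfl⟩ := List.mem_map.1 hx
      exact (h i j).symm
    rw [mul_assoc, mul_assoc, ← mul_assoc (S j (w j)), hc.eq, mul_assoc]

/-- slots `< j`, in increasing order -/
def ltL (j : Fin d) : List (Fin d) := (List.finRange d).filter (· < j)

/-- slots `> j`, in increasing order -/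
def gtL (j : Fin d) : List (Fin d) := (List.finRange d).filter (j < ·)

theorem mem_ltL {i j : Fin d} : i ∈ ltL j ↔ i < j := by simp [ltL]
theorem mem_gtL {i j : Fin d} : i ∈ gtL j ↔ j < i := by simp [gtL]
theorem not_mem_ltL_self (j : Fin d) : j ∉ ltL j := by simp [ltL]
theorem not_mem_gtL_self (j : Fin d) : j ∉ gtL j := by simp [gtL]

theorem nodup_ltL (j : Fin d) : (ltL j).Nodup := (List.nodup_finRange d).filter _
theorem nodup_gtL (j : Fin d) : (gtL j).Nodup := (List.nodup_finRange d).filter _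

theorem length_ltL_le (j : Fin d) : (ltL j).length ≤ d := by
  simpa [ltL] using List.length_filter_le (· < j) (List.finRange d)

theorem length_gtL_le (j : Fin d) : (gtL j).length ≤ d := by
  simpa [gtL] using List.length_filter_le (j < ·) (List.finRange d)

/-- splitting a sorted list at one of its members -/
private theorem split_sorted : ∀ (s : List (Fin d)) (_ : s.Pairwise (· < ·)) (j : Fin d), j ∈ s →
    s = s.filter (· < j) ++ j :: s.filter (j < ·) := by
  intro s
  induction s with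
  | nil => intro _ j hj; simp at hj
  | cons a s ih =>
    intro hs j hj
    rw [List.pairwise_cons] at hs
    rcases List.mem_cons.1 hj with rfl | hj'
    · have h1 : s.filter (· < j) = [] := by
        rw [List.filter_eq_nil_iff]
        intro x hx; simpa using (hs.1 x hx).le
      have h2 : s.filter (j < ·) = s := by
        rw [List.filter_eq_self]
        intro x hx; simpa using hs.1 x hx
      simp [List.filter_cons, h1, h2]
    · have haj : a < j := hs.1 j hj'
      have h3 := ih hs.2 j hj'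
      have : ¬ j < a := not_lt.2 haj.le
      simp only [List.filter_cons, haj, this, decide_true, decide_false, if_true,
        Bool.false_eq_true, if_false, List.cons_append]
      rw [← h3]

theorem finRange_split (j : Fin d) : List.finRange d = ltL j ++ j :: gtL j :=
  split_sorted _ (by simpa using List.pairwise_lt_finRange d) j (List.mem_finRange j)

/-- the full word `X = L_j T_j R_j` -/
theorem wprod_full_split (U : Fin d → I → A) (w : Fin d → I) (j : Fin d) :
    wprod U (List.finRange d) w = wprod U (ltL j) w * (U j (w j) * wprod U (gtL j) w) := by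
  conv_lhs => rw [finRange_split j]
  rw [wprod_append, wprod_cons]

end Slots

/-! ### The drift lemma -/

section Drift

variable {I : Type*} [Fintype I] [DecidableEq I] {d : ℕ} {mu : I → ℝ}
  {G : Type*} [NormedAddCommGroup G] [InnerProductSpace ℂ G] [CompleteSpace G]
  {U : Fin d → I → (G →L[ℂ] G)} {Q : Fin d → (G →L[ℂ] G)} {C : G →L[ℂ] G} {ζ : G}

theorem wprod_norm (hU : ∀ j l x, ‖U j l x‖ = ‖x‖) (s : List (Fin d)) (w : Fin d → I) (x : G) :
    ‖wprod U s w x‖ = ‖x‖ := by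
  induction s with
  | nil => simp
  | cons j s ih => rw [wprod_cons, mul_apply_eq_comp, hU, ih]

/-- `E ⟨C^m ζ, U_s ζ⟩ = ⟨C^{m+|s|} ζ, ζ⟩`. -/
theorem Ex_inner_wprod (h1 : ∑ i, mu i = 1)
    (hQsa : ∀ j, IsSelfAdjoint (Q j)) (hQζ : ∀ j, Q j ζ = ζ)
    (hQU : ∀ i j, i ≠ j → ∀ l, Commute (Q i) (U j l))
    (hC : IsSelfAdjoint C) (hQC : ∀ j, Commute (Q j) C)
    (hmean : ∀ j x y, ∑ l, (mu l : ℂ) * ⟪Q j x, U j l (Q j y)⟫_ℂ = ⟪x, C (Q j y)⟫_ℂ)
    (s : List (Fin d)) (hs : s.Nodup) (m : ℕ) :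
    Ex mu (fun w => ⟪(C ^ m) ζ, wprod U s w ζ⟫_ℂ) = ⟪(C ^ (m + s.length)) ζ, ζ⟫_ℂ := by
  induction s generalizing m with
  | nil => simp [Ex_const mu h1]
  | cons j s ih =>
    rw [List.nodup_cons] at hs
    have hX : ∀ w : Fin d → I, Commute (Q j) (wprod U s w) := fun w =>
      wprod_commute (fun i hi l => hQU j i (fun h => hs.1 (h ▸ hi)) l) w
    have hQm : Q j ((C ^ m) ζ) = (C ^ m) ζ := by
      have := congrArg (fun A : G →L[ℂ] G => A ζ) ((hQC j).pow_right m).eq
      simp only [mul_apply_eq_comp, hQζ] at this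
      exact this
    have hQX : ∀ w : Fin d → I, Q j (wprod U s w ζ) = wprod U s w ζ := by
      intro w
      have := congrArg (fun A : G →L[ℂ] G => A ζ) (hX w).eq
      simp only [mul_apply_eq_comp, hQζ] at this
      exact this
    have e1 : Ex mu (fun w => ⟪(C ^ m) ζ, wprod U (j :: s) w ζ⟫_ℂ)
        = Ex mu (fun w => ∑ i, mu i • ⟪Q j ((C ^ m) ζ), U j i (Q j (wprod U s w ζ))⟫_ℂ) := by
      have h3 := Ex_letter mu h1 j (fun (l : I) (w : Fin d → I) =>
            ⟪Q j ((C ^ m) ζ), U j l (Q j (wprod U s w ζ))⟫_ℂ)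
            (fun l w i => by simp only [wprod_update U hs.1])
      rw [← h3]
      refine Ex_congr mu fun w => ?_
      simp only [wprod_cons, mul_apply_eq_comp, hQX, hQm]
    rw [e1]
    have e2 : Ex mu (fun w => ∑ i, mu i • ⟪Q j ((C ^ m) ζ), U j i (Q j (wprod U s w ζ))⟫_ℂ)
        = Ex mu (fun w => ⟪(C ^ (m + 1)) ζ, wprod U s w ζ⟫_ℂ) := by
      refine Ex_congr mu fun w => ?_
      simp only [Complex.real_smul]
      rw [hmean j ((C ^ m) ζ) (wprod U s w ζ), hQX, ← ContinuousLinearMap.adjoint_inner_left,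
        ← ContinuousLinearMap.star_eq_adjoint, hC.star_eq, pow_succ' C m]
      rfl
    rw [e2, ih hs.2 (m + 1)]
    congr 3
    simp only [List.length_cons]; ring_nf

/-- **Drift.** -/
theorem drift (h1 : ∑ i, mu i = 1)
    (hU : ∀ j l x, ‖U j l x‖ = ‖x‖)
    (hQsa : ∀ j, IsSelfAdjoint (Q j)) (hQζ : ∀ j, Q j ζ = ζ)
    (hQU : ∀ i j, i ≠ j → ∀ l, Commute (Q i) (U j l))
    (hC : IsSelfAdjoint C) (hC1 : ‖C‖ ≤ 1) (hQC : ∀ j, Commute (Q j) C)
    (hmean : ∀ j x y, ∑ l, (mu l : ℂ) * ⟪Q j x, U j l (Q j y)⟫_ℂ = ⟪x, C (Q j y)⟫_ℂ)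
    {ε : ℝ} (hε : ∀ j, ∑ l, mu l * ‖U j l ζ - ζ‖ ^ 2 ≤ ε ^ 2)
    (s : List (Fin d)) (hs : s.Nodup) :
    Ex mu (fun w => ‖wprod U s w ζ - ζ‖ ^ 2) ≤ s.length * ε ^ 2 := by
  rcases s with _ | ⟨j, s'⟩
  · simp
  set s := j :: s' with hsdef
  -- expand the square
  have key : ∀ (t : List (Fin d)), t.Nodup →
      Ex mu (fun w => ‖wprod U t w ζ - ζ‖ ^ 2)
        = 2 * (‖ζ‖ ^ 2 - RCLike.re ⟪(C ^ t.length) ζ, ζ⟫_ℂ) := by
    intro t ht
    have e : ∀ w : Fin d → I, ‖wprod U t w ζ - ζ‖ ^ 2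
        = 2 * ‖ζ‖ ^ 2 - 2 * (⟪ζ, wprod U t w ζ⟫_ℂ).re := by
      intro w
      rw [norm_sub_sq (𝕜 := ℂ), wprod_norm hU, ← inner_conj_symm]
      simp only [RCLike.re_to_complex, Complex.conj_re]
      ring
    rw [Ex_congr mu e, Ex_sub, Ex_const mu h1, Ex_mul_left, ← Ex_re]
    have h := Ex_inner_wprod h1 hQsa hQζ hQU hC hQC hmean t ht 0
    simp only [pow_zero, one_apply_eq_self, zero_add] at h
    rw [h]
    simp only [RCLike.re_to_complex]; ring
  have h2 : 2 * (‖ζ‖ ^ 2 - RCLike.re ⟪C ζ, ζ⟫_ℂ) ≤ ε ^ 2 := by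
    have h3 := key [j] (by simp)
    simp only [List.length_singleton, pow_one] at h3
    rw [← h3]
    have e : Ex mu (fun w : Fin d → I => ‖wprod U [j] w ζ - ζ‖ ^ 2)
        = ∑ l, mu l • ‖U j l ζ - ζ‖ ^ 2 := by
      rw [← Ex_single mu h1 j (fun l => ‖U j l ζ - ζ‖ ^ 2)]
      refine Ex_congr mu fun w => by simp
    rw [e]
    simpa [smul_eq_mul] using hε j
  rw [key s hs]
  have h4 := norm_sq_sub_inner_pow_le hC hC1 s.length ζ
  have h5 : (0 : ℝ) ≤ s.length := Nat.cast_nonneg _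
  nlinarith [mul_le_mul_of_nonneg_left h2 h5]

end Drift

end Crest.Agent.R078.Pb
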