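import Mathlib
import Crest.Agent.R078.S103SlotTargets199
import Crest.Agent.R078.S103Prob
import Crest.Agent.R078.S103Drift

/-!
# R078 / S0103: drift for the abstract slot system (helper666, block WK-D)
-/

set_option autoImplicit false
open scoped InnerProductSpace

namespace Crest.Agent.R078.Z.Slot.SlotSys

open Crest.Agent.R078 (Pb.Ex)

universe u

variable {G : Type u} [NormedAddCommGroup G] [InnerProductSpace ℂ G] [CompleteSpace G]
  {M N : VonNeumannAlgebra G} {d : ℕ} {L : Type} [Fintype L] [DecidableEq L]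
  {δ R K Kθ ε₁ : ℝ} (s : SlotSys M N d L δ R K Kθ ε₁)

/-- the slot expectation is the one of `S103Prob` -/
theorem Ex_eqD {E : Type*} [AddCommGroup E] [Module ℝ E] (F : (Fin d → L) → E) :
    s.Ex F = Pb.Ex s.μ F := rfl

theorem T_S_comm (i j : Fin d) (l l' : L) : Commute (s.T i l) (s.S j l') :=
  VonNeumannAlgebra.mem_commutant_iff.1 (s.S_mem j l') (s.T i l) (s.T_mem i l)

theorem norm_T_apply (j : Fin d) (l : L) (x : G) : ‖s.T j l x‖ = ‖x‖ :=
  ContinuousLinearMap.norm_map_of_mem_unitary (s.T_unitary j l) x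

theorem norm_S_apply (j : Fin d) (l : L) (x : G) : ‖s.S j l x‖ = ‖x‖ :=
  ContinuousLinearMap.norm_map_of_mem_unitary (s.S_unitary j l) x

/-- `U j l = T j l * S j l` -/
noncomputable def U (j : Fin d) (l : L) : G →L[ℂ] G := s.T j l * s.S j l

theorem U_def (j : Fin d) (l : L) : s.U j l = s.T j l * s.S j l := rfl

theorem norm_U_apply (j : Fin d) (l : L) (x : G) : ‖s.U j l x‖ = ‖x‖ := by
  rw [U, mul_apply_eq_comp, norm_T_apply, norm_S_apply]

theorem pre_U (w : Fin d → L) (j : ℕ) : pre s.U w j = pre s.T w j * pre s.S w j :=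
  Pb.wprod_mul_of_commute ((List.finRange d).take j) w fun i j => s.T_S_comm i j _ _

theorem suf_U (w : Fin d → L) (j : ℕ) : suf s.U w j = suf s.T w j * suf s.S w j :=
  Pb.wprod_mul_of_commute ((List.finRange d).drop j) w fun i j => s.T_S_comm i j _ _

theorem hmean_U (j : Fin d) (x y : G) :
    ∑ l, (s.μ l : ℂ) * ⟪s.P j x, s.U j l (s.P j y)⟫_ℂ = ⟪x, s.cT (s.P j y)⟫_ℂ := by
  have h := congrArg (fun A : G →L[ℂ] G => ⟪x, A y⟫_ℂ) (s.PTSP j)
  simp only [mul_apply_eq_comp, sum_apply, map_sum, smul_apply,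
    map_smul, inner_sum, inner_smul_right] at h
  rw [← h]
  refine Finset.sum_congr rfl fun l _ => ?_
  have hP : ContinuousLinearMap.adjoint (s.P j) = s.P j := by
    rw [← ContinuousLinearMap.star_eq_adjoint]; exact s.P_sa j
  have hz : ∀ z : G, ⟪s.P j x, z⟫_ℂ = ⟪x, s.P j z⟫_ℂ := by
    intro z
    have := ContinuousLinearMap.adjoint_inner_left (s.P j) z x
    rwa [hP] at this
  rw [hz]
  rfl

theorem sum_norm_U_le (j : Fin d) :
    ∑ l, s.μ l * ‖s.U j l s.ζ - s.ζ‖ ^ 2 ≤ ε₁ ^ 2 := by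
  calc ∑ l, s.μ l * ‖s.U j l s.ζ - s.ζ‖ ^ 2 ≤ ∑ l, s.μ l * ε₁ ^ 2 := by
        refine Finset.sum_le_sum fun l _ => mul_le_mul_of_nonneg_left ?_ (s.μ_nonneg l)
        exact pow_le_pow_left₀ (norm_nonneg _) (s.TS_ζ j l) 2
    _ = ε₁ ^ 2 := by rw [← Finset.sum_mul, s.μ_sum, one_mul]

/-- general drift along a list of different slots -/
theorem drift_list (t : List (Fin d)) (ht : t.Nodup) :
    s.Ex (fun w => ‖Pb.wprod s.U t w s.ζ - s.ζ‖ ^ 2) ≤ t.length * ε₁ ^ 2 := by
  rw [Ex_eqD]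
  refine Pb.drift (Q := s.P) (C := s.cT) s.μ_sum s.norm_U_apply s.P_sa s.P_ζ ?_ s.cT_sa s.norm_cT
    (fun j => (s.cT_P j).symm) s.hmean_U s.sum_norm_U_le t ht
  intro i j hij l
  have h1 : Commute (s.P i) (s.T j l) := s.P_T i j l hij
  have h2 : Commute (s.P i) (s.S j l) := s.P_S i j l hij
  exact h1.mul_right h2

theorem D_sq : s.D ^ 2 = d * ε₁ ^ 2 := by
  rw [D, mul_pow, Real.sq_sqrt (Nat.cast_nonneg d)]

theorem D_nonnegD (hε : 0 ≤ ε₁) : 0 ≤ s.D := mul_nonneg (Real.sqrt_nonneg _) hε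

/-- **Drift, left**: `E ‖L_j S_{L_j} ζ - ζ‖² ≤ D²`. -/
theorem drift_pre_sq (j : ℕ) :
    s.Ex (fun w => ‖pre s.T w j (pre s.S w j s.ζ) - s.ζ‖ ^ 2) ≤ s.D ^ 2 := by
  have h := s.drift_list ((List.finRange d).take j)
    ((List.nodup_finRange d).sublist (List.take_sublist _ _))
  have hlen : (((List.finRange d).take j).length : ℝ) ≤ d := by
    have := List.length_take_le' j (List.finRange d)
    rw [List.length_finRange] at this
    exact_mod_cast this
  rw [D_sq]
  have he : (fun w => ‖pre s.T w j (pre s.S w j s.ζ) - s.ζ‖ ^ 2)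
      = fun w => ‖Pb.wprod s.U ((List.finRange d).take j) w s.ζ - s.ζ‖ ^ 2 := by
    funext w
    have hw : Pb.wprod s.U ((List.finRange d).take j) w = pre s.T w j * pre s.S w j := s.pre_U w j
    rw [hw, mul_apply_eq_comp]
  rw [he]
  exact h.trans (mul_le_mul_of_nonneg_right hlen (sq_nonneg _))

/-- **Drift, right**: `E ‖T_j…T_{d-1} S_j…S_{d-1} ζ - ζ‖² ≤ D²`. -/
theorem drift_suf_sq (j : ℕ) :
    s.Ex (fun w => ‖suf s.T w j (suf s.S w j s.ζ) - s.ζ‖ ^ 2) ≤ s.D ^ 2 := by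
  have h := s.drift_list ((List.finRange d).drop j)
    ((List.nodup_finRange d).sublist (List.drop_sublist _ _))
  have hlen : (((List.finRange d).drop j).length : ℝ) ≤ d := by
    rw [List.length_drop, List.length_finRange]
    exact_mod_cast Nat.sub_le d j
  rw [D_sq]
  have he : (fun w => ‖suf s.T w j (suf s.S w j s.ζ) - s.ζ‖ ^ 2)
      = fun w => ‖Pb.wprod s.U ((List.finRange d).drop j) w s.ζ - s.ζ‖ ^ 2 := by
    funext w
    have hw : Pb.wprod s.U ((List.finRange d).drop j) w = suf s.T w j * suf s.S w j := s.suf_U w j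
    rw [hw, mul_apply_eq_comp]
  rw [he]
  exact h.trans (mul_le_mul_of_nonneg_right hlen (sq_nonneg _))

/-! ### unitarity and membership of the ordered products -/

theorem pre_T_mem_unitary (w : Fin d → L) (j : ℕ) : pre s.T w j ∈ unitary (G →L[ℂ] G) := by
  unfold pre
  refine Submonoid.list_prod_mem _ fun x hx => ?_
  obtain ⟨i, _, rfl⟩ := List.mem_map.1 hx
  exact s.T_unitary i _

theorem suf_T_mem_unitary (w : Fin d → L) (j : ℕ) : suf s.T w j ∈ unitary (G →L[ℂ] G) := by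
  unfold suf
  refine Submonoid.list_prod_mem _ fun x hx => ?_
  obtain ⟨i, _, rfl⟩ := List.mem_map.1 hx
  exact s.T_unitary i _

theorem pre_S_mem_unitary (w : Fin d → L) (j : ℕ) : pre s.S w j ∈ unitary (G →L[ℂ] G) := by
  unfold pre
  refine Submonoid.list_prod_mem _ fun x hx => ?_
  obtain ⟨i, _, rfl⟩ := List.mem_map.1 hx
  exact s.S_unitary i _

theorem suf_S_mem_unitary (w : Fin d → L) (j : ℕ) : suf s.S w j ∈ unitary (G →L[ℂ] G) := by
  unfold suf
  refine Submonoid.list_prod_mem _ fun x hx => ?_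
  obtain ⟨i, _, rfl⟩ := List.mem_map.1 hx
  exact s.S_unitary i _

theorem pre_T_mem (w : Fin d → L) (j : ℕ) : pre s.T w j ∈ M := by
  unfold pre
  induction (List.finRange d).take j with
  | nil => simpa using one_mem M
  | cons a t ih => simpa using mul_mem (s.T_mem a _) ih

theorem suf_T_mem (w : Fin d → L) (j : ℕ) : suf s.T w j ∈ M := by
  unfold suf
  induction (List.finRange d).drop j with
  | nil => simpa using one_mem M
  | cons a t ih => simpa using mul_mem (s.T_mem a _) ih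

theorem pre_S_mem (w : Fin d → L) (j : ℕ) : pre s.S w j ∈ M.commutant := by
  unfold pre
  induction (List.finRange d).take j with
  | nil => simpa using one_mem M.commutant
  | cons a t ih => simpa using mul_mem (s.S_mem a _) ih

theorem suf_S_mem (w : Fin d → L) (j : ℕ) : suf s.S w j ∈ M.commutant := by
  unfold suf
  induction (List.finRange d).drop j with
  | nil => simpa using one_mem M.commutant
  | cons a t ih => simpa using mul_mem (s.S_mem a _) ih

/-- moving a unitary to the other side -/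
theorem norm_star_sub {A : G →L[ℂ] G} (hu : A ∈ unitary (G →L[ℂ] G)) (x y : G) :
    ‖star A x - y‖ = ‖A y - x‖ := by
  have h1 : ‖star A x - y‖ = ‖A (star A x - y)‖ :=
    (ContinuousLinearMap.norm_map_of_mem_unitary hu _).symm
  have h2 : A (star A x) = x := by
    have := congrArg (fun B : G →L[ℂ] G => B x) (Unitary.mul_star_self_of_mem hu)
    exact this
  rw [h1, map_sub, h2, norm_sub_rev]

/-- **Drift, adjoint form**: `E ‖R^* ζ - S_R ζ‖² ≤ D²` with `R = T_j…T_{d-1}`. -/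
theorem drift_star_suf_sq (j : ℕ) :
    s.Ex (fun w => ‖star (suf s.T w j) s.ζ - suf s.S w j s.ζ‖ ^ 2) ≤ s.D ^ 2 := by
  have he : (fun w => ‖star (suf s.T w j) s.ζ - suf s.S w j s.ζ‖ ^ 2)
      = fun w => ‖suf s.T w j (suf s.S w j s.ζ) - s.ζ‖ ^ 2 := by
    funext w
    rw [norm_star_sub (s.suf_T_mem_unitary w j)]
  rw [he]
  exact s.drift_suf_sq j

/-- **Drift, adjoint form, left**: `E ‖L^* ζ - S_L ζ‖² ≤ D²` with `L = T_0…T_{j-1}`. -/
theorem drift_star_pre_sq (j : ℕ) :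
    s.Ex (fun w => ‖star (pre s.T w j) s.ζ - pre s.S w j s.ζ‖ ^ 2) ≤ s.D ^ 2 := by
  have he : (fun w => ‖star (pre s.T w j) s.ζ - pre s.S w j s.ζ‖ ^ 2)
      = fun w => ‖pre s.T w j (pre s.S w j s.ζ) - s.ζ‖ ^ 2 := by
    funext w
    rw [norm_star_sub (s.pre_T_mem_unitary w j)]
  rw [he]
  exact s.drift_pre_sq j

/-! ### first moments -/

theorem Ex_norm_le_of_sq {E : Type*} [NormedAddCommGroup E] (F : (Fin d → L) → E) {B : ℝ}
    (hB : 0 ≤ B) (h : s.Ex (fun w => ‖F w‖ ^ 2) ≤ B ^ 2) : s.Ex (fun w => ‖F w‖) ≤ B := by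
  rw [Ex_eqD] at h ⊢
  exact Pb.Ex_norm_le_of_sq_le s.μ_nonneg s.μ_sum F hB h

theorem drift_pre (hε : 0 ≤ ε₁) (j : ℕ) :
    s.Ex (fun w => ‖pre s.T w j (pre s.S w j s.ζ) - s.ζ‖) ≤ s.D :=
  s.Ex_norm_le_of_sq _ (s.D_nonnegD hε) (s.drift_pre_sq j)

theorem drift_suf (hε : 0 ≤ ε₁) (j : ℕ) :
    s.Ex (fun w => ‖suf s.T w j (suf s.S w j s.ζ) - s.ζ‖) ≤ s.D :=
  s.Ex_norm_le_of_sq _ (s.D_nonnegD hε) (s.drift_suf_sq j)

theorem drift_star_suf (hε : 0 ≤ ε₁) (j : ℕ) :
    s.Ex (fun w => ‖star (suf s.T w j) s.ζ - suf s.S w j s.ζ‖) ≤ s.D :=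
  s.Ex_norm_le_of_sq _ (s.D_nonnegD hε) (s.drift_star_suf_sq j)

theorem drift_star_pre (hε : 0 ≤ ε₁) (j : ℕ) :
    s.Ex (fun w => ‖star (pre s.T w j) s.ζ - pre s.S w j s.ζ‖) ≤ s.D :=
  s.Ex_norm_le_of_sq _ (s.D_nonnegD hε) (s.drift_star_pre_sq j)

/-! ### dependence on letters -/

/-- `pre T w j` does not see letters `i ≥ j` -/
theorem pre_update {A : Type*} [Monoid A] (T : Fin d → L → A) (w : Fin d → L) (j : ℕ) (i : Fin d)
    (hij : j ≤ i) (l : L) : pre T (Function.update w i l) j = pre T w j := by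
  refine Pb.wprod_update T (s := (List.finRange d).take j) ?_ w l
  intro hmem
  rw [List.mem_take_iff_getElem] at hmem
  obtain ⟨k, hk, hk'⟩ := hmem
  rw [List.getElem_finRange] at hk'
  have : (i : ℕ) = k := by rw [← hk']; simp
  omega

/-- `suf T w j` does not see letters `i < j` -/
theorem suf_update {A : Type*} [Monoid A] (T : Fin d → L → A) (w : Fin d → L) (j : ℕ) (i : Fin d)
    (hij : (i : ℕ) < j) (l : L) : suf T (Function.update w i l) j = suf T w j := by
  refine Pb.wprod_update T (s := (List.finRange d).drop j) ?_ w l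
  intro hmem
  rw [List.mem_drop_iff_getElem] at hmem
  obtain ⟨k, hk, hk'⟩ := hmem
  rw [List.getElem_finRange] at hk'
  have : (i : ℕ) = j + k := by rw [← hk']; simp
  omega

end Crest.Agent.R078.Z.Slot.SlotSys

namespace Crest.Agent.R078.Z.Slot

universe u

/-- `DriftTarget` of `S103SlotTargets199.lean`. -/
theorem driftTarget : DriftTarget.{u} := by
  intro G _ _ _ M N d L _ _ δ R K Kθ ε₁ s _ j
  refine ⟨?_, s.drift_star_suf_sq (j + 1)⟩
  have he : (fun w => ‖s.V w j s.ζ - s.ζ‖ ^ 2)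
      = fun w => ‖pre s.T w j (pre s.S w j s.ζ) - s.ζ‖ ^ 2 := by
    funext w
    rw [SlotSys.V, mul_apply_eq_comp]
  rw [he]
  exact s.drift_pre_sq j

end Crest.Agent.R078.Z.Slot
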