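/-
R78 / S0103.  Walk steps (1) (value) and (2) (`q = q₁ + q₂`, bound of `q₁`) on the abstract slot
system (helper199).
-/
import Crest.Agent.R078.S103SlotTargets199
import Crest.Agent.R078.S103Prob

set_option autoImplicit false
open scoped InnerProductSpace

namespace Crest.Agent.R078.Z.Slot

universe u

section products

variable {A : Type*} [Monoid A] {L : Type*} {d : ℕ}

theorem pre_mem {σ : Type*} [SetLike σ A] [SubmonoidClass σ A] (B : σ) {T : Fin d → L → A}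
    (h : ∀ j l, T j l ∈ B) (w : Fin d → L) (j : ℕ) : pre T w j ∈ B := by
  unfold pre
  refine list_prod_mem fun x hx => ?_
  obtain ⟨i, _, rfl⟩ := List.mem_map.1 hx
  exact h _ _

theorem suf_mem {σ : Type*} [SetLike σ A] [SubmonoidClass σ A] (B : σ) {T : Fin d → L → A}
    (h : ∀ j l, T j l ∈ B) (w : Fin d → L) (j : ℕ) : suf T w j ∈ B := by
  unfold suf
  refine list_prod_mem fun x hx => ?_
  obtain ⟨i, _, rfl⟩ := List.mem_map.1 hx
  exact h _ _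

end products

variable {G : Type u} [NormedAddCommGroup G] [InnerProductSpace ℂ G] [CompleteSpace G]

theorem comm_of_commutant {M : VonNeumannAlgebra G} {x z : G →L[ℂ] G} (hx : x ∈ M)
    (hz : z ∈ M.commutant) : x * z = z * x :=
  VonNeumannAlgebra.mem_commutant_iff.1 hz x hx

theorem norm_unitary_apply {u : G →L[ℂ] G} (hu : u ∈ unitary (G →L[ℂ] G)) (x : G) :
    ‖u x‖ = ‖x‖ := by
  have h1 : star u * u = 1 := hu.1
  have h2 : ‖u x‖ ^ 2 = ‖x‖ ^ 2 := by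
    have : ⟪u x, u x⟫_ℂ = ⟪x, x⟫_ℂ := by
      rw [← ContinuousLinearMap.adjoint_inner_right]
      have : (ContinuousLinearMap.adjoint u) (u x) = (star u * u) x := rfl
      rw [this, h1]; rfl
    rw [inner_self_eq_norm_sq_to_K, inner_self_eq_norm_sq_to_K] at this
    exact_mod_cast this
  have := (sq_eq_sq₀ (norm_nonneg _) (norm_nonneg _)).1 h2
  exact this

theorem norm_le_one_of_unitary {u : G →L[ℂ] G} (hu : u ∈ unitary (G →L[ℂ] G)) : ‖u‖ ≤ 1 :=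
  ContinuousLinearMap.opNorm_le_bound _ zero_le_one fun x => by
    rw [norm_unitary_apply hu, one_mul]

/-- a self-adjoint idempotent is a contraction -/
theorem norm_proj_apply_le {p : G →L[ℂ] G} (hsa : star p = p) (hid : p * p = p) (x : G) :
    ‖p x‖ ≤ ‖x‖ := by
  have h1 : ⟪p x, p x⟫_ℂ = ⟪x, p x⟫_ℂ := by
    have h2 : ⟪p x, p x⟫_ℂ = ⟪x, (star p) (p x)⟫_ℂ := by
      rw [ContinuousLinearMap.star_eq_adjoint, ContinuousLinearMap.adjoint_inner_right]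
    rw [h2, hsa]
    have : p (p x) = (p * p) x := rfl
    rw [this, hid]
  have h3 : ‖p x‖ ^ 2 ≤ ‖x‖ * ‖p x‖ := by
    have h4 : (‖p x‖ ^ 2 : ℝ) = ‖⟪p x, p x⟫_ℂ‖ := by
      rw [inner_self_eq_norm_sq_to_K]
      simp
    rw [h4, h1]
    exact norm_inner_le_norm _ _
  by_cases h0 : ‖p x‖ = 0
  · rw [h0]; exact norm_nonneg _
  · have : 0 < ‖p x‖ := lt_of_le_of_ne (norm_nonneg _) (Ne.symm h0)
    nlinarith

theorem inner_star_left (x : G →L[ℂ] G) (a b : G) : ⟪x a, b⟫_ℂ = ⟪a, star x b⟫_ℂ := by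
  rw [ContinuousLinearMap.star_eq_adjoint, ContinuousLinearMap.adjoint_inner_right]

theorem norm_star_eq (x : G →L[ℂ] G) : ‖star x‖ = ‖x‖ := norm_star x

namespace SlotSys

variable {M N : VonNeumannAlgebra G} {d : ℕ} {L : Type} [Fintype L] [DecidableEq L]
  {δ R K Kθ ε₁ : ℝ} (s : SlotSys M N d L δ R K Kθ ε₁)

theorem Ex_eq {E : Type*} [AddCommGroup E] [Module ℝ E] (F : (Fin d → L) → E) :
    s.Ex F = Pb.Ex s.μ F := rfl

theorem p'_sig (w : Fin d → L) (j : Fin d) : s.p' (s.sig w j) = s.sig w j := by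
  unfold sig
  have : s.p' (s.p' (s.tp j w s.ζ)) = (s.p' * s.p') (s.tp j w s.ζ) := rfl
  rw [this, s.p'_idem]

theorem q_split (w : Fin d → L) (y : G →L[ℂ] G) (hy : y ∈ N) :
    s.q w y = s.q1 w y + s.q2 w y := by
  unfold q q1 q2
  rw [← mul_add, ← Finset.sum_add_distrib]
  congr 1
  refine Finset.sum_congr rfl fun j _ => ?_
  have h1 : star (s.rho j w) s.ζ = s.e w j + s.sig w j := by unfold e; abel
  rw [h1, map_add, map_add, inner_add_right]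
  congr 1
  rw [inner_star_left, inner_star_left]
  have hmem : star (s.lft j w) * y ∈ N := mul_mem (star_mem (s.lft_mem j w)) hy
  exact s.star_id j (w j) _ hmem _ (s.p'_sig w j)

/-- the norm function of `q₁` -/
noncomputable def n1 (w : Fin d → L) : ℝ := (d : ℝ)⁻¹ * ∑ j, ‖s.kap j (w j) (s.e w j)‖

theorem n1_nonneg (w : Fin d → L) : 0 ≤ s.n1 w := by unfold n1; positivity

theorem norm_q1_le (w : Fin d → L) (y : G →L[ℂ] G) (hy : ‖y‖ ≤ 1) : ‖s.q1 w y‖ ≤ s.n1 w := by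
  unfold q1 n1
  rw [norm_mul]
  have h0 : ‖(d : ℂ)⁻¹‖ = (d : ℝ)⁻¹ := by simp
  rw [h0]
  refine mul_le_mul_of_nonneg_left ?_ (by positivity)
  refine (norm_sum_le _ _).trans (Finset.sum_le_sum fun j _ => ?_)
  refine (norm_inner_le_norm _ _).trans ?_
  have h1 : ‖s.lft j w (s.bet w j)‖ ≤ 1 := by
    calc _ ≤ ‖s.lft j w‖ * ‖s.bet w j‖ := (s.lft j w).le_opNorm _
      _ ≤ 1 * 1 := mul_le_mul (s.norm_lft j w) (s.norm_bζ j (w j)) (norm_nonneg _) zero_le_one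
      _ = 1 := one_mul 1
  have h2 : ‖y (s.kap j (w j) (s.e w j))‖ ≤ ‖s.kap j (w j) (s.e w j)‖ := by
    calc _ ≤ ‖y‖ * ‖s.kap j (w j) (s.e w j)‖ := y.le_opNorm _
      _ ≤ 1 * _ := mul_le_mul_of_nonneg_right hy (norm_nonneg _)
      _ = _ := one_mul _
  calc _ ≤ 1 * ‖s.kap j (w j) (s.e w j)‖ := mul_le_mul h1 h2 (norm_nonneg _) zero_le_one
    _ = _ := one_mul _

theorem star_rho_P (j : Fin d) (w : Fin d → L) :
    s.P j * star (s.rho j w) = star (s.rho j w) * s.P j := by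
  have h := congrArg star (s.rho_P j w)
  rw [star_mul, star_mul, s.P_sa] at h
  exact h

theorem e_eq (w : Fin d → L) (j : Fin d) :
    s.e w j = s.p' (star (s.rho j w) s.ζ - s.tp j w s.ζ) := by
  unfold e sig
  rw [map_sub]
  congr 1
  have h := comm_of_commutant (star_mem (s.rho_mem j w)) s.p'_mem
  have h2 : s.p' (star (s.rho j w) s.ζ) = (s.p' * star (s.rho j w)) s.ζ := rfl
  rw [h2, ← h]
  change _ = star (s.rho j w) (s.p' s.ζ)
  rw [s.p'_ζ]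

theorem P_e (w : Fin d → L) (j : Fin d) : s.P j (s.e w j) = s.e w j := by
  rw [e_eq]
  have h1 : s.P j (s.p' (star (s.rho j w) s.ζ - s.tp j w s.ζ))
      = (s.P j * s.p') (star (s.rho j w) s.ζ - s.tp j w s.ζ) := rfl
  rw [h1, ← s.p'_P]
  change s.p' (s.P j (star (s.rho j w) s.ζ - s.tp j w s.ζ)) = _
  congr 1
  rw [map_sub]
  have h2 : s.P j (star (s.rho j w) s.ζ) = (s.P j * star (s.rho j w)) s.ζ := rfl
  have h3 : s.P j (s.tp j w s.ζ) = (s.P j * s.tp j w) s.ζ := rfl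
  rw [h2, h3, s.star_rho_P, ← s.tp_P]
  change star (s.rho j w) (s.P j s.ζ) - s.tp j w (s.P j s.ζ) = _
  rw [s.P_ζ]

theorem e_upd (w : Fin d → L) (j : Fin d) (l : L) : s.e (Function.update w j l) j = s.e w j := by
  unfold e sig
  rw [s.rho_upd, s.tp_upd]

theorem norm_e_le (w : Fin d → L) (j : Fin d) :
    ‖s.e w j‖ ≤ 2 * δ + ‖star (suf s.T w (j + 1)) s.ζ - suf s.S w (j + 1) s.ζ‖ := by
  rw [e_eq]
  refine (norm_proj_apply_le s.p'_sa s.p'_idem _).trans ?_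
  have h1 : star (s.rho j w) s.ζ - s.tp j w s.ζ
      = (star (s.rho j w) - star (suf s.T w (j + 1))) s.ζ
        + (suf s.S w (j + 1) - s.tp j w) s.ζ
        + (star (suf s.T w (j + 1)) s.ζ - suf s.S w (j + 1) s.ζ) := by
    simp only [sub_apply]; abel
  rw [h1]
  refine (norm_add_le _ _).trans (add_le_add_left ?_ _)
  refine (norm_add_le _ _).trans ?_
  have h2 : ‖(star (s.rho j w) - star (suf s.T w (j + 1))) s.ζ‖ ≤ δ := by
    refine (ContinuousLinearMap.le_opNorm _ _).trans ?_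
    rw [s.norm_ζ, mul_one, ← star_sub, norm_star, norm_sub_rev]
    exact s.rho_near j w
  have h3 : ‖(suf s.S w (j + 1) - s.tp j w) s.ζ‖ ≤ δ := by
    refine (ContinuousLinearMap.le_opNorm _ _).trans ?_
    rw [s.norm_ζ, mul_one]
    exact s.tp_near j w
  linarith

theorem D_nonneg (hε : 0 ≤ ε₁) : 0 ≤ s.D := by unfold D; positivity

theorem Ex_e_sq_le (hd : DriftTarget.{u}) (hδ : 0 ≤ δ) (hε : 0 ≤ ε₁) (j : Fin d) :
    Pb.Ex s.μ (fun w => ‖s.e w j‖ ^ 2) ≤ (2 * δ + s.D) ^ 2 := by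
  have hD := s.D_nonneg hε
  have h1 := (hd G M N d L δ R K Kθ ε₁ s hε j).2
  rw [Ex_eq] at h1
  set a : (Fin d → L) → ℝ := fun w => ‖star (suf s.T w (j + 1)) s.ζ - suf s.S w (j + 1) s.ζ‖
    with ha
  have h2 : Pb.Ex s.μ a ≤ s.D :=
    Pb.Ex_norm_le_of_sq_le s.μ_nonneg s.μ_sum
      (fun w => star (suf s.T w (j + 1)) s.ζ - suf s.S w (j + 1) s.ζ) hD h1
  calc Pb.Ex s.μ (fun w => ‖s.e w j‖ ^ 2)
      ≤ Pb.Ex s.μ (fun w => (2 * δ) ^ 2 + (4 * δ * a w + a w ^ 2)) := by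
        refine Pb.Ex_mono s.μ_nonneg fun w => ?_
        have h3 := s.norm_e_le w j
        have h4 : ‖s.e w j‖ ^ 2 ≤ (2 * δ + a w) ^ 2 := by
          exact pow_le_pow_left₀ (norm_nonneg _) h3 2
        nlinarith
    _ = (2 * δ) ^ 2 + (4 * δ * Pb.Ex s.μ a + Pb.Ex s.μ (fun w => a w ^ 2)) := by
        rw [Pb.Ex_add, Pb.Ex_const _ s.μ_sum, Pb.Ex_add, Pb.Ex_mul_left]
    _ ≤ (2 * δ) ^ 2 + (4 * δ * s.D + s.D ^ 2) := by
        have : 4 * δ * Pb.Ex s.μ a ≤ 4 * δ * s.D := mul_le_mul_of_nonneg_left h2 (by positivity)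
        linarith
    _ = (2 * δ + s.D) ^ 2 := by ring

theorem Ex_kap_le (hd : DriftTarget.{u}) (hδ : 0 ≤ δ) (hε : 0 ≤ ε₁) (j : Fin d) :
    Pb.Ex s.μ (fun w => ‖s.kap j (w j) (s.e w j)‖) ≤ Real.sqrt 3 * (2 * δ + s.D) := by
  have hD := s.D_nonneg hε
  refine Pb.Ex_norm_le_of_sq_le s.μ_nonneg s.μ_sum (fun w => s.kap j (w j) (s.e w j))
    (by positivity) ?_
  have h1 : Pb.Ex s.μ (fun w => ‖s.kap j (w j) (s.e w j)‖ ^ 2)
      = Pb.Ex s.μ (fun w => ∑ i, s.μ i • ‖s.kap j i (s.e w j)‖ ^ 2) :=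
    Pb.Ex_letter s.μ s.μ_sum j (fun l w => ‖s.kap j l (s.e w j)‖ ^ 2)
      (fun l w i => by rw [s.e_upd])
  rw [h1]
  calc _ ≤ Pb.Ex s.μ (fun w => 3 * ‖s.e w j‖ ^ 2) := by
        refine Pb.Ex_mono s.μ_nonneg fun w => ?_
        simpa [smul_eq_mul] using s.kap_avg j (s.e w j) (s.P_e w j)
    _ = 3 * Pb.Ex s.μ (fun w => ‖s.e w j‖ ^ 2) := Pb.Ex_mul_left _ _ _
    _ ≤ 3 * (2 * δ + s.D) ^ 2 := by
        have := s.Ex_e_sq_le hd hδ hε j
        linarith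
    _ = (Real.sqrt 3 * (2 * δ + s.D)) ^ 2 := by
        rw [mul_pow, Real.sq_sqrt (by norm_num)]

theorem Ex_n1_le (hd : DriftTarget.{u}) (h0 : 0 < d) (hδ : 0 ≤ δ) (hε : 0 ≤ ε₁) :
    s.Ex s.n1 ≤ Real.sqrt 3 * (2 * δ + s.D) := by
  rw [Ex_eq]
  have hd' : (0 : ℝ) < d := by exact_mod_cast h0
  calc Pb.Ex s.μ s.n1
      = (d : ℝ)⁻¹ * ∑ j, Pb.Ex s.μ (fun w => ‖s.kap j (w j) (s.e w j)‖) := by
        have : s.n1 = fun w => (d : ℝ)⁻¹ * ∑ j, ‖s.kap j (w j) (s.e w j)‖ := rfl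
        rw [this, Pb.Ex_mul_left, Pb.Ex_sum]
    _ ≤ (d : ℝ)⁻¹ * ∑ _j : Fin d, Real.sqrt 3 * (2 * δ + s.D) := by
        refine mul_le_mul_of_nonneg_left ?_ (by positivity)
        exact Finset.sum_le_sum fun j _ => s.Ex_kap_le hd hδ hε j
    _ = Real.sqrt 3 * (2 * δ + s.D) := by
        rw [Finset.sum_const, Finset.card_univ, Fintype.card_fin, nsmul_eq_mul]
        field_simp

end SlotSys

theorem q1Target (hd : DriftTarget.{u}) : Q1Target.{u} := by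
  intro G _ _ _ M N d L _ _ δ R K Kθ ε₁ s h0 hδ hε
  exact ⟨fun w y hy => s.q_split w y hy, s.n1, s.n1_nonneg, s.norm_q1_le,
    s.Ex_n1_le hd h0 hδ hε⟩

end Crest.Agent.R078.Z.Slot
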