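/-
R78 / S0103.  Walk step (1) (value) on the abstract slot system (helper199).
-/
import Crest.Agent.R078.S103SlotQ1199

set_option autoImplicit false
open scoped InnerProductSpace

namespace Crest.Agent.R078.Z.Slot

universe u

variable {G : Type u} [NormedAddCommGroup G] [InnerProductSpace ℂ G] [CompleteSpace G]

namespace SlotSys

variable {M N : VonNeumannAlgebra G} {d : ℕ} {L : Type} [Fintype L] [DecidableEq L]
  {δ R K Kθ ε₁ : ℝ} (s : SlotSys M N d L δ R K Kθ ε₁)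

theorem preT_unitary (w : Fin d → L) (j : ℕ) : pre s.T w j ∈ unitary (G →L[ℂ] G) :=
  pre_mem (unitary (G →L[ℂ] G)) s.T_unitary w j

theorem sufT_unitary (w : Fin d → L) (j : ℕ) : suf s.T w j ∈ unitary (G →L[ℂ] G) :=
  suf_mem (unitary (G →L[ℂ] G)) s.T_unitary w j

theorem preS_unitary (w : Fin d → L) (j : ℕ) : pre s.S w j ∈ unitary (G →L[ℂ] G) :=
  pre_mem (unitary (G →L[ℂ] G)) s.S_unitary w j

theorem sufS_unitary (w : Fin d → L) (j : ℕ) : suf s.S w j ∈ unitary (G →L[ℂ] G) :=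
  suf_mem (unitary (G →L[ℂ] G)) s.S_unitary w j

theorem preT_mem (w : Fin d → L) (j : ℕ) : pre s.T w j ∈ M := pre_mem M s.T_mem w j
theorem sufT_mem (w : Fin d → L) (j : ℕ) : suf s.T w j ∈ M := suf_mem M s.T_mem w j
theorem preS_mem (w : Fin d → L) (j : ℕ) : pre s.S w j ∈ M.commutant :=
  pre_mem M.commutant s.S_mem w j
theorem sufS_mem (w : Fin d → L) (j : ℕ) : suf s.S w j ∈ M.commutant :=
  suf_mem M.commutant s.S_mem w j

theorem X_mem (w : Fin d → L) : s.X w ∈ M := s.sufT_mem w 0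
theorem X_unitary (w : Fin d → L) : s.X w ∈ unitary (G →L[ℂ] G) := s.sufT_unitary w 0
theorem norm_X_le (w : Fin d → L) : ‖s.X w‖ ≤ 1 := norm_le_one_of_unitary (s.X_unitary w)

/-- `L_j^* X R_j^* = T_j` -/
theorem star_mul_X_mul_star (w : Fin d → L) (j : Fin d) :
    star (pre s.T w j) * s.X w * star (suf s.T w (j + 1)) = s.T j (w j) := by
  have h1 : star (pre s.T w j) * pre s.T w j = 1 := (s.preT_unitary w j).1
  have h2 : suf s.T w (j + 1) * star (suf s.T w (j + 1)) = 1 := (s.sufT_unitary w (j + 1)).2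
  unfold X
  rw [word_eq s.T w j]
  calc star (pre s.T w j) * (pre s.T w j * s.T j (w j) * suf s.T w (j + 1))
        * star (suf s.T w (j + 1))
      = (star (pre s.T w j) * pre s.T w j) * s.T j (w j)
        * (suf s.T w (j + 1) * star (suf s.T w (j + 1))) := by simp only [mul_assoc]
    _ = s.T j (w j) := by rw [h1, h2, one_mul, mul_one]

theorem norm_lift_sub_le (w : Fin d → L) (j : Fin d) (Xh : G →L[ℂ] G) (hX1 : ‖Xh‖ ≤ 1)
    (hX : ‖s.X w - Xh‖ ≤ δ) :
    ‖star (s.lft j w) * Xh * star (s.rho j w) - s.T j (w j)‖ ≤ 3 * δ := by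
  rw [← s.star_mul_X_mul_star w j]
  have hL : ‖star (pre s.T w j)‖ ≤ 1 := by
    rw [norm_star]; exact norm_le_one_of_unitary (s.preT_unitary w j)
  have hR : ‖star (s.rho j w)‖ ≤ 1 := by rw [norm_star]; exact s.norm_rho j w
  have h1 : ‖star (s.lft j w) - star (pre s.T w j)‖ ≤ δ := by
    rw [← star_sub, norm_star, norm_sub_rev]; exact s.lft_near j w
  have h2 : ‖star (s.rho j w) - star (suf s.T w (j + 1))‖ ≤ δ := by
    rw [← star_sub, norm_star, norm_sub_rev]; exact s.rho_near j w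
  have hδ : 0 ≤ δ := (norm_nonneg _).trans h1
  have e : star (s.lft j w) * Xh * star (s.rho j w)
      - star (pre s.T w j) * s.X w * star (suf s.T w (j + 1))
      = (star (s.lft j w) - star (pre s.T w j)) * Xh * star (s.rho j w)
        + star (pre s.T w j) * (Xh - s.X w) * star (s.rho j w)
        + star (pre s.T w j) * s.X w * (star (s.rho j w) - star (suf s.T w (j + 1))) := by
    noncomm_ring
  rw [e]
  have b1 : ‖(star (s.lft j w) - star (pre s.T w j)) * Xh * star (s.rho j w)‖ ≤ δ := by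
    calc _ ≤ ‖star (s.lft j w) - star (pre s.T w j)‖ * ‖Xh‖ * ‖star (s.rho j w)‖ :=
          (norm_mul_le _ _).trans (mul_le_mul_of_nonneg_right (norm_mul_le _ _) (norm_nonneg _))
      _ ≤ δ * 1 * 1 := by gcongr
      _ = δ := by ring
  have b2 : ‖star (pre s.T w j) * (Xh - s.X w) * star (s.rho j w)‖ ≤ δ := by
    calc _ ≤ ‖star (pre s.T w j)‖ * ‖Xh - s.X w‖ * ‖star (s.rho j w)‖ :=
          (norm_mul_le _ _).trans (mul_le_mul_of_nonneg_right (norm_mul_le _ _) (norm_nonneg _))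
      _ ≤ 1 * δ * 1 := by
          rw [norm_sub_rev Xh]
          gcongr
      _ = δ := by ring
  have b3 : ‖star (pre s.T w j) * s.X w * (star (s.rho j w) - star (suf s.T w (j + 1)))‖ ≤ δ := by
    calc _ ≤ ‖star (pre s.T w j)‖ * ‖s.X w‖ * ‖star (s.rho j w) - star (suf s.T w (j + 1))‖ :=
          (norm_mul_le _ _).trans (mul_le_mul_of_nonneg_right (norm_mul_le _ _) (norm_nonneg _))
      _ ≤ 1 * 1 * δ := by
          have := s.norm_X_le w
          gcongr
      _ = δ := by ring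
  calc _ ≤ δ + δ + δ := (norm_add_le _ _).trans (add_le_add ((norm_add_le _ _).trans
        (add_le_add b1 b2)) b3)
    _ = 3 * δ := by ring

theorem norm_q_sub_le (w : Fin d → L) (h0 : 0 < d) (Xh : G →L[ℂ] G)
    (hX1 : ‖Xh‖ ≤ 1) (hX : ‖s.X w - Xh‖ ≤ δ) :
    ‖s.q w Xh - (d : ℂ)⁻¹ * ∑ j, ⟪s.b j (w j) (s.k1 j s.ζ), s.T j (w j) (s.kap j (w j) s.ζ)⟫_ℂ‖
      ≤ 3 * δ := by
  have hd' : (0 : ℝ) < d := by exact_mod_cast h0
  unfold q
  rw [← mul_sub, ← Finset.sum_sub_distrib, norm_mul]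
  have hc : ‖(d : ℂ)⁻¹‖ = (d : ℝ)⁻¹ := by simp
  rw [hc]
  have hterm : ∀ j : Fin d,
      ‖⟪s.lft j w (s.bet w j), Xh (s.kap j (w j) (star (s.rho j w) s.ζ))⟫_ℂ
        - ⟪s.b j (w j) (s.k1 j s.ζ), s.T j (w j) (s.kap j (w j) s.ζ)⟫_ℂ‖ ≤ 3 * δ := by
    intro j
    rw [inner_star_left]
    have h1 : s.kap j (w j) (star (s.rho j w) s.ζ) = star (s.rho j w) (s.kap j (w j) s.ζ) := by
      have h2 := comm_of_commutant (star_mem (s.rho_mem j w)) (s.kap_memN j (w j))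
      exact (congrArg (fun t : G →L[ℂ] G => t s.ζ) h2).symm
    rw [h1]
    have h3 : star (s.lft j w) (Xh (star (s.rho j w) (s.kap j (w j) s.ζ)))
        = (star (s.lft j w) * Xh * star (s.rho j w)) (s.kap j (w j) s.ζ) := rfl
    rw [h3]
    unfold bet
    rw [← inner_sub_right, ← sub_apply]
    refine (norm_inner_le_norm _ _).trans ?_
    have hnn := s.norm_lift_sub_le w j Xh hX1 hX
    have hδ : 0 ≤ δ := (norm_nonneg _).trans hX
    calc _ ≤ 1 * (3 * δ * 1) := by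
          refine mul_le_mul (s.norm_bζ j (w j)) ?_ (norm_nonneg _) zero_le_one
          refine (ContinuousLinearMap.le_opNorm _ _).trans ?_
          exact mul_le_mul hnn (s.norm_kapζ j (w j)) (norm_nonneg _) (by positivity)
      _ = 3 * δ := by ring
  calc (d : ℝ)⁻¹ * ‖∑ j, (⟪s.lft j w (s.bet w j), Xh (s.kap j (w j) (star (s.rho j w) s.ζ))⟫_ℂ
        - ⟪s.b j (w j) (s.k1 j s.ζ), s.T j (w j) (s.kap j (w j) s.ζ)⟫_ℂ)‖
      ≤ (d : ℝ)⁻¹ * ∑ _j : Fin d, 3 * δ := by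
        refine mul_le_mul_of_nonneg_left ?_ (by positivity)
        exact (norm_sum_le _ _).trans (Finset.sum_le_sum fun j _ => hterm j)
    _ = 3 * δ := by
        rw [Finset.sum_const, Finset.card_univ, Fintype.card_fin, nsmul_eq_mul]
        field_simp

theorem Ex_value :
    s.Ex (fun w => (d : ℂ)⁻¹ * ∑ j, ⟪s.b j (w j) (s.k1 j s.ζ),
      s.T j (w j) (s.kap j (w j) s.ζ)⟫_ℂ) = (d : ℂ)⁻¹ * ∑ j, s.value j := by
  rw [Ex_eq, Pb.Ex_mul_left', Pb.Ex_sum]
  congr 1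
  refine Finset.sum_congr rfl fun j _ => ?_
  rw [Pb.Ex_single s.μ s.μ_sum j
    (fun l => ⟪s.b j l (s.k1 j s.ζ), s.T j l (s.kap j l s.ζ)⟫_ℂ)]
  unfold value
  refine Finset.sum_congr rfl fun l _ => ?_
  rw [Complex.real_smul]

end SlotSys

theorem valTarget : ValTarget.{u} := by
  intro G _ _ _ M N d L _ _ δ R K Kθ ε₁ s h0 hδ Xh hXN hX1 hX
  rw [← s.Ex_value, s.Ex_eq, s.Ex_eq, ← Pb.Ex_sub]
  refine (Pb.norm_Ex_le s.μ_nonneg _).trans ?_
  exact Pb.Ex_le_const s.μ_nonneg s.μ_sum fun w => s.norm_q_sub_le w h0 (Xh w) (hX1 w) (hX w)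

end Crest.Agent.R078.Z.Slot
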