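/-
R78 / S0103.  Assembly of the walk theorem `WalkTarget` from the step targets (helper199).
-/
import Crest.Agent.R078.S103SlotVal199

set_option autoImplicit false
open scoped InnerProductSpace

namespace Crest.Agent.R078.Z.Slot

universe u

theorem walkTarget (hDr : DriftTarget.{u}) (hL1 : L1Target.{u}) (hL2 : L2Target.{u})
    (hRel : RelTarget.{u}) (hRec : RecTarget.{u}) : WalkTarget.{u} := by
  intro G _ _ _ M N d L _ _ δ R K Kθ ε₁ Λ v s hd hδ hR hK hKθ hε hΛ hMN hNM hrel hv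
  have hR0 : (0 : ℝ) < R := lt_of_lt_of_le zero_lt_one hR
  have hD := s.D_nonneg hε
  -- lifts of the words
  choose Xh hXN hX1 hX using fun w => hMN (s.X w) (s.X_mem w) (s.norm_X_le w)
  obtain ⟨hsplit, n1, hn10, hn1, hEn1⟩ := q1Target hDr G M N d L δ R K Kθ ε₁ s hd hδ hε
  obtain ⟨nq, hnq0, hnq, hEnq⟩ := hL1 G M N d L δ R K Kθ ε₁ Λ s hd hδ hR0.le hK
    (zero_le_one.trans hKθ) hε hΛ hMN hNM hrel
  obtain ⟨ζs, ηq, nη, hζs, hnη0, hηq, hq2, hEnη⟩ := hL2 G M N d L δ R K Kθ ε₁ s hd hδ hR0.le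
    (zero_le_one.trans hKθ)
  have hval := valTarget G M N d L δ R K Kθ ε₁ s hd hδ Xh hXN hX1 hX
  set c : (Fin d → L) → ℝ := fun w => nq w + (n1 w + R⁻¹ * nη w) with hc
  have hc0 : ∀ w, 0 ≤ c w := fun w => by
    have := hnq0 w; have := hn10 w; have := hnη0 w
    simp only [hc]; positivity
  have hwt0 : ∀ w, 0 ≤ s.wt w := fun w => Finset.prod_nonneg fun _ _ => s.μ_nonneg _
  have hrec := hRec G M N δ R Λ hδ hR0 hΛ hrel (Option (Fin d)) (Fin d → L) s.wt s.X Xh ζs ηq c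
    hwt0 hc0 s.X_mem s.norm_X_le hXN hX1 hX hζs
    (fun w => by
      refine (hηq w).trans ?_
      refine pow_le_pow_left₀ (hnη0 w) ?_ 2
      have h1 : nη w = R * (R⁻¹ * nη w) := by field_simp
      rw [h1]
      refine mul_le_mul_of_nonneg_left ?_ hR0.le
      have := hnq0 w; have := hn10 w
      simp only [hc]; linarith)
    (fun w y hy hy1 => by
      rw [← hq2 w y hy]
      have h1 : s.q2 w y = s.q w y - s.q1 w y := by rw [hsplit w y hy]; ring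
      rw [h1]
      refine (norm_sub_le _ _).trans ?_
      have := hnq w y hy hy1
      have := hn1 w y hy1
      have := hnη0 w
      have h2 : 0 ≤ R⁻¹ * nη w := by positivity
      simp only [hc]; linarith)
    (fun n hn => by
      have := hRel G M N d L δ R K Kθ ε₁ s n hn
      rw [← this]
      refine Finset.sum_congr rfl fun w _ => ?_
      rw [hq2 w n hn])
  have hEc : ∑ w, s.wt w * c w ≤ Λ + 4 * δ + Real.sqrt 3 * (2 * δ + s.D) + s.Efl
        + (2 * Real.sqrt 2 * δ + Real.sqrt 2 * Kθ / Real.sqrt d) := by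
    have h1 : ∑ w, s.wt w * c w = s.Ex nq + (s.Ex n1 + R⁻¹ * s.Ex nη) := by
      rw [s.Ex_eq, s.Ex_eq, s.Ex_eq, ← Pb.Ex_mul_left, ← Pb.Ex_add, ← Pb.Ex_add]
      rfl
    rw [h1]
    have h2 : R⁻¹ * s.Ex nη ≤ 2 * Real.sqrt 2 * δ + Real.sqrt 2 * Kθ / Real.sqrt d := by
      calc R⁻¹ * s.Ex nη
          ≤ R⁻¹ * (2 * Real.sqrt 2 * δ * R + Real.sqrt 2 * Kθ * R / Real.sqrt d) :=
            mul_le_mul_of_nonneg_left hEnη (by positivity)
        _ = 2 * Real.sqrt 2 * δ + Real.sqrt 2 * Kθ / Real.sqrt d := by field_simp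
    linarith
  have hq2X : ‖s.Ex (fun w => s.q2 w (Xh w))‖ ≤ (Λ + δ) * ∑ w, s.wt w * c w := by
    refine le_trans (le_of_eq ?_) hrec
    congr 1
    refine Finset.sum_congr rfl fun w _ => ?_
    change s.wt w • s.q2 w (Xh w) = _
    rw [hq2 w _ (hXN w), Complex.real_smul]
  have hq1X : ‖s.Ex (fun w => s.q1 w (Xh w))‖ ≤ Real.sqrt 3 * (2 * δ + s.D) := by
    refine le_trans ?_ hEn1
    rw [s.Ex_eq, s.Ex_eq]
    refine (Pb.norm_Ex_le s.μ_nonneg _).trans ?_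
    exact Pb.Ex_mono s.μ_nonneg fun w => hn1 w _ (hX1 w)
  have hqX : ‖s.Ex (fun w => s.q w (Xh w))‖
      ≤ Real.sqrt 3 * (2 * δ + s.D) + (Λ + δ) * ∑ w, s.wt w * c w := by
    have h1 : s.Ex (fun w => s.q w (Xh w))
        = s.Ex (fun w => s.q1 w (Xh w)) + s.Ex (fun w => s.q2 w (Xh w)) := by
      rw [s.Ex_eq, s.Ex_eq, s.Ex_eq, ← Pb.Ex_add]
      exact Pb.Ex_congr _ fun w => hsplit w _ (hXN w)
    rw [h1]
    exact (norm_add_le _ _).trans (add_le_add hq1X hq2X)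
  have hvv : v ≤ ‖(d : ℂ)⁻¹ * ∑ j, s.value j‖ := by
    have hd' : (0 : ℝ) < d := by exact_mod_cast hd
    have h1 : ((d : ℂ)⁻¹ * ∑ j, s.value j).re = (d : ℝ)⁻¹ * ∑ j, (s.value j).re := by
      have h2 : ((d : ℂ)⁻¹) = (((d : ℝ)⁻¹ : ℝ) : ℂ) := by push_cast; rfl
      rw [h2, Complex.re_ofReal_mul, Complex.re_sum]
    have h3 : v ≤ ((d : ℂ)⁻¹ * ∑ j, s.value j).re := by
      rw [h1]
      calc v = (d : ℝ)⁻¹ * ∑ _j : Fin d, v := by
            rw [Finset.sum_const, Finset.card_univ, Fintype.card_fin, nsmul_eq_mul]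
            field_simp
        _ ≤ (d : ℝ)⁻¹ * ∑ j, (s.value j).re :=
            mul_le_mul_of_nonneg_left (Finset.sum_le_sum fun j _ => hv j) (by positivity)
    exact h3.trans (Complex.re_le_norm _)
  have hvq : ‖(d : ℂ)⁻¹ * ∑ j, s.value j‖ ≤ ‖s.Ex (fun w => s.q w (Xh w))‖ + 3 * δ := by
    have h1 : (d : ℂ)⁻¹ * ∑ j, s.value j = s.Ex (fun w => s.q w (Xh w))
        - (s.Ex (fun w => s.q w (Xh w)) - (d : ℂ)⁻¹ * ∑ j, s.value j) := by ring
    calc ‖(d : ℂ)⁻¹ * ∑ j, s.value j‖ = _ := congrArg _ h1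
      _ ≤ _ := (norm_sub_le _ _).trans (by linarith)
  have hfin : (Λ + δ) * ∑ w, s.wt w * c w ≤ (Λ + δ) * (Λ + 4 * δ
      + Real.sqrt 3 * (2 * δ + s.D) + s.Efl
        + (2 * Real.sqrt 2 * δ + Real.sqrt 2 * Kθ / Real.sqrt d)) :=
    mul_le_mul_of_nonneg_left hEc (by positivity)
  linarith

end Crest.Agent.R078.Z.Slot
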