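import Crest.Agent.R078.S103SlotTargets199
import Crest.Agent.R078.S103Prob

set_option autoImplicit false

/-!
# S0103, walk, step (3): the L1 bound (helper925)

Deterministic core of the fluctuation estimate.
-/

namespace Crest.Agent.R078.Z.WL1

variable {G : Type*} [NormedAddCommGroup G] [InnerProductSpace ℂ G] [CompleteSpace G]

local notation "⟪" x ", " y "⟫" => inner ℂ x y

open ContinuousLinearMap

/-- An isometric operator given by `star U * U = 1` preserves inner products. -/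
theorem inner_unitary (U : G →L[ℂ] G) (hU : star U * U = 1) (u v : G) :
    ⟪U u, U v⟫ = ⟪u, v⟫ := by
  have h1 : (star U) (U v) = v := by
    have := congrArg (fun (Q : G →L[ℂ] G) => Q v) hU
    simpa using this
  rw [← ContinuousLinearMap.adjoint_inner_right, ← ContinuousLinearMap.star_eq_adjoint, h1]

theorem norm_unitary (U : G →L[ℂ] G) (hU : star U * U = 1) (u : G) : ‖U u‖ = ‖u‖ := by
  have h := inner_unitary U hU u u
  rw [inner_self_eq_norm_sq_to_K, inner_self_eq_norm_sq_to_K] at h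
  have h2 : ‖U u‖ ^ 2 = ‖u‖ ^ 2 := by exact_mod_cast h
  exact (pow_left_inj₀ (norm_nonneg _) (norm_nonneg _) two_ne_zero).1 h2

/-- The core estimate: the functional of a letter along a word is, up to a small error, a
vector functional against `ζ` with an adapted increment. -/
theorem core_estimate (x' L SL T S kap b k1 : G →L[ℂ] G) (ζ : G) (K' K ε : ℝ)
    (hx : ‖x'‖ ≤ 1) (hL : star L * L = 1) (hSL : star SL * SL = 1)
    (hT : star T * T = 1) (hS : star S * S = 1) (hS' : S * star S = 1)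
    (c1 : SL * x' = x' * SL) (c2 : SL * L = L * SL)
    (c3 : star b * x' = x' * star b) (c4 : b * L = L * b) (c4' : star b * L = L * star b)
    (c5 : T * kap = kap * T) (c6 : T * S = S * T)
    (c7 : k1 * (L * SL) = (L * SL) * k1)
    (c8 : star k1 * x' = x' * star k1) (c9 : star k1 * (L * SL) = (L * SL) * star k1)
    (hk1 : ‖k1 ((L * SL) ζ - ζ)‖ ≤ ‖(L * SL) ζ - ζ‖)
    (hε : ‖(T * S) ζ - ζ‖ ≤ ε) (hkap : ‖kap‖ ≤ K') (hb : ‖b‖ ≤ K)
    (hkζ : ‖kap ζ‖ ≤ 1) (hbζ : ‖b (k1 ζ)‖ ≤ 1) :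
    ‖⟪b (k1 ζ), (star L) (x' (L (T (kap ζ))))⟫
        - ⟪ζ, x' ((L * SL) ((star k1) ((star b) (kap ((star S) ζ)))))⟫‖
      ≤ K' * ε + K * (1 + K' * ε) * ‖(L * SL) ζ - ζ‖ := by
  have hK' : 0 ≤ K' := (norm_nonneg _).trans hkap
  have hK : 0 ≤ K := (norm_nonneg _).trans hb
  have hε0 : 0 ≤ ε := (norm_nonneg _).trans hε
  have appc : ∀ {A B : G →L[ℂ] G}, A * B = B * A → ∀ v, A (B v) = B (A v) := by
    intro A B h v
    have := congrArg (fun (Q : G →L[ℂ] G) => Q v) h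
    simpa using this
  set V : G →L[ℂ] G := L * SL with hV
  set f : G := (T * S) ζ - ζ with hf
  set u : G := kap ((star S) ζ) with hu
  set g : G := (star k1) ((star b) u) with hg
  have hsS : ∀ v, ‖(star S) v‖ = ‖v‖ := fun v => norm_unitary (star S) (by simpa using hS') v
  -- T (kap ζ) = u + kap (S^* f)
  have h1 : T (kap ζ) = u + kap ((star S) f) := by
    have e1 : T (kap ζ) = kap (T ζ) := appc c5 ζ
    have e2 : T ζ = (star S) ((T * S) ζ) := by
      rw [c6]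
      change T ζ = (star S) (S (T ζ))
      have := congrArg (fun (Q : G →L[ℂ] G) => Q (T ζ)) hS
      simpa using this.symm
    rw [e1, e2, hu, ← map_add, ← map_add, hf]
    congr 2
    abel
  have hu1 : ‖u‖ ≤ 1 + K' * ε := by
    have e : u = T (kap ζ) - kap ((star S) f) := by rw [h1]; abel
    rw [e]
    refine (norm_sub_le _ _).trans ?_
    refine add_le_add ?_ ?_
    · rw [norm_unitary T hT]; exact hkζ
    · refine (kap.le_opNorm _).trans ?_
      rw [hsS]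
      exact mul_le_mul hkap hε (norm_nonneg _) hK'
  -- step a
  have ha : ⟪b (k1 ζ), (star L) (x' (L (T (kap ζ))))⟫
      = ⟪L (b (k1 ζ)), x' (L u)⟫ + ⟪L (b (k1 ζ)), x' (L (kap ((star S) f)))⟫ := by
    rw [h1, map_add, map_add, map_add, inner_add_right, star_eq_adjoint,
      ContinuousLinearMap.adjoint_inner_right, ContinuousLinearMap.adjoint_inner_right]
  -- step c
  have hc : ⟪L (b (k1 ζ)), x' (L u)⟫ = ⟪k1 (V ζ), x' (V ((star b) u))⟫ := by
    have e1 : L (b (k1 ζ)) = b (L (k1 ζ)) := (appc c4 _).symm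
    have e2 : ⟪b (L (k1 ζ)), x' (L u)⟫ = ⟪L (k1 ζ), (star b) (x' (L u))⟫ := by
      rw [star_eq_adjoint, ContinuousLinearMap.adjoint_inner_right]
    have e3 : (star b) (x' (L u)) = x' (L ((star b) u)) := by
      rw [appc c3, appc c4']
    have e4 : ⟪L (k1 ζ), x' (L ((star b) u))⟫
        = ⟪SL (L (k1 ζ)), SL (x' (L ((star b) u)))⟫ := (inner_unitary SL hSL _ _).symm
    have e5 : SL (x' (L ((star b) u))) = x' (V ((star b) u)) := by
      rw [appc c1, appc c2]; rfl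
    have e6 : SL (L (k1 ζ)) = k1 (V ζ) := by
      rw [appc c2, appc c7]; rfl
    rw [e1, e2, e3, e4, e5, e6]
  have hd : ⟪k1 (V ζ), x' (V ((star b) u))⟫
      = ⟪k1 (V ζ - ζ), x' (V ((star b) u))⟫ + ⟪ζ, x' (V g)⟫ := by
    have e1 : k1 (V ζ) = k1 (V ζ - ζ) + k1 ζ := by rw [← map_add]; congr 1; abel
    rw [e1, inner_add_left]
    congr 1
    have e2 : ⟪k1 ζ, x' (V ((star b) u))⟫ = ⟪ζ, (star k1) (x' (V ((star b) u)))⟫ := by
      rw [star_eq_adjoint k1, ContinuousLinearMap.adjoint_inner_right]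
    rw [e2, appc c8, appc c9]
  have hVn : ∀ v, ‖V v‖ = ‖v‖ := by
    intro v
    change ‖L (SL v)‖ = ‖v‖
    rw [norm_unitary L hL, norm_unitary SL hSL]
  have hfin : ⟪b (k1 ζ), (star L) (x' (L (T (kap ζ))))⟫ - ⟪ζ, x' (V g)⟫
      = ⟪L (b (k1 ζ)), x' (L (kap ((star S) f)))⟫ + ⟪k1 (V ζ - ζ), x' (V ((star b) u))⟫ := by
    rw [ha, hc, hd]; ring
  rw [hfin]
  refine (norm_add_le _ _).trans (add_le_add ?_ ?_)
  · refine (norm_inner_le_norm _ _).trans ?_
    rw [norm_unitary L hL]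
    have h2 : ‖x' (L (kap ((star S) f)))‖ ≤ K' * ε := by
      refine (x'.le_opNorm _).trans ?_
      rw [norm_unitary L hL]
      calc ‖x'‖ * ‖kap ((star S) f)‖ ≤ 1 * ‖kap ((star S) f)‖ :=
            mul_le_mul_of_nonneg_right hx (norm_nonneg _)
        _ = ‖kap ((star S) f)‖ := one_mul _
        _ ≤ ‖kap‖ * ‖(star S) f‖ := kap.le_opNorm _
        _ ≤ K' * ε := by rw [hsS]; exact mul_le_mul hkap hε (norm_nonneg _) hK'
    calc ‖b (k1 ζ)‖ * ‖x' (L (kap ((star S) f)))‖ ≤ 1 * (K' * ε) :=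
          mul_le_mul hbζ h2 (norm_nonneg _) zero_le_one
      _ = K' * ε := one_mul _
  · refine (norm_inner_le_norm _ _).trans ?_
    have h3 : ‖x' (V ((star b) u))‖ ≤ K * (1 + K' * ε) := by
      refine (x'.le_opNorm _).trans ?_
      rw [hVn]
      calc ‖x'‖ * ‖(star b) u‖ ≤ 1 * ‖(star b) u‖ :=
            mul_le_mul_of_nonneg_right hx (norm_nonneg _)
        _ = ‖(star b) u‖ := one_mul _
        _ ≤ ‖star b‖ * ‖u‖ := (star b).le_opNorm _
        _ ≤ K * (1 + K' * ε) := by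
            rw [norm_star]; exact mul_le_mul hb hu1 (norm_nonneg _) hK
    calc ‖k1 (V ζ - ζ)‖ * ‖x' (V ((star b) u))‖
        ≤ ‖V ζ - ζ‖ * (K * (1 + K' * ε)) :=
          mul_le_mul hk1 h3 (norm_nonneg _) (norm_nonneg _)
      _ = K * (1 + K' * ε) * ‖V ζ - ζ‖ := by ring

end Crest.Agent.R078.Z.WL1

namespace Crest.Agent.R078.Z.WL1

open ContinuousLinearMap

variable {G : Type*} [NormedAddCommGroup G] [InnerProductSpace ℂ G] [CompleteSpace G]
variable {I : Type*} [Fintype I]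

local notation "⟪" x ", " y "⟫" => inner ℂ x y

/-- Step (3), pathwise.  For one fixed word (letters `w j`), with `L j`, `SL j` the partial
products before `j`, `X` the whole word with `X = L j * T j (w j) * R j`; `rl j`, `ll j` are the
lifts of `R j`, `L j`.  The functional `q` is bounded on the unit ball of `N` by
`Λ + 4δ +` the norm of the martingale vector `+` drift. -/
theorem pathwise {d : ℕ} (hd : 0 < d) (M N : Set (G →L[ℂ] G)) (μ : I → ℝ) (hμ : ∀ l, 0 ≤ μ l)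
    (hμ1 : ∑ l, μ l = 1) (w : Fin d → I)
    (T S kap b : Fin d → I → G →L[ℂ] G) (k1 L SL R ll rl : Fin d → G →L[ℂ] G)
    (X : G →L[ℂ] G) (ζ : G) (δ K' K ε Λ : ℝ) (hζ : ‖ζ‖ ≤ 1)
    (hMstar : ∀ x ∈ M, star x ∈ M) (hMmul : ∀ x ∈ M, ∀ y ∈ M, x * y ∈ M)
    (hNM : ∀ y ∈ N, ‖y‖ ≤ 1 → ∃ x ∈ M, ‖x‖ ≤ 1 ∧ ‖y - x‖ ≤ δ)
    (hMN : ∀ x ∈ M, ‖x‖ ≤ 1 → ∃ y ∈ N, ‖y‖ ≤ 1 ∧ ‖x - y‖ ≤ δ)
    (hX : X ∈ M) (hXu : X * star X = 1) (hXu' : star X * X = 1)
    (hLM : ∀ j, L j ∈ M) (hLu : ∀ j, star (L j) * L j = 1) (hLu' : ∀ j, L j * star (L j) = 1)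
    (hRu : ∀ j, R j * star (R j) = 1)
    (hfac : ∀ j, X = L j * T j (w j) * R j)
    (hSL : ∀ j, star (SL j) * SL j = 1)
    (hT : ∀ j l, star (T j l) * T j l = 1)
    (hS : ∀ j l, star (S j l) * S j l = 1) (hS' : ∀ j l, S j l * star (S j l) = 1)
    (cSL : ∀ j, ∀ x ∈ M, SL j * x = x * SL j)
    (cb : ∀ j l, ∀ x ∈ M, b j l * x = x * b j l)
    (cb' : ∀ j l, ∀ x ∈ M, star (b j l) * x = x * star (b j l))
    (ck1 : ∀ j, ∀ x ∈ M, k1 j * x = x * k1 j)
    (ck1' : ∀ j, ∀ x ∈ M, star (k1 j) * x = x * star (k1 j))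
    (cTkap : ∀ j l, T j l * kap j l = kap j l * T j l)
    (cTS : ∀ j l, T j l * S j l = S j l * T j l)
    (ckS : ∀ j, k1 j * SL j = SL j * k1 j) (ckS' : ∀ j, star (k1 j) * SL j = SL j * star (k1 j))
    (hk1 : ∀ j, ‖k1 j ((L j * SL j) ζ - ζ)‖ ≤ ‖(L j * SL j) ζ - ζ‖)
    (hε : ∀ j l, ‖(T j l * S j l) ζ - ζ‖ ≤ ε) (hkap : ∀ j l, ‖kap j l‖ ≤ K')
    (hb : ∀ j l, ‖b j l‖ ≤ K)
    (hkζ : ∀ j l, ‖kap j l ζ‖ ≤ 1) (hbζ : ∀ j l, ‖b j l (k1 j ζ)‖ ≤ 1)
    (hll : ∀ j, ‖L j - ll j‖ ≤ δ) (hll1 : ∀ j, ‖ll j‖ ≤ 1)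
    (hrl : ∀ j, ‖R j - rl j‖ ≤ δ) 
    (hmean : ∀ j, ∀ y ∈ N, ‖y‖ ≤ 1 →
      ‖∑ l, (μ l : ℂ) * ⟪b j l (k1 j ζ), y (T j l (kap j l ζ))⟫‖ ≤ Λ)
    (y : G →L[ℂ] G) (hy : y ∈ N) (hy1 : ‖y‖ ≤ 1) :
    ‖((1 : ℝ) / d : ℂ) * ∑ j, ⟪ll j (b j (w j) (k1 j ζ)), y ((star (rl j)) (kap j (w j) ζ))⟫‖
      ≤ Λ + 4 * δ
        + ‖((1 : ℝ) / d : ℂ) • ∑ j, (L j * SL j)
            ((star (k1 j)) ((star (b j (w j))) (kap j (w j) ((star (S j (w j))) ζ)))
              - ∑ l, (μ l : ℂ) • (star (k1 j)) ((star (b j l)) (kap j l ((star (S j l)) ζ))))‖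
        + (1 / d) * ∑ j, 2 * (K' * ε + K * (1 + K' * ε) * ‖(L j * SL j) ζ - ζ‖) := by
  have hK' : 0 ≤ K' := by
    obtain ⟨j⟩ : Nonempty (Fin d) := ⟨⟨0, hd⟩⟩
    exact (norm_nonneg _).trans (hkap j (w j))
  have hd' : (0 : ℝ) < d := by exact_mod_cast hd
  have hδ : 0 ≤ δ := by
    obtain ⟨j⟩ : Nonempty (Fin d) := ⟨⟨0, hd⟩⟩
    exact (norm_nonneg _).trans (hll j)
  obtain ⟨x, hxM, hx1, hxy⟩ := hNM y hy hy1
  set x' : G →L[ℂ] G := x * star X with hx'
  have hx'M : x' ∈ M := hMmul _ hxM _ (hMstar _ hX)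
  have hx'1 : ‖x'‖ ≤ 1 := by
    refine ContinuousLinearMap.opNorm_le_bound _ zero_le_one (fun v => ?_)
    rw [one_mul]
    change ‖x ((star X) v)‖ ≤ ‖v‖
    refine (x.le_opNorm _).trans ?_
    rw [norm_unitary (star X) (by simpa using hXu)]
    exact mul_le_of_le_one_left (norm_nonneg _) hx1
  have hxX : x' * X = x := by rw [hx', mul_assoc, hXu', mul_one]
  -- notation
  set β : Fin d → I → G := fun j l => b j l (k1 j ζ) with hβ
  set κ : Fin d → I → G := fun j l => kap j l ζ with hκ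
  set Gf : Fin d → I → ℂ := fun j l =>
    ⟪b j l (k1 j ζ), (star (L j)) (x' (L j (T j l (kap j l ζ))))⟫ with hGf
  set g : Fin d → I → G := fun j l =>
    (star (k1 j)) ((star (b j l)) (kap j l ((star (S j l)) ζ))) with hg
  set Ff : Fin d → I → ℂ := fun j l => ⟪ζ, x' ((L j * SL j) (g j l))⟫ with hFf
  set err : Fin d → ℝ := fun j => K' * ε + K * (1 + K' * ε) * ‖(L j * SL j) ζ - ζ‖ with herr
  have hGF : ∀ j l, ‖Gf j l - Ff j l‖ ≤ err j := by
    intro j l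
    have cL : ∀ A : G →L[ℂ] G, A * L j = L j * A → A * SL j = SL j * A →
        A * (L j * SL j) = (L j * SL j) * A := by
      intro A h1 h2
      rw [← mul_assoc, h1, mul_assoc, h2, mul_assoc]
    exact core_estimate x' (L j) (SL j) (T j l) (S j l) (kap j l) (b j l) (k1 j) ζ K' K ε
      hx'1 (hLu j) (hSL j) (hT j l) (hS j l) (hS' j l) (cSL j _ hx'M) (cSL j _ (hLM j))
      (cb' j l _ hx'M) (cb j l _ (hLM j)) (cb' j l _ (hLM j)) (cTkap j l) (cTS j l)
      (cL _ (ck1 j _ (hLM j)) (ckS j)) (ck1' j _ hx'M) (cL _ (ck1' j _ (hLM j)) (ckS' j))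
      (hk1 j) (hε j l) (hkap j l) (hb j l) (hkζ j l) (hbζ j l)
  have hmean' : ∀ j, ‖∑ l, (μ l : ℂ) * Gf j l‖ ≤ Λ + δ := by
    intro j
    have hz : star (L j) * x' * L j ∈ M := hMmul _ (hMmul _ (hMstar _ (hLM j)) _ hx'M) _ (hLM j)
    have hz1 : ‖star (L j) * x' * L j‖ ≤ 1 := by
      refine ContinuousLinearMap.opNorm_le_bound _ zero_le_one (fun v => ?_)
      rw [one_mul]
      change ‖(star (L j)) (x' (L j v))‖ ≤ ‖v‖
      rw [norm_unitary (star (L j)) (by simpa using hLu' j)]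
      refine (x'.le_opNorm _).trans ?_
      rw [norm_unitary _ (hLu j)]
      exact mul_le_of_le_one_left (norm_nonneg _) hx'1
    obtain ⟨y', hy'N, hy'1, hzy⟩ := hMN _ hz hz1
    have e : ∀ l, Gf j l = ⟪b j l (k1 j ζ), y' (T j l (kap j l ζ))⟫
        + ⟪b j l (k1 j ζ), (star (L j) * x' * L j - y') (T j l (kap j l ζ))⟫ := by
      intro l
      rw [← inner_add_right, sub_apply, add_sub_cancel]
      rfl
    have e2 : ∑ l, (μ l : ℂ) * Gf j l
        = ∑ l, (μ l : ℂ) * ⟪b j l (k1 j ζ), y' (T j l (kap j l ζ))⟫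
          + ∑ l, (μ l : ℂ) *
            ⟪b j l (k1 j ζ), (star (L j) * x' * L j - y') (T j l (kap j l ζ))⟫ := by
      rw [← Finset.sum_add_distrib]
      refine Finset.sum_congr rfl (fun l _ => ?_)
      rw [e l, mul_add]
    rw [e2]
    refine (norm_add_le _ _).trans (add_le_add (hmean j y' hy'N hy'1) ?_)
    refine (norm_sum_le _ _).trans ?_
    calc ∑ l, ‖(μ l : ℂ) * ⟪b j l (k1 j ζ),
            (star (L j) * x' * L j - y') (T j l (kap j l ζ))⟫‖
        ≤ ∑ l, μ l * δ := by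
          refine Finset.sum_le_sum (fun l _ => ?_)
          rw [norm_mul, Complex.norm_real, Real.norm_eq_abs, abs_of_nonneg (hμ l)]
          refine mul_le_mul_of_nonneg_left ?_ (hμ l)
          refine (norm_inner_le_norm _ _).trans ?_
          have h3 : ‖(star (L j) * x' * L j - y') (T j l (kap j l ζ))‖ ≤ δ := by
            refine (ContinuousLinearMap.le_opNorm _ _).trans ?_
            rw [norm_unitary _ (hT j l)]
            calc ‖star (L j) * x' * L j - y'‖ * ‖kap j l ζ‖ ≤ δ * 1 :=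
                  mul_le_mul hzy (hkζ j l) (norm_nonneg _) hδ
              _ = δ := mul_one _
          calc ‖b j l (k1 j ζ)‖ * ‖(star (L j) * x' * L j - y') (T j l (kap j l ζ))‖
              ≤ 1 * δ := mul_le_mul (hbζ j l) h3 (norm_nonneg _) zero_le_one
            _ = δ := one_mul _
      _ = δ := by rw [← Finset.sum_mul, hμ1, one_mul]
  -- term comparison
  have hterm : ∀ j, ‖⟪ll j (b j (w j) (k1 j ζ)), y ((star (rl j)) (kap j (w j) ζ))⟫
      - Gf j (w j)‖ ≤ 3 * δ := by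
    intro j
    set β0 : G := b j (w j) (k1 j ζ) with hβ0
    set κ0 : G := kap j (w j) ζ with hκ0
    have hβ1 : ‖β0‖ ≤ 1 := hbζ j (w j)
    have hκ1 : ‖κ0‖ ≤ 1 := hkζ j (w j)
    have hRs : ‖(star (R j)) κ0‖ ≤ 1 := by
      rw [norm_unitary (star (R j)) (by simpa using hRu j)]; exact hκ1
    have e1 : Gf j (w j) = ⟪L j β0, x ((star (R j)) κ0)⟫ := by
      have h2 : x ((star (R j)) κ0) = x' (L j (T j (w j) κ0)) := by
        have h3 : x * star (R j) = x' * (L j * T j (w j)) := by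
          rw [← hxX, hfac j]
          simp only [mul_assoc]
          rw [hRu j, mul_one]
        exact congrArg (fun (Q : G →L[ℂ] G) => Q κ0) h3
      rw [h2]
      change ⟪β0, (star (L j)) (x' (L j (T j (w j) κ0)))⟫ = _
      rw [star_eq_adjoint, ContinuousLinearMap.adjoint_inner_right]
    have e2 : ⟪ll j β0, y ((star (rl j)) κ0)⟫ - Gf j (w j)
        = ⟪ll j β0, y ((star (rl j) - star (R j)) κ0)⟫
          + ⟪(ll j - L j) β0, y ((star (R j)) κ0)⟫
          + ⟪L j β0, (y - x) ((star (R j)) κ0)⟫ := by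
      rw [e1, sub_apply, sub_apply,
        sub_apply, map_sub, inner_sub_right, inner_sub_left, inner_sub_right]
      ring
    rw [e2]
    have b1 : ‖⟪ll j β0, y ((star (rl j) - star (R j)) κ0)⟫‖ ≤ δ := by
      refine (norm_inner_le_norm _ _).trans ?_
      have h1 : ‖ll j β0‖ ≤ 1 :=
        ((ll j).le_opNorm _).trans (mul_le_one₀ (hll1 j) (norm_nonneg _) hβ1)
      have h2 : ‖y ((star (rl j) - star (R j)) κ0)‖ ≤ δ := by
        refine (y.le_opNorm _).trans ?_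
        have h3 : ‖(star (rl j) - star (R j)) κ0‖ ≤ δ := by
          refine (ContinuousLinearMap.le_opNorm _ _).trans ?_
          rw [← star_sub, norm_star, norm_sub_rev]
          calc ‖R j - rl j‖ * ‖κ0‖ ≤ δ * 1 := mul_le_mul (hrl j) hκ1 (norm_nonneg _) hδ
            _ = δ := mul_one _
        calc ‖y‖ * ‖(star (rl j) - star (R j)) κ0‖ ≤ 1 * δ :=
              mul_le_mul hy1 h3 (norm_nonneg _) zero_le_one
          _ = δ := one_mul _
      calc ‖ll j β0‖ * ‖y ((star (rl j) - star (R j)) κ0)‖ ≤ 1 * δ :=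
            mul_le_mul h1 h2 (norm_nonneg _) zero_le_one
        _ = δ := one_mul _
    have b2 : ‖⟪(ll j - L j) β0, y ((star (R j)) κ0)⟫‖ ≤ δ := by
      refine (norm_inner_le_norm _ _).trans ?_
      have h1 : ‖(ll j - L j) β0‖ ≤ δ := by
        refine (ContinuousLinearMap.le_opNorm _ _).trans ?_
        rw [norm_sub_rev]
        calc ‖L j - ll j‖ * ‖β0‖ ≤ δ * 1 := mul_le_mul (hll j) hβ1 (norm_nonneg _) hδ
          _ = δ := mul_one _
      have h2 : ‖y ((star (R j)) κ0)‖ ≤ 1 :=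
        (y.le_opNorm _).trans (mul_le_one₀ hy1 (norm_nonneg _) hRs)
      calc ‖(ll j - L j) β0‖ * ‖y ((star (R j)) κ0)‖ ≤ δ * 1 :=
            mul_le_mul h1 h2 (norm_nonneg _) hδ
        _ = δ := mul_one _
    have b3 : ‖⟪L j β0, (y - x) ((star (R j)) κ0)⟫‖ ≤ δ := by
      refine (norm_inner_le_norm _ _).trans ?_
      have h1 : ‖L j β0‖ ≤ 1 := by rw [norm_unitary _ (hLu j)]; exact hβ1
      have h2 : ‖(y - x) ((star (R j)) κ0)‖ ≤ δ := by
        refine (ContinuousLinearMap.le_opNorm _ _).trans ?_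
        calc ‖y - x‖ * ‖(star (R j)) κ0‖ ≤ δ * 1 := mul_le_mul hxy hRs (norm_nonneg _) hδ
          _ = δ := mul_one _
      calc ‖L j β0‖ * ‖(y - x) ((star (R j)) κ0)‖ ≤ 1 * δ :=
            mul_le_mul h1 h2 (norm_nonneg _) zero_le_one
        _ = δ := one_mul _
    refine (norm_add_le _ _).trans ?_
    have := (norm_add_le ⟪ll j β0, y ((star (rl j) - star (R j)) κ0)⟫
      ⟪(ll j - L j) β0, y ((star (R j)) κ0)⟫)
    linarith
  -- decomposition of Gf
  set mart : G := ((1 : ℝ) / d : ℂ) • ∑ j, (L j * SL j)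
            ((star (k1 j)) ((star (b j (w j))) (kap j (w j) ((star (S j (w j))) ζ)))
              - ∑ l, (μ l : ℂ) • (star (k1 j)) ((star (b j l)) (kap j l ((star (S j l)) ζ))))
    with hmart
  have hmarti : ⟪ζ, x' mart⟫ = ((1 : ℝ) / d : ℂ) * ∑ j, (Ff j (w j) - ∑ l, (μ l : ℂ) * Ff j l) := by
    rw [hmart, map_smul, inner_smul_right, map_sum, inner_sum]
    congr 1
    refine Finset.sum_congr rfl (fun j _ => ?_)
    rw [map_sub, map_sub, inner_sub_right, map_sum, map_sum, inner_sum]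
    congr 1
    refine Finset.sum_congr rfl (fun l _ => ?_)
    rw [map_smul, map_smul, inner_smul_right]
  have hdec : ∀ j, Gf j (w j) = (∑ l, (μ l : ℂ) * Gf j l) + (Ff j (w j) - ∑ l, (μ l : ℂ) * Ff j l)
      + ((Gf j (w j) - Ff j (w j)) - ∑ l, (μ l : ℂ) * (Gf j l - Ff j l)) := by
    intro j
    have : ∑ l, (μ l : ℂ) * (Gf j l - Ff j l)
        = ∑ l, (μ l : ℂ) * Gf j l - ∑ l, (μ l : ℂ) * Ff j l := by
      rw [← Finset.sum_sub_distrib]
      exact Finset.sum_congr rfl (fun l _ => by ring)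
    rw [this]; ring
  have herr2 : ∀ j, ‖(Gf j (w j) - Ff j (w j)) - ∑ l, (μ l : ℂ) * (Gf j l - Ff j l)‖
      ≤ 2 * err j := by
    intro j
    refine (norm_sub_le _ _).trans ?_
    have h1 : ‖∑ l, (μ l : ℂ) * (Gf j l - Ff j l)‖ ≤ err j := by
      refine (norm_sum_le _ _).trans ?_
      calc ∑ l, ‖(μ l : ℂ) * (Gf j l - Ff j l)‖ ≤ ∑ l, μ l * err j := by
            refine Finset.sum_le_sum (fun l _ => ?_)
            rw [norm_mul, Complex.norm_real, Real.norm_eq_abs, abs_of_nonneg (hμ l)]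
            exact mul_le_mul_of_nonneg_left (hGF j l) (hμ l)
        _ = err j := by rw [← Finset.sum_mul, hμ1, one_mul]
    linarith [hGF j (w j)]
  have hsum : ((1 : ℝ) / d : ℂ) * ∑ j, ⟪ll j (b j (w j) (k1 j ζ)),
        y ((star (rl j)) (kap j (w j) ζ))⟫
      = ((1 : ℝ) / d : ℂ) * ∑ j, (⟪ll j (b j (w j) (k1 j ζ)),
            y ((star (rl j)) (kap j (w j) ζ))⟫ - Gf j (w j))
        + ((1 : ℝ) / d : ℂ) * ∑ j, (∑ l, (μ l : ℂ) * Gf j l)
        + ⟪ζ, x' mart⟫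
        + ((1 : ℝ) / d : ℂ) * ∑ j, ((Gf j (w j) - Ff j (w j))
            - ∑ l, (μ l : ℂ) * (Gf j l - Ff j l)) := by
    rw [hmarti, ← mul_add, ← mul_add, ← mul_add, ← Finset.sum_add_distrib,
      ← Finset.sum_add_distrib, ← Finset.sum_add_distrib]
    congr 1
    refine Finset.sum_congr rfl (fun j _ => ?_)
    have := hdec j
    linear_combination this
  have hnd : ‖((1 : ℝ) / d : ℂ)‖ = 1 / d := by
    rw [norm_div, Complex.norm_real, Complex.norm_natCast]; simp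
  have havg : ∀ (F : Fin d → ℂ) (C : ℝ), (∀ j, ‖F j‖ ≤ C) →
      ‖((1 : ℝ) / d : ℂ) * ∑ j, F j‖ ≤ C := by
    intro F C hF
    rw [norm_mul, hnd]
    have h1 : ‖∑ j, F j‖ ≤ d * C := by
      refine (norm_sum_le _ _).trans ?_
      calc ∑ j, ‖F j‖ ≤ ∑ _j : Fin d, C := Finset.sum_le_sum (fun j _ => hF j)
        _ = d * C := by simp
    calc 1 / (d : ℝ) * ‖∑ j, F j‖ ≤ 1 / d * (d * C) :=
          mul_le_mul_of_nonneg_left h1 (by positivity)
      _ = C := by field_simp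
  rw [hsum]
  have t1 := havg _ _ hterm
  have t2 := havg _ _ hmean'
  have t3 : ‖⟪ζ, x' mart⟫‖ ≤ ‖mart‖ := by
    refine (norm_inner_le_norm _ _).trans ?_
    calc ‖ζ‖ * ‖x' mart‖ ≤ 1 * ‖x' mart‖ := mul_le_mul_of_nonneg_right hζ (norm_nonneg _)
      _ = ‖x' mart‖ := one_mul _
      _ ≤ ‖x'‖ * ‖mart‖ := x'.le_opNorm _
      _ ≤ 1 * ‖mart‖ := mul_le_mul_of_nonneg_right hx'1 (norm_nonneg _)
      _ = ‖mart‖ := one_mul _
  have t4 : ‖((1 : ℝ) / d : ℂ) * ∑ j, ((Gf j (w j) - Ff j (w j))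
            - ∑ l, (μ l : ℂ) * (Gf j l - Ff j l))‖ ≤ (1 / d) * ∑ j, 2 * err j := by
    rw [norm_mul, hnd]
    refine mul_le_mul_of_nonneg_left ?_ (by positivity)
    exact (norm_sum_le _ _).trans (Finset.sum_le_sum (fun j _ => herr2 j))
  refine (norm_add_le _ _).trans (add_le_add ?_ t4)
  refine (norm_add_le _ _).trans ?_
  have := norm_add_le (((1 : ℝ) / d : ℂ) * ∑ j, (⟪ll j (b j (w j) (k1 j ζ)),
            y ((star (rl j)) (kap j (w j) ζ))⟫ - Gf j (w j)))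
        (((1 : ℝ) / d : ℂ) * ∑ j, (∑ l, (μ l : ℂ) * Gf j l))
  linarith

end Crest.Agent.R078.Z.WL1

namespace Crest.Agent.R078.Z.WL1

open Crest.Agent.R078.Z.Slot Crest.Agent.R078

universe u

section prods

variable {A : Type*} {L : Type*} {d : ℕ}

theorem list_prod_induction [Monoid A] (p : A → Prop) (h1 : p 1) (hm : ∀ a b, p a → p b → p (a * b)) :
    ∀ l : List A, (∀ a ∈ l, p a) → p l.prod
  | [], _ => by simpa using h1
  | a :: l, h => by
    rw [List.prod_cons]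
    exact hm _ _ (h a (by simp)) (list_prod_induction p h1 hm l fun b hb => h b (by simp [hb]))

theorem pre_induction [Monoid A] (p : A → Prop) (h1 : p 1) (hm : ∀ a b, p a → p b → p (a * b))
    (T : Fin d → L → A) (w : Fin d → L) (j : ℕ) (h : ∀ i : Fin d, (i : ℕ) < j → p (T i (w i))) :
    p (pre T w j) := by
  refine list_prod_induction p h1 hm _ (fun a ha => ?_)
  obtain ⟨i, hi, rfl⟩ := List.mem_map.1 ha
  refine h i ?_
  obtain ⟨n, hn, hn'⟩ := List.mem_iff_getElem.1 hi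
  have h2 : n < j ∧ n < d := by
    have := hn
    simp at this
    exact this
  rw [List.getElem_take, List.getElem_finRange] at hn'
  rw [← hn']
  exact h2.1

theorem suf_induction [Monoid A] (p : A → Prop) (h1 : p 1) (hm : ∀ a b, p a → p b → p (a * b))
    (T : Fin d → L → A) (w : Fin d → L) (j : ℕ) (h : ∀ i : Fin d, j ≤ (i : ℕ) → p (T i (w i))) :
    p (suf T w j) := by
  refine list_prod_induction p h1 hm _ (fun a ha => ?_)
  obtain ⟨i, hi, rfl⟩ := List.mem_map.1 ha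
  refine h i ?_
  obtain ⟨n, hn, hn'⟩ := List.mem_iff_getElem.1 hi
  rw [List.getElem_drop, List.getElem_finRange] at hn'
  rw [← hn']
  simp

theorem pre_update [Monoid A] [DecidableEq L] (T : Fin d → L → A) (w : Fin d → L) (i : Fin d) (l : L)
    (j : ℕ) (h : j ≤ (i : ℕ)) : pre T (Function.update w i l) j = pre T w j := by
  unfold pre
  congr 1
  refine List.map_congr_left (fun k hk => ?_)
  obtain ⟨n, hn, hn'⟩ := List.mem_iff_getElem.1 hk
  have h2 : n < j ∧ n < d := by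
    have := hn
    simp at this
    exact this
  rw [List.getElem_take, List.getElem_finRange] at hn'
  have hne : k ≠ i := by
    rintro rfl
    have := congrArg Fin.val hn'
    simp at this
    omega
  rw [Function.update_of_ne hne]

end prods

variable {G : Type u} [NormedAddCommGroup G] [InnerProductSpace ℂ G] [CompleteSpace G]
variable {M N : VonNeumannAlgebra G} {d : ℕ} {L : Type} [Fintype L] [DecidableEq L]
  {δ R K Kθ ε₁ Λ : ℝ}

local notation "⟪" x ", " y "⟫" => inner ℂ x y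

theorem comm_of_mem {x y : G →L[ℂ] G} (hx : x ∈ M) (hy : y ∈ M.commutant) : y * x = x * y :=
  (VonNeumannAlgebra.mem_commutant_iff.1 hy x hx).symm

theorem pre_T_mem (s : SlotSys M N d L δ R K Kθ ε₁) (w : Fin d → L) (j : ℕ) :
    pre s.T w j ∈ M :=
  pre_induction (fun a => a ∈ M) (one_mem _) (fun _ _ ha hb => mul_mem ha hb) _ _ _
    (fun i _ => s.T_mem i (w i))

theorem suf_T_mem (s : SlotSys M N d L δ R K Kθ ε₁) (w : Fin d → L) (j : ℕ) :
    suf s.T w j ∈ M :=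
  suf_induction (fun a => a ∈ M) (one_mem _) (fun _ _ ha hb => mul_mem ha hb) _ _ _
    (fun i _ => s.T_mem i (w i))

theorem pre_S_mem (s : SlotSys M N d L δ R K Kθ ε₁) (w : Fin d → L) (j : ℕ) :
    pre s.S w j ∈ M.commutant :=
  pre_induction (fun a => a ∈ M.commutant) (one_mem _) (fun _ _ ha hb => mul_mem ha hb) _ _ _
    (fun i _ => s.S_mem i (w i))

theorem pre_T_unitary (s : SlotSys M N d L δ R K Kθ ε₁) (w : Fin d → L) (j : ℕ) :
    pre s.T w j ∈ unitary (G →L[ℂ] G) :=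
  pre_induction (fun a => a ∈ unitary (G →L[ℂ] G)) (one_mem _) (fun _ _ ha hb => mul_mem ha hb) _ _ _
    (fun i _ => s.T_unitary i (w i))

theorem suf_T_unitary (s : SlotSys M N d L δ R K Kθ ε₁) (w : Fin d → L) (j : ℕ) :
    suf s.T w j ∈ unitary (G →L[ℂ] G) :=
  suf_induction (fun a => a ∈ unitary (G →L[ℂ] G)) (one_mem _) (fun _ _ ha hb => mul_mem ha hb) _ _ _
    (fun i _ => s.T_unitary i (w i))

theorem pre_S_unitary (s : SlotSys M N d L δ R K Kθ ε₁) (w : Fin d → L) (j : ℕ) :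
    pre s.S w j ∈ unitary (G →L[ℂ] G) :=
  pre_induction (fun a => a ∈ unitary (G →L[ℂ] G)) (one_mem _) (fun _ _ ha hb => mul_mem ha hb) _ _ _
    (fun i _ => s.S_unitary i (w i))

theorem k1_pre_S (s : SlotSys M N d L δ R K Kθ ε₁) (w : Fin d → L) (j : Fin d) :
    s.k1 j * pre s.S w j = pre s.S w j * s.k1 j :=
  pre_induction (fun a => s.k1 j * a = a * s.k1 j) (by simp)
    (fun a b ha hb => by rw [← mul_assoc, ha, mul_assoc, hb, mul_assoc]) _ _ _
    (fun i hi => s.k1_S j i (w i) (by rintro rfl; exact lt_irrefl _ hi))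

theorem star_k1_S (s : SlotSys M N d L δ R K Kθ ε₁) (i j : Fin d) (l : L) (h : i ≠ j) :
    star (s.k1 i) * s.S j l = s.S j l * star (s.k1 i) := by
  have h1 := congrArg star (s.k1_S i j (s.inv l) h)
  rw [star_mul, star_mul, s.S_inv, star_star] at h1
  exact h1.symm

theorem star_k1_pre_S (s : SlotSys M N d L δ R K Kθ ε₁) (w : Fin d → L) (j : Fin d) :
    star (s.k1 j) * pre s.S w j = pre s.S w j * star (s.k1 j) :=
  pre_induction (fun a => star (s.k1 j) * a = a * star (s.k1 j)) (by simp)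
    (fun a b ha hb => by rw [← mul_assoc, ha, mul_assoc, hb, mul_assoc]) _ _ _
    (fun i hi => star_k1_S s j i (w i) (by rintro rfl; exact lt_irrefl _ hi))

theorem P_pre_S (s : SlotSys M N d L δ R K Kθ ε₁) (w : Fin d → L) (j : Fin d) :
    s.P j * pre s.S w j = pre s.S w j * s.P j :=
  pre_induction (fun a => s.P j * a = a * s.P j) (by simp)
    (fun a b ha hb => by rw [← mul_assoc, ha, mul_assoc, hb, mul_assoc]) _ _ _
    (fun i hi => s.P_S j i (w i) (by rintro rfl; exact lt_irrefl _ hi))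

theorem P_pre_T (s : SlotSys M N d L δ R K Kθ ε₁) (w : Fin d → L) (j : Fin d) :
    s.P j * pre s.T w j = pre s.T w j * s.P j :=
  pre_induction (fun a => s.P j * a = a * s.P j) (by simp)
    (fun a b ha hb => by rw [← mul_assoc, ha, mul_assoc, hb, mul_assoc]) _ _ _
    (fun i hi => s.P_T j i (w i) (by rintro rfl; exact lt_irrefl _ hi))

/-- `V_j = L_j S_{L_j}` -/
noncomputable def Vj (s : SlotSys M N d L δ R K Kθ ε₁) (w : Fin d → L) (j : Fin d) : G →L[ℂ] G :=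
  pre s.T w j * pre s.S w j

theorem P_Vj (s : SlotSys M N d L δ R K Kθ ε₁) (w : Fin d → L) (j : Fin d) :
    s.P j * Vj s w j = Vj s w j * s.P j := by
  unfold Vj
  rw [← mul_assoc, P_pre_T, mul_assoc, P_pre_S, mul_assoc]

theorem Vj_update (s : SlotSys M N d L δ R K Kθ ε₁) (w : Fin d → L) (i j : Fin d) (l : L)
    (h : j ≤ i) : Vj s (Function.update w i l) j = Vj s w j := by
  unfold Vj
  rw [pre_update _ _ _ _ _ (by exact_mod_cast h), pre_update _ _ _ _ _ (by exact_mod_cast h)]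

theorem norm_Vj (s : SlotSys M N d L δ R K Kθ ε₁) (w : Fin d → L) (j : Fin d) (v : G) :
    ‖Vj s w j v‖ = ‖v‖ := by
  change ‖pre s.T w j (pre s.S w j v)‖ = ‖v‖
  rw [norm_unitary _ (pre_T_unitary s w j).1, norm_unitary _ (pre_S_unitary s w j).1]

theorem P_Vζ (s : SlotSys M N d L δ R K Kθ ε₁) (w : Fin d → L) (j : Fin d) :
    s.P j (Vj s w j s.ζ - s.ζ) = Vj s w j s.ζ - s.ζ := by
  have h := congrArg (fun (Q : G →L[ℂ] G) => Q s.ζ) (P_Vj s w j)
  have h2 : s.P j (Vj s w j s.ζ) = Vj s w j (s.P j s.ζ) := h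
  rw [map_sub, h2, s.P_ζ]

/-- the increment vector of letter `l` in slot `j` -/
noncomputable def gv (s : SlotSys M N d L δ R K Kθ ε₁) (j : Fin d) (l : L) : G :=
  (star (s.k1 j)) ((star (s.b j l)) (s.kap j l ((star (s.S j l)) s.ζ)))

theorem norm_gv (s : SlotSys M N d L δ R K Kθ ε₁) (hK : 0 ≤ K) (j : Fin d) (l : L) :
    ‖gv s j l‖ ≤ K * Kθ * (1 + K * Kθ * ε₁) := by
  have hKθ : 0 ≤ Kθ := (norm_nonneg _).trans (s.norm_k1 j)
  have hKK : 0 ≤ K * Kθ := mul_nonneg hK hKθ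
  -- star S ζ
  have h1 : s.T j l (s.kap j l s.ζ) = s.kap j l (s.T j l s.ζ) :=
    congrArg (fun (Q : G →L[ℂ] G) => Q s.ζ) (comm_of_mem (s.T_mem j l) (s.kap_memM j l)).symm
  have h2 : s.T j l s.ζ = (star (s.S j l)) (s.T j l (s.S j l s.ζ)) := by
    have e : s.T j l * s.S j l = s.S j l * s.T j l :=
      (comm_of_mem (s.T_mem j l) (s.S_mem j l)).symm
    have e2 : s.T j l (s.S j l s.ζ) = s.S j l (s.T j l s.ζ) :=
      congrArg (fun (Q : G →L[ℂ] G) => Q s.ζ) e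
    rw [e2]
    have e3 := congrArg (fun (Q : G →L[ℂ] G) => Q (s.T j l s.ζ)) (s.S_unitary j l).1
    exact e3.symm
  have h3 : s.kap j l ((star (s.S j l)) s.ζ)
      = s.T j l (s.kap j l s.ζ) - s.kap j l ((star (s.S j l)) (s.T j l (s.S j l s.ζ) - s.ζ)) := by
    rw [h1, h2, ← map_sub, ← map_sub]
    congr 2
    abel
  have h4 : ‖s.kap j l ((star (s.S j l)) s.ζ)‖ ≤ 1 + K * Kθ * ε₁ := by
    rw [h3]
    refine (norm_sub_le _ _).trans (add_le_add ?_ ?_)
    · rw [norm_unitary _ (s.T_unitary j l).1]; exact s.norm_kapζ j l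
    · refine (ContinuousLinearMap.le_opNorm _ _).trans ?_
      rw [norm_unitary (star (s.S j l)) (by simpa using (s.S_unitary j l).2)]
      exact mul_le_mul (s.norm_kap j l) (s.TS_ζ j l) (norm_nonneg _) hKK
  unfold gv
  refine (ContinuousLinearMap.le_opNorm _ _).trans ?_
  rw [norm_star]
  have h5 : ‖(star (s.b j l)) (s.kap j l ((star (s.S j l)) s.ζ))‖ ≤ K * (1 + K * Kθ * ε₁) := by
    refine (ContinuousLinearMap.le_opNorm _ _).trans ?_
    rw [norm_star]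
    exact mul_le_mul (s.norm_b j l) h4 (norm_nonneg _) hK
  calc ‖s.k1 j‖ * ‖(star (s.b j l)) (s.kap j l ((star (s.S j l)) s.ζ))‖
      ≤ Kθ * (K * (1 + K * Kθ * ε₁)) := mul_le_mul (s.norm_k1 j) h5 (norm_nonneg _) hKθ
    _ = K * Kθ * (1 + K * Kθ * ε₁) := by ring

/-- the functional `q_w(y) = (1/d) ∑_j Ψ_j(l_j^* y ρ_j^*)` -/
noncomputable def qf (s : SlotSys M N d L δ R K Kθ ε₁) (w : Fin d → L) (y : G →L[ℂ] G) : ℂ :=
  ((1 : ℝ) / d : ℂ) * ∑ j, ⟪s.lft j w (s.b j (w j) (s.k1 j s.ζ)),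
    y ((star (s.rho j w)) (s.kap j (w j) s.ζ))⟫

/-- mean part -/
theorem mean_bound (s : SlotSys M N d L δ R K Kθ ε₁) (hrel : RelBd M N R Λ) (j : Fin d)
    (y : G →L[ℂ] G) (hy : y ∈ N) (hy1 : ‖y‖ ≤ 1) :
    ‖∑ l, (s.μ l : ℂ) * ⟪s.b j l (s.k1 j s.ζ), y (s.T j l (s.kap j l s.ζ))⟫‖ ≤ Λ := by
  have hys : star y ∈ N := star_mem hy
  have hys1 : ‖star y‖ ≤ 1 := by rw [norm_star]; exact hy1
  have hadj : ∀ (u v : G), ⟪(star y) u, v⟫ = ⟪u, y v⟫ := by
    intro u v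
    rw [ContinuousLinearMap.star_eq_adjoint, ContinuousLinearMap.adjoint_inner_left]
  have h := hrel Unit L s.μ (fun l => s.T j l) (fun _ => s.k j s.ζ)
    (fun l _ => s.kap j l s.ζ) (fun l _ => (star y) (s.b j l (s.k1 j s.ζ)))
    (fun l _ => (star y) (s.η j l)) s.μ_nonneg s.μ_sum (s.T_mem j)
    (fun l => by
      refine ContinuousLinearMap.opNorm_le_bound _ zero_le_one (fun v => ?_)
      rw [norm_unitary _ (s.T_unitary j l).1, one_mul])
    (by simp [s.norm_kζ j])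
    (fun l => by
      simp only [Finset.univ_unique, Finset.sum_const, Finset.card_singleton, one_smul]
      exact pow_le_one₀ (norm_nonneg _) (s.norm_kapζ j l))
    (fun l => by
      simp only [Finset.univ_unique, Finset.sum_const, Finset.card_singleton, one_smul]
      refine pow_le_one₀ (norm_nonneg _) ?_
      exact ((star y).le_opNorm _).trans (mul_le_one₀ hys1 (norm_nonneg _) (s.norm_bζ j l)))
    (fun l => by
      simp only [Finset.univ_unique, Finset.sum_const, Finset.card_singleton, one_smul]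
      refine pow_le_pow_left₀ (norm_nonneg _) ?_ 2
      refine ((star y).le_opNorm _).trans ?_
      calc ‖star y‖ * ‖s.η j l‖ ≤ 1 * R :=
            mul_le_mul hys1 (s.norm_η j l) (norm_nonneg _) zero_le_one
        _ = R := one_mul R)
    (fun l n hn => by
      simp only [Finset.univ_unique, Finset.sum_const, Finset.card_singleton, one_smul]
      rw [hadj, hadj]
      exact s.star_id j l (y * n) (mul_mem hy hn) s.ζ s.p'_ζ)
    (fun n hn => by
      simp only [Finset.univ_unique, Finset.sum_const, Finset.card_singleton, one_smul]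
      simp only [hadj]
      exact s.exact_T j (y (n (s.k j s.ζ))))
  simp only [Finset.univ_unique, Finset.sum_const, Finset.card_singleton, one_smul, hadj] at h
  exact h

/-- the martingale vector -/
noncomputable def mv (s : SlotSys M N d L δ R K Kθ ε₁) (w : Fin d → L) : G :=
  ((1 : ℝ) / d : ℂ) • ∑ j, Vj s w j (gv s j (w j) - ∑ l, (s.μ l : ℂ) • gv s j l)

/-- pathwise bound for `‖q_w‖` -/
noncomputable def cbd (s : SlotSys M N d L δ R K Kθ ε₁) (Λ : ℝ) (w : Fin d → L) : ℝ :=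
  Λ + 4 * δ + ‖mv s w‖
    + (1 / d) * ∑ j, 2 * (K * Kθ * ε₁ + K * (1 + K * Kθ * ε₁) * ‖Vj s w j s.ζ - s.ζ‖)

theorem qf_le (s : SlotSys M N d L δ R K Kθ ε₁) (hd : 0 < d)
    (hMN : BallIn M N δ) (hNM : BallIn N M δ) (hrel : RelBd M N R Λ) (w : Fin d → L)
    (y : G →L[ℂ] G) (hy : y ∈ N) (hy1 : ‖y‖ ≤ 1) : ‖qf s w y‖ ≤ cbd s Λ w := by
  have h := pathwise (G := G) (I := L) hd (M : Set (G →L[ℂ] G)) (N : Set (G →L[ℂ] G)) s.μ
    s.μ_nonneg s.μ_sum w s.T s.S s.kap s.b s.k1 (fun j => pre s.T w j) (fun j => pre s.S w j)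
    (fun j => suf s.T w (j + 1)) (fun j => s.lft j w) (fun j => s.rho j w) (suf s.T w 0) s.ζ δ
    (K * Kθ) K ε₁ Λ s.norm_ζ.le
    (fun x hx => star_mem (s := M) hx) (fun x hx y hy => mul_mem (S := VonNeumannAlgebra G) (s := M) hx hy)
    hNM hMN (suf_T_mem s w 0) (suf_T_unitary s w 0).2 (suf_T_unitary s w 0).1
    (fun j => pre_T_mem s w j) (fun j => (pre_T_unitary s w j).1) (fun j => (pre_T_unitary s w j).2)
    (fun j => (suf_T_unitary s w _).2) (fun j => word_eq s.T w j)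
    (fun j => (pre_S_unitary s w j).1) (fun j l => (s.T_unitary j l).1)
    (fun j l => (s.S_unitary j l).1) (fun j l => (s.S_unitary j l).2)
    (fun j x hx => comm_of_mem hx (pre_S_mem s w j))
    (fun j l x hx => comm_of_mem hx (s.b_memM j l))
    (fun j l x hx => comm_of_mem hx (star_mem (s.b_memM j l)))
    (fun j x hx => comm_of_mem hx (s.k1_memM j))
    (fun j x hx => comm_of_mem hx (star_mem (s.k1_memM j)))
    (fun j l => (comm_of_mem (s.T_mem j l) (s.kap_memM j l)).symm)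
    (fun j l => (comm_of_mem (s.T_mem j l) (s.S_mem j l)).symm)
    (fun j => k1_pre_S s w j) (fun j => star_k1_pre_S s w j)
    (fun j => (s.k1_isom j _ (P_Vζ s w j)).le)
    (fun j l => s.TS_ζ j l) s.norm_kap s.norm_b s.norm_kapζ s.norm_bζ
    (fun j => s.lft_near j w) (fun j => s.norm_lft j w) (fun j => s.rho_near j w)
    (fun j y hy hy1 => mean_bound s hrel j y hy hy1) y hy hy1
  simpa [qf, cbd, mv, gv, Vj] using h

/-- Expectation of the martingale vector. -/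
theorem Ex_mv (s : SlotSys M N d L δ R K Kθ ε₁) (hd : 0 < d) (hK : 0 ≤ K) (hε : 0 ≤ ε₁) :
    s.Ex (fun w => ‖mv s w‖) ≤ K * Kθ * (1 + K * Kθ * ε₁) / Real.sqrt d := by
  obtain ⟨j0⟩ : Nonempty (Fin d) := ⟨⟨0, hd⟩⟩
  have hKθ : 0 ≤ Kθ := (norm_nonneg _).trans (s.norm_k1 j0)
  set B : ℝ := K * Kθ * (1 + K * Kθ * ε₁) with hB
  have hB0 : 0 ≤ B := by positivity
  set h : Fin d → (Fin d → L) → G := fun j w =>
    Vj s w j (gv s j (w j) - ∑ l, (s.μ l : ℂ) • gv s j l) with hh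
  have e : ∀ w, mv s w = (d : ℝ)⁻¹ • ∑ j, h j w := by
    intro w
    unfold mv
    rw [← Complex.coe_smul]
    congr 1
    push_cast
    rw [one_div]
  have hpred : ∀ i j, i < j → ∀ w l, h i (Function.update w j l) = h i w := by
    intro i j hij w l
    simp only [hh]
    rw [Vj_update s w j i l hij.le, Function.update_of_ne hij.ne]
  have hmean : ∀ j w, ∑ l, s.μ l • h j (Function.update w j l) = 0 := by
    intro j w
    have e1 : ∀ l, s.μ l • h j (Function.update w j l)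
        = Vj s w j ((s.μ l : ℂ) • (gv s j l - ∑ l, (s.μ l : ℂ) • gv s j l)) := by
      intro l
      simp only [hh]
      rw [Vj_update s w j j l le_rfl, Function.update_self, map_smul, ← Complex.coe_smul]
    rw [Finset.sum_congr rfl (fun l _ => e1 l), ← map_sum]
    simp only [smul_sub, Finset.sum_sub_distrib]
    rw [← Finset.sum_smul]
    have : (∑ l, (s.μ l : ℂ)) = 1 := by exact_mod_cast s.μ_sum
    rw [this, one_smul, sub_self, map_zero]
  have hBj : ∀ j, Pb.Ex s.μ (fun w => ‖h j w‖ ^ 2) ≤ B ^ 2 := by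
    intro j
    have e2 : ∀ w : Fin d → L, ‖h j w‖ ^ 2
        = (fun l => ‖gv s j l - ∑ l, s.μ l • gv s j l‖ ^ 2) (w j) := by
      intro w
      simp only [hh]
      rw [norm_Vj]
      simp only [Complex.coe_smul]
    rw [Pb.Ex_congr s.μ e2, Pb.Ex_single s.μ s.μ_sum j
      (fun l => ‖gv s j l - ∑ l, s.μ l • gv s j l‖ ^ 2)]
    simp only [smul_eq_mul]
    refine (Pb.sum_norm_sub_mean_sq_le s.μ_nonneg s.μ_sum (gv s j)).trans ?_
    calc ∑ i, s.μ i * ‖gv s j i‖ ^ 2 ≤ ∑ i, s.μ i * B ^ 2 := by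
          refine Finset.sum_le_sum (fun i _ => mul_le_mul_of_nonneg_left ?_ (s.μ_nonneg i))
          exact pow_le_pow_left₀ (norm_nonneg _) (norm_gv s hK j i) 2
      _ = B ^ 2 := by rw [← Finset.sum_mul, s.μ_sum, one_mul]
  have hfin := Pb.Ex_norm_avg_le s.μ_nonneg s.μ_sum hd h hpred hmean hB0 hBj
  have e3 : s.Ex (fun w => ‖mv s w‖) = Pb.Ex s.μ (fun w => ‖(d : ℝ)⁻¹ • ∑ j, h j w‖) :=
    Pb.Ex_congr s.μ (fun w => by rw [e w])
  rw [e3]
  exact hfin

/-- STEP (3): the L1 bound. -/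
theorem L1_bound (s : SlotSys M N d L δ R K Kθ ε₁) (hd : 0 < d) (hδ : 0 ≤ δ)
    (hK : 0 ≤ K) (hε : 0 ≤ ε₁) (hΛ : 0 ≤ Λ)
    (hMN : BallIn M N δ) (hNM : BallIn N M δ) (hrel : RelBd M N R Λ)
    (hdrift : ∀ j : Fin d, s.Ex (fun w => ‖pre s.T w j (pre s.S w j s.ζ) - s.ζ‖) ≤ s.D) :
    ∃ c : (Fin d → L) → ℝ, (∀ w, 0 ≤ c w) ∧
      (∀ w, ∀ y ∈ N, ‖y‖ ≤ 1 → ‖((1 : ℝ) / d : ℂ) * ∑ j, ⟪s.lft j w (s.b j (w j) (s.k1 j s.ζ)),
        y ((star (s.rho j w)) (s.kap j (w j) s.ζ))⟫‖ ≤ c w) ∧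
      s.Ex c ≤ Λ + 4 * δ + s.Efl := by
  obtain ⟨j0⟩ : Nonempty (Fin d) := ⟨⟨0, hd⟩⟩
  have hKθ : 0 ≤ Kθ := (norm_nonneg _).trans (s.norm_k1 j0)
  have hd' : (0 : ℝ) < d := by exact_mod_cast hd
  refine ⟨cbd s Λ, fun w => ?_, fun w y hy hy1 => qf_le s hd hMN hNM hrel w y hy hy1, ?_⟩
  · unfold cbd
    have : 0 ≤ ∑ j, 2 * (K * Kθ * ε₁ + K * (1 + K * Kθ * ε₁) * ‖Vj s w j s.ζ - s.ζ‖) :=
      Finset.sum_nonneg (fun j _ => by positivity)
    positivity
  · have e1 : s.Ex (cbd s Λ) = (Λ + 4 * δ) + s.Ex (fun w => ‖mv s w‖)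
        + (1 / d) * ∑ j : Fin d, 2 * (K * Kθ * ε₁ + K * (1 + K * Kθ * ε₁)
          * s.Ex (fun w => ‖Vj s w j s.ζ - s.ζ‖)) := by
      change Pb.Ex s.μ (cbd s Λ) = (Λ + 4 * δ) + Pb.Ex s.μ (fun w => ‖mv s w‖)
        + (1 / d) * ∑ j : Fin d, 2 * (K * Kθ * ε₁ + K * (1 + K * Kθ * ε₁)
          * Pb.Ex s.μ (fun w => ‖Vj s w j s.ζ - s.ζ‖))
      unfold cbd
      rw [Pb.Ex_add, Pb.Ex_add, Pb.Ex_const s.μ s.μ_sum, Pb.Ex_mul_left, Pb.Ex_sum]
      congr 2
      refine Finset.sum_congr rfl (fun j _ => ?_)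
      rw [Pb.Ex_mul_left, Pb.Ex_add, Pb.Ex_const s.μ s.μ_sum, Pb.Ex_mul_left]
    rw [e1]
    have h1 := Ex_mv s hd hK hε
    have h2 : (1 / (d : ℝ)) * ∑ j : Fin d, 2 * (K * Kθ * ε₁ + K * (1 + K * Kθ * ε₁)
          * s.Ex (fun w => ‖Vj s w j s.ζ - s.ζ‖))
        ≤ 2 * (K * Kθ * ε₁ + K * (1 + K * Kθ * ε₁) * s.D) := by
      have h3 : ∑ j : Fin d, 2 * (K * Kθ * ε₁ + K * (1 + K * Kθ * ε₁)
          * s.Ex (fun w => ‖Vj s w j s.ζ - s.ζ‖))
          ≤ ∑ _j : Fin d, 2 * (K * Kθ * ε₁ + K * (1 + K * Kθ * ε₁) * s.D) := by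
        refine Finset.sum_le_sum (fun j _ => ?_)
        have h4 : s.Ex (fun w => ‖Vj s w j s.ζ - s.ζ‖) ≤ s.D := hdrift j
        have h5 : 0 ≤ K * (1 + K * Kθ * ε₁) := by positivity
        have h6 := mul_le_mul_of_nonneg_left h4 h5
        linarith
      rw [Finset.sum_const, Finset.card_univ, Fintype.card_fin, nsmul_eq_mul] at h3
      calc _ ≤ (1 / (d : ℝ)) * (d * (2 * (K * Kθ * ε₁ + K * (1 + K * Kθ * ε₁) * s.D))) :=
            mul_le_mul_of_nonneg_left h3 (by positivity)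
        _ = _ := by field_simp
    unfold SlotSys.Efl
    linarith


/-- `L1Target` of `S103SlotTargets199.lean`, from `DriftTarget`. -/
theorem l1Target (hD : DriftTarget.{u}) : L1Target.{u} := by
  intro G _ _ _ M N d L _ _ δ R K Kθ ε₁ Λ s hd hδ hR hK hKθ hε hΛ hMN hNM hrel
  have hdr : ∀ j : Fin d, s.Ex (fun w => ‖pre s.T w j (pre s.S w j s.ζ) - s.ζ‖) ≤ s.D := by
    intro j
    have hD0 : 0 ≤ s.D := mul_nonneg (Real.sqrt_nonneg _) hε
    exact Pb.Ex_norm_le_of_sq_le s.μ_nonneg s.μ_sum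
      (fun w => pre s.T w j (pre s.S w j s.ζ) - s.ζ) hD0 (hD G M N d L δ R K Kθ ε₁ s hε j).1
  obtain ⟨c, hc0, hc1, hc2⟩ := L1_bound s hd hδ hK hε hΛ hMN hNM hrel hdr
  refine ⟨c, hc0, fun w y hy hy1 => ?_, hc2⟩
  have e : s.q w y = ((1 : ℝ) / d : ℂ) * ∑ j, ⟪s.lft j w (s.b j (w j) (s.k1 j s.ζ)),
      y ((star (s.rho j w)) (s.kap j (w j) s.ζ))⟫ := by
    unfold SlotSys.q
    have e1 : ((1 : ℝ) / d : ℂ) = (d : ℂ)⁻¹ := by push_cast; rw [one_div]
    rw [e1]
    congr 1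
    refine Finset.sum_congr rfl (fun j _ => ?_)
    have e2 : s.kap j (w j) (star (s.rho j w) s.ζ) = star (s.rho j w) (s.kap j (w j) s.ζ) :=
      congrArg (fun (Q : G →L[ℂ] G) => Q s.ζ)
        (comm_of_mem (star_mem (s.rho_mem j w)) (s.kap_memN j (w j)))
    rw [e2]; rfl
  rw [e]
  exact hc1 w y hy hy1

end Crest.Agent.R078.Z.WL1
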