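/-
R78 / S0103.  THE WALK THEOREM, unconditionally (helper199; steps by 666, 925, 330, 445, 199).
-/
import Crest.Agent.R078.S103SlotFinal199
import Crest.Agent.R078.S103SlotDrift
import Crest.Agent.R078.S103WalkL1
import Crest.Agent.R078.S103L2_330
import Crest.Agent.R078.S103Rec445B

set_option autoImplicit false

namespace Crest.Agent.R078.Z.Slot

universe u

theorem walk : WalkTarget.{u} :=
  walkTarget driftTarget (WL1.l1Target driftTarget) L2.l2Target Rec.relTarget Rec.recTarget

end Crest.Agent.R078.Z.Slot
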