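/-
R78 / S0103 (helper445): KEY COMPOSITION, core.
LetterOut (LL) + slot instance (TB) + walk ⇒ bound of the value of one adapted relation.
-/
import Crest.Agent.R078.S103Key445
import Crest.Agent.R078.S103Main45
import Crest.Agent.R078.S103WalkAll199
import Crest.Agent.R078.S103Hal3_938

set_option autoImplicit false
set_option linter.unusedSectionVars false
open scoped InnerProductSpace
open Crest.Agent.R078.Z.Slot
open Crest.Agent.R078.S103.LSys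

namespace Crest.Agent.R078.Z.Comp

universe u

variable {H : Type u} [NormedAddCommGroup H] [InnerProductSpace ℂ H] [CompleteSpace H]

/-- the value of an adapted relation -/
noncomputable def val {m : ℕ} (μ : Fin m → ℝ) (ξ : H) (Y A B : Fin m → (H →L[ℂ] H)) : ℂ :=
  ∑ a, (μ a : ℂ) * ⟪B a ξ, Y a (A a ξ)⟫_ℂ

/-- TB: the slot instance for one adapted relation. -/
def TBInst (M : VonNeumannAlgebra H) {m : ℕ} (μ : Fin m → ℝ) (ξ : H)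
    (Y A B : Fin m → (H →L[ℂ] H)) (η : Fin m → H) (δ R K : ℝ) : Prop :=
  ∀ (κ Kθ ε : ℝ), 1 ≤ Kθ → 0 ≤ ε → LetterSystem M ξ μ Y A B η κ Kθ ε → ∀ d : ℕ, 0 < d →
    ∃ (G : Type u) (_ : NormedAddCommGroup G) (_ : InnerProductSpace ℂ G) (_ : CompleteSpace G)
      (M₁ N₁ : VonNeumannAlgebra G), TB.SC δ M₁ N₁ ∧
      ∃ s : SlotSys M₁ N₁ d (Fin m × Fin 4) δ R K Kθ ε,
        ∀ j, ‖s.value j - (1 / 2 : ℂ) * val μ ξ Y A B‖ ≤ κ

/-- LL: the letter lemma for one adapted relation. -/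
def LLOut (M : VonNeumannAlgebra H) {m : ℕ} (ξ : H) (Y A B : Fin m → (H →L[ℂ] H)) : Prop :=
  ∀ κ > 0, ∀ τ > 0, ∃ K ε : ℝ, 1 ≤ K ∧ 0 ≤ ε ∧ ε * K ≤ τ ∧
    Nonempty (LetterOut M ξ Y A B κ K ε)

theorem value_le (M : VonNeumannAlgebra H) {m : ℕ} (μ : Fin m → ℝ) (ξ : H)
    (Y A B : Fin m → (H →L[ℂ] H)) (η : Fin m → H) {δ R K Λ : ℝ}
    (hδ : 0 ≤ δ) (hR : 1 ≤ R) (hK : 0 ≤ K) (hΛ : 0 ≤ Λ)
    (hμ : ∀ a, 0 ≤ μ a) (hμ1 : ∑ a, μ a = 1) (hY : ∀ a, Y a ∈ M) (hY1 : ∀ a, ‖Y a‖ ≤ 1)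
    (hrel : ∀ h : H, ∑ a, ((μ a : ℂ) * ⟪η a, h⟫_ℂ) • Y a = 0)
    (hLL : LLOut M ξ Y A B) (hTB : TBInst M μ ξ Y A B η δ R K)
    (hall : Key.RelAll.{u} δ R Λ) :
    (val μ ξ Y A B).re ≤ 2 * (3 * δ + 2 * Real.sqrt 3 * δ
      + (Λ + δ) * (Λ + (4 + 2 * Real.sqrt 3 + 2 * Real.sqrt 2) * δ)) := by
  refine Dbl.value_le_keyRHS (K := K) Slot.walk hδ hR hK hΛ ?_
  intro κ hκ τ hτ
  obtain ⟨K', ε, hK', hε, hτ', ⟨o⟩⟩ := hLL κ hκ (τ / 4) (by positivity)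
  have ls := S103.Hal3.letterSystem_of_letterOut M ξ μ hμ hμ1.le Y A B η hY hY1 hrel hκ.le hε o
  refine ⟨2 * K', 2 * ε, by linarith, by linarith, by nlinarith, fun d hd => ?_⟩
  obtain ⟨G, _, _, _, M₁, N₁, hSC, s, hs⟩ :=
    hTB κ (2 * K') (2 * ε) (by linarith) (by linarith) ls d hd
  refine ⟨G, _, _, _, M₁, N₁, Fin m × Fin 4, _, _, s, hSC.ball.1, hSC.ball.2, hall G M₁ N₁ hSC,
    fun j => ?_⟩
  have h1 := (Complex.abs_re_le_norm _).trans (hs j)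
  rw [Complex.sub_re, abs_le] at h1
  have h2 : ((1 / 2 : ℂ) * val μ ξ Y A B).re = (val μ ξ Y A B).re / 2 := by
    rw [show (1 / 2 : ℂ) = ((1 / 2 : ℝ) : ℂ) by push_cast; ring, Complex.re_ofReal_mul]
    ring
  rw [h2] at h1
  linarith [h1.1]

end Crest.Agent.R078.Z.Comp
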