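import Mathlib

/-!
# R78 / S0103, letter lemma, numerics (helper535)

`ph p t = (cosh t)⁻¹ ^ p`.  All estimates on the sums `∑_k ph p (u + k h)` used in part (B), (C), (D)
of the letter lemma.
-/

namespace Crest.Agent.R078.Z.LLB

open Real Finset

noncomputable section

/-- `sech^p`. -/
def ph (p : ℕ) (t : ℝ) : ℝ := ((Real.cosh t)⁻¹) ^ p

lemma cosh_inv_pos (t : ℝ) : 0 < (Real.cosh t)⁻¹ := inv_pos.mpr (Real.cosh_pos t)

lemma cosh_inv_le_one (t : ℝ) : (Real.cosh t)⁻¹ ≤ 1 := inv_le_one_of_one_le₀ (Real.one_le_cosh t)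

lemma ph_pos (p : ℕ) (t : ℝ) : 0 < ph p t := pow_pos (cosh_inv_pos t) p

lemma ph_nonneg (p : ℕ) (t : ℝ) : 0 ≤ ph p t := (ph_pos p t).le

lemma ph_le_one (p : ℕ) (t : ℝ) : ph p t ≤ 1 :=
  pow_le_one₀ (cosh_inv_pos t).le (cosh_inv_le_one t)

@[simp] lemma ph_zero_right (p : ℕ) : ph p 0 = 1 := by simp [ph]

lemma ph_neg (p : ℕ) (t : ℝ) : ph p (-t) = ph p t := by simp [ph]

lemma ph_le_of_abs {p : ℕ} {s t : ℝ} (h : |s| ≤ |t|) : ph p t ≤ ph p s := by
  unfold ph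
  have h1 : Real.cosh s ≤ Real.cosh t := Real.cosh_le_cosh.mpr h
  have h2 : (Real.cosh t)⁻¹ ≤ (Real.cosh s)⁻¹ := inv_anti₀ (Real.cosh_pos s) h1
  exact pow_le_pow_left₀ (cosh_inv_pos t).le h2 p

lemma ph_mono_exp {p q : ℕ} (h : p ≤ q) (t : ℝ) : ph q t ≤ ph p t :=
  pow_le_pow_of_le_one (cosh_inv_pos t).le (cosh_inv_le_one t) h

lemma ph_add (p q : ℕ) (t : ℝ) : ph (p + q) t = ph p t * ph q t := pow_add _ _ _

lemma cosh_inv_le (t : ℝ) : (Real.cosh t)⁻¹ ≤ 2 * Real.exp (-|t|) := by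
  have h : Real.exp |t| / 2 ≤ Real.cosh t := by
    rw [← Real.cosh_abs, Real.cosh_eq]
    have := Real.exp_pos (-|t|)
    linarith
  have h2 : (Real.cosh t)⁻¹ ≤ (Real.exp |t| / 2)⁻¹ :=
    inv_anti₀ (by positivity) h
  calc (Real.cosh t)⁻¹ ≤ (Real.exp |t| / 2)⁻¹ := h2
    _ = 2 * Real.exp (-|t|) := by
      rw [Real.exp_neg]; field_simp

lemma ph_le_exp {p : ℕ} (hp : 1 ≤ p) (t : ℝ) : ph p t ≤ 2 * Real.exp (-|t|) := by
  calc ph p t ≤ ph 1 t := ph_mono_exp hp t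
    _ = (Real.cosh t)⁻¹ := by simp [ph]
    _ ≤ _ := cosh_inv_le t

lemma summable_nat {p : ℕ} (hp : 1 ≤ p) {h : ℝ} (hh : 0 < h) (u : ℝ) :
    Summable (fun k : ℕ => ph p (u + k * h)) := by
  have hg : Summable (fun k : ℕ => (2 * Real.exp |u|) * (Real.exp (-h)) ^ k) := by
    apply Summable.mul_left
    apply summable_geometric_of_lt_one (Real.exp_pos _).le
    rw [Real.exp_lt_one_iff]; linarith
  refine Summable.of_nonneg_of_le (fun k => ph_nonneg p _) (fun k => ?_) hg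
  calc ph p (u + k * h) ≤ 2 * Real.exp (-|u + k * h|) := ph_le_exp hp _
    _ ≤ 2 * Real.exp (|u| - k * h) := by
      gcongr
      have h1 : (k : ℝ) * h ≤ |(k : ℝ) * h| := le_abs_self _
      have h2 : |(k : ℝ) * h| ≤ |u + k * h| + |u| := by
        have := abs_sub (u + k * h) u
        simpa using this
      linarith
    _ = (2 * Real.exp |u|) * (Real.exp (-h)) ^ k := by
      rw [← Real.exp_nat_mul, mul_assoc, ← Real.exp_add]
      ring_nf

lemma summable_nat_neg {p : ℕ} (hp : 1 ≤ p) {h : ℝ} (hh : 0 < h) (u : ℝ) :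
    Summable (fun k : ℕ => ph p (u - (k + 1) * h)) := by
  have := summable_nat hp hh (-u + h)
  refine this.congr (fun k => ?_)
  rw [← ph_neg]; congr 1; ring

lemma summable_int {p : ℕ} (hp : 1 ≤ p) {h : ℝ} (hh : 0 < h) (u : ℝ) :
    Summable (fun k : ℤ => ph p (u + k * h)) := by
  refine Summable.of_nat_of_neg_add_one ?_ ?_
  · simpa using summable_nat hp hh u
  · refine (summable_nat_neg hp hh u).congr (fun k => ?_)
    congr 1; push_cast; ring

/-- one-sided sum. -/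
def A (p : ℕ) (h : ℝ) : ℝ := ∑' n : ℕ, ph p (n * h)

/-- two-sided sum. -/
def S (p : ℕ) (h u : ℝ) : ℝ := ∑' k : ℤ, ph p (u + k * h)

lemma summable_A {p : ℕ} (hp : 1 ≤ p) {h : ℝ} (hh : 0 < h) :
    Summable (fun n : ℕ => ph p (n * h)) := by
  simpa using summable_nat hp hh 0

lemma A_eq {p : ℕ} (hp : 1 ≤ p) {h : ℝ} (hh : 0 < h) :
    A p h = 1 + ∑' n : ℕ, ph p ((n + 1 : ℝ) * h) := by
  unfold A
  rw [(summable_A hp hh).tsum_eq_zero_add]
  simp

lemma S_split {p : ℕ} (hp : 1 ≤ p) {h : ℝ} (hh : 0 < h) (u : ℝ) :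
    S p h u = ∑' n : ℕ, ph p (u + n * h) + ∑' n : ℕ, ph p (u - (n + 1) * h) := by
  unfold S
  rw [tsum_of_nat_of_neg_add_one]
  · congr 1
    apply tsum_congr; intro n; congr 1; push_cast; ring
  · simpa using summable_nat hp hh u
  · refine (summable_nat_neg hp hh u).congr (fun k => ?_)
    congr 1; push_cast; ring

lemma S_period {p : ℕ} {h : ℝ} (u : ℝ) (l : ℤ) : S p h (u + l * h) = S p h u := by
  unfold S
  rw [← (Equiv.addRight (-l)).tsum_eq (fun k : ℤ => ph p (u + l * h + k * h))]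
  apply tsum_congr; intro k
  congr 1
  simp only [Equiv.coe_addRight]; push_cast; ring

lemma S_bounds_aux {p : ℕ} (hp : 1 ≤ p) {h : ℝ} (hh : 0 < h) {u : ℝ} (hu0 : 0 ≤ u) (hu1 : u ≤ h) :
    2 * A p h - 2 ≤ S p h u ∧ S p h u ≤ 2 * A p h := by
  rw [S_split hp hh]
  have e1 := A_eq hp hh
  have s1 := summable_nat hp hh u
  have s2 := summable_nat_neg hp hh u
  have s3 := summable_A hp hh
  have s4 : Summable (fun n : ℕ => ph p ((n + 1 : ℝ) * h)) := by
    have := (summable_nat_add_iff 1).mpr s3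
    simpa using this
  have key : ∀ n : ℕ, 0 ≤ (n : ℝ) * h := fun n => by positivity
  constructor
  · have a1 : ∑' n : ℕ, ph p ((n + 1 : ℝ) * h) ≤ ∑' n : ℕ, ph p (u + n * h) := by
      refine Summable.tsum_le_tsum (fun n => ?_) s4 s1
      apply ph_le_of_abs
      have := key n
      rw [abs_of_nonneg (by linarith), abs_of_nonneg (by nlinarith)]
      linarith
    have a2 : ∑' n : ℕ, ph p ((n + 1 : ℝ) * h) ≤ ∑' n : ℕ, ph p (u - (n + 1) * h) := by
      refine Summable.tsum_le_tsum (fun n => ?_) s4 s2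
      apply ph_le_of_abs
      have := key n
      rw [abs_of_nonpos (by linarith), abs_of_nonneg (by nlinarith)]
      linarith
    linarith
  · have a1 : ∑' n : ℕ, ph p (u + n * h) ≤ A p h := by
      refine Summable.tsum_le_tsum (fun n => ?_) s1 s3
      apply ph_le_of_abs
      have := key n
      rw [abs_of_nonneg this, abs_of_nonneg (by linarith)]
      linarith
    have a2 : ∑' n : ℕ, ph p (u - (n + 1) * h) ≤ A p h := by
      refine Summable.tsum_le_tsum (fun n => ?_) s2 s3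
      apply ph_le_of_abs
      have := key n
      rw [abs_of_nonneg this, abs_of_nonpos (by linarith)]
      linarith
    linarith

lemma S_bounds {p : ℕ} (hp : 1 ≤ p) {h : ℝ} (hh : 0 < h) (u : ℝ) :
    2 * A p h - 2 ≤ S p h u ∧ S p h u ≤ 2 * A p h := by
  have h1 : S p h u = S p h (u - ⌊u / h⌋ * h) := by
    conv_lhs => rw [show u = (u - ⌊u / h⌋ * h) + ⌊u / h⌋ * h by ring]
    exact S_period _ _
  rw [h1]
  apply S_bounds_aux hp hh
  · have := Int.floor_le (u / h)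
    rw [le_div_iff₀ hh] at this
    linarith
  · have := (Int.lt_floor_add_one (u / h)).le
    rw [div_le_iff₀ hh] at this
    linarith

lemma S_zero {p : ℕ} (hp : 1 ≤ p) {h : ℝ} (hh : 0 < h) : S p h 0 = 2 * A p h - 1 := by
  rw [S_split hp hh]
  have e1 := A_eq hp hh
  have e2 : ∑' n : ℕ, ph p (0 + n * h) = A p h := by
    unfold A; apply tsum_congr; intro n; simp
  have e3 : ∑' n : ℕ, ph p (0 - (n + 1) * h) = ∑' n : ℕ, ph p ((n + 1 : ℝ) * h) := by
    apply tsum_congr; intro n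
    rw [← ph_neg]; congr 1; ring
  rw [e2, e3]; linarith

lemma A_ge_one {p : ℕ} (hp : 1 ≤ p) {h : ℝ} (hh : 0 < h) : 1 ≤ A p h := by
  rw [A_eq hp hh]
  have : 0 ≤ ∑' n : ℕ, ph p ((n + 1 : ℝ) * h) := tsum_nonneg (fun n => ph_nonneg _ _)
  linarith

lemma one_le_S_zero {p : ℕ} (hp : 1 ≤ p) {h : ℝ} (hh : 0 < h) : 1 ≤ S p h 0 := by
  rw [S_zero hp hh]; have := A_ge_one hp hh; linarith

lemma S_nonneg (p : ℕ) (h u : ℝ) : 0 ≤ S p h u := tsum_nonneg (fun _ => ph_nonneg _ _)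

lemma abs_S_sub {p : ℕ} (hp : 1 ≤ p) {h : ℝ} (hh : 0 < h) (u : ℝ) :
    |S p h u - S p h 0| ≤ 1 := by
  have h1 := S_bounds hp hh u
  rw [S_zero hp hh, abs_le]
  constructor <;> linarith [h1.1, h1.2]

/-- `sech (2x) ≤ sech² x`. -/
lemma ph_two_mul (p : ℕ) (t : ℝ) : ph p (2 * t) ≤ ph (2 * p) t := by
  unfold ph
  rw [pow_mul]
  refine pow_le_pow_left₀ (cosh_inv_pos _).le ?_ p
  rw [inv_pow]
  apply inv_anti₀ (by positivity)
  rw [Real.cosh_two_mul]
  have := Real.cosh_sq t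
  nlinarith [sq_nonneg (Real.sinh t)]

lemma A_le {p : ℕ} (hp : 1 ≤ p) {h : ℝ} (hh : 0 < h) : A p h ≤ 2 * A (2 * p) h := by
  have hs := summable_A hp hh
  have h2p : 1 ≤ 2 * p := by omega
  have hs2 := summable_A h2p hh
  unfold A
  rw [← tsum_even_add_odd (f := fun n : ℕ => ph p (n * h))]
  · have a1 : ∑' n : ℕ, ph p (((2 * n : ℕ) : ℝ) * h) ≤ ∑' n : ℕ, ph (2 * p) (n * h) := by
      refine Summable.tsum_le_tsum (fun n => ?_) ?_ hs2
      · have := ph_two_mul p ((n : ℝ) * h)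
        refine le_trans (le_of_eq ?_) this
        congr 1; push_cast; ring
      · exact hs.comp_injective (fun a b hab => by simpa using hab)
    have a2 : ∑' n : ℕ, ph p (((2 * n + 1 : ℕ) : ℝ) * h) ≤ ∑' n : ℕ, ph (2 * p) (n * h) := by
      refine Summable.tsum_le_tsum (fun n => ?_) ?_ hs2
      · refine le_trans ?_ (ph_two_mul p ((n : ℝ) * h))
        apply ph_le_of_abs
        rw [abs_of_nonneg (by positivity), abs_of_nonneg (by positivity)]
        push_cast; nlinarith [hh]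
      · exact hs.comp_injective (fun a b hab => by simpa using hab)
    linarith
  · exact hs.comp_injective (fun a b hab => by simpa using hab)
  · exact hs.comp_injective (fun a b hab => by simpa using hab)

lemma S_zero_le {p : ℕ} (hp : 1 ≤ p) {h : ℝ} (hh : 0 < h) : S p h 0 ≤ 3 * S (2 * p) h 0 := by
  have h2p : 1 ≤ 2 * p := by omega
  have h1 := A_le hp hh
  have h2 := A_ge_one h2p hh
  rw [S_zero hp hh, S_zero h2p hh]
  linarith

/-- Row sums of the Toeplitz matrix. -/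
lemma row_sum_le {p : ℕ} (hp : 1 ≤ p) {h : ℝ} (hh : 0 < h) (u : ℝ) (n : ℕ) (i : ℕ) :
    ∑ j ∈ range n, ph p (u + ((i : ℝ) - j) * h) ≤ S p h u := by
  unfold S
  have h1 : ∑ j ∈ range n, ph p (u + ((i : ℝ) - j) * h)
      = ∑ k ∈ (range n).image (fun j : ℕ => (i : ℤ) - j), ph p (u + k * h) := by
    rw [Finset.sum_image]
    · apply Finset.sum_congr rfl; intro j _; push_cast; rfl
    · intro a _ b _ hab; simpa using hab
  rw [h1]
  exact (summable_int hp hh u).sum_le_tsum _ (fun _ _ => ph_nonneg _ _)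

/-- lower bound for the full sum. -/
lemma S_lower {m : ℕ} (hm : 1 ≤ m) {h : ℝ} (hh : 0 < h) :
    (Real.exp 1)⁻¹ / (h * Real.sqrt m) ≤ S (2 * m) h 0 := by
  have h2m : 1 ≤ 2 * m := by omega
  have hm' : (0 : ℝ) < m := by exact_mod_cast hm
  have hsq : 0 < Real.sqrt m := Real.sqrt_pos.mpr hm'
  set N : ℕ := ⌊1 / (h * Real.sqrt m)⌋₊ with hN
  have hN1 : (1 / (h * Real.sqrt m)) < N + 1 := Nat.lt_floor_add_one _
  have hN0 : (N : ℝ) ≤ 1 / (h * Real.sqrt m) := Nat.floor_le (by positivity)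
  have hterm : ∀ k ∈ range (N + 1), (Real.exp 1)⁻¹ ≤ ph (2 * m) ((k : ℝ) * h) := by
    intro k hk
    have hk' : (k : ℝ) ≤ N := by
      have := Finset.mem_range.mp hk
      exact_mod_cast (by omega : k ≤ N)
    have hkh : (k : ℝ) * h ≤ 1 / Real.sqrt m := by
      calc (k : ℝ) * h ≤ (1 / (h * Real.sqrt m)) * h := by gcongr; linarith
        _ = 1 / Real.sqrt m := by field_simp
    have hkh0 : 0 ≤ (k : ℝ) * h := by positivity
    have hsq2 : ((k : ℝ) * h) ^ 2 * m ≤ 1 := by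
      calc ((k : ℝ) * h) ^ 2 * m ≤ (1 / Real.sqrt m) ^ 2 * m := by gcongr
        _ = 1 := by
          rw [div_pow, one_pow, Real.sq_sqrt hm'.le]; field_simp
    unfold ph
    rw [inv_pow]
    apply inv_anti₀ (by positivity)
    calc Real.cosh ((k : ℝ) * h) ^ (2 * m) ≤ (Real.exp (((k : ℝ) * h) ^ 2 / 2)) ^ (2 * m) := by
          gcongr; exact Real.cosh_le_exp_half_sq _
      _ = Real.exp (((k : ℝ) * h) ^ 2 * m) := by
          rw [← Real.exp_nat_mul]; congr 1; push_cast; ring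
      _ ≤ Real.exp 1 := Real.exp_le_exp.mpr hsq2
  have hsum : ((N : ℝ) + 1) * (Real.exp 1)⁻¹ ≤ A (2 * m) h := by
    have h1 : ∑ k ∈ range (N + 1), ph (2 * m) ((k : ℝ) * h) ≤ A (2 * m) h :=
      (summable_A h2m hh).sum_le_tsum _ (fun _ _ => ph_nonneg _ _)
    have h2 : ((N : ℝ) + 1) * (Real.exp 1)⁻¹ ≤ ∑ k ∈ range (N + 1), ph (2 * m) ((k : ℝ) * h) := by
      have := Finset.card_nsmul_le_sum (range (N + 1)) _ _ hterm
      simpa [nsmul_eq_mul] using this
    linarith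
  rw [S_zero h2m hh]
  have hA := A_ge_one h2m hh
  have hfin : (Real.exp 1)⁻¹ / (h * Real.sqrt m) ≤ A (2 * m) h := by
    have he : 0 < (Real.exp 1)⁻¹ := by positivity
    calc (Real.exp 1)⁻¹ / (h * Real.sqrt m) = (1 / (h * Real.sqrt m)) * (Real.exp 1)⁻¹ := by ring
      _ ≤ ((N : ℝ) + 1) * (Real.exp 1)⁻¹ := by gcongr
      _ ≤ _ := hsum
  linarith

/-- `c₀`. -/
def c0 (m : ℕ) (h : ℝ) : ℝ := (S (2 * m) h 0)⁻¹

lemma c0_pos {m : ℕ} (hm : 1 ≤ m) {h : ℝ} (hh : 0 < h) : 0 < c0 m h :=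
  inv_pos.mpr (lt_of_lt_of_le one_pos (one_le_S_zero (by omega) hh))

lemma c0_le_one {m : ℕ} (hm : 1 ≤ m) {h : ℝ} (hh : 0 < h) : c0 m h ≤ 1 :=
  inv_le_one_of_one_le₀ (one_le_S_zero (by omega) hh)

lemma c0_mul {m : ℕ} (hm : 1 ≤ m) {h : ℝ} (hh : 0 < h) : c0 m h * S (2 * m) h 0 = 1 :=
  inv_mul_cancel₀ (lt_of_lt_of_le one_pos (one_le_S_zero (by omega) hh)).ne'

lemma c0_le {m : ℕ} (hm : 1 ≤ m) {h : ℝ} (hh : 0 < h) :
    c0 m h ≤ Real.exp 1 * (h * Real.sqrt m) := by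
  have hm' : (0 : ℝ) < m := by exact_mod_cast hm
  have hsq : 0 < Real.sqrt m := Real.sqrt_pos.mpr hm'
  have h1 := S_lower hm hh
  unfold c0
  calc (S (2 * m) h 0)⁻¹ ≤ ((Real.exp 1)⁻¹ / (h * Real.sqrt m))⁻¹ := inv_anti₀ (by positivity) h1
    _ = Real.exp 1 * (h * Real.sqrt m) := by
      rw [inv_div, div_inv_eq_mul, mul_comm]

/-- Row sums, exponent `q ≥ 2 m`. -/
lemma c0_row_le {m q : ℕ} (hm : 1 ≤ m) (hq : 2 * m ≤ q) {h : ℝ} (hh : 0 < h) (n i : ℕ) :
    c0 m h * ∑ j ∈ range n, ph q (((i : ℝ) - j) * h) ≤ 1 := by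
  have h1 : ∑ j ∈ range n, ph q (((i : ℝ) - j) * h) ≤ S (2 * m) h 0 := by
    calc ∑ j ∈ range n, ph q (((i : ℝ) - j) * h)
        ≤ ∑ j ∈ range n, ph (2 * m) (0 + ((i : ℝ) - j) * h) := by
          apply Finset.sum_le_sum; intro j _
          rw [zero_add]; exact ph_mono_exp hq _
      _ ≤ _ := row_sum_le (by omega) hh 0 n i
  calc _ ≤ c0 m h * S (2 * m) h 0 := by
        gcongr; exact (c0_pos hm hh).le
    _ = 1 := c0_mul hm hh

/-- Row sums, exponent `m`. -/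
lemma c0_row_le_three {m : ℕ} (hm : 1 ≤ m) {h : ℝ} (hh : 0 < h) (n i : ℕ) :
    c0 m h * ∑ j ∈ range n, ph m (((i : ℝ) - j) * h) ≤ 3 := by
  have h1 : ∑ j ∈ range n, ph m (((i : ℝ) - j) * h) ≤ S m h 0 := by
    calc ∑ j ∈ range n, ph m (((i : ℝ) - j) * h)
        = ∑ j ∈ range n, ph m (0 + ((i : ℝ) - j) * h) := by simp
      _ ≤ _ := row_sum_le hm hh 0 n i
  have h2 := S_zero_le hm hh
  calc _ ≤ c0 m h * (3 * S (2 * m) h 0) := by
        gcongr
        · exact (c0_pos hm hh).le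
        · exact h1.trans h2
    _ = 3 := by rw [mul_left_comm, c0_mul hm hh, mul_one]

/-- one sided tail. -/
lemma tail_le {m : ℕ} (hm : 1 ≤ m) {h : ℝ} (hh : 0 < h) (h1 : h ≤ 1) {v : ℝ} (hv : 1 ≤ v) :
    ∑' l : ℕ, ph (2 * m) (v + l * h) ≤ (2 / 3) ^ (2 * m - 2) * (4 / h) := by
  have hs := summable_nat (p := 2 * m) (by omega) hh v
  have hg1 : Real.exp (-h) < 1 := by rw [Real.exp_lt_one_iff]; linarith
  have hg : Summable (fun k : ℕ => (2 / 3 : ℝ) ^ (2 * m - 2) * (2 * (Real.exp (-h)) ^ k)) := by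
    apply Summable.mul_left
    apply Summable.mul_left
    exact summable_geometric_of_lt_one (Real.exp_pos _).le hg1
  have hterm : ∀ l : ℕ, ph (2 * m) (v + l * h) ≤ (2 / 3 : ℝ) ^ (2 * m - 2) * (2 * (Real.exp (-h)) ^ l) := by
    intro l
    have hpos : (0 : ℝ) ≤ l * h := by positivity
    have e1 : ph (2 * m) (v + l * h) = ph (2 * m - 2) (v + l * h) * ph 2 (v + l * h) := by
      rw [← ph_add]; congr 1; omega
    rw [e1]
    have c1 : ph (2 * m - 2) (v + l * h) ≤ (2 / 3 : ℝ) ^ (2 * m - 2) := by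
      unfold ph
      apply pow_le_pow_left₀ (cosh_inv_pos _).le
      have : (3 / 2 : ℝ) ≤ Real.cosh (v + l * h) := by
        have hc : (3 / 2 : ℝ) ≤ Real.cosh 1 := by
          have := Real.one_lt_cosh (x := 1) |>.mpr (by norm_num)
          rw [Real.cosh_eq]
          have e1 := Real.exp_one_gt_d9
          have e2 : 0.36 ≤ Real.exp (-1) := by
            rw [Real.exp_neg, le_inv_comm₀ (by norm_num) (Real.exp_pos 1)]
            have := Real.exp_one_lt_d9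
            linarith
          linarith
        refine hc.trans ?_
        rw [Real.cosh_le_cosh, abs_of_nonneg (by norm_num), abs_of_nonneg (by linarith)]
        linarith
      calc (Real.cosh (v + l * h))⁻¹ ≤ (3 / 2 : ℝ)⁻¹ := inv_anti₀ (by norm_num) this
        _ = 2 / 3 := by norm_num
    have c2 : ph 2 (v + l * h) ≤ 2 * (Real.exp (-h)) ^ l := by
      calc ph 2 (v + l * h) ≤ 2 * Real.exp (-|v + l * h|) := ph_le_exp (by norm_num) _
        _ ≤ 2 * Real.exp (-(l * h)) := by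
          gcongr
          rw [abs_of_nonneg (by linarith)]; linarith
        _ = 2 * (Real.exp (-h)) ^ l := by
          rw [← Real.exp_nat_mul]; ring_nf
    exact mul_le_mul c1 c2 (ph_nonneg _ _) (by positivity)
  calc ∑' l : ℕ, ph (2 * m) (v + l * h)
      ≤ ∑' l : ℕ, (2 / 3 : ℝ) ^ (2 * m - 2) * (2 * (Real.exp (-h)) ^ l) :=
        Summable.tsum_le_tsum hterm hs hg
    _ = (2 / 3 : ℝ) ^ (2 * m - 2) * (2 * (1 - Real.exp (-h))⁻¹) := by
        rw [tsum_mul_left, tsum_mul_left, tsum_geometric_of_lt_one (Real.exp_pos _).le hg1]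
    _ ≤ (2 / 3 : ℝ) ^ (2 * m - 2) * (4 / h) := by
        gcongr
        have h2 : h / 2 ≤ 1 - Real.exp (-h) := by
          have : Real.exp (-h) ≤ (1 + h)⁻¹ := by
            rw [Real.exp_neg]
            apply inv_anti₀ (by linarith)
            have := Real.add_one_le_exp h
            linarith
          have h3 : (1 + h)⁻¹ ≤ 1 - h / 2 := by
            rw [inv_le_iff_one_le_mul₀ (by linarith)]
            nlinarith
          linarith
        calc 2 * (1 - Real.exp (-h))⁻¹ ≤ 2 * (h / 2)⁻¹ := by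
              gcongr
          _ = 4 / h := by field_simp; norm_num

/-- the window sum. -/
def W (m : ℕ) (h : ℝ) (n i : ℕ) (u : ℝ) : ℝ := ∑ j ∈ range n, ph (2 * m) (u + ((i : ℝ) - j) * h)

lemma W_nonneg (m : ℕ) (h : ℝ) (n i : ℕ) (u : ℝ) : 0 ≤ W m h n i u :=
  Finset.sum_nonneg (fun _ _ => ph_nonneg _ _)

lemma c0_W_le_two {m : ℕ} (hm : 1 ≤ m) {h : ℝ} (hh : 0 < h) (n i : ℕ) (u : ℝ) :
    c0 m h * W m h n i u ≤ 2 := by
  have h1 : W m h n i u ≤ S (2 * m) h u := row_sum_le (by omega) hh u n i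
  have h2 := abs_S_sub (p := 2 * m) (by omega) hh u
  have h3 : S (2 * m) h u ≤ S (2 * m) h 0 + 1 := by
    have := (abs_le.mp h2).2; linarith
  have h4 := one_le_S_zero (p := 2 * m) (by omega) hh
  calc c0 m h * W m h n i u ≤ c0 m h * (2 * S (2 * m) h 0) := by
        gcongr
        · exact (c0_pos hm hh).le
        · linarith
    _ = 2 := by rw [mul_left_comm, c0_mul hm hh, mul_one]

lemma S_window {m : ℕ} (hm : 1 ≤ m) {h : ℝ} (hh : 0 < h) (n i : ℕ) (u : ℝ) :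
    S (2 * m) h u = ∑' l : ℕ, ph (2 * m) ((u + (i + 1) * h) + l * h) + W m h n i u
      + ∑' l : ℕ, ph (2 * m) ((-u + ((n : ℝ) - i) * h) + l * h) := by
  have h1 : S (2 * m) h u = S (2 * m) h (u + ((i + 1 : ℕ) : ℤ) * h) := (S_period u _).symm
  rw [h1, S_split (by omega) hh]
  have e2 : ∑' k : ℕ, ph (2 * m) (u + ((i + 1 : ℕ) : ℤ) * h - (k + 1) * h)
      = ∑' k : ℕ, ph (2 * m) (u + ((i : ℝ) - k) * h) := by
    apply tsum_congr; intro k; congr 1; push_cast; ring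
  have s2 : Summable (fun k : ℕ => ph (2 * m) (u + ((i : ℝ) - k) * h)) := by
    refine (summable_nat_neg (p := 2 * m) (by omega) hh (u + (i + 1) * h)).congr (fun k => ?_)
    congr 1; ring
  rw [e2, ← s2.sum_add_tsum_nat_add n, add_assoc]
  congr 1
  · apply tsum_congr; intro k; congr 1; push_cast; ring
  · unfold W
    congr 1
    apply tsum_congr; intro k
    rw [← ph_neg]; congr 1; push_cast; ring

lemma abs_c0_W_sub_one {m : ℕ} (hm : 1 ≤ m) {h : ℝ} (hh : 0 < h) (h1 : h ≤ 1) (n i : ℕ) (u : ℝ)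
    (hu1 : 1 ≤ u + (i + 1) * h) (hu2 : 1 ≤ -u + ((n : ℝ) - i) * h) :
    |c0 m h * W m h n i u - 1| ≤ Real.exp 1 * Real.sqrt m * h
      + 8 * Real.exp 1 * Real.sqrt m * (2 / 3) ^ (2 * m - 2) := by
  have e1 := S_window hm hh n i u
  have t1 := tail_le hm hh h1 hu1
  have t2 := tail_le hm hh h1 hu2
  have n1 : 0 ≤ ∑' l : ℕ, ph (2 * m) ((u + (i + 1) * h) + l * h) := tsum_nonneg (fun _ => ph_nonneg _ _)
  have n2 : 0 ≤ ∑' l : ℕ, ph (2 * m) ((-u + ((n : ℝ) - i) * h) + l * h) :=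
    tsum_nonneg (fun _ => ph_nonneg _ _)
  have h2 := abs_S_sub (p := 2 * m) (by omega) hh u
  have hc := c0_pos hm hh
  have hc1 := c0_mul hm hh
  have hcle := c0_le hm hh
  have hW : c0 m h * W m h n i u - 1 = c0 m h * (W m h n i u - S (2 * m) h 0) := by
    rw [mul_sub, hc1]
  rw [hW, abs_mul, abs_of_pos hc]
  have h3 : |W m h n i u - S (2 * m) h 0| ≤ 1 + 2 * ((2 / 3) ^ (2 * m - 2) * (4 / h)) := by
    rw [abs_le] at h2 ⊢
    constructor <;> linarith [h2.1, h2.2]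
  calc c0 m h * |W m h n i u - S (2 * m) h 0|
      ≤ (Real.exp 1 * (h * Real.sqrt m)) * (1 + 2 * ((2 / 3) ^ (2 * m - 2) * (4 / h))) := by
        gcongr
    _ = _ := by field_simp; ring

/-- `G_λ(x) = 4 λ² x (1-x) / ((1-x) + λ² x)²`. -/
def G (lam x : ℝ) : ℝ := 4 * lam ^ 2 * (x * (1 - x)) / ((1 - x) + lam ^ 2 * x) ^ 2

lemma G_nonneg (lam : ℝ) {x : ℝ} (h0 : 0 ≤ x) (h1 : x ≤ 1) : 0 ≤ G lam x := by
  unfold G
  have : 0 ≤ x * (1 - x) := mul_nonneg h0 (by linarith)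
  positivity

lemma G_le_one (lam : ℝ) {x : ℝ} (h0 : 0 ≤ x) (h1 : x ≤ 1) : G lam x ≤ 1 := by
  unfold G
  apply div_le_one_of_le₀ _ (by positivity)
  nlinarith [sq_nonneg ((1 - x) - lam ^ 2 * x)]

/-- `u(x) = ½ log ((1-x)/x)`. -/
def uu (x : ℝ) : ℝ := Real.log ((1 - x) / x) / 2

lemma G_eq_ph {x : ℝ} (h0 : 0 < x) (h1 : x < 1) (w : ℝ) :
    G (Real.exp (-w)) x = ph 2 (uu x + w) := by
  have hx1 : 0 < 1 - x := by linarith
  set a := Real.exp (uu x) with ha
  have ha0 : 0 < a := Real.exp_pos _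
  have ha2 : a ^ 2 = (1 - x) / x := by
    rw [ha, ← Real.exp_nat_mul]
    have : ((2 : ℕ) : ℝ) * uu x = Real.log ((1 - x) / x) := by unfold uu; push_cast; ring
    rw [this, Real.exp_log (by positivity)]
  set c := Real.exp w with hc
  have hc0 : 0 < c := Real.exp_pos _
  have hcosh : Real.cosh (uu x + w) = (a * c + (a * c)⁻¹) / 2 := by
    rw [Real.cosh_eq, Real.exp_add, Real.exp_neg, Real.exp_add]
  have hxa : x * a ^ 2 = 1 - x := by rw [ha2]; field_simp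
  unfold G ph
  rw [hcosh, Real.exp_neg, ← hc, inv_pow]
  have h2 : 1 - x = x * a ^ 2 := hxa.symm
  rw [h2]
  have hx' : x ≠ 0 := h0.ne'
  field_simp
  ring

lemma G_pow_eq_ph {x : ℝ} (h0 : 0 < x) (h1 : x < 1) (w : ℝ) (m : ℕ) :
    (G (Real.exp (-w)) x) ^ m = ph (2 * m) (uu x + w) := by
  rw [G_eq_ph h0 h1]
  unfold ph
  rw [← pow_mul]

/-- window function `F_i(x) = c₀ ∑_{j<n} G_{λ_ij}(x)^m`, `λ_ij = exp(-(i-j) h)`. -/
def F (m : ℕ) (h : ℝ) (n i : ℕ) (x : ℝ) : ℝ :=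
  c0 m h * ∑ j ∈ range n, (G (Real.exp (-(((i : ℝ) - j) * h))) x) ^ m

lemma F_eq {m : ℕ} {h : ℝ} (n i : ℕ) {x : ℝ} (h0 : 0 < x) (h1 : x < 1) :
    F m h n i x = c0 m h * W m h n i (uu x) := by
  unfold F W
  congr 1
  apply Finset.sum_congr rfl; intro j _
  exact G_pow_eq_ph h0 h1 _ _

lemma F_nonneg {m : ℕ} (hm : 1 ≤ m) {h : ℝ} (hh : 0 < h) (n i : ℕ) {x : ℝ} (h0 : 0 ≤ x) (h1 : x ≤ 1) :
    0 ≤ F m h n i x := by
  unfold F
  exact mul_nonneg (c0_pos hm hh).le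
    (Finset.sum_nonneg (fun j _ => pow_nonneg (G_nonneg _ h0 h1) _))

lemma F_le_two {m : ℕ} (hm : 1 ≤ m) {h : ℝ} (hh : 0 < h) (n i : ℕ) {x : ℝ} (h0 : 0 ≤ x) (h1 : x ≤ 1) :
    F m h n i x ≤ 2 := by
  rcases eq_or_lt_of_le h0 with h0' | h0'
  · have : F m h n i x = 0 := by
      unfold F
      have : ∀ j ∈ range n, (G (Real.exp (-(((i : ℝ) - j) * h))) x) ^ m = 0 := by
        intro j _; rw [← h0']; simp [G]; omega
      rw [Finset.sum_eq_zero this, mul_zero]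
    rw [this]; norm_num
  rcases eq_or_lt_of_le h1 with h1' | h1'
  · have : F m h n i x = 0 := by
      unfold F
      have : ∀ j ∈ range n, (G (Real.exp (-(((i : ℝ) - j) * h))) x) ^ m = 0 := by
        intro j _; rw [h1']; simp [G]; omega
      rw [Finset.sum_eq_zero this, mul_zero]
    rw [this]; norm_num
  rw [F_eq n i h0' h1']
  exact c0_W_le_two hm hh n i _

/-- `Φ(x) = (1/n) ∑_{i<n} F_i(x)`. -/
def Phi (m : ℕ) (h : ℝ) (n : ℕ) (x : ℝ) : ℝ := (n : ℝ)⁻¹ * ∑ i ∈ range n, F m h n i x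

lemma Phi_nonneg {m : ℕ} (hm : 1 ≤ m) {h : ℝ} (hh : 0 < h) (n : ℕ) {x : ℝ} (h0 : 0 ≤ x) (h1 : x ≤ 1) :
    0 ≤ Phi m h n x := by
  unfold Phi
  exact mul_nonneg (by positivity) (Finset.sum_nonneg (fun i _ => F_nonneg hm hh n i h0 h1))

lemma Phi_le_two {m : ℕ} (hm : 1 ≤ m) {h : ℝ} (hh : 0 < h) (n : ℕ) {x : ℝ} (h0 : 0 ≤ x) (h1 : x ≤ 1) :
    Phi m h n x ≤ 2 := by
  unfold Phi
  rcases Nat.eq_zero_or_pos n with hn | hn
  · subst hn; simp
  have hn' : (0 : ℝ) < n := by exact_mod_cast hn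
  have : ∑ i ∈ range n, F m h n i x ≤ ∑ _i ∈ range n, (2 : ℝ) :=
    Finset.sum_le_sum (fun i _ => F_le_two hm hh n i h0 h1)
  rw [Finset.sum_const, card_range, nsmul_eq_mul] at this
  calc (n : ℝ)⁻¹ * ∑ i ∈ range n, F m h n i x ≤ (n : ℝ)⁻¹ * (n * 2) := by gcongr
    _ = 2 := by field_simp

lemma abs_uu_le {b x : ℝ} (hb : 0 < b) (h0 : 0 < x) (h1 : x < 1) (hx : b ≤ x * (1 - x)) :
    |uu x| ≤ |Real.log b| := by
  have hx1 : 0 < 1 - x := by linarith
  have hbx : b ≤ x := hx.trans (by nlinarith)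
  have hbx1 : b ≤ 1 - x := hx.trans (by nlinarith)
  have hb1 : b ≤ 1 := by linarith
  have hlb : Real.log b ≤ 0 := Real.log_nonpos hb.le hb1
  rw [abs_of_nonpos hlb]
  unfold uu
  rw [Real.log_div hx1.ne' h0.ne']
  have l1 : Real.log b ≤ Real.log x := Real.log_le_log hb hbx
  have l2 : Real.log b ≤ Real.log (1 - x) := Real.log_le_log hb hbx1
  have l3 : Real.log x ≤ 0 := Real.log_nonpos h0.le h1.le
  have l4 : Real.log (1 - x) ≤ 0 := Real.log_nonpos hx1.le (by linarith)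
  rw [abs_le]
  constructor <;> linarith

/-- number of indices outside the good window. -/
lemma card_bad {h U : ℝ} (hh : 0 < h) (hU : 0 ≤ U) (n : ℕ) (u : ℝ) (hu : |u| ≤ U) :
    ((((range n).filter (fun i : ℕ => ¬ (1 ≤ u + ((i : ℝ) + 1) * h ∧ 1 ≤ -u + ((n : ℝ) - i) * h))).card : ℕ) : ℝ)
      ≤ 2 * ((1 + U) / h) := by
  set N : ℕ := ⌊(1 + U) / h⌋₊ with hN
  have hNle : (N : ℝ) ≤ (1 + U) / h := Nat.floor_le (by positivity)
  have hu' := abs_le.mp hu
  have hsub : (range n).filter (fun i : ℕ => ¬ (1 ≤ u + ((i : ℝ) + 1) * h ∧ 1 ≤ -u + ((n : ℝ) - i) * h))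
      ⊆ (range N) ∪ ((range n).filter (fun i => n - i ≤ N)) := by
    intro i hi
    rw [Finset.mem_filter, Finset.mem_range] at hi
    obtain ⟨hin, hi2⟩ := hi
    rw [Finset.mem_union, Finset.mem_range, Finset.mem_filter, Finset.mem_range]
    by_cases c1 : 1 ≤ u + ((i : ℝ) + 1) * h
    · right
      refine ⟨hin, ?_⟩
      have c2 : ¬ (1 ≤ -u + ((n : ℝ) - i) * h) := fun c => hi2 ⟨c1, c⟩
      push Not at c2
      rw [hN, Nat.le_floor_iff (by positivity), le_div_iff₀ hh, Nat.cast_sub hin.le]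
      linarith [hu'.1, hu'.2]
    · left
      push Not at c1
      have : ((i + 1 : ℕ) : ℝ) ≤ (1 + U) / h := by
        rw [le_div_iff₀ hh]; push_cast; linarith [hu'.1, hu'.2]
      have : i + 1 ≤ N := by rw [hN]; exact Nat.le_floor this
      omega
  have hc2 : ((range n).filter (fun i => n - i ≤ N)).card ≤ N := by
    have : (range n).filter (fun i => n - i ≤ N) ⊆ Finset.Ico (n - N) n := by
      intro i hi
      rw [Finset.mem_filter, Finset.mem_range] at hi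
      rw [Finset.mem_Ico]; omega
    refine (Finset.card_le_card this).trans ?_
    rw [Nat.card_Ico]; omega
  have := (Finset.card_le_card hsub).trans (Finset.card_union_le _ _)
  rw [card_range] at this
  have h3 : (((range n).filter (fun i : ℕ => ¬ (1 ≤ u + ((i : ℝ) + 1) * h ∧ 1 ≤ -u + ((n : ℝ) - i) * h))).card : ℝ)
      ≤ (N : ℝ) + N := by exact_mod_cast this.trans (by omega)
  linarith

/-- average of `|F_i - 1|`. -/
lemma sum_abs_F_sub_one {m : ℕ} (hm : 1 ≤ m) {h : ℝ} (hh : 0 < h) (hh1 : h ≤ 1) (n : ℕ)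
    {b x : ℝ} (hb : 0 < b) (h0 : 0 ≤ x) (h1 : x ≤ 1) (hx : b ≤ x * (1 - x)) :
    ∑ i ∈ range n, |F m h n i x - 1| ≤ 2 * ((1 + |Real.log b|) / h)
      + n * (Real.exp 1 * Real.sqrt m * h + 8 * Real.exp 1 * Real.sqrt m * (2 / 3) ^ (2 * m - 2)) := by
  have h0' : 0 < x := by
    rcases eq_or_lt_of_le h0 with h | h
    · rw [← h] at hx; linarith
    · exact h
  have h1' : x < 1 := by
    rcases eq_or_lt_of_le h1 with h | h
    · rw [h] at hx; linarith
    · exact h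
  have hu := abs_uu_le hb h0' h1' hx
  set E := Real.exp 1 * Real.sqrt m * h + 8 * Real.exp 1 * Real.sqrt m * (2 / 3) ^ (2 * m - 2) with hE
  have hE0 : 0 ≤ E := by positivity
  rw [← Finset.sum_filter_add_sum_filter_not (range n)
    (fun i : ℕ => ¬ (1 ≤ uu x + ((i : ℝ) + 1) * h ∧ 1 ≤ -uu x + ((n : ℝ) - i) * h))]
  apply add_le_add
  · calc ∑ i ∈ (range n).filter (fun i : ℕ => ¬ (1 ≤ uu x + ((i : ℝ) + 1) * h ∧ 1 ≤ -uu x + ((n : ℝ) - i) * h)),
          |F m h n i x - 1|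
        ≤ ∑ _i ∈ (range n).filter (fun i : ℕ => ¬ (1 ≤ uu x + ((i : ℝ) + 1) * h ∧ 1 ≤ -uu x + ((n : ℝ) - i) * h)),
          (1 : ℝ) := by
          apply Finset.sum_le_sum; intro i _
          rw [abs_le]
          constructor <;> linarith [F_nonneg hm hh n i h0 h1, F_le_two hm hh n i h0 h1]
      _ = _ := by rw [Finset.sum_const, nsmul_eq_mul, mul_one]
      _ ≤ _ := card_bad hh (abs_nonneg _) n _ hu
  · calc ∑ i ∈ (range n).filter (fun i : ℕ => ¬¬ (1 ≤ uu x + ((i : ℝ) + 1) * h ∧ 1 ≤ -uu x + ((n : ℝ) - i) * h)),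
          |F m h n i x - 1|
        ≤ ∑ _i ∈ (range n).filter (fun i : ℕ => ¬¬ (1 ≤ uu x + ((i : ℝ) + 1) * h ∧ 1 ≤ -uu x + ((n : ℝ) - i) * h)),
          E := by
          apply Finset.sum_le_sum; intro i hi
          rw [Finset.mem_filter, not_not] at hi
          rw [F_eq n i h0' h1']
          exact abs_c0_W_sub_one hm hh hh1 n i _ hi.2.1 hi.2.2
      _ ≤ ∑ _i ∈ range n, E := by
          apply Finset.sum_le_sum_of_subset_of_nonneg (Finset.filter_subset _ _)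
          intros; exact hE0
      _ = n * E := by rw [Finset.sum_const, card_range, nsmul_eq_mul]

lemma abs_Phi_sub_one {m : ℕ} (hm : 1 ≤ m) {h : ℝ} (hh : 0 < h) (hh1 : h ≤ 1) {n : ℕ} (hn : 1 ≤ n)
    {b x : ℝ} (hb : 0 < b) (h0 : 0 ≤ x) (h1 : x ≤ 1) (hx : b ≤ x * (1 - x)) :
    |Phi m h n x - 1| ≤ 2 * (1 + |Real.log b|) / (n * h)
      + (Real.exp 1 * Real.sqrt m * h + 8 * Real.exp 1 * Real.sqrt m * (2 / 3) ^ (2 * m - 2)) := by
  have hn' : (0 : ℝ) < n := by exact_mod_cast hn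
  have e : Phi m h n x - 1 = (n : ℝ)⁻¹ * ∑ i ∈ range n, (F m h n i x - 1) := by
    unfold Phi
    rw [Finset.sum_sub_distrib, Finset.sum_const, card_range, nsmul_eq_mul, mul_one, mul_sub]
    field_simp
  rw [e, abs_mul, abs_of_pos (inv_pos.mpr hn')]
  have h2 := (Finset.abs_sum_le_sum_abs (fun i => F m h n i x - 1) (range n)).trans
    (sum_abs_F_sub_one hm hh hh1 n hb h0 h1 hx)
  calc (n : ℝ)⁻¹ * |∑ i ∈ range n, (F m h n i x - 1)|
      ≤ (n : ℝ)⁻¹ * (2 * ((1 + |Real.log b|) / h)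
      + n * (Real.exp 1 * Real.sqrt m * h + 8 * Real.exp 1 * Real.sqrt m * (2 / 3) ^ (2 * m - 2))) := by
        gcongr
    _ = _ := by field_simp

/-- `K_θ² = ∑ 1/(n ω_i) = (Z/n) ∑ e^{2 h i}`, `ω_i = e^{-2hi}/Z`. -/
def Kth2 (h : ℝ) (n : ℕ) : ℝ :=
  (n : ℝ)⁻¹ * ((∑ i ∈ range n, Real.exp (-(2 * h * i))) * ∑ i ∈ range n, Real.exp (2 * h * i))

lemma Kth2_nonneg (h : ℝ) (n : ℕ) : 0 ≤ Kth2 h n := by unfold Kth2; positivity

lemma Kth2_le {h : ℝ} (hh : 0 < h) (hh1 : h ≤ 1) {n : ℕ} (hn : 1 ≤ n) :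
    Kth2 h n ≤ 3 / (2 * h) * Real.exp (2 * (n * h)) := by
  have hn' : (0 : ℝ) < n := by exact_mod_cast hn
  have hr1 : Real.exp (-(2 * h)) < 1 := by rw [Real.exp_lt_one_iff]; linarith
  have z1 : ∑ i ∈ range n, Real.exp (-(2 * h * i)) ≤ 3 / (2 * h) := by
    have e1 : ∑ i ∈ range n, Real.exp (-(2 * h * i)) = ∑ i ∈ range n, (Real.exp (-(2 * h))) ^ i := by
      apply Finset.sum_congr rfl; intro i _
      rw [← Real.exp_nat_mul]; congr 1; ring
    rw [e1]
    have hs := summable_geometric_of_lt_one (Real.exp_pos (-(2 * h))).le hr1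
    have h2 := hs.sum_le_tsum (range n) (fun _ _ => by positivity)
    rw [tsum_geometric_of_lt_one (Real.exp_pos _).le hr1] at h2
    refine h2.trans ?_
    have h3 : 2 * h / 3 ≤ 1 - Real.exp (-(2 * h)) := by
      have h4 : Real.exp (-(2 * h)) ≤ (1 + 2 * h)⁻¹ := by
        rw [Real.exp_neg]
        apply inv_anti₀ (by linarith)
        have := Real.add_one_le_exp (2 * h)
        linarith
      have h5 : (1 + 2 * h)⁻¹ ≤ 1 - 2 * h / 3 := by
        rw [inv_le_iff_one_le_mul₀ (by linarith)]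
        nlinarith
      linarith
    calc (1 - Real.exp (-(2 * h)))⁻¹ ≤ (2 * h / 3)⁻¹ := inv_anti₀ (by positivity) h3
      _ = 3 / (2 * h) := by rw [inv_div]
  have z2 : ∑ i ∈ range n, Real.exp (2 * h * i) ≤ n * Real.exp (2 * (n * h)) := by
    calc ∑ i ∈ range n, Real.exp (2 * h * i) ≤ ∑ _i ∈ range n, Real.exp (2 * (n * h)) := by
          apply Finset.sum_le_sum; intro i hi
          have : (i : ℝ) ≤ n := by exact_mod_cast (Finset.mem_range.mp hi).le
          apply Real.exp_le_exp.mpr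
          nlinarith
      _ = _ := by rw [Finset.sum_const, card_range, nsmul_eq_mul]
  unfold Kth2
  calc (n : ℝ)⁻¹ * ((∑ i ∈ range n, Real.exp (-(2 * h * i))) * ∑ i ∈ range n, Real.exp (2 * h * i))
      ≤ (n : ℝ)⁻¹ * ((3 / (2 * h)) * (n * Real.exp (2 * (n * h)))) := by gcongr
    _ = _ := by field_simp

/-- **Choice of the parameters of the letter lemma.** -/
theorem exists_params (κ b τ : ℝ) (hκ : 0 < κ) (hb : 0 < b) (hτ : 0 < τ) :
    ∃ (m n : ℕ) (h : ℝ), 1 ≤ m ∧ 1 ≤ n ∧ 0 < h ∧ h ≤ 1 ∧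
      (3 * c0 m h / (m + 1)) * Kth2 h n ≤ τ ∧
      ∀ x : ℝ, 0 ≤ x → x ≤ 1 → b ≤ x * (1 - x) → |Phi m h n x - 1| ≤ κ := by
  set U : ℝ := 1 + |Real.log b| with hU
  have hU0 : 0 < U := by positivity
  set L : ℝ := 6 * U / κ with hL
  have hL0 : 0 < L := by positivity
  -- choose m
  have t1 : Filter.Tendsto (fun m : ℕ => 8 * Real.exp 1 * ((m : ℝ) * (2 / 3 : ℝ) ^ m)) Filter.atTop (nhds 0) := by
    have := tendsto_self_mul_const_pow_of_lt_one (r := (2 / 3 : ℝ)) (by norm_num) (by norm_num)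
    simpa using this.const_mul (8 * Real.exp 1)
  have t2 : Filter.Tendsto (fun m : ℕ => (9 * Real.exp 1 / 2 * Real.exp (2 * L)) / Real.sqrt m)
      Filter.atTop (nhds 0) := by
    apply Filter.Tendsto.const_div_atTop
    exact Real.tendsto_sqrt_atTop.comp tendsto_natCast_atTop_atTop
  obtain ⟨m, hm⟩ := ((t1.eventually (gt_mem_nhds (by positivity : (0 : ℝ) < κ / 3))).and
    ((t2.eventually (gt_mem_nhds hτ)).and (Filter.eventually_ge_atTop 2))).exists
  obtain ⟨hm1, hm2, hm3⟩ := hm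
  have hm0 : (0 : ℝ) < m := by exact_mod_cast (by omega : 0 < m)
  have hsm : 0 < Real.sqrt m := Real.sqrt_pos.mpr hm0
  -- choose n
  obtain ⟨n, hn⟩ := exists_nat_gt (max L (3 * Real.exp 1 * Real.sqrt m * L / κ))
  have hn1 : L < n := lt_of_le_of_lt (le_max_left _ _) hn
  have hn2 : 3 * Real.exp 1 * Real.sqrt m * L / κ < n := lt_of_le_of_lt (le_max_right _ _) hn
  have hn0 : (0 : ℝ) < n := hL0.trans hn1
  have hnn : 1 ≤ n := by exact_mod_cast (Nat.pos_of_ne_zero (by rintro rfl; simp at hn0))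
  refine ⟨m, n, L / n, by omega, hnn, by positivity, ?_, ?_, ?_⟩
  · rw [div_le_one hn0]; exact hn1.le
  · have hh : 0 < L / n := by positivity
    have hh1 : L / n ≤ 1 := by rw [div_le_one hn0]; exact hn1.le
    have k1 := Kth2_le hh hh1 hnn
    have k2 := c0_le (m := m) (by omega) hh
    have hnL : (n : ℝ) * (L / n) = L := by field_simp
    rw [hnL] at k1
    have hc := (c0_pos (m := m) (by omega) hh).le
    calc (3 * c0 m (L / n) / (m + 1)) * Kth2 (L / n) n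
        ≤ (3 * (Real.exp 1 * ((L / n) * Real.sqrt m)) / m) * (3 / (2 * (L / n)) * Real.exp (2 * L)) := by
          have : 3 * c0 m (L / n) / (m + 1) ≤ 3 * (Real.exp 1 * ((L / n) * Real.sqrt m)) / m := by
            apply div_le_div₀ (by positivity) (by linarith) hm0 (by linarith)
          exact mul_le_mul this k1 (Kth2_nonneg _ _) (by positivity)
      _ = (9 * Real.exp 1 / 2 * Real.exp (2 * L)) * (Real.sqrt m / m) := by field_simp; ring
      _ = (9 * Real.exp 1 / 2 * Real.exp (2 * L)) / Real.sqrt m := by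
          rw [Real.sqrt_div_self', mul_one_div]
      _ ≤ τ := hm2.le
  · intro x h0 h1 hx
    have hh : 0 < L / n := by positivity
    have hh1 : L / n ≤ 1 := by rw [div_le_one hn0]; exact hn1.le
    have := abs_Phi_sub_one (m := m) (by omega) hh hh1 hnn hb h0 h1 hx
    refine this.trans ?_
    have hnL : (n : ℝ) * (L / n) = L := by field_simp
    rw [hnL, ← hU]
    have a1 : 2 * U / L = κ / 3 := by rw [hL]; field_simp; ring
    have a2 : Real.exp 1 * Real.sqrt m * (L / n) ≤ κ / 3 := by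
      rw [← mul_div_assoc, div_le_iff₀ hn0]
      rw [div_lt_iff₀ hκ] at hn2
      nlinarith
    have a3 : 8 * Real.exp 1 * Real.sqrt m * (2 / 3) ^ (2 * m - 2) ≤ κ / 3 := by
      refine le_trans ?_ hm1.le
      have b1 : Real.sqrt m ≤ m := by
        rw [Real.sqrt_le_left (by positivity)]
        have : (1 : ℝ) ≤ m := by exact_mod_cast (by omega : 1 ≤ m)
        nlinarith
      have b2 : (2 / 3 : ℝ) ^ (2 * m - 2) ≤ (2 / 3 : ℝ) ^ m :=
        pow_le_pow_of_le_one (by norm_num) (by norm_num) (by omega)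
      calc 8 * Real.exp 1 * Real.sqrt m * (2 / 3) ^ (2 * m - 2)
          ≤ 8 * Real.exp 1 * m * (2 / 3) ^ m := by gcongr
        _ = _ := by ring
    linarith

end

end Crest.Agent.R078.Z.LLB
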