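import Mathlib
import Crest.Agent.R078.S103LSys938

/-!
# R78 / S0103, letter lemma: positivity of the transposed Radon–Nikodym matrix (helper535)

If `opM x ≥ 0`, `x i j ∈ M`, and `h i j ∈ M'` is the Radon–Nikodym partner of `x i j` with parameter
`√(ω i / ω j)`, then `opM hᵀ ≥ 0`.  No amplified von Neumann algebra is used.
-/

set_option autoImplicit false
set_option linter.unusedSectionVars false

open scoped ComplexConjugate ComplexOrder

noncomputable section

namespace Crest.Agent.R078.Z.Pos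

open Crest.Agent.R078.S103.LSys

universe u

variable {H : Type u} [NormedAddCommGroup H] [InnerProductSpace ℂ H]

section basics

variable {J : Type*} [Fintype J]

/-- the vector `v` in coordinate `i`. -/
def sgl [DecidableEq J] (i : J) (v : H) : PiLp 2 (fun _ : J => H) := WithLp.toLp 2 (Pi.single i v)

@[simp] theorem sgl_apply [DecidableEq J] (i j : J) (v : H) :
    sgl i v j = if j = i then v else 0 := by
  by_cases h : j = i
  · subst h; simp [sgl]
  · simp [sgl, h]

theorem opM_sgl [DecidableEq J] (x : Matrix J J (H →L[ℂ] H)) (j : J) (v : H) (i : J) :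
    opM x (sgl j v) i = x i j v := by
  rw [opM_apply]
  simp only [sgl_apply]
  rw [Finset.sum_eq_single j]
  · simp
  · intro k _ hk; simp [hk]
  · simp

theorem norm_sgl [DecidableEq J] (i : J) (v : H) : ‖sgl i v‖ = ‖v‖ := by
  have : ‖sgl i v‖ ^ 2 = ‖v‖ ^ 2 := by
    rw [PiLp.norm_sq_eq_of_L2]
    rw [Finset.sum_eq_single i]
    · simp
    · intro k _ hk; simp [hk]
    · simp
  exact (sq_eq_sq₀ (norm_nonneg _) (norm_nonneg _)).mp this

theorem eq_sum_sgl [DecidableEq J] (v : PiLp 2 (fun _ : J => H)) : v = ∑ j, sgl j (v j) := by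
  ext i
  simp only [WithLp.ofLp_sum, Finset.sum_apply]
  rw [Finset.sum_eq_single i]
  · simp
  · intro k _ hk
    have := sgl_apply k i (v k)
    rw [if_neg hk.symm] at this
    exact this
  · simp

theorem inner_opM (x : Matrix J J (H →L[ℂ] H)) (v w : PiLp 2 (fun _ : J => H)) :
    inner ℂ v (opM x w) = ∑ i, ∑ j, inner ℂ (v i) (x i j (w j)) := by
  rw [PiLp.inner_apply]
  refine Finset.sum_congr rfl fun i _ => ?_
  rw [opM_apply, inner_sum]

theorem opM_add (x y : Matrix J J (H →L[ℂ] H)) : opM (x + y) = opM x + opM y := by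
  ext v i
  simp [opM_apply, Finset.sum_add_distrib]

theorem opM_injective [DecidableEq J] {x y : Matrix J J (H →L[ℂ] H)} (h : opM x = opM y) : x = y := by
  ext i j v
  rw [← opM_sgl x j v i, ← opM_sgl y j v i, h]

variable [CompleteSpace H]

theorem star_opM (x : Matrix J J (H →L[ℂ] H)) : star (opM x) = opM (star x) := by
  rw [ContinuousLinearMap.star_eq_adjoint]
  symm
  rw [ContinuousLinearMap.eq_adjoint_iff]
  intro v w
  rw [inner_opM, ← inner_conj_symm, inner_opM, map_sum, Finset.sum_comm]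
  refine Finset.sum_congr rfl fun i _ => ?_
  rw [map_sum]
  refine Finset.sum_congr rfl fun j _ => ?_
  rw [inner_conj_symm, Matrix.star_apply, ContinuousLinearMap.star_eq_adjoint,
    ContinuousLinearMap.adjoint_inner_left]

/-- entries of an operator on `H^J`. -/
def ent [DecidableEq J] (T : PiLp 2 (fun _ : J => H) →L[ℂ] PiLp 2 (fun _ : J => H)) :
    Matrix J J (H →L[ℂ] H) := fun i j =>
  (PiLp.proj 2 (fun _ : J => H) i) ∘L T ∘L
    ((PiLp.continuousLinearEquiv 2 ℂ (fun _ : J => H)).symm.toContinuousLinearMap ∘L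
      ContinuousLinearMap.single ℂ (fun _ : J => H) j)

theorem ent_apply [DecidableEq J] (T : PiLp 2 (fun _ : J => H) →L[ℂ] PiLp 2 (fun _ : J => H))
    (i j : J) (v : H) : ent T i j v = T (sgl j v) i := rfl

theorem opM_ent [DecidableEq J] (T : PiLp 2 (fun _ : J => H) →L[ℂ] PiLp 2 (fun _ : J => H)) :
    opM (ent T) = T := by
  ext v i
  rw [opM_apply]
  conv_rhs => rw [eq_sum_sgl v, map_sum]
  simp only [WithLp.ofLp_sum, Finset.sum_apply]
  rfl

/-- diagonal amplification `x ⊗ 1`. -/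
def dg [DecidableEq J] (x : H →L[ℂ] H) :
    PiLp 2 (fun _ : J => H) →L[ℂ] PiLp 2 (fun _ : J => H) :=
  opM (Matrix.diagonal fun _ => x)

theorem dg_apply [DecidableEq J] (x : H →L[ℂ] H) (v : PiLp 2 (fun _ : J => H)) (i : J) :
    dg x v i = x (v i) := by
  unfold dg
  rw [opM_apply, Finset.sum_eq_single i]
  · simp
  · intro k _ hk; simp [Matrix.diagonal_apply_ne' _ hk]
  · simp

theorem commute_dg_iff [DecidableEq J] (T : PiLp 2 (fun _ : J => H) →L[ℂ] PiLp 2 (fun _ : J => H))
    (x : H →L[ℂ] H) : Commute T (dg x) ↔ ∀ i j, Commute (ent T i j) x := by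
  constructor
  · intro h i j
    ext v
    change ent T i j (x v) = x (ent T i j v)
    rw [ent_apply, ent_apply]
    have h1 : sgl j (x v) = dg x (sgl j v) := by
      ext k
      change sgl j (x v) k = dg x (sgl j v) k
      rw [dg_apply, sgl_apply, sgl_apply]
      split_ifs <;> simp
    rw [h1]
    have h2 := congrArg (fun S => S (sgl j v)) h.eq
    change T (dg x (sgl j v)) = dg x (T (sgl j v)) at h2
    rw [h2, dg_apply]
  · intro h
    ext v i
    change T (dg x v) i = dg x (T v) i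
    rw [dg_apply]
    conv_lhs => rw [← opM_ent T]
    conv_rhs => rw [← opM_ent T]
    rw [opM_apply, opM_apply, map_sum]
    refine Finset.sum_congr rfl fun j _ => ?_
    rw [dg_apply]
    exact congrArg (fun S => S (v j)) (h i j).eq

end basics

section RN

variable [CompleteSpace H]

/-- Radon–Nikodym pairs (helper965's predicate). -/
def RN (M : VonNeumannAlgebra H) (ξ : H) (lam : ℝ) (x h : H →L[ℂ] H) : Prop :=
  ∀ y ∈ M.commutant, 2 * inner ℂ (y ξ) (x ξ)
    = lam * inner ℂ (y ξ) (h ξ) + lam⁻¹ * inner ℂ (star h ξ) (star y ξ)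

/-- `h` vanishes on the orthogonal complement of `M ξ`. -/
def Sup (M : VonNeumannAlgebra H) (ξ : H) (h : H →L[ℂ] H) : Prop :=
  ∀ v : H, (∀ z ∈ M, inner ℂ (z ξ) v = 0) → h v = 0

/-- an element of `M'` supported on `[M ξ]` and killing `ξ` is zero. -/
theorem eq_zero_of_Sup {M : VonNeumannAlgebra H} {ξ : H} {h : H →L[ℂ] H}
    (hm : h ∈ M.commutant) (hs : Sup M ξ h) (h0 : h ξ = 0) : h = 0 := by
  -- closed span of `M ξ`
  let L : Submodule ℂ H :=
    { carrier := {v | ∃ z ∈ M, v = z ξ}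
      add_mem' := by
        rintro a b ⟨z, hz, rfl⟩ ⟨w, hw, rfl⟩
        exact ⟨z + w, add_mem hz hw, rfl⟩
      zero_mem' := ⟨0, zero_mem M, rfl⟩
      smul_mem' := by
        rintro c a ⟨z, hz, rfl⟩
        exact ⟨c • z, M.toStarSubalgebra.smul_mem hz c, rfl⟩ }
  have hL : ∀ v ∈ L.topologicalClosure, h v = 0 := by
    intro v hv
    have hcl : IsClosed {v : H | h v = 0} := isClosed_eq h.continuous continuous_const
    have hsub : (L : Set H) ⊆ {v : H | h v = 0} := by
      rintro v ⟨z, hz, rfl⟩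
      have hc := VonNeumannAlgebra.mem_commutant_iff.mp hm z hz
      have := congrArg (fun S => S ξ) hc
      change z (h ξ) = h (z ξ) at this
      change h (z ξ) = 0
      rw [← this, h0, map_zero]
    exact closure_minimal hsub hcl hv
  have : CompleteSpace L.topologicalClosure := L.isClosed_topologicalClosure.completeSpace_coe
  ext v
  obtain ⟨a, ha, b, hb, rfl⟩ := L.topologicalClosure.exists_add_mem_mem_orthogonal v
  rw [map_add, hL a ha, zero_add]
  change h b = 0
  apply hs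
  intro z hz
  exact (Submodule.mem_orthogonal _ _).mp hb (z ξ)
    (L.le_topologicalClosure ⟨z, hz, rfl⟩)

theorem RN.sub {M : VonNeumannAlgebra H} {ξ : H} {lam : ℝ} {x h x' h' : H →L[ℂ] H}
    (h1 : RN M ξ lam x h) (h2 : RN M ξ lam x' h') : RN M ξ lam (x - x') (h - h') := by
  intro y hy
  have e1 := h1 y hy
  have e2 := h2 y hy
  simp only [sub_apply, inner_sub_right, star_sub, inner_sub_left]
  linear_combination e1 - e2

theorem RN.zero_left {M : VonNeumannAlgebra H} {ξ : H} {lam : ℝ} (hl : 0 < lam) {d : H →L[ℂ] H}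
    (hd : RN M ξ lam 0 d) (hm : d ∈ M.commutant) (hs : Sup M ξ d) : d = 0 := by
  have e := hd d hm
  simp only [zero_apply, inner_zero_right, mul_zero,
    inner_self_eq_norm_sq_to_K] at e
  have e2 : (0 : ℝ) = lam * ‖d ξ‖ ^ 2 + lam⁻¹ * ‖star d ξ‖ ^ 2 := by
    have e3 : ((0 : ℝ) : ℂ) = ((lam * ‖d ξ‖ ^ 2 + lam⁻¹ * ‖star d ξ‖ ^ 2 : ℝ) : ℂ) := by
      push_cast
      simpa using e
    exact_mod_cast e3
  have h1 : 0 ≤ lam⁻¹ * ‖star d ξ‖ ^ 2 := by positivity
  have h2 : 0 ≤ lam * ‖d ξ‖ ^ 2 := by positivity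
  have h3 : lam * ‖d ξ‖ ^ 2 = 0 := by linarith
  have h4 : d ξ = 0 := by
    rcases mul_eq_zero.mp h3 with h | h
    · exact absurd h hl.ne'
    · simpa using h
  exact eq_zero_of_Sup hm hs h4

/-- uniqueness of the partner. -/
theorem RN.unique {M : VonNeumannAlgebra H} {ξ : H} {lam : ℝ} (hl : 0 < lam) {x h h' : H →L[ℂ] H}
    (h1 : RN M ξ lam x h) (h2 : RN M ξ lam x h') (hm : h ∈ M.commutant) (hm' : h' ∈ M.commutant)
    (hs : Sup M ξ h) (hs' : Sup M ξ h') : h = h' := by
  have := h1.sub h2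
  rw [sub_self] at this
  refine sub_eq_zero.mp (this.zero_left hl (sub_mem hm hm') ?_)
  intro v hv
  rw [sub_apply, hs v hv, hs' v hv, sub_zero]

/-- adjoint of a pair. -/
theorem RN.star {M : VonNeumannAlgebra H} {ξ : H} {lam : ℝ} {x h : H →L[ℂ] H} (hx : x ∈ M)
    (h1 : RN M ξ lam x h) : RN M ξ lam⁻¹ (star x) (star h) := by
  intro y hy
  have e := h1 (Star.star y) (star_mem hy)
  rw [star_star] at e
  have e' := congrArg (starRingEnd ℂ) e
  simp only [map_mul, map_add, inner_conj_symm, Complex.conj_ofReal] at e'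
  have hc := VonNeumannAlgebra.mem_commutant_iff.mp hy x hx
  have e3 : inner ℂ (x ξ) (Star.star y ξ) = inner ℂ (y ξ) (Star.star x ξ) := by
    rw [ContinuousLinearMap.star_eq_adjoint, ContinuousLinearMap.star_eq_adjoint,
      ContinuousLinearMap.adjoint_inner_right, ContinuousLinearMap.adjoint_inner_right]
    have := congrArg (fun S => S ξ) hc
    change x (y ξ) = y (x ξ) at this
    rw [this]
  rw [e3] at e'
  rw [star_star, inv_inv]
  have e4 : (starRingEnd ℂ) (2 : ℂ) = 2 := by
    rw [show (2 : ℂ) = ((2 : ℝ) : ℂ) by norm_num, Complex.conj_ofReal]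
  rw [e4] at e'
  rw [e']
  ring

end RN

section pos

variable [CompleteSpace H] {J : Type*} [Fintype J] [DecidableEq J]

theorem opM_mul (x y : Matrix J J (H →L[ℂ] H)) : opM (x * y) = opM x * opM y := by
  ext v i
  change opM (x * y) v i = opM x (opM y v) i
  simp only [opM_apply, Matrix.mul_apply, sum_apply, map_sum, mul_apply_eq_comp]
  rw [Finset.sum_comm]

theorem ent_opM (x : Matrix J J (H →L[ℂ] H)) : ent (opM x) = x :=
  opM_injective (opM_ent _)

theorem ent_mul (S T : PiLp 2 (fun _ : J => H) →L[ℂ] PiLp 2 (fun _ : J => H)) (i j : J) :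
    ent (S * T) i j = ∑ k, ent S i k * ent T k j := by
  have : ent (S * T) = ent S * ent T := by
    apply opM_injective
    rw [opM_ent, opM_mul, opM_ent, opM_ent]
  rw [this, Matrix.mul_apply]

theorem ent_star (T : PiLp 2 (fun _ : J => H) →L[ℂ] PiLp 2 (fun _ : J => H)) (i j : J) :
    ent (star T) i j = star (ent T j i) := by
  have : ent (star T) = star (ent T) := by
    apply opM_injective
    rw [opM_ent, ← star_opM, opM_ent]
  rw [this, Matrix.star_apply]

/-- positive/negative parts and a square root, on an abstract Hilbert space. -/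
theorem exists_neg_part {G : Type*} [NormedAddCommGroup G] [InnerProductSpace ℂ G] [CompleteSpace G]
    (T : G →L[ℂ] G) (hT : IsSelfAdjoint T) :
    ∃ P N b : G →L[ℂ] G, P.IsPositive ∧ T = P - N ∧ IsSelfAdjoint N ∧ IsSelfAdjoint b ∧ b * b = N ∧
      (∀ z, Commute T z → Commute N z) ∧ (∀ z, Commute T z → Commute b z) ∧
      (∀ v, inner ℂ (N v) (T v) = -((‖N v‖ ^ 2 : ℝ) : ℂ)) := by
  have h1 : T⁺ - T⁻ = T := CFC.posPart_sub_negPart T hT
  have h2 : T⁻ * T⁺ = 0 := CFC.negPart_mul_posPart T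
  have hN0 : 0 ≤ T⁻ := CFC.negPart_nonneg T
  have h3 : IsSelfAdjoint (T⁻) := hN0.isSelfAdjoint
  have hb0 : 0 ≤ CFC.sqrt (T⁻) := CFC.sqrt_nonneg _
  have hNc : ∀ z, Commute T z → Commute (T⁻) z := by
    intro z hz
    rw [CFC.negPart_def]
    exact hz.cfcₙ_real _
  refine ⟨T⁺, T⁻, CFC.sqrt (T⁻),
    (ContinuousLinearMap.nonneg_iff_isPositive _).mp (CFC.posPart_nonneg T), h1.symm, h3,
    hb0.isSelfAdjoint, CFC.sqrt_mul_sqrt_self _ hN0, hNc, ?_, ?_⟩
  · intro z hz
    rw [CFC.sqrt]
    exact (hNc z hz).cfcₙ_nnreal _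
  · intro v
    have h4 : inner ℂ (T⁻ v) (T⁺ v) = 0 := by
      have e : inner ℂ (T⁻ v) (T⁺ v) = inner ℂ v (T⁻ (T⁺ v)) := by
        rw [← ContinuousLinearMap.adjoint_inner_right (T⁻) v (T⁺ v),
          ← ContinuousLinearMap.star_eq_adjoint, h3.star_eq]
      have e2 : T⁻ (T⁺ v) = (T⁻ * T⁺) v := rfl
      rw [e, e2, h2]; simp
    have e3 : T v = T⁺ v - T⁻ v := by
      conv_lhs => rw [← h1]
      rfl
    rw [e3, inner_sub_right, h4, zero_sub, inner_self_eq_norm_sq_to_K]
    push_cast; rfl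

/-- **Positivity of the transposed Radon–Nikodym matrix.** -/
theorem pos_transpose (M : VonNeumannAlgebra H) (ξ : H) (ω : J → ℝ) (hω : ∀ i, 0 < ω i)
    (x h : Matrix J J (H →L[ℂ] H)) (hxM : ∀ i j, x i j ∈ M) (hhM : ∀ i j, h i j ∈ M.commutant)
    (hs : ∀ i j, Sup M ξ (h i j)) (hs' : ∀ i j, Sup M ξ (star (h i j)))
    (hRN : ∀ i j, RN M ξ (Real.sqrt (ω i / ω j)) (x i j) (h i j))
    (hpos : (opM x).IsPositive) : (opM h.transpose).IsPositive := by
  have hlam : ∀ i j, 0 < Real.sqrt (ω i / ω j) := fun i j =>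
    Real.sqrt_pos.mpr (div_pos (hω i) (hω j))
  -- `x` is hermitian
  have hxs : ∀ i j, star (x i j) = x j i := by
    intro i j
    have h1 : opM (star x) = opM x := by rw [← star_opM]; exact hpos.isSelfAdjoint
    have h2 := congrFun (congrFun (opM_injective h1) j) i
    rw [Matrix.star_apply] at h2
    exact h2
  -- `h` is hermitian
  have hhs : ∀ i j, star (h i j) = h j i := by
    intro i j
    have h1 := (hRN i j).star (hxM i j)
    rw [hxs i j, ← Real.sqrt_inv, inv_div] at h1
    exact RN.unique (hlam j i) h1 (hRN j i) (star_mem (hhM i j)) (hhM j i) (hs' i j) (hs j i)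
  set T := opM h.transpose with hTdef
  have hTent : ∀ i j, ent T i j = h j i := by
    intro i j; rw [hTdef, ent_opM]; rfl
  have hT : IsSelfAdjoint T := by
    rw [isSelfAdjoint_iff, hTdef, star_opM]
    congr 1
    ext i j : 2
    rw [Matrix.star_apply, Matrix.transpose_apply, Matrix.transpose_apply, hhs]
  obtain ⟨P, N, b, hP, hTPN, hNsa, hbsa, hbb, hNcc, hbcc, hin⟩ := exists_neg_part T hT
  -- commutation
  have hTc : ∀ z ∈ M, Commute T (dg z) := by
    intro z hz
    rw [commute_dg_iff]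
    intro i j
    rw [hTent]
    exact ((VonNeumannAlgebra.mem_commutant_iff.mp (hhM j i)) z hz).symm
  have hNc : ∀ z ∈ M, Commute N (dg z) := fun z hz => hNcc _ (hTc z hz)
  have hbc : ∀ z ∈ M, Commute b (dg z) := fun z hz => hbcc _ (hTc z hz)
  have hNM : ∀ i j, ent N i j ∈ M.commutant := by
    intro i j
    rw [VonNeumannAlgebra.mem_commutant_iff]
    intro z hz
    exact ((commute_dg_iff N z).mp (hNc z hz) i j).symm.eq
  have hbM : ∀ i j, ent b i j ∈ M.commutant := by
    intro i j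
    rw [VonNeumannAlgebra.mem_commutant_iff]
    intro z hz
    exact ((commute_dg_iff b z).mp (hbc z hz) i j).symm.eq
  have hbst : ∀ i j, star (ent b i j) = ent b j i := by
    intro i j; rw [← ent_star, hbsa.star_eq]
  have hNst : ∀ i j, star (ent N i j) = ent N j i := by
    intro i j; rw [← ent_star, hNsa.star_eq]
  -- the vectors `v_k`
  let V : J → PiLp 2 (fun _ : J => H) := fun k =>
    WithLp.toLp 2 (fun j => (Real.sqrt (ω j) : ℂ) • ent b k j ξ)
  have hV : ∀ k j, V k j = (Real.sqrt (ω j) : ℂ) • ent b k j ξ := fun _ _ => rfl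
  have key1 : ∀ i j, (Real.sqrt (ω i) : ℂ) * (Real.sqrt (ω j) : ℂ) * inner ℂ (ent N j i ξ) (x i j ξ)
      = ∑ k, inner ℂ (V k i) (x i j (V k j)) := by
    intro i j
    rw [← hbb, ent_mul, sum_apply, sum_inner, Finset.mul_sum]
    refine Finset.sum_congr rfl fun k _ => ?_
    rw [hV, hV, map_smul, inner_smul_left, inner_smul_right, Complex.conj_ofReal, ← mul_assoc]
    congr 1
    rw [mul_apply_eq_comp]
    have e1 : inner ℂ (ent b j k (ent b k i ξ)) (x i j ξ)
        = inner ℂ (ent b k i ξ) (star (ent b j k) (x i j ξ)) := by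
      rw [ContinuousLinearMap.star_eq_adjoint, ContinuousLinearMap.adjoint_inner_right]
    rw [e1, hbst]
    have e2 := congrArg (fun S => S ξ) (VonNeumannAlgebra.mem_commutant_iff.mp (hbM k j) _ (hxM i j))
    change x i j (ent b k j ξ) = ent b k j (x i j ξ) at e2
    rw [e2]
  have key2 : (∑ i, ∑ j, (Real.sqrt (ω i) : ℂ) * (Real.sqrt (ω j) : ℂ) *
      inner ℂ (ent N j i ξ) (x i j ξ)) = ∑ k, inner ℂ (V k) (opM x (V k)) := by
    simp only [inner_opM, key1]
    rw [Finset.sum_congr rfl (fun i _ => Finset.sum_comm), Finset.sum_comm]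
  have key3 : ∀ i j, 2 * ((Real.sqrt (ω i) : ℂ) * (Real.sqrt (ω j) : ℂ) *
      inner ℂ (ent N j i ξ) (x i j ξ)) = (ω i : ℂ) * inner ℂ (ent N j i ξ) (ent T j i ξ)
        + (ω j : ℂ) * inner ℂ (ent T i j ξ) (ent N i j ξ) := by
    intro i j
    have e := hRN i j (ent N j i) (hNM j i)
    have l1 : (Real.sqrt (ω i / ω j) : ℂ) * ((Real.sqrt (ω i) : ℂ) * (Real.sqrt (ω j) : ℂ)) = ω i := by
      have : Real.sqrt (ω i / ω j) * (Real.sqrt (ω i) * Real.sqrt (ω j)) = ω i := by
        rw [Real.sqrt_div (hω i).le]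
        have h1 := Real.sqrt_pos.mpr (hω j)
        have h2 := Real.mul_self_sqrt (hω i).le
        field_simp
        nlinarith
      exact_mod_cast this
    have l2 : ((Real.sqrt (ω i / ω j))⁻¹ : ℂ) * ((Real.sqrt (ω i) : ℂ) * (Real.sqrt (ω j) : ℂ)) = ω j := by
      have : (Real.sqrt (ω i / ω j))⁻¹ * (Real.sqrt (ω i) * Real.sqrt (ω j)) = ω j := by
        rw [Real.sqrt_div (hω i).le]
        have h1 := Real.sqrt_pos.mpr (hω i)
        have h2 := Real.mul_self_sqrt (hω j).le
        field_simp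
        nlinarith
      exact_mod_cast this
    rw [hTent, hTent, ← hhs i j, ← hNst j i]
    push_cast at e
    linear_combination ((Real.sqrt (ω i) : ℂ) * (Real.sqrt (ω j) : ℂ)) * e
      + inner ℂ (ent N j i ξ) (h i j ξ) * l1
      + inner ℂ (star (h i j) ξ) (star (ent N j i) ξ) * l2
  have key4 : 2 * (∑ k, inner ℂ (V k) (opM x (V k)))
      = -((2 * ∑ i, ω i * ‖N (sgl i ξ)‖ ^ 2 : ℝ) : ℂ) := by
    rw [← key2, Finset.mul_sum]
    have e1 : ∀ i, 2 * ∑ j, (Real.sqrt (ω i) : ℂ) * (Real.sqrt (ω j) : ℂ) *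
        inner ℂ (ent N j i ξ) (x i j ξ) = ∑ j, ((ω i : ℂ) * inner ℂ (ent N j i ξ) (ent T j i ξ)
        + (ω j : ℂ) * inner ℂ (ent T i j ξ) (ent N i j ξ)) := by
      intro i
      rw [Finset.mul_sum]
      exact Finset.sum_congr rfl fun j _ => key3 i j
    rw [Finset.sum_congr rfl fun i _ => e1 i]
    simp only [Finset.sum_add_distrib]
    rw [Finset.sum_comm (f := fun i j => (ω j : ℂ) * inner ℂ (ent T i j ξ) (ent N i j ξ))]
    simp only [← Finset.mul_sum]
    have e2 : ∀ i, ∑ j, inner ℂ (ent N j i ξ) (ent T j i ξ) = -((‖N (sgl i ξ)‖ ^ 2 : ℝ) : ℂ) := by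
      intro i
      rw [← hin, PiLp.inner_apply]
      rfl
    have e3 : ∀ j, ∑ i, inner ℂ (ent T i j ξ) (ent N i j ξ) = -((‖N (sgl j ξ)‖ ^ 2 : ℝ) : ℂ) := by
      intro j
      have : inner ℂ (T (sgl j ξ)) (N (sgl j ξ)) = -((‖N (sgl j ξ)‖ ^ 2 : ℝ) : ℂ) := by
        rw [← inner_conj_symm, hin, map_neg, Complex.conj_ofReal]
      rw [← this, PiLp.inner_apply]
      rfl
    simp only [e2, e3]
    push_cast
    simp only [mul_neg, Finset.sum_neg_distrib]
    ring
  have key5 : ∀ i, N (sgl i ξ) = 0 := by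
    have h1 : 0 ≤ (∑ k, inner ℂ (V k) (opM x (V k))).re := by
      rw [Complex.re_sum]
      exact Finset.sum_nonneg fun k _ => hpos.re_inner_nonneg_right (V k)
    have h2 := congrArg Complex.re key4
    rw [Complex.neg_re, Complex.ofReal_re, show (2 : ℂ) = ((2 : ℝ) : ℂ) by norm_num,
      Complex.re_ofReal_mul] at h2
    have h3 : ∑ i, ω i * ‖N (sgl i ξ)‖ ^ 2 ≤ 0 := by linarith
    have h4 : ∀ i ∈ Finset.univ, 0 ≤ ω i * ‖N (sgl i ξ)‖ ^ 2 := fun i _ =>
      mul_nonneg (hω i).le (by positivity)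
    have h5 := (Finset.sum_eq_zero_iff_of_nonneg h4).mp (le_antisymm h3 (Finset.sum_nonneg h4))
    intro i
    have h6 := h5 i (Finset.mem_univ i)
    rcases mul_eq_zero.mp h6 with h | h
    · exact absurd h (hω i).ne'
    · simpa using h
  have hker : ∀ v : PiLp 2 (fun _ : J => H), T v = 0 → N v = 0 := by
    intro v hv
    have h1 := hin v
    rw [hv, inner_zero_right] at h1
    have h2 : (‖N v‖ ^ 2 : ℝ) = 0 := by
      have := congrArg Complex.re h1
      rw [Complex.neg_re, Complex.ofReal_re, Complex.zero_re] at this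
      linarith
    simpa using h2
  have hNz : N = 0 := by
    rw [← opM_ent N]
    have : ent N = 0 := by
      refine Matrix.ext fun j i => ?_
      refine eq_zero_of_Sup (M := M) (ξ := ξ) (hNM j i) ?_ ?_
      · intro v hv
        have h1 : T (sgl i v) = 0 := by
          ext k
          change T (sgl i v) k = 0
          rw [← ent_apply, hTent]
          exact hs i k v hv
        rw [ent_apply, hker _ h1]
        rfl
      · rw [ent_apply, key5 i]; rfl
    rw [this]
    ext v k
    rw [opM_apply]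
    simp
  rw [hTPN, hNz, sub_zero]
  exact hP

end pos

end Crest.Agent.R078.Z.Pos
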