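import Mathlib

/-!
# Row 78, S0103, Letter Lemma part D1: the bounded Rieffel-van Daele picture

`M` a von Neumann algebra on `H`, `ξ : H`.  `ee M ξ` is the projection onto the closure of
`M' ξ` (it belongs to `M`), `ee M.commutant ξ` is the projection onto the closure of `M ξ`
(it belongs to `M'`).
-/

set_option autoImplicit false
set_option linter.unusedSectionVars false
set_option linter.unusedSimpArgs false

noncomputable section
namespace Crest.Agent.R078.Z.RvD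

open scoped InnerProductSpace ComplexConjugate
open Complex ContinuousLinearMap

universe u
variable {H : Type u} [NormedAddCommGroup H] [InnerProductSpace ℂ H] [CompleteSpace H]

attribute [local instance] InnerProductSpace.complexToReal

/-- Radon-Nikodym pairs of weight `lam` -/
def RN (M : VonNeumannAlgebra H) (ξ : H) (lam : ℝ) (x h : H →L[ℂ] H) : Prop :=
  ∀ y ∈ M.commutant, 2 * ⟪y ξ, x ξ⟫_ℂ
    = (lam : ℂ) * ⟪y ξ, h ξ⟫_ℂ + (lam : ℂ)⁻¹ * ⟪star h ξ, star y ξ⟫_ℂ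

/-! ### basic facts on von Neumann algebras -/

lemma smul_mem' {M : VonNeumannAlgebra H} (c : ℂ) {x : H →L[ℂ] H} (hx : x ∈ M) : c • x ∈ M :=
  M.toStarSubalgebra.smul_mem hx c

lemma comm_of_mem {M : VonNeumannAlgebra H} {x y : H →L[ℂ] H} (hx : x ∈ M)
    (hy : y ∈ M.commutant) : x * y = y * x :=
  VonNeumannAlgebra.mem_commutant_iff.1 hy x hx

lemma comm_apply {M : VonNeumannAlgebra H} {x y : H →L[ℂ] H} (hx : x ∈ M)
    (hy : y ∈ M.commutant) (v : H) : x (y v) = y (x v) := by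
  have := congrArg (fun T : H →L[ℂ] H => T v) (comm_of_mem hx hy)
  simpa using this

lemma inner_star_left (x : H →L[ℂ] H) (v w : H) : ⟪star x v, w⟫_ℂ = ⟪v, x w⟫_ℂ := by
  rw [ContinuousLinearMap.star_eq_adjoint, ContinuousLinearMap.adjoint_inner_left]

lemma inner_star_right (x : H →L[ℂ] H) (v w : H) : ⟪v, star x w⟫_ℂ = ⟪x v, w⟫_ℂ := by
  rw [ContinuousLinearMap.star_eq_adjoint, ContinuousLinearMap.adjoint_inner_right]

/-- closure of `N ξ` -/
def cyc (N : VonNeumannAlgebra H) (ξ : H) : Submodule ℂ H :=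
  (Submodule.map (ContinuousLinearMap.apply ℂ H ξ : (H →L[ℂ] H) →ₗ[ℂ] H)
    N.toStarSubalgebra.toSubalgebra.toSubmodule).topologicalClosure

lemma mem_cyc {N : VonNeumannAlgebra H} {ξ : H} {x : H →L[ℂ] H} (hx : x ∈ N) :
    x ξ ∈ cyc N ξ :=
  Submodule.le_topologicalClosure _ ⟨x, hx, rfl⟩

lemma self_mem_cyc (N : VonNeumannAlgebra H) (ξ : H) : ξ ∈ cyc N ξ := by
  simpa using mem_cyc (ξ := ξ) (one_mem N)

lemma exists_of_mem_cyc {N : VonNeumannAlgebra H} {ξ v : H} (hv : v ∈ cyc N ξ) {ε : ℝ}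
    (hε : 0 < ε) : ∃ x ∈ N, ‖x ξ - v‖ < ε := by
  have h1 : v ∈ closure ((Submodule.map (ContinuousLinearMap.apply ℂ H ξ : (H →L[ℂ] H) →ₗ[ℂ] H)
    N.toStarSubalgebra.toSubalgebra.toSubmodule : Submodule ℂ H) : Set H) := hv
  obtain ⟨w, ⟨x, hx, rfl⟩, hw⟩ := Metric.mem_closure_iff.1 h1 ε hε
  refine ⟨x, hx, ?_⟩
  rw [dist_eq_norm] at hw
  rw [norm_sub_rev]
  exact hw

instance (N : VonNeumannAlgebra H) (ξ : H) : CompleteSpace (cyc N ξ) := by
  unfold cyc; infer_instance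

/-- projection onto the closure of `N' ξ`, an element of `N` -/
def ee (N : VonNeumannAlgebra H) (ξ : H) : H →L[ℂ] H := (cyc N.commutant ξ).starProjection

lemma cyc_invariant {N : VonNeumannAlgebra H} {ξ v : H} {x : H →L[ℂ] H} (hx : x ∈ N)
    (hv : v ∈ cyc N ξ) : x v ∈ cyc N ξ := by
  have hcl : IsClosed ((cyc N ξ : Submodule ℂ H) : Set H) := Submodule.isClosed_topologicalClosure _
  have h2 : x v ∈ closure ((cyc N ξ : Submodule ℂ H) : Set H) := by
    rw [Metric.mem_closure_iff]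
    intro ε hε
    obtain ⟨y, hy, hyv⟩ := exists_of_mem_cyc hv (ε := ε / (‖x‖ + 1)) (by positivity)
    refine ⟨x (y ξ), ?_, ?_⟩
    · have : (x * y) ξ ∈ cyc N ξ := mem_cyc (mul_mem hx hy)
      simpa using this
    · rw [dist_eq_norm, ← map_sub]
      calc ‖x (v - y ξ)‖ ≤ ‖x‖ * ‖v - y ξ‖ := x.le_opNorm _
        _ ≤ ‖x‖ * (ε / (‖x‖ + 1)) := by
            rw [norm_sub_rev]; gcongr
        _ < (‖x‖ + 1) * (ε / (‖x‖ + 1)) := by
            have : 0 < ε / (‖x‖ + 1) := by positivity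
            nlinarith
        _ = ε := by field_simp
  rwa [hcl.closure_eq] at h2

lemma ee_mem (N : VonNeumannAlgebra H) (ξ : H) : ee N ξ ∈ N := by
  have hp : IsStarProjection (ee N ξ) := isStarProjection_starProjection
  rw [VonNeumannAlgebra.IsStarProjection.mem_iff hp]
  intro y hy
  rw [Module.End.mem_invtSubmodule]
  intro v hv
  have h1 : v ∈ cyc N.commutant ξ := by
    obtain ⟨w, rfl⟩ := hv
    exact Submodule.starProjection_apply_mem _ _
  have h2 : y v ∈ cyc N.commutant ξ := cyc_invariant hy h1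
  exact ⟨y v, Submodule.starProjection_eq_self_iff.2 h2⟩

lemma ee_comm_mem (N : VonNeumannAlgebra H) (ξ : H) : ee N.commutant ξ ∈ N.commutant :=
  ee_mem _ _

lemma ee_star (N : VonNeumannAlgebra H) (ξ : H) : star (ee N ξ) = ee N ξ :=
  (isStarProjection_starProjection : IsStarProjection (ee N ξ)).isSelfAdjoint

lemma ee_self (N : VonNeumannAlgebra H) (ξ : H) : ee N ξ ξ = ξ :=
  Submodule.starProjection_eq_self_iff.2 (self_mem_cyc _ _)

lemma ee_idem (N : VonNeumannAlgebra H) (ξ : H) : ee N ξ * ee N ξ = ee N ξ :=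
  (isStarProjection_starProjection : IsStarProjection (ee N ξ)).isIdempotentElem

lemma ee_idem_apply (N : VonNeumannAlgebra H) (ξ v : H) : ee N ξ (ee N ξ v) = ee N ξ v := by
  have := congrArg (fun T : H →L[ℂ] H => T v) (ee_idem N ξ)
  simpa using this

lemma ee_eq_self_iff {N : VonNeumannAlgebra H} {ξ v : H} :
    ee N ξ v = v ↔ v ∈ cyc N.commutant ξ := Submodule.starProjection_eq_self_iff

lemma ee_norm_le (N : VonNeumannAlgebra H) (ξ v : H) : ‖ee N ξ v‖ ≤ ‖v‖ := by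
  have h1 : ‖ee N ξ‖ ≤ 1 := Submodule.starProjection_norm_le _
  calc ‖ee N ξ v‖ ≤ ‖ee N ξ‖ * ‖v‖ := (ee N ξ).le_opNorm _
    _ ≤ 1 * ‖v‖ := by gcongr
    _ = ‖v‖ := one_mul _

/-- `y ∈ N'` : `ee N ξ (y ξ) = y ξ` -/
lemma ee_apply_comm {N : VonNeumannAlgebra H} {ξ : H} {y : H →L[ℂ] H} (hy : y ∈ N.commutant) :
    ee N ξ (y ξ) = y ξ := ee_eq_self_iff.2 (mem_cyc hy)

lemma ee_comm_apply {N : VonNeumannAlgebra H} {ξ : H} {x : H →L[ℂ] H} (hx : x ∈ N) :
    ee N.commutant ξ (x ξ) = x ξ := ee_eq_self_iff.2 (by simpa using mem_cyc (ξ := ξ) hx)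

/-! ### the projection onto the closure of `{(y ξ, t y η)}` -/

section Key

/-- `(a, b)` in the Hilbert space sum -/
def mk2 (a b : H) : WithLp 2 (H × H) := WithLp.toLp 2 (a, b)

@[simp] lemma mk2_fst (a b : H) : (mk2 a b).fst = a := rfl
@[simp] lemma mk2_snd (a b : H) : (mk2 a b).snd = b := rfl

lemma ext2 {v w : WithLp 2 (H × H)} (h1 : v.fst = w.fst) (h2 : v.snd = w.snd) : v = w := by
  apply (WithLp.prodContinuousLinearEquiv 2 ℂ H H).injective
  exact Prod.ext h1 h2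

lemma inner2 (v w : WithLp 2 (H × H)) : ⟪v, w⟫_ℂ = ⟪v.fst, w.fst⟫_ℂ + ⟪v.snd, w.snd⟫_ℂ := rfl

lemma mk2_add (a b c d : H) : mk2 (a + b) (c + d) = mk2 a c + mk2 b d := rfl
lemma mk2_smul (z : ℂ) (a b : H) : mk2 (z • a) (z • b) = z • mk2 a b := rfl

lemma norm_mk2_zero_left (b : H) : ‖mk2 (0 : H) b‖ = ‖b‖ := by
  have h := WithLp.prod_norm_sq_eq_of_L2 (mk2 (0 : H) b)
  simp only [mk2_fst, mk2_snd, norm_zero] at h
  have h' : ‖mk2 (0 : H) b‖ ^ 2 = ‖b‖ ^ 2 := by rw [h]; ring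
  exact (sq_eq_sq₀ (norm_nonneg _) (norm_nonneg _)).1 h'

lemma norm_mk2_zero_right (a : H) : ‖mk2 a (0 : H)‖ = ‖a‖ := by
  have h := WithLp.prod_norm_sq_eq_of_L2 (mk2 a (0 : H))
  simp only [mk2_fst, mk2_snd, norm_zero] at h
  have h' : ‖mk2 a (0 : H)‖ ^ 2 = ‖a‖ ^ 2 := by rw [h]; ring
  exact (sq_eq_sq₀ (norm_nonneg _) (norm_nonneg _)).1 h'

lemma norm_fst_le (v : WithLp 2 (H × H)) : ‖v.fst‖ ≤ ‖v‖ := by
  have h := WithLp.prod_norm_sq_eq_of_L2 v
  nlinarith [norm_nonneg v, norm_nonneg v.fst, norm_nonneg v.snd, sq_nonneg ‖v.snd‖]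

lemma norm_snd_le (v : WithLp 2 (H × H)) : ‖v.snd‖ ≤ ‖v‖ := by
  have h := WithLp.prod_norm_sq_eq_of_L2 v
  nlinarith [norm_nonneg v, norm_nonneg v.fst, norm_nonneg v.snd, sq_nonneg ‖v.fst‖]

/-- the diagonal operator `y ⊕ y` -/
def dg (y : H →L[ℂ] H) : WithLp 2 (H × H) →L[ℂ] WithLp 2 (H × H) :=
  (WithLp.prodContinuousLinearEquiv 2 ℂ H H).symm.toContinuousLinearMap.comp
    ((y.prodMap y).comp (WithLp.prodContinuousLinearEquiv 2 ℂ H H).toContinuousLinearMap)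

@[simp] lemma dg_fst (y : H →L[ℂ] H) (v : WithLp 2 (H × H)) : (dg y v).fst = y v.fst := rfl
@[simp] lemma dg_snd (y : H →L[ℂ] H) (v : WithLp 2 (H × H)) : (dg y v).snd = y v.snd := rfl

lemma inner_dg_left (y : H →L[ℂ] H) (v w : WithLp 2 (H × H)) :
    ⟪dg y v, w⟫_ℂ = ⟪v, dg (star y) w⟫_ℂ := by
  simp only [inner2, dg_fst, dg_snd, inner_star_right]

variable (M : VonNeumannAlgebra H) (ξ η : H) (t : ℝ)

/-- `y ↦ (y ξ, t y η)` -/
def lk : (H →L[ℂ] H) →ₗ[ℂ] WithLp 2 (H × H) where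
  toFun y := mk2 (y ξ) ((t : ℂ) • y η)
  map_add' y z := by
    rw [← mk2_add]; simp
  map_smul' c y := by
    rw [RingHom.id_apply, ← mk2_smul]
    simp only [smul_apply, smul_smul, mul_comm c]

@[simp] lemma lk_apply (y : H →L[ℂ] H) : lk ξ η t y = mk2 (y ξ) ((t : ℂ) • y η) := rfl

/-- the closure of `{(y ξ, t y η) : y ∈ M'}` -/
def VV : Submodule ℂ (WithLp 2 (H × H)) :=
  (Submodule.map (lk ξ η t) M.commutant.toStarSubalgebra.toSubalgebra.toSubmodule).topologicalClosure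

instance : CompleteSpace (VV M ξ η t) := by unfold VV; infer_instance

lemma mem_VV {y : H →L[ℂ] H} (hy : y ∈ M.commutant) : mk2 (y ξ) ((t : ℂ) • y η) ∈ VV M ξ η t :=
  Submodule.le_topologicalClosure _ ⟨y, hy, rfl⟩

/-- induction principle: a closed condition on `VV` -/
lemma VV_induct {P : WithLp 2 (H × H) → Prop} (hP : IsClosed {w | P w})
    (h : ∀ y ∈ M.commutant, P (mk2 (y ξ) ((t : ℂ) • y η))) {w : WithLp 2 (H × H)}
    (hw : w ∈ VV M ξ η t) : P w := by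
  have h1 : w ∈ closure ((Submodule.map (lk ξ η t)
    M.commutant.toStarSubalgebra.toSubalgebra.toSubmodule : Submodule ℂ _) : Set (WithLp 2 (H × H))) :=
    hw
  have h2 : closure ((Submodule.map (lk ξ η t)
    M.commutant.toStarSubalgebra.toSubalgebra.toSubmodule : Submodule ℂ _) : Set (WithLp 2 (H × H)))
      ⊆ {w | P w} := by
    apply closure_minimal _ hP
    rintro _ ⟨y, hy, rfl⟩
    exact h y hy
  exact h2 h1

lemma VV_invariant {y : H →L[ℂ] H} (hy : y ∈ M.commutant) {w : WithLp 2 (H × H)}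
    (hw : w ∈ VV M ξ η t) : dg y w ∈ VV M ξ η t := by
  refine VV_induct M ξ η t (P := fun w => dg y w ∈ VV M ξ η t) ?_ ?_ hw
  · exact (Submodule.isClosed_topologicalClosure _).preimage (dg y).continuous
  · intro z hz
    have h1 := mem_VV M ξ η t (mul_mem hy hz)
    have h2 : dg y (mk2 (z ξ) ((t : ℂ) • z η)) = mk2 ((y * z) ξ) ((t : ℂ) • (y * z) η) := by
      apply ext2 <;> simp
    rw [h2]; exact h1

/-- the projection -/
def EE : WithLp 2 (H × H) →L[ℂ] WithLp 2 (H × H) := (VV M ξ η t).starProjection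

lemma EE_dg {y : H →L[ℂ] H} (hy : y ∈ M.commutant) (v : WithLp 2 (H × H)) :
    EE M ξ η t (dg y v) = dg y (EE M ξ η t v) := by
  apply Submodule.eq_starProjection_of_mem_of_inner_eq_zero
  · exact VV_invariant M ξ η t hy (Submodule.starProjection_apply_mem _ _)
  · intro w hw
    rw [← map_sub, inner_dg_left]
    exact Submodule.starProjection_inner_eq_zero _ _ (VV_invariant M ξ η t (star_mem hy) hw)

lemma EE_symm (v w : WithLp 2 (H × H)) : ⟪EE M ξ η t v, w⟫_ℂ = ⟪v, EE M ξ η t w⟫_ℂ :=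
  Submodule.starProjection_isSymmetric (VV M ξ η t) v w

lemma EE_norm_le (v : WithLp 2 (H × H)) : ‖EE M ξ η t v‖ ≤ ‖v‖ := by
  have h1 : ‖EE M ξ η t‖ ≤ 1 := Submodule.starProjection_norm_le _
  calc ‖EE M ξ η t v‖ ≤ ‖EE M ξ η t‖ * ‖v‖ := (EE M ξ η t).le_opNorm _
    _ ≤ 1 * ‖v‖ := by gcongr
    _ = ‖v‖ := one_mul _

/-- `x_t = t⁻¹ E₂₁` -/
def xt : H →L[ℂ] H := ((t : ℂ)⁻¹) • ((WithLp.sndL 2 ℂ H H).comp ((EE M ξ η t).comp
    ((WithLp.prodContinuousLinearEquiv 2 ℂ H H).symm.toContinuousLinearMap.comp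
      (ContinuousLinearMap.inl ℂ H H))))

lemma xt_apply (v : H) : xt M ξ η t v = ((t : ℂ)⁻¹) • (EE M ξ η t (mk2 v 0)).snd := rfl

lemma xt_star_apply (v : H) : star (xt M ξ η t) v = ((t : ℂ)⁻¹) • (EE M ξ η t (mk2 0 v)).fst := by
  refine ext_inner_left ℂ fun w => ?_
  rw [inner_star_right, xt_apply, inner_smul_left, inner_smul_right]
  have h1 : ⟪(EE M ξ η t (mk2 w 0)).snd, v⟫_ℂ = ⟪EE M ξ η t (mk2 w 0), mk2 0 v⟫_ℂ := by
    simp [inner2]
  have h2 : ⟪w, (EE M ξ η t (mk2 0 v)).fst⟫_ℂ = ⟪mk2 w 0, EE M ξ η t (mk2 0 v)⟫_ℂ := by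
    simp [inner2]
  rw [h1, h2, EE_symm]
  simp

lemma xt_mem : xt M ξ η t ∈ M := by
  have hgoal : xt M ξ η t ∈ M.commutant.commutant := ?_
  · simpa using hgoal
  rw [VonNeumannAlgebra.mem_commutant_iff]
  intro y hy
  refine ContinuousLinearMap.ext fun v => ?_
  change y (xt M ξ η t v) = xt M ξ η t (y v)
  simp only [xt_apply, map_smul]
  congr 1
  have h1 : mk2 (y v) 0 = dg y (mk2 v 0) := by apply ext2 <;> simp
  rw [h1, EE_dg M ξ η t hy]
  simp

variable {M ξ η t}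

lemma EE_of_mem {w : WithLp 2 (H × H)} (hw : w ∈ VV M ξ η t) : EE M ξ η t w = w :=
  Submodule.starProjection_eq_self_iff.2 hw

lemma xt_apply_xi (ht : t ≠ 0) : xt M ξ η t ξ = η - (EE M ξ η t (mk2 0 η)).snd := by
  have htc : (t : ℂ) ≠ 0 := by exact_mod_cast ht
  have h1 : EE M ξ η t (mk2 ξ ((t : ℂ) • η)) = mk2 ξ ((t : ℂ) • η) := by
    apply EE_of_mem
    simpa using mem_VV M ξ η t (one_mem M.commutant)
  have h2 : mk2 ξ ((t : ℂ) • η) = mk2 ξ 0 + (t : ℂ) • mk2 0 η := by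
    apply ext2 <;> simp
  rw [h2, map_add, map_smul] at h1
  have h3 := congrArg (fun w : WithLp 2 (H × H) => w.snd) h1
  simp only [WithLp.add_snd, WithLp.smul_snd, mk2_snd, zero_add] at h3
  rw [xt_apply]
  have h4 : (EE M ξ η t (mk2 ξ 0)).snd = (t : ℂ) • (η - (EE M ξ η t (mk2 0 η)).snd) := by
    rw [smul_sub, eq_sub_iff_add_eq]; exact h3
  rw [h4, smul_smul, inv_mul_cancel₀ htc, one_smul]

lemma xt_star_apply_xi (ht : t ≠ 0) (h0 : ∀ y ∈ M.commutant, ⟪ξ, y η⟫_ℂ = ⟪η, y ξ⟫_ℂ) :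
    star (xt M ξ η t) ξ = (EE M ξ η t (mk2 η 0)).fst := by
  have htc : (t : ℂ) ≠ 0 := by exact_mod_cast ht
  have h1 : EE M ξ η t (mk2 (-((t : ℂ) • η)) ξ) = 0 := by
    unfold EE
    rw [Submodule.starProjection_apply_eq_zero_iff, Submodule.mem_orthogonal']
    intro w hw
    refine VV_induct M ξ η t (P := fun w => ⟪mk2 (-((t : ℂ) • η)) ξ, w⟫_ℂ = 0) ?_ ?_ hw
    · exact isClosed_eq (by fun_prop) continuous_const
    · intro y hy
      rw [inner2]
      simp only [mk2_fst, mk2_snd, inner_neg_left, inner_smul_left, inner_smul_right,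
        Complex.conj_ofReal]
      rw [h0 y hy]; ring
  have h2 : mk2 (-((t : ℂ) • η)) ξ = mk2 0 ξ - (t : ℂ) • mk2 η 0 := by
    apply ext2 <;> simp
  rw [h2, map_sub, map_smul, sub_eq_zero] at h1
  rw [xt_star_apply, h1]
  change ((t : ℂ)⁻¹) • ((t : ℂ) • (EE M ξ η t (mk2 η 0)).fst) = _
  rw [smul_smul, inv_mul_cancel₀ htc, one_smul]

lemma EE_small (ht : 0 ≤ t) (h0 : ∀ y ∈ M.commutant, ⟪ξ, y η⟫_ℂ = ⟪η, y ξ⟫_ℂ)
    {y : H →L[ℂ] H} (hy : y ∈ M.commutant) : ‖EE M ξ η t (mk2 0 (y ξ))‖ ≤ t * ‖y η‖ := by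
  set w := EE M ξ η t (mk2 0 (y ξ)) with hw
  have hwV : w ∈ VV M ξ η t := Submodule.starProjection_apply_mem _ _
  have h1 : ∀ v ∈ VV M ξ η t, ⟪v, mk2 0 (y ξ)⟫_ℂ = (t : ℂ) * ⟪v.fst, y η⟫_ℂ := by
    intro v hv
    refine VV_induct M ξ η t (P := fun v => ⟪v, mk2 0 (y ξ)⟫_ℂ = (t : ℂ) * ⟪v.fst, y η⟫_ℂ)
      ?_ ?_ hv
    · refine isClosed_eq (by fun_prop) ?_
      have : Continuous fun v : WithLp 2 (H × H) => v.fst := (WithLp.fstL 2 ℂ H H).continuous
      fun_prop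
    · intro z hz
      rw [inner2]
      simp only [mk2_fst, mk2_snd, inner_zero_right, zero_add, inner_smul_left,
        Complex.conj_ofReal]
      have h3 : ⟪z η, y ξ⟫_ℂ = ⟪z ξ, y η⟫_ℂ := by
        have h4 := h0 (star z * y) (mul_mem (star_mem hz) hy)
        change ⟪ξ, star z (y η)⟫_ℂ = ⟪η, star z (y ξ)⟫_ℂ at h4
        rw [inner_star_right, inner_star_right] at h4
        exact h4.symm
      rw [h3]
  have h2 : ⟪w, w⟫_ℂ = (t : ℂ) * ⟪w.fst, y η⟫_ℂ := by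
    rw [← h1 w hwV, hw, ← EE_symm, EE_of_mem (Submodule.starProjection_apply_mem _ _)]
  have h3 : ‖w‖ ^ 2 ≤ t * (‖w‖ * ‖y η‖) := by
    have h4 : (‖w‖ ^ 2 : ℝ) = ‖⟪w, w⟫_ℂ‖ := by
      rw [inner_self_eq_norm_sq_to_K]; simp
    rw [h4, h2, norm_mul, Complex.norm_real, Real.norm_of_nonneg ht]
    gcongr
    calc ‖⟪w.fst, y η⟫_ℂ‖ ≤ ‖w.fst‖ * ‖y η‖ := norm_inner_le_norm _ _
      _ ≤ ‖w‖ * ‖y η‖ := by gcongr; exact norm_fst_le w
  by_cases hz : ‖w‖ = 0
  · rw [hz]; positivity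
  · have h5 : 0 < ‖w‖ := lt_of_le_of_ne (norm_nonneg _) (Ne.symm hz)
    have h6 : ‖w‖ * ‖w‖ ≤ ‖w‖ * (t * ‖y η‖) := by nlinarith
    exact le_of_mul_le_mul_left h6 h5

lemma EE_near (ht : 0 ≤ t) {y : H →L[ℂ] H} (hy : y ∈ M.commutant) :
    ‖EE M ξ η t (mk2 (y ξ) 0) - mk2 (y ξ) 0‖ ≤ t * ‖y η‖ := by
  have h1 : EE M ξ η t (mk2 (y ξ) ((t : ℂ) • y η)) = mk2 (y ξ) ((t : ℂ) • y η) :=
    EE_of_mem (mem_VV M ξ η t hy)
  have h2 : mk2 (y ξ) ((t : ℂ) • y η) = mk2 (y ξ) 0 + (t : ℂ) • mk2 0 (y η) := by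
    apply ext2 <;> simp
  rw [h2, map_add, map_smul] at h1
  have h3 : EE M ξ η t (mk2 (y ξ) 0) - mk2 (y ξ) 0
      = (t : ℂ) • (mk2 0 (y η) - EE M ξ η t (mk2 0 (y η))) := by
    rw [smul_sub, sub_eq_sub_iff_add_eq_add, h1]; abel
  rw [h3, norm_smul, Complex.norm_real, Real.norm_of_nonneg ht]
  gcongr
  have h4 : ‖mk2 0 (y η) - (VV M ξ η t).starProjection (mk2 0 (y η))‖ ≤ ‖mk2 0 (y η)‖ := by
    rw [← Submodule.starProjection_orthogonal_val]
    have h5 : ‖(VV M ξ η t)ᗮ.starProjection‖ ≤ 1 := Submodule.starProjection_norm_le _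
    calc _ ≤ ‖(VV M ξ η t)ᗮ.starProjection‖ * ‖mk2 0 (y η)‖ := ContinuousLinearMap.le_opNorm _ _
      _ ≤ 1 * ‖mk2 0 (y η)‖ := by gcongr
      _ = _ := one_mul _
  rw [norm_mk2_zero_left] at h4
  exact h4

/-- **key lemma**: a vector of the closure of `M' ξ` which is "real" for `M'` is a limit of
`x ξ` with `x` self-adjoint in `e M e`. -/
theorem key (hη : ee M ξ η = η) (h0 : ∀ y ∈ M.commutant, ⟪ξ, y η⟫_ℂ = ⟪η, y ξ⟫_ℂ) {ε : ℝ}
    (hε : 0 < ε) : ∃ x ∈ M, star x = x ∧ ee M ξ * x * ee M ξ = x ∧ ‖x ξ - η‖ < ε := by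
  obtain ⟨y, hy, hyη⟩ := exists_of_mem_cyc (ee_eq_self_iff.1 hη) (ε := ε / 8) (by positivity)
  obtain ⟨t, ht0, ht⟩ : ∃ t : ℝ, 0 < t ∧ t * ‖y η‖ < ε / 8 := by
    refine ⟨(ε / 8) / (‖y η‖ + 1), by positivity, ?_⟩
    have h1 : ‖y η‖ < ‖y η‖ + 1 := by linarith
    calc (ε / 8) / (‖y η‖ + 1) * ‖y η‖ < (ε / 8) / (‖y η‖ + 1) * (‖y η‖ + 1) := by
          gcongr
      _ = ε / 8 := by field_simp
  set x := xt M ξ η t with hx
  have hxM : x ∈ M := xt_mem M ξ η t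
  -- `E (0, η)` is small
  have h1 : ‖EE M ξ η t (mk2 0 η)‖ < ε / 4 := by
    have h2 : EE M ξ η t (mk2 0 η) = EE M ξ η t (mk2 0 (y ξ)) - EE M ξ η t (mk2 0 (y ξ - η)) := by
      rw [← map_sub]; congr 1; apply ext2 <;> simp
    rw [h2]
    calc _ ≤ ‖EE M ξ η t (mk2 0 (y ξ))‖ + ‖EE M ξ η t (mk2 0 (y ξ - η))‖ := norm_sub_le _ _
      _ ≤ t * ‖y η‖ + ‖mk2 0 (y ξ - η)‖ := by
          gcongr
          · exact EE_small ht0.le h0 hy
          · exact EE_norm_le _ _ _ _ _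
      _ < ε / 8 + ε / 8 := by
          rw [norm_mk2_zero_left]; gcongr
      _ = ε / 4 := by ring
  have h2 : ‖EE M ξ η t (mk2 η 0) - mk2 η 0‖ < ε / 2 := by
    have h3 : EE M ξ η t (mk2 η 0) - mk2 η 0
        = (EE M ξ η t (mk2 (y ξ) 0) - mk2 (y ξ) 0) - EE M ξ η t (mk2 (y ξ - η) 0)
          + mk2 (y ξ - η) 0 := by
      have h4 : mk2 (y ξ - η) 0 = mk2 (y ξ) 0 - mk2 η 0 := by apply ext2 <;> simp
      rw [h4, map_sub]; abel
    rw [h3]
    calc _ ≤ ‖(EE M ξ η t (mk2 (y ξ) 0) - mk2 (y ξ) 0) - EE M ξ η t (mk2 (y ξ - η) 0)‖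
          + ‖mk2 (y ξ - η) 0‖ := norm_add_le _ _
      _ ≤ (‖EE M ξ η t (mk2 (y ξ) 0) - mk2 (y ξ) 0‖ + ‖EE M ξ η t (mk2 (y ξ - η) 0)‖)
          + ‖mk2 (y ξ - η) 0‖ := by gcongr; exact norm_sub_le _ _
      _ ≤ (t * ‖y η‖ + ‖mk2 (y ξ - η) 0‖) + ‖mk2 (y ξ - η) 0‖ := by
          gcongr
          · exact EE_near ht0.le hy
          · exact EE_norm_le _ _ _ _ _
      _ < (ε / 8 + ε / 8) + ε / 8 := by
          rw [norm_mk2_zero_right]; gcongr
      _ < ε / 2 := by linarith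
  have h3 : ‖x ξ - η‖ < ε / 2 := by
    rw [hx, xt_apply_xi ht0.ne']
    calc ‖η - (EE M ξ η t (mk2 0 η)).snd - η‖ = ‖(EE M ξ η t (mk2 0 η)).snd‖ := by
          rw [sub_sub_cancel_left, norm_neg]
      _ ≤ ‖EE M ξ η t (mk2 0 η)‖ := norm_snd_le _
      _ < ε / 2 := by linarith
  have h4 : ‖star x ξ - η‖ < ε / 2 := by
    rw [hx, xt_star_apply_xi ht0.ne' h0]
    calc ‖(EE M ξ η t (mk2 η 0)).fst - η‖ = ‖(EE M ξ η t (mk2 η 0) - mk2 η 0).fst‖ := by
          simp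
      _ ≤ ‖EE M ξ η t (mk2 η 0) - mk2 η 0‖ := norm_fst_le _
      _ < ε / 2 := h2
  refine ⟨ee M ξ * ((1 / 2 : ℂ) • (x + star x)) * ee M ξ, ?_, ?_, ?_, ?_⟩
  · exact mul_mem (mul_mem (ee_mem M ξ) (smul_mem' _ (add_mem hxM (star_mem hxM)))) (ee_mem M ξ)
  · simp only [star_mul, star_smul, star_add, star_star, ee_star]
    rw [add_comm (star x) x]
    simp [mul_assoc]
  · have := ee_idem M ξ
    calc ee M ξ * (ee M ξ * ((1 / 2 : ℂ) • (x + star x)) * ee M ξ) * ee M ξ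
        = (ee M ξ * ee M ξ) * ((1 / 2 : ℂ) • (x + star x)) * (ee M ξ * ee M ξ) := by
          simp only [mul_assoc]
      _ = _ := by rw [this]
  · have h5 : (ee M ξ * ((1 / 2 : ℂ) • (x + star x)) * ee M ξ) ξ - η
        = ee M ξ ((1 / 2 : ℂ) • ((x ξ - η) + (star x ξ - η))) := by
      have h6 : (ee M ξ * ((1 / 2 : ℂ) • (x + star x)) * ee M ξ) ξ
          = ee M ξ ((1 / 2 : ℂ) • (x ξ + star x ξ)) := by
        simp [ee_self]
      rw [h6]
      have h7 : ee M ξ ((1 / 2 : ℂ) • (x ξ + star x ξ)) - η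
          = ee M ξ ((1 / 2 : ℂ) • (x ξ + star x ξ) - η) := by
        rw [map_sub, hη]
      rw [h7]
      congr 1
      have : (1 / 2 : ℂ) • ((x ξ - η) + (star x ξ - η))
          = (1 / 2 : ℂ) • (x ξ + star x ξ) - ((1 / 2 : ℂ) * 2) • η := by
        rw [mul_smul, ← smul_sub]; congr 1; rw [two_smul]; abel
      rw [this]; norm_num
    rw [h5]
    calc _ ≤ ‖(1 / 2 : ℂ) • ((x ξ - η) + (star x ξ - η))‖ := ee_norm_le _ _ _
      _ = (1 / 2) * ‖(x ξ - η) + (star x ξ - η)‖ := by rw [norm_smul]; norm_num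
      _ ≤ (1 / 2) * (‖x ξ - η‖ + ‖star x ξ - η‖) := by gcongr; exact norm_add_le _ _
      _ < (1 / 2) * (ε / 2 + ε / 2) := by gcongr
      _ < ε := by linarith

end Key

/-! ### the real subspace `KK M ξ` -/

lemma rinner (v w : H) : ⟪v, w⟫_ℝ = (⟪v, w⟫_ℂ).re := rfl

/-- the self-adjoint part of `e M e` -/
def saS (M : VonNeumannAlgebra H) (ξ : H) : Submodule ℝ (H →L[ℂ] H) where
  carrier := {x | x ∈ M ∧ star x = x ∧ ee M ξ * x * ee M ξ = x}
  add_mem' := by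
    rintro x y ⟨hx1, hx2, hx3⟩ ⟨hy1, hy2, hy3⟩
    refine ⟨add_mem hx1 hy1, by rw [star_add, hx2, hy2], ?_⟩
    rw [mul_add, add_mul, hx3, hy3]
  zero_mem' := ⟨zero_mem M, star_zero _, by simp⟩
  smul_mem' := by
    rintro c x ⟨hx1, hx2, hx3⟩
    refine ⟨?_, ?_, ?_⟩
    · have : c • x = (c : ℂ) • x := (Complex.coe_smul c x).symm
      rw [this]; exact smul_mem' _ hx1
    · rw [star_smul, hx2]; simp
    · rw [mul_smul_comm, smul_mul_assoc, hx3]

/-- closure of `{x ξ : x self-adjoint in e M e}` -/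
def KK (M : VonNeumannAlgebra H) (ξ : H) : Submodule ℝ H :=
  (Submodule.map (((ContinuousLinearMap.apply ℂ H ξ).restrictScalars ℝ : (H →L[ℂ] H) →L[ℝ] H) :
    (H →L[ℂ] H) →ₗ[ℝ] H) (saS M ξ)).topologicalClosure

instance (M : VonNeumannAlgebra H) (ξ : H) : CompleteSpace (KK M ξ) := by
  unfold KK; infer_instance

variable {M : VonNeumannAlgebra H} {ξ : H}

lemma mem_KK {x : H →L[ℂ] H} (hx : x ∈ M) (hs : star x = x) (he : ee M ξ * x * ee M ξ = x) :
    x ξ ∈ KK M ξ :=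
  Submodule.le_topologicalClosure _ ⟨x, ⟨hx, hs, he⟩, rfl⟩

lemma isClosed_KK : IsClosed ((KK M ξ : Submodule ℝ H) : Set H) :=
  Submodule.isClosed_topologicalClosure _

lemma KK_induct {P : H → Prop} (hP : IsClosed {w | P w})
    (h : ∀ x ∈ M, star x = x → ee M ξ * x * ee M ξ = x → P (x ξ)) {w : H}
    (hw : w ∈ KK M ξ) : P w := by
  have h1 : w ∈ closure ((Submodule.map (((ContinuousLinearMap.apply ℂ H ξ).restrictScalars ℝ :
    (H →L[ℂ] H) →L[ℝ] H) : (H →L[ℂ] H) →ₗ[ℝ] H) (saS M ξ) : Submodule ℝ H) : Set H) := hw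
  refine closure_minimal ?_ hP h1
  rintro _ ⟨x, ⟨hx1, hx2, hx3⟩, rfl⟩
  exact h x hx1 hx2 hx3

lemma apply_of_corner {x : H →L[ℂ] H} (he : ee M ξ * x * ee M ξ = x) (v : H) :
    ee M ξ (x v) = x v := by
  have h1 : ee M ξ * x = x := by
    conv_lhs => rw [← he]
    rw [← mul_assoc, ← mul_assoc, ee_idem, he]
  have := congrArg (fun T : H →L[ℂ] H => T v) h1
  simpa using this

lemma corner_apply {x : H →L[ℂ] H} (he : ee M ξ * x * ee M ξ = x) (v : H) :
    x (ee M ξ v) = x v := by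
  have h1 : x * ee M ξ = x := by
    conv_lhs => rw [← he]
    rw [mul_assoc, ee_idem, he]
  have := congrArg (fun T : H →L[ℂ] H => T v) h1
  simpa using this

lemma KK_left {w : H} (hw : w ∈ KK M ξ) : ee M ξ w = w := by
  refine KK_induct (P := fun w => ee M ξ w = w) (isClosed_eq (by fun_prop) continuous_id) ?_ hw
  intro x _ _ he
  exact apply_of_corner he ξ

lemma KK_right {w : H} (hw : w ∈ KK M ξ) : ee M.commutant ξ w = w := by
  refine KK_induct (P := fun w => ee M.commutant ξ w = w)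
    (isClosed_eq (by fun_prop) continuous_id) ?_ hw
  intro x hx _ _
  exact ee_comm_apply hx

lemma im_inner_sa {x h : H →L[ℂ] H} (hx : x ∈ M) (hxs : star x = x) (hh : h ∈ M.commutant)
    (hhs : star h = h) : (⟪x ξ, h ξ⟫_ℂ).im = 0 := by
  have h1 : ⟪x ξ, h ξ⟫_ℂ = ⟪h ξ, x ξ⟫_ℂ := by
    calc ⟪x ξ, h ξ⟫_ℂ = ⟪star h (x ξ), ξ⟫_ℂ := by rw [inner_star_left]
      _ = ⟪x (h ξ), ξ⟫_ℂ := by rw [hhs, comm_apply hx hh]
      _ = ⟪h ξ, star x ξ⟫_ℂ := by rw [inner_star_right]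
      _ = ⟪h ξ, x ξ⟫_ℂ := by rw [hxs]
  have h2 : conj ⟪x ξ, h ξ⟫_ℂ = ⟪x ξ, h ξ⟫_ℂ := by
    rw [inner_conj_symm, h1]
  exact Complex.conj_eq_iff_im.1 h2

lemma im_inner_KK {k k' : H} (hk : k ∈ KK M ξ) (hk' : k' ∈ KK M.commutant ξ) :
    (⟪k, k'⟫_ℂ).im = 0 := by
  refine KK_induct (P := fun k => (⟪k, k'⟫_ℂ).im = 0) (isClosed_eq (by fun_prop)
    continuous_const) ?_ hk
  intro x hx hxs _
  refine KK_induct (P := fun k' => (⟪x ξ, k'⟫_ℂ).im = 0) (isClosed_eq (by fun_prop)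
    continuous_const) ?_ hk'
  intro h hh hhs _
  exact im_inner_sa hx hxs hh hhs

lemma mem_KK_of {v : H} (h1 : ee M ξ v = v) (h2 : ee M.commutant ξ v = v)
    (h3 : ∀ h ∈ M.commutant, star h = h → ee M.commutant ξ * h * ee M.commutant ξ = h →
      (⟪v, h ξ⟫_ℂ).im = 0) : v ∈ KK M ξ := by
  -- self-adjoint elements
  have hsa : ∀ c ∈ M.commutant, star c = c → ⟪ξ, c v⟫_ℂ = ⟪v, c ξ⟫_ℂ := by
    intro c hc hcs
    have h4 := h3 (ee M.commutant ξ * c * ee M.commutant ξ)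
      (mul_mem (mul_mem (ee_mem _ _) hc) (ee_mem _ _))
      (by simp only [star_mul, ee_star, hcs, mul_assoc])
      (by
        have := ee_idem M.commutant ξ
        calc ee M.commutant ξ * (ee M.commutant ξ * c * ee M.commutant ξ) * ee M.commutant ξ
            = (ee M.commutant ξ * ee M.commutant ξ) * c
              * (ee M.commutant ξ * ee M.commutant ξ) := by simp only [mul_assoc]
          _ = _ := by rw [this])
    have h5 : ⟪v, (ee M.commutant ξ * c * ee M.commutant ξ) ξ⟫_ℂ = ⟪v, c ξ⟫_ℂ := by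
      change ⟪v, ee M.commutant ξ (c (ee M.commutant ξ ξ))⟫_ℂ = _
      rw [ee_self]
      have : ⟪v, ee M.commutant ξ (c ξ)⟫_ℂ = ⟪v, star (ee M.commutant ξ) (c ξ)⟫_ℂ := by
        rw [ee_star]
      rw [this, inner_star_right, h2]
    rw [h5] at h4
    have h6 : conj ⟪v, c ξ⟫_ℂ = ⟪v, c ξ⟫_ℂ := Complex.conj_eq_iff_im.2 h4
    calc ⟪ξ, c v⟫_ℂ = ⟪star c ξ, v⟫_ℂ := by rw [inner_star_left]
      _ = conj ⟪v, c ξ⟫_ℂ := by rw [hcs, inner_conj_symm]
      _ = _ := h6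
  have hall : ∀ y ∈ M.commutant, ⟪ξ, y v⟫_ℂ = ⟪v, y ξ⟫_ℂ := by
    intro y hy
    have ha := hsa (y + star y) (add_mem hy (star_mem hy)) (by simp [add_comm])
    have hb := hsa (Complex.I • (y - star y)) (smul_mem' _ (sub_mem hy (star_mem hy))) (by
      rw [star_smul, star_sub, star_star, Complex.star_def, Complex.conj_I, neg_smul, ← smul_neg,
        neg_sub])
    simp only [add_apply, smul_apply, sub_apply, inner_add_right, inner_smul_right,
      inner_sub_right] at ha hb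
    have hb' : ⟪ξ, y v⟫_ℂ - ⟪ξ, star y v⟫_ℂ = ⟪v, y ξ⟫_ℂ - ⟪v, star y ξ⟫_ℂ :=
      mul_left_cancel₀ Complex.I_ne_zero hb
    linear_combination (1 / 2 : ℂ) * ha + (1 / 2 : ℂ) * hb'
  have hcl := isClosed_KK (M := M) (ξ := ξ)
  have hv : v ∈ closure ((KK M ξ : Submodule ℝ H) : Set H) := by
    rw [Metric.mem_closure_iff]
    intro ε hε
    obtain ⟨x, hx, hxs, hxe, hxn⟩ := key (M := M) h1 hall hε
    exact ⟨x ξ, mem_KK hx hxs hxe, by rw [dist_eq_norm, norm_sub_rev]; exact hxn⟩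
  rwa [hcl.closure_eq] at hv

/-! ### the real projection -/

/-- real projection onto `KK M ξ` -/
def PP (M : VonNeumannAlgebra H) (ξ : H) : H →L[ℝ] H := (KK M ξ).starProjection

lemma PP_mem (v : H) : PP M ξ v ∈ KK M ξ := Submodule.starProjection_apply_mem _ _

lemma PP_orth (v : H) {k : H} (hk : k ∈ KK M ξ) : (⟪v - PP M ξ v, k⟫_ℂ).re = 0 := by
  have := Submodule.starProjection_inner_eq_zero (K := KK M ξ) v k hk
  rwa [rinner] at this

lemma PP_eq {v w : H} (hw : w ∈ KK M ξ) (h : ∀ k ∈ KK M ξ, (⟪v - w, k⟫_ℂ).re = 0) :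
    PP M ξ v = w :=
  Submodule.eq_starProjection_of_mem_of_inner_eq_zero hw (fun k hk => by rw [rinner]; exact h k hk)

lemma PP_symm (v w : H) : (⟪PP M ξ v, w⟫_ℂ).re = (⟪v, PP M ξ w⟫_ℂ).re := by
  exact Submodule.starProjection_isSymmetric (KK M ξ) v w

lemma PP_self (v : H) : (⟪PP M ξ v, v⟫_ℂ).re = ‖PP M ξ v‖ ^ 2 := by
  have h1 : PP M ξ (PP M ξ v) = PP M ξ v := Submodule.starProjection_eq_self_iff.2 (PP_mem v)
  calc (⟪PP M ξ v, v⟫_ℂ).re = (⟪PP M ξ (PP M ξ v), v⟫_ℂ).re := by rw [h1]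
    _ = (⟪PP M ξ v, PP M ξ v⟫_ℂ).re := PP_symm _ _
    _ = ‖PP M ξ v‖ ^ 2 := by
        rw [inner_self_eq_norm_sq_to_K]; norm_cast

/-- `K' ` in terms of `K` -/
lemma PP_comm {v : H} (h1 : ee M ξ v = v) (h2 : ee M.commutant ξ v = v) :
    PP M.commutant ξ v = v + I • PP M ξ (I • v) := by
  apply PP_eq
  · apply mem_KK_of
    · rw [map_add, map_smul, h2, KK_right (PP_mem _)]
    · rw [VonNeumannAlgebra.commutant_commutant, map_add, map_smul, h1, KK_left (PP_mem _)]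
    · rw [VonNeumannAlgebra.commutant_commutant]
      intro x hx hxs hxe
      have h3 := PP_orth (M := M) (ξ := ξ) (I • v) (mem_KK hx hxs hxe)
      have h4 : v + I • PP M ξ (I • v) = -(I • (I • v - PP M ξ (I • v))) := by
        rw [smul_sub, smul_smul, I_mul_I]; simp; abel
      rw [h4, inner_neg_left, inner_smul_left]
      simp only [conj_I, neg_mul, neg_neg, neg_im]
      rw [Complex.mul_im]; simp [h3]
  · intro k hk
    have h5 : v - (v + I • PP M ξ (I • v)) = -(I • PP M ξ (I • v)) := by abel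
    rw [h5, inner_neg_left, inner_smul_left]
    have h6 := im_inner_KK (M := M) (ξ := ξ) (PP_mem (I • v)) hk
    simp [h6]

lemma PP_zero_of {v : H} (h : ee M ξ (ee M.commutant ξ v) = 0) : PP M ξ v = 0 := by
  apply PP_eq (Submodule.zero_mem _)
  intro k hk
  rw [sub_zero]
  have h1 : ⟪v, k⟫_ℂ = 0 := by
    calc ⟪v, k⟫_ℂ = ⟪v, ee M.commutant ξ (ee M ξ k)⟫_ℂ := by rw [KK_left hk, KK_right hk]
      _ = ⟪v, star (ee M.commutant ξ) (star (ee M ξ) k)⟫_ℂ := by rw [ee_star, ee_star]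
      _ = 0 := by rw [inner_star_right, inner_star_right, h, inner_zero_left]
  rw [h1]; rfl

/-! ### the operator `rho` -/

/-- `2 rho = P_{K'} + P_{iK'}` where `K' = KK M.commutant ξ` -/
def rho (M : VonNeumannAlgebra H) (ξ : H) : H →L[ℂ] H :=
  LinearMap.mkContinuous
    { toFun := fun v => (1 / 2 : ℂ) • (PP M.commutant ξ v - I • PP M.commutant ξ (I • v))
      map_add' := by
        intro v w
        rw [smul_add, map_add, map_add]
        module
      map_smul' := by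
        intro c v
        have hI : PP M.commutant ξ (I • (I • v)) = - PP M.commutant ξ v := by
          rw [smul_smul, I_mul_I, neg_one_smul, map_neg]
        have hr : ∀ (a : ℝ) (w : H), PP M.commutant ξ ((a : ℂ) • w)
            = (a : ℂ) • PP M.commutant ξ w := by
          intro a w
          rw [Complex.coe_smul, map_smul, Complex.coe_smul]
        obtain ⟨a, b, rfl⟩ : ∃ a b : ℝ, c = a + b * I := ⟨c.re, c.im, (re_add_im c).symm⟩
        have h1 : PP M.commutant ξ (((a : ℂ) + b * I) • v)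
            = (a : ℂ) • PP M.commutant ξ v + (b : ℂ) • PP M.commutant ξ (I • v) := by
          rw [add_smul, mul_smul, map_add, hr, hr]
        have h2 : PP M.commutant ξ (I • (((a : ℂ) + b * I) • v))
            = (a : ℂ) • PP M.commutant ξ (I • v) - (b : ℂ) • PP M.commutant ξ v := by
          rw [smul_comm, add_smul, mul_smul, map_add, hr, hr, hI]
          simp [sub_eq_add_neg]
        rw [h1, h2, RingHom.id_apply]
        have h4 : ((a : ℂ) + b * I) • (I • PP M.commutant ξ (I • v))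
            = ((a : ℂ) * I) • PP M.commutant ξ (I • v) - (b : ℂ) • PP M.commutant ξ (I • v) := by
          rw [smul_smul, ← sub_smul]
          congr 1
          linear_combination (b : ℂ) * I_mul_I
        rw [smul_comm ((a : ℂ) + b * I) (1 / 2 : ℂ)]
        congr 1
        rw [smul_sub ((a : ℂ) + b * I), h4]
        module }
    1 (by
      intro v
      have h1 : ∀ w : H, ‖PP M.commutant ξ w‖ ≤ ‖w‖ := by
        intro w
        have h2 : ‖PP M.commutant ξ‖ ≤ 1 := Submodule.starProjection_norm_le _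
        calc ‖PP M.commutant ξ w‖ ≤ ‖PP M.commutant ξ‖ * ‖w‖ := ContinuousLinearMap.le_opNorm _ _
          _ ≤ 1 * ‖w‖ := by gcongr
          _ = ‖w‖ := one_mul _
      change ‖(1 / 2 : ℂ) • (PP M.commutant ξ v - I • PP M.commutant ξ (I • v))‖ ≤ 1 * ‖v‖
      calc _ = (1 / 2) * ‖PP M.commutant ξ v - I • PP M.commutant ξ (I • v)‖ := by
            rw [norm_smul]; norm_num
        _ ≤ (1 / 2) * (‖PP M.commutant ξ v‖ + ‖I • PP M.commutant ξ (I • v)‖) := by
            gcongr; exact norm_sub_le _ _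
        _ ≤ (1 / 2) * (‖v‖ + ‖v‖) := by
            gcongr
            · exact h1 v
            · rw [norm_smul, norm_I, one_mul]
              refine (h1 _).trans ?_
              rw [norm_smul, norm_I, one_mul]
        _ = 1 * ‖v‖ := by ring)

lemma rho_apply (v : H) :
    rho M ξ v = (1 / 2 : ℂ) • (PP M.commutant ξ v - I • PP M.commutant ξ (I • v)) := rfl

/-- the projection onto `H₀ = closure (M ξ) ∩ closure (M' ξ)` -/
def ff (M : VonNeumannAlgebra H) (ξ : H) : H →L[ℂ] H := ee M ξ * ee M.commutant ξ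

lemma ee_ee_comm (v : H) : ee M ξ (ee M.commutant ξ v) = ee M.commutant ξ (ee M ξ v) :=
  comm_apply (ee_mem M ξ) (ee_mem M.commutant ξ) v

lemma ff_apply (v : H) : ff M ξ v = ee M ξ (ee M.commutant ξ v) := rfl

lemma ff_commutant : ff M.commutant ξ = ff M ξ := by
  ext v
  rw [ff_apply, ff_apply, VonNeumannAlgebra.commutant_commutant, ee_ee_comm]

lemma ff_left (v : H) : ee M ξ (ff M ξ v) = ff M ξ v := ee_idem_apply _ _ _

lemma ff_right (v : H) : ee M.commutant ξ (ff M ξ v) = ff M ξ v := by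
  rw [ff_apply, ee_ee_comm]; exact ee_idem_apply _ _ _

lemma ff_eq_self {v : H} (h1 : ee M ξ v = v) (h2 : ee M.commutant ξ v = v) : ff M ξ v = v := by
  rw [ff_apply, h2, h1]

lemma ff_idem (v : H) : ff M ξ (ff M ξ v) = ff M ξ v := ff_eq_self (ff_left v) (ff_right v)

lemma ff_star : star (ff M ξ) = ff M ξ := by
  unfold ff
  rw [star_mul, ee_star, ee_star]
  exact (comm_of_mem (ee_mem M ξ) (ee_mem M.commutant ξ)).symm

lemma rho_left (v : H) : ee M ξ (rho M ξ v) = rho M ξ v := by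
  have h1 : ∀ k ∈ KK M.commutant ξ, ee M ξ k = k := by
    intro k hk
    have := KK_right hk
    rwa [VonNeumannAlgebra.commutant_commutant] at this
  rw [rho_apply, map_smul, map_sub, map_smul, h1 _ (PP_mem _), h1 _ (PP_mem _)]

lemma rho_right (v : H) : ee M.commutant ξ (rho M ξ v) = rho M ξ v := by
  have h1 : ∀ k ∈ KK M.commutant ξ, ee M.commutant ξ k = k := fun k hk => KK_left hk
  rw [rho_apply, map_smul, map_sub, map_smul, h1 _ (PP_mem _), h1 _ (PP_mem _)]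

lemma ff_rho (v : H) : ff M ξ (rho M ξ v) = rho M ξ v := ff_eq_self (rho_left v) (rho_right v)

lemma rho_zero_of {v : H} (h : ff M ξ v = 0) : rho M ξ v = 0 := by
  have h1 : ∀ w : H, ff M ξ w = 0 → PP M.commutant ξ w = 0 := by
    intro w hw
    apply PP_zero_of
    rw [← ff_apply, ff_commutant, hw]
  rw [rho_apply, h1 v h, h1 (I • v) (by rw [map_smul, h, smul_zero])]
  simp

lemma rho_ff (v : H) : rho M ξ (ff M ξ v) = rho M ξ v := by
  have h1 : ff M ξ (ff M ξ v - v) = 0 := by rw [map_sub, ff_idem, sub_self]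
  have h2 := rho_zero_of h1
  rwa [map_sub, sub_eq_zero] at h2

lemma rho_add_rho_apply {v : H} (h1 : ee M ξ v = v) (h2 : ee M.commutant ξ v = v) :
    rho M ξ v + rho M.commutant ξ v = v := by
  rw [rho_apply, rho_apply, VonNeumannAlgebra.commutant_commutant, PP_comm h1 h2,
    PP_comm (v := I • v) (by rw [map_smul, h1]) (by rw [map_smul, h2])]
  have h3 : PP M ξ (I • (I • v)) = - PP M ξ v := by
    rw [smul_smul, I_mul_I, neg_one_smul, map_neg]
  have h4 : I • (I • v) = -v := by rw [smul_smul, I_mul_I, neg_one_smul]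
  rw [h3]
  have h5 : I • (I • v + I • -PP M ξ v) = -v + PP M ξ v := by
    rw [smul_add, h4, smul_smul, I_mul_I]; simp
  rw [h5]
  module

/-- `rho + rho' = f` -/
theorem rho_add_rho : rho M ξ + rho M.commutant ξ = ff M ξ := by
  ext v
  rw [add_apply, ← rho_ff v]
  have h1 : rho M.commutant ξ v = rho M.commutant ξ (ff M ξ v) := by
    rw [← rho_ff (M := M.commutant) v, ff_commutant]
  rw [h1]
  exact rho_add_rho_apply (ff_left v) (ff_right v)

lemma rho_re_symm (v w : H) : (⟪rho M ξ v, w⟫_ℂ).re = (⟪v, rho M ξ w⟫_ℂ).re := by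
  rw [rho_apply, rho_apply, inner_smul_left, inner_smul_right, inner_sub_left, inner_sub_right,
    inner_smul_left, inner_smul_right]
  have h1 := PP_symm (M := M.commutant) (ξ := ξ) v w
  have h2 := PP_symm (M := M.commutant) (ξ := ξ) (I • v) (I • w)
  have h3 : ⟪PP M.commutant ξ (I • v), I • w⟫_ℂ = I * ⟪PP M.commutant ξ (I • v), w⟫_ℂ := by
    rw [inner_smul_right]
  have h4 : ⟪I • v, PP M.commutant ξ (I • w)⟫_ℂ = -I * ⟪v, PP M.commutant ξ (I • w)⟫_ℂ := by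
    rw [inner_smul_left, conj_I]
  rw [h3, h4] at h2
  have h5 : ((1 / 2 : ℂ)) = ((1 / 2 : ℝ) : ℂ) := by norm_num
  rw [h5, Complex.conj_ofReal, Complex.re_ofReal_mul, Complex.re_ofReal_mul, Complex.sub_re,
    Complex.sub_re, conj_I, h1]
  have h6 : (-I * ⟪PP M.commutant ξ (I • v), w⟫_ℂ).re
      = (I * ⟪v, PP M.commutant ξ (I • w)⟫_ℂ).re := by
    rw [neg_mul, Complex.neg_re, h2, neg_mul, Complex.neg_re, neg_neg]
  rw [h6]

lemma rho_symm (v w : H) : ⟪rho M ξ v, w⟫_ℂ = ⟪v, rho M ξ w⟫_ℂ := by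
  apply Complex.ext
  · exact rho_re_symm v w
  · have h1 := rho_re_symm (M := M) (ξ := ξ) v (I • w)
    rw [inner_smul_right, map_smul, inner_smul_right] at h1
    simpa using h1

lemma rho_star : star (rho M ξ) = rho M ξ := by
  refine ContinuousLinearMap.ext fun w => ext_inner_left ℂ fun v => ?_
  rw [inner_star_right, rho_symm]

lemma rho_inner_self (v : H) : (⟪rho M ξ v, v⟫_ℂ).re
    = (1 / 2) * (‖PP M.commutant ξ v‖ ^ 2 + ‖PP M.commutant ξ (I • v)‖ ^ 2) := by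
  rw [← PP_self, ← PP_self, rho_apply, inner_smul_left, inner_sub_left, inner_smul_left,
    inner_smul_right, conj_I]
  have h5 : conj ((1 / 2 : ℂ)) = ((1 / 2 : ℝ) : ℂ) := by
    rw [show ((1 / 2 : ℂ)) = ((1 / 2 : ℝ) : ℂ) by norm_num, Complex.conj_ofReal]
  rw [h5, Complex.re_ofReal_mul, Complex.sub_re]
  congr 1
  rw [neg_mul, Complex.neg_re, sub_neg_eq_add]

lemma rho_isPositive : (rho M ξ).IsPositive := by
  refine ⟨fun v w => rho_symm v w, fun v => ?_⟩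
  rw [ContinuousLinearMap.reApplyInnerSelf_apply]
  have := rho_inner_self (M := M) (ξ := ξ) v
  change 0 ≤ (⟪rho M ξ v, v⟫_ℂ).re
  rw [this]; positivity

/-! ### density and injectivity -/

/-- the vectors `z ξ`, `z ∈ e M e`, are total in `H₀` -/
lemma eq_zero_of_orth {v : H} (h1 : ee M ξ v = v) (h2 : ee M.commutant ξ v = v)
    (h3 : ∀ z ∈ M, ee M ξ * z * ee M ξ = z → ⟪z ξ, v⟫_ℂ = 0) : v = 0 := by
  have h4 : ∀ m ∈ M, ⟪m ξ, v⟫_ℂ = 0 := by
    intro m hm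
    have h5 := h3 (ee M ξ * m * ee M ξ) (mul_mem (mul_mem (ee_mem _ _) hm) (ee_mem _ _)) (by
      have := ee_idem M ξ
      calc ee M ξ * (ee M ξ * m * ee M ξ) * ee M ξ
          = (ee M ξ * ee M ξ) * m * (ee M ξ * ee M ξ) := by simp only [mul_assoc]
        _ = _ := by rw [this])
    change ⟪ee M ξ (m (ee M ξ ξ)), v⟫_ℂ = 0 at h5
    rw [ee_self] at h5
    have h6 : ⟪ee M ξ (m ξ), v⟫_ℂ = ⟪m ξ, v⟫_ℂ := by
      calc ⟪ee M ξ (m ξ), v⟫_ℂ = ⟪star (ee M ξ) (m ξ), v⟫_ℂ := by rw [ee_star]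
        _ = ⟪m ξ, v⟫_ℂ := by rw [inner_star_left, h1]
    rwa [h6] at h5
  have h7 : v ∈ cyc M ξ := by
    have := ee_eq_self_iff.1 h2
    rwa [VonNeumannAlgebra.commutant_commutant] at this
  have h8 : v ∈ (cyc M ξ)ᗮ := by
    rw [Submodule.mem_orthogonal]
    intro u hu
    have h9 : u ∈ closure ((Submodule.map (ContinuousLinearMap.apply ℂ H ξ :
      (H →L[ℂ] H) →ₗ[ℂ] H) M.toStarSubalgebra.toSubalgebra.toSubmodule : Submodule ℂ H) : Set H) :=
      hu
    have h10 : closure ((Submodule.map (ContinuousLinearMap.apply ℂ H ξ :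
      (H →L[ℂ] H) →ₗ[ℂ] H) M.toStarSubalgebra.toSubalgebra.toSubmodule : Submodule ℂ H) : Set H)
        ⊆ {u | ⟪u, v⟫_ℂ = 0} := by
      apply closure_minimal _ (isClosed_eq (by fun_prop) continuous_const)
      rintro _ ⟨m, hm, rfl⟩
      exact h4 m hm
    exact h10 h9
  have h11 := Submodule.mem_orthogonal _ _ |>.1 h8 v h7
  exact inner_self_eq_zero.1 h11

/-- `rho` is injective on `H₀` -/
lemma rho_inj {v : H} (h1 : ee M ξ v = v) (h2 : ee M.commutant ξ v = v)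
    (h : rho M ξ v = 0) : v = 0 := by
  have h3 := rho_inner_self (M := M) (ξ := ξ) v
  rw [h, inner_zero_left, Complex.zero_re] at h3
  have h4 : ‖PP M.commutant ξ v‖ = 0 := by
    nlinarith [sq_nonneg ‖PP M.commutant ξ v‖, sq_nonneg ‖PP M.commutant ξ (I • v)‖]
  have h5 : ‖PP M.commutant ξ (I • v)‖ = 0 := by
    nlinarith [sq_nonneg ‖PP M.commutant ξ v‖, sq_nonneg ‖PP M.commutant ξ (I • v)‖]
  rw [norm_eq_zero] at h4 h5
  have hsa : ∀ z ∈ M.commutant, star z = z → ee M.commutant ξ * z * ee M.commutant ξ = z →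
      ⟪v, z ξ⟫_ℂ = 0 := by
    intro z hz hzs hze
    have h6 := PP_orth (M := M.commutant) (ξ := ξ) v (mem_KK hz hzs hze)
    have h7 := PP_orth (M := M.commutant) (ξ := ξ) (I • v) (mem_KK hz hzs hze)
    rw [h4, sub_zero] at h6
    rw [h5, sub_zero, inner_smul_left] at h7
    apply Complex.ext
    · exact h6
    · simpa using h7
  apply eq_zero_of_orth (M := M.commutant) (ξ := ξ) h2
    (by rw [VonNeumannAlgebra.commutant_commutant]; exact h1)
  intro z hz hze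
  have hze' : ee M.commutant ξ * star z * ee M.commutant ξ = star z := by
    have := congrArg star hze
    rwa [star_mul, star_mul, ee_star, ← mul_assoc] at this
  have ha := hsa (z + star z) (add_mem hz (star_mem hz)) (by simp [add_comm])
    (by rw [mul_add, add_mul, hze, hze'])
  have hb := hsa (Complex.I • (z - star z)) (smul_mem' _ (sub_mem hz (star_mem hz))) (by
      rw [star_smul, star_sub, star_star, Complex.star_def, Complex.conj_I, neg_smul, ← smul_neg,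
        neg_sub])
    (by rw [mul_smul_comm, smul_mul_assoc, mul_sub, sub_mul, hze, hze'])
  simp only [add_apply, smul_apply, sub_apply, inner_add_right, inner_smul_right,
    inner_sub_right] at ha hb
  have hb' : ⟪v, z ξ⟫_ℂ - ⟪v, star z ξ⟫_ℂ = 0 := by
    rcases mul_eq_zero.1 hb with h | h
    · exact absurd h Complex.I_ne_zero
    · exact h
  have h8 : ⟪v, z ξ⟫_ℂ = 0 := by linear_combination (1 / 2 : ℂ) * ha + (1 / 2 : ℂ) * hb'
  rw [← inner_conj_symm, h8, map_zero]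

/-! ### Radon-Nikodym pairs -/

lemma RN_one {x h : H →L[ℂ] H} (hh : h ∈ M.commutant)
    (hhe : ee M.commutant ξ * h * ee M.commutant ξ = h) (hRN : RN M ξ 1 x h) :
    h ξ = (2 : ℂ) • rho M ξ (x ξ) := by
  have hhe' : ee M.commutant ξ * star h * ee M.commutant ξ = star h := by
    have := congrArg star hhe
    rwa [star_mul, star_mul, ee_star, ← mul_assoc] at this
  have hRN' : ∀ y ∈ M.commutant, star y = y → 2 * ⟪y ξ, x ξ⟫_ℂ
      = ⟪y ξ, h ξ⟫_ℂ + conj ⟪y ξ, star h ξ⟫_ℂ := by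
    intro y hy hys
    have := hRN y hy
    rw [hys] at this
    rw [inner_conj_symm]
    simpa using this
  have hre : ∀ y ∈ M.commutant, star y = y → 2 * (⟪y ξ, x ξ⟫_ℂ).re
      = (⟪y ξ, h ξ⟫_ℂ).re + (⟪y ξ, star h ξ⟫_ℂ).re := by
    intro y hy hys
    have := congrArg Complex.re (hRN' y hy hys)
    rw [Complex.add_re, Complex.conj_re, show (2 : ℂ) = ((2 : ℝ) : ℂ) by norm_num,
      Complex.re_ofReal_mul] at this
    exact this
  have him : ∀ y ∈ M.commutant, star y = y → 2 * (⟪y ξ, x ξ⟫_ℂ).im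
      = (⟪y ξ, h ξ⟫_ℂ).im - (⟪y ξ, star h ξ⟫_ℂ).im := by
    intro y hy hys
    have := congrArg Complex.im (hRN' y hy hys)
    rw [Complex.add_im, Complex.conj_im, show (2 : ℂ) = ((2 : ℝ) : ℂ) by norm_num,
      Complex.im_ofReal_mul, ← sub_eq_add_neg] at this
    exact this
  have h1 : PP M.commutant ξ (x ξ) = ((1 / 2 : ℂ) • (h + star h)) ξ := by
    apply PP_eq
    · apply mem_KK (smul_mem' _ (add_mem hh (star_mem hh)))
      · rw [star_smul, star_add, star_star, add_comm (star h) h]; simp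
      · rw [mul_smul_comm, smul_mul_assoc, mul_add, add_mul, hhe, hhe']
    · intro k hk
      refine KK_induct (P := fun k => (⟪x ξ - ((1 / 2 : ℂ) • (h + star h)) ξ, k⟫_ℂ).re = 0)
        (isClosed_eq (by fun_prop) continuous_const) ?_ hk
      intro y hy hys _
      have h2 := hre y hy hys
      have h3 : (⟪x ξ - ((1 / 2 : ℂ) • (h + star h)) ξ, y ξ⟫_ℂ).re
          = (⟪y ξ, x ξ - ((1 / 2 : ℂ) • (h + star h)) ξ⟫_ℂ).re := by
        rw [← inner_conj_symm, Complex.conj_re]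
      rw [h3]
      simp only [smul_apply, add_apply, inner_sub_right, inner_smul_right, inner_add_right]
      simp
      linarith
  have h2 : PP M.commutant ξ (I • x ξ) = ((I / 2 : ℂ) • (h - star h)) ξ := by
    apply PP_eq
    · apply mem_KK (smul_mem' _ (sub_mem hh (star_mem hh)))
      · rw [star_smul, star_sub, star_star]
        have : star (I / 2 : ℂ) = -(I / 2) := by
          rw [Complex.star_def, map_div₀, conj_I, map_ofNat, neg_div]
        rw [this, neg_smul, ← smul_neg, neg_sub]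
      · rw [mul_smul_comm, smul_mul_assoc, mul_sub, sub_mul, hhe, hhe']
    · intro k hk
      refine KK_induct (P := fun k => (⟪I • x ξ - ((I / 2 : ℂ) • (h - star h)) ξ, k⟫_ℂ).re = 0)
        (isClosed_eq (by fun_prop) continuous_const) ?_ hk
      intro y hy hys _
      have h2 := him y hy hys
      have h3 : (⟪I • x ξ - ((I / 2 : ℂ) • (h - star h)) ξ, y ξ⟫_ℂ).re
          = (⟪y ξ, I • x ξ - ((I / 2 : ℂ) • (h - star h)) ξ⟫_ℂ).re := by
        rw [← inner_conj_symm, Complex.conj_re]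
      rw [h3]
      simp only [smul_apply, sub_apply, inner_sub_right, inner_smul_right]
      have h4 : (I / 2 : ℂ) = ((1 / 2 : ℝ) : ℂ) * I := by push_cast; ring
      rw [h4, mul_assoc, Complex.sub_re, Complex.re_ofReal_mul]
      simp
      linarith
  rw [rho_apply, h1, h2, smul_smul]
  simp only [smul_apply, add_apply, sub_apply, smul_smul]
  have h5 : (2 : ℂ) * (1 / 2) = 1 := by norm_num
  have h6 : I * (I / 2) = -(1 / 2) := by
    have := I_mul_I
    linear_combination (1 / 2 : ℂ) * this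
  rw [h5, one_smul, h6]
  module

/-- existence of the Radon-Nikodym map -/
def ExRN (M : VonNeumannAlgebra H) (ξ : H) : Prop :=
  ∀ z ∈ M, ee M ξ * z * ee M ξ = z → ∃ k ∈ M.commutant,
    ee M.commutant ξ * k * ee M.commutant ξ = k ∧ RN M ξ 1 z k

/-- **resolvent formula**: `((f - rho) + lam² rho) (h ξ) = 2 lam rho (x ξ)` -/
theorem RN_lam (hEx : ExRN M ξ) {lam : ℝ} (hlam : lam ≠ 0) {x h : H →L[ℂ] H}
    (hh : h ∈ M.commutant)
    (hhe : ee M.commutant ξ * h * ee M.commutant ξ = h) (hRN : RN M ξ lam x h) :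
    h ξ - rho M ξ (h ξ) + ((lam : ℂ) ^ 2) • rho M ξ (h ξ) = (2 * (lam : ℂ)) • rho M ξ (x ξ) := by
  have hl : (lam : ℂ) ≠ 0 := by exact_mod_cast hlam
  have hh1 : ee M ξ (h ξ) = h ξ := ee_apply_comm hh
  have hh2 : ee M.commutant ξ (h ξ) = h ξ := apply_of_corner hhe ξ
  rw [← sub_eq_zero]
  apply eq_zero_of_orth (M := M) (ξ := ξ)
  · simp only [map_sub, map_add, map_smul, rho_left, hh1]
  · simp only [map_sub, map_add, map_smul, rho_right, hh2]
  · intro z hz hze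
    obtain ⟨k, hk, hke, hkRN⟩ := hEx z hz hze
    have hk1 := RN_one hk hke hkRN
    have e1 := hRN k hk
    have e2 := hkRN h hh
    have e3 : 2 * ⟪z ξ, h ξ⟫_ℂ = ⟪k ξ, h ξ⟫_ℂ + ⟪star h ξ, star k ξ⟫_ℂ := by
      have := congrArg (starRingEnd ℂ) e2
      simp only [map_mul, map_add, inner_conj_symm, map_ofNat, Complex.ofReal_one, map_one,
        inv_one, one_mul] at this
      exact this
    have e4 : ⟪k ξ, x ξ⟫_ℂ = 2 * ⟪z ξ, rho M ξ (x ξ)⟫_ℂ := by
      rw [hk1, inner_smul_left, rho_symm, map_ofNat]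
    have e5 : ⟪k ξ, h ξ⟫_ℂ = 2 * ⟪z ξ, rho M ξ (h ξ)⟫_ℂ := by
      rw [hk1, inner_smul_left, rho_symm, map_ofNat]
    simp only [inner_sub_right, inner_add_right, inner_smul_right]
    have e6 : (lam : ℂ) * (2 * ⟪k ξ, x ξ⟫_ℂ)
        = (lam : ℂ) ^ 2 * ⟪k ξ, h ξ⟫_ℂ + ⟪star h ξ, star k ξ⟫_ℂ := by
      rw [e1]; field_simp
    rw [e4, e5] at e6
    rw [e5] at e3
    linear_combination (1 / 2 : ℂ) * e3 - (1 / 2 : ℂ) * e6

/-- the same for `M'` -/
theorem RN_lam' (hEx : ExRN M.commutant ξ) {lam : ℝ} (hlam : lam ≠ 0) {h z : H →L[ℂ] H}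
    (hh : h ∈ M.commutant) (hhe : ee M.commutant ξ * h * ee M.commutant ξ = h) (hz : z ∈ M)
    (hze : ee M ξ * z * ee M ξ = z) (hRN : RN M.commutant ξ lam⁻¹ h z) :
    z ξ - rho M ξ (z ξ) + ((lam : ℂ) ^ 2) • rho M ξ (z ξ)
      = (2 * (lam : ℂ)) • (h ξ - rho M ξ (h ξ)) := by
  have hl : (lam : ℂ) ≠ 0 := by exact_mod_cast hlam
  have h1 := RN_lam (M := M.commutant) hEx (inv_ne_zero hlam)
    (by rw [VonNeumannAlgebra.commutant_commutant]; exact hz)
    (by rw [VonNeumannAlgebra.commutant_commutant]; exact hze) hRN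
  have hz1 : rho M.commutant ξ (z ξ) = z ξ - rho M ξ (z ξ) := by
    rw [eq_sub_iff_add_eq, add_comm]
    exact rho_add_rho_apply (apply_of_corner hze ξ) (ee_comm_apply hz)
  have hh1 : rho M.commutant ξ (h ξ) = h ξ - rho M ξ (h ξ) := by
    rw [eq_sub_iff_add_eq, add_comm]
    exact rho_add_rho_apply (ee_apply_comm hh) (apply_of_corner hhe ξ)
  rw [hz1, hh1] at h1
  have h2 := congrArg (fun v => ((lam : ℂ) ^ 2) • v) h1
  simp only [smul_add, smul_smul] at h2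
  have h3 : (lam : ℂ) ^ 2 * ((lam⁻¹ : ℝ) : ℂ) ^ 2 = 1 := by
    push_cast; field_simp
  have h4 : (lam : ℂ) ^ 2 * (2 * ((lam⁻¹ : ℝ) : ℂ)) = 2 * (lam : ℂ) := by
    push_cast; field_simp
  rw [h3, h4, one_smul] at h2
  rw [← h2]
  module

/-- `D_lam v = (1 - rho) v + lam² rho v` -/
def DD (M : VonNeumannAlgebra H) (ξ : H) (lam : ℝ) : H →L[ℂ] H :=
  1 - rho M ξ + ((lam : ℂ) ^ 2) • rho M ξ

lemma DD_apply (lam : ℝ) (v : H) :
    DD M ξ lam v = v - rho M ξ v + ((lam : ℂ) ^ 2) • rho M ξ v := rfl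

/-- **one step of the alternating Radon-Nikodym iteration**:
`D_lam² (z ξ) = 4 lam² rho (1 - rho) (x ξ)` for `z = T'_{1/lam} (T_lam x)`. -/
theorem RN_step (hEx : ExRN M ξ) (hEx' : ExRN M.commutant ξ) {lam : ℝ} (hlam : lam ≠ 0)
    {x h z : H →L[ℂ] H} (hh : h ∈ M.commutant)
    (hhe : ee M.commutant ξ * h * ee M.commutant ξ = h) (hz : z ∈ M)
    (hze : ee M ξ * z * ee M ξ = z) (h1 : RN M ξ lam x h) (h2 : RN M.commutant ξ lam⁻¹ h z) :
    DD M ξ lam (DD M ξ lam (z ξ))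
      = (4 * (lam : ℂ) ^ 2) • (rho M ξ (x ξ) - rho M ξ (rho M ξ (x ξ))) := by
  have e1 := RN_lam hEx hlam hh hhe h1
  have e2 := RN_lam' hEx' hlam hh hhe hz hze h2
  rw [← DD_apply] at e1 e2
  rw [e2, map_smul, map_sub]
  have e3 : DD M ξ lam (rho M ξ (h ξ)) = rho M ξ (DD M ξ lam (h ξ)) := by
    simp only [DD_apply, map_sub, map_add, map_smul]
  rw [e3, e1, map_smul]
  module

end Crest.Agent.R078.Z.RvD
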