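import Mathlib
import Crest.Agent.R078.S103LSys938
import Crest.Agent.R078.S103RvD
import Crest.Agent.R078.S103Num535
import Crest.Agent.R078.S103Pos535

/-!
# R78 / S0103, letter lemma, matrix part (helper535)

Everything of `LetterOut` except the scalar recovery, componentwise.
-/

set_option autoImplicit false
set_option linter.unusedSectionVars false

open scoped ComplexConjugate ComplexOrder

noncomputable section

namespace Crest.Agent.R078.Z.Comp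

open Crest.Agent.R078.S103.LSys Crest.Agent.R078.Z.Pos

universe u

variable {H : Type u} [NormedAddCommGroup H] [InnerProductSpace ℂ H] [CompleteSpace H]
variable {ι : Type*} [Fintype ι] [DecidableEq ι]

/-! ### 2 x 2 block positivity as a quadratic form -/

/-- `(v, (α ⊗ P) v)`. -/
def QF (α : ι → ι → ℝ) (P : H →L[ℂ] H) (v : ι → H) : ℝ :=
  ∑ i, ∑ j, α i j * (inner ℂ (v i) (P (v j))).re

/-- positivity of `[[α ⊗ P, Z], [Z*, α ⊗ P]]`. -/
def BP (α : ι → ι → ℝ) (P : H →L[ℂ] H) (Z : Matrix ι ι (H →L[ℂ] H)) : Prop :=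
  ∀ v w : ι → H, 0 ≤ QF α P v + QF α P w + 2 * ∑ i, ∑ j, (inner ℂ (v i) (Z i j (w j))).re

theorem inner_star_right (x : H →L[ℂ] H) (v w : H) : inner ℂ v (star x w) = inner ℂ (x v) w := by
  rw [ContinuousLinearMap.star_eq_adjoint, ContinuousLinearMap.adjoint_inner_right]

theorem re_inner_star (x : H →L[ℂ] H) (v w : H) :
    (inner ℂ v (star x w)).re = (inner ℂ w (x v)).re := by
  rw [inner_star_right, ← inner_conj_symm, Complex.conj_re]

theorem BP.star {α : ι → ι → ℝ} {P : H →L[ℂ] H} {Z : Matrix ι ι (H →L[ℂ] H)} (h : BP α P Z) :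
    BP α P (Star.star Z) := by
  intro v w
  have h1 := h w v
  have h2 : ∑ i, ∑ j, (inner ℂ (v i) ((Star.star Z) i j (w j))).re
      = ∑ i, ∑ j, (inner ℂ (w i) (Z i j (v j))).re := by
    rw [Finset.sum_comm]
    refine Finset.sum_congr rfl fun i _ => Finset.sum_congr rfl fun j _ => ?_
    rw [Matrix.star_apply, re_inner_star]
  rw [h2]
  linarith

/-- the block matrix. -/
def blk (α : ι → ι → ℝ) (P : H →L[ℂ] H) (Z : Matrix ι ι (H →L[ℂ] H)) :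
    Matrix (ι ⊕ ι) (ι ⊕ ι) (H →L[ℂ] H) :=
  Matrix.fromBlocks (fun i j => (α i j : ℂ) • P) (fun i j => Z i j) (fun i j => star (Z j i))
    (fun i j => (α i j : ℂ) • P)

theorem sum_blk (A B C D : Matrix ι ι (H →L[ℂ] H)) (v w : ι → H) :
    ∑ i, ∑ j, (inner ℂ ((Sum.elim v w) i) (Matrix.fromBlocks A B C D i j ((Sum.elim v w) j))).re
      = ∑ i, ∑ j, (inner ℂ (v i) (A i j (v j))).re + ∑ i, ∑ j, (inner ℂ (v i) (B i j (w j))).re
        + (∑ i, ∑ j, (inner ℂ (w i) (C i j (v j))).re + ∑ i, ∑ j, (inner ℂ (w i) (D i j (w j))).re) := by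
  simp only [Fintype.sum_sum_type, Sum.elim_inl, Sum.elim_inr, Finset.sum_add_distrib,
    Matrix.fromBlocks_apply₁₁, Matrix.fromBlocks_apply₁₂, Matrix.fromBlocks_apply₂₁,
    Matrix.fromBlocks_apply₂₂]
  ring

theorem QF_eq (α : ι → ι → ℝ) (P : H →L[ℂ] H) (v : ι → H) :
    ∑ i, ∑ j, (inner ℂ (v i) (((α i j : ℂ) • P) (v j))).re = QF α P v := by
  unfold QF
  refine Finset.sum_congr rfl fun i _ => Finset.sum_congr rfl fun j _ => ?_
  rw [smul_apply, inner_smul_right, Complex.re_ofReal_mul]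

theorem isPositive_opM {J : Type*} [Fintype J] [DecidableEq J] (x : Matrix J J (H →L[ℂ] H))
    (hs : star x = x)
    (hp : ∀ v : J → H, 0 ≤ ∑ i, ∑ j, (inner ℂ (v i) (x i j (v j))).re) :
    (opM x).IsPositive := by
  rw [ContinuousLinearMap.isPositive_def']
  refine ⟨?_, fun v => ?_⟩
  · rw [isSelfAdjoint_iff, star_opM, hs]
  · rw [ContinuousLinearMap.reApplyInnerSelf_apply, ← inner_conj_symm, RCLike.conj_re, inner_opM]
    have := hp (fun i => v i)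
    rw [map_sum]
    simp only [map_sum]
    exact this

theorem BP.isPositive {α : ι → ι → ℝ} {P : H →L[ℂ] H} {Z : Matrix ι ι (H →L[ℂ] H)}
    (hα : ∀ i j, α i j = α j i) (hP : Star.star P = P) (h : BP α P Z) :
    (opM (blk α P Z)).IsPositive := by
  apply isPositive_opM
  · have e : ∀ i j, Star.star ((α j i : ℂ) • P) = (α i j : ℂ) • P := by
      intro i j
      rw [star_smul, hP, hα i j, RCLike.star_def, Complex.conj_ofReal]
    refine Matrix.ext fun i j => ?_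
    rw [Matrix.star_apply]
    rcases i with i | i <;> rcases j with j | j
    · exact e i j
    · exact star_star _
    · rfl
    · exact e i j
  · intro v
    have e : v = Sum.elim (fun i => v (Sum.inl i)) (fun i => v (Sum.inr i)) := by
      ext i; rcases i with i | i <;> rfl
    rw [e]
    refine le_trans ?_ (le_of_eq (sum_blk (fun i j => (α i j : ℂ) • P) (fun i j => Z i j)
      (fun i j => Star.star (Z j i)) (fun i j => (α i j : ℂ) • P) _ _).symm)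
    rw [QF_eq, QF_eq]
    have h1 := h (fun i => v (Sum.inl i)) (fun i => v (Sum.inr i))
    have h2 : ∑ i, ∑ j, (inner ℂ (v (Sum.inr i)) ((Star.star (Z j i)) (v (Sum.inl j)))).re
        = ∑ i, ∑ j, (inner ℂ (v (Sum.inl i)) (Z i j (v (Sum.inr j)))).re := by
      rw [Finset.sum_comm]
      refine Finset.sum_congr rfl fun i _ => Finset.sum_congr rfl fun j _ => ?_
      rw [re_inner_star]
    rw [h2]
    linarith

/-- the swapped block form. -/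
theorem BP.of_isPositive {α : ι → ι → ℝ} {P : H →L[ℂ] H} {Z : Matrix ι ι (H →L[ℂ] H)}
    (h : (opM (Matrix.fromBlocks (fun i j => (α i j : ℂ) • P) (fun i j => Star.star (Z j i))
      (fun i j => Z i j) (fun i j => (α i j : ℂ) • P) :
        Matrix (ι ⊕ ι) (ι ⊕ ι) (H →L[ℂ] H))).IsPositive) : BP α P Z := by
  intro v w
  have h1 := h.re_inner_nonneg_right (WithLp.toLp 2 (Sum.elim w v))
  rw [inner_opM, map_sum] at h1
  simp only [map_sum] at h1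
  have h3 := sum_blk (fun i j => (α i j : ℂ) • P) (fun i j => Star.star (Z j i))
      (fun i j => Z i j) (fun i j => (α i j : ℂ) • P) w v
  have h4 : 0 ≤ ∑ i, ∑ j, (inner ℂ ((Sum.elim w v) i) (Matrix.fromBlocks (fun i j => (α i j : ℂ) • P)
      (fun i j => Star.star (Z j i))
      (fun i j => Z i j) (fun i j => (α i j : ℂ) • P) i j ((Sum.elim w v) j))).re := h1
  rw [h3, QF_eq, QF_eq] at h4
  have h2 : ∑ i, ∑ j, (inner ℂ (w i) ((Star.star (Z j i)) (v j))).re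
      = ∑ i, ∑ j, (inner ℂ (v i) (Z i j (w j))).re := by
    rw [Finset.sum_comm]
    refine Finset.sum_congr rfl fun i _ => Finset.sum_congr rfl fun j _ => ?_
    rw [re_inner_star]
  rw [h2] at h4
  linarith

/-! ### norm bounds from block positivity -/

theorem QF_le {α : ι → ι → ℝ} {P : H →L[ℂ] H} (hα : ∀ i j, α i j = α j i) (hα0 : ∀ i j, 0 ≤ α i j)
    (hP : ∀ v, ‖P v‖ ≤ ‖v‖) {R : ℝ} (hR : ∀ i, ∑ j, α i j ≤ R) (v : ι → H) :
    QF α P v ≤ R * ∑ i, ‖v i‖ ^ 2 := by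
  have h1 : QF α P v ≤ ∑ i, ∑ j, (α i j * ‖v i‖ ^ 2 / 2 + α i j * ‖v j‖ ^ 2 / 2) := by
    unfold QF
    refine Finset.sum_le_sum fun i _ => Finset.sum_le_sum fun j _ => ?_
    have h2 : (inner ℂ (v i) (P (v j))).re ≤ ‖v i‖ * ‖v j‖ := by
      calc (inner ℂ (v i) (P (v j))).re ≤ ‖inner ℂ (v i) (P (v j))‖ := Complex.re_le_norm _
        _ ≤ ‖v i‖ * ‖P (v j)‖ := norm_inner_le_norm _ _
        _ ≤ _ := by gcongr; exact hP _
    have h3 : (inner ℂ (v i) (P (v j))).re ≤ ‖v i‖ ^ 2 / 2 + ‖v j‖ ^ 2 / 2 := by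
      nlinarith [sq_nonneg (‖v i‖ - ‖v j‖)]
    calc _ ≤ α i j * (‖v i‖ ^ 2 / 2 + ‖v j‖ ^ 2 / 2) := mul_le_mul_of_nonneg_left h3 (hα0 i j)
      _ = _ := by ring
  have h4 : ∑ i, ∑ j, α i j * ‖v i‖ ^ 2 / 2 ≤ R / 2 * ∑ i, ‖v i‖ ^ 2 := by
    rw [Finset.mul_sum]
    refine Finset.sum_le_sum fun i _ => ?_
    have : ∑ j, α i j * ‖v i‖ ^ 2 / 2 = (∑ j, α i j) * (‖v i‖ ^ 2 / 2) := by
      rw [Finset.sum_mul]; exact Finset.sum_congr rfl fun j _ => by ring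
    rw [this]
    nlinarith [hR i, sq_nonneg ‖v i‖]
  have h5 : ∑ i, ∑ j, α i j * ‖v j‖ ^ 2 / 2 ≤ R / 2 * ∑ i, ‖v i‖ ^ 2 := by
    rw [Finset.sum_comm, Finset.mul_sum]
    refine Finset.sum_le_sum fun i _ => ?_
    have : ∑ j, α j i * ‖v i‖ ^ 2 / 2 = (∑ j, α i j) * (‖v i‖ ^ 2 / 2) := by
      rw [Finset.sum_mul]; exact Finset.sum_congr rfl fun j _ => by rw [hα j i]; ring
    rw [this]
    nlinarith [hR i, sq_nonneg ‖v i‖]
  simp only [Finset.sum_add_distrib] at h1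
  linarith

/-- `‖Z w‖² ≤ R (w, (α ⊗ P) w)`. -/
theorem BP.norm_sq_le {α : ι → ι → ℝ} {P : H →L[ℂ] H} {Z : Matrix ι ι (H →L[ℂ] H)}
    (hα : ∀ i j, α i j = α j i) (hα0 : ∀ i j, 0 ≤ α i j)
    (hP : ∀ v, ‖P v‖ ≤ ‖v‖) {R : ℝ} (hR0 : 0 < R) (hR : ∀ i, ∑ j, α i j ≤ R) (h : BP α P Z)
    (w : ι → H) : ∑ i, ‖∑ j, Z i j (w j)‖ ^ 2 ≤ R * QF α P w := by
  set u : ι → H := fun i => ∑ j, Z i j (w j) with hu
  have h1 := h (fun i => ((-R⁻¹ : ℝ) : ℂ) • u i) w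
  have h2 : QF α P (fun i => ((-R⁻¹ : ℝ) : ℂ) • u i) = R⁻¹ ^ 2 * QF α P u := by
    unfold QF
    rw [Finset.mul_sum]
    refine Finset.sum_congr rfl fun i _ => ?_
    rw [Finset.mul_sum]
    refine Finset.sum_congr rfl fun j _ => ?_
    rw [map_smul, inner_smul_left, inner_smul_right, Complex.conj_ofReal, Complex.re_ofReal_mul,
      Complex.re_ofReal_mul]
    ring
  have h3 : ∑ i, ∑ j, (inner ℂ (((-R⁻¹ : ℝ) : ℂ) • u i) (Z i j (w j))).re
      = -R⁻¹ * ∑ i, ‖u i‖ ^ 2 := by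
    rw [Finset.mul_sum]
    refine Finset.sum_congr rfl fun i _ => ?_
    rw [← Complex.re_sum, ← inner_sum, inner_smul_left, Complex.conj_ofReal, Complex.re_ofReal_mul]
    congr 1
    have : inner ℂ (u i) (u i) = ((‖u i‖ ^ 2 : ℝ) : ℂ) := by
      rw [inner_self_eq_norm_sq_to_K]; push_cast; rfl
    change (inner ℂ (u i) (u i)).re = _
    rw [this, Complex.ofReal_re]
  rw [h2, h3] at h1
  have h4 := QF_le hα hα0 hP hR u
  have h5 : R⁻¹ ^ 2 * QF α P u ≤ R⁻¹ * ∑ i, ‖u i‖ ^ 2 := by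
    calc R⁻¹ ^ 2 * QF α P u ≤ R⁻¹ ^ 2 * (R * ∑ i, ‖u i‖ ^ 2) := by gcongr
      _ = _ := by field_simp
  have h6 : R⁻¹ * ∑ i, ‖u i‖ ^ 2 ≤ QF α P w := by nlinarith
  calc ∑ i, ‖u i‖ ^ 2 = R * (R⁻¹ * ∑ i, ‖u i‖ ^ 2) := by field_simp
    _ ≤ R * QF α P w := by gcongr

theorem BP.opM_norm_le {α : ι → ι → ℝ} {P : H →L[ℂ] H} {Z : Matrix ι ι (H →L[ℂ] H)}
    (hα : ∀ i j, α i j = α j i) (hα0 : ∀ i j, 0 ≤ α i j)
    (hP : ∀ v, ‖P v‖ ≤ ‖v‖) {R : ℝ} (hR0 : 0 < R) (hR : ∀ i, ∑ j, α i j ≤ R) (h : BP α P Z) :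
    ‖opM Z‖ ≤ R := by
  refine ContinuousLinearMap.opNorm_le_bound _ hR0.le fun w => ?_
  have h1 := h.norm_sq_le hα hα0 hP hR0 hR (fun j => w j)
  have h2 := QF_le hα hα0 hP hR (fun j => w j)
  have h3 : ‖opM Z w‖ ^ 2 ≤ (R * ‖w‖) ^ 2 := by
    rw [PiLp.norm_sq_eq_of_L2, mul_pow, PiLp.norm_sq_eq_of_L2]
    simp only [opM_apply]
    calc _ ≤ R * QF α P (fun j => w j) := h1
      _ ≤ R * (R * ∑ i, ‖w i‖ ^ 2) := by gcongr
      _ = _ := by ring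
  exact (sq_le_sq₀ (norm_nonneg _) (by positivity)).mp h3

/-- column bound. -/
theorem BP.col_le {α : ι → ι → ℝ} {P : H →L[ℂ] H} {Z : Matrix ι ι (H →L[ℂ] H)}
    (hα : ∀ i j, α i j = α j i) (hα0 : ∀ i j, 0 ≤ α i j)
    (hP : ∀ v, ‖P v‖ ≤ ‖v‖) {R : ℝ} (hR0 : 0 < R) (hR : ∀ i, ∑ j, α i j ≤ R) (h : BP α P Z)
    (ξ : H) (j : ι) : ∑ i, ‖Z i j ξ‖ ^ 2 ≤ R * α j j * ‖ξ‖ ^ 2 := by
  have h1 := h.norm_sq_le hα hα0 hP hR0 hR (Pi.single j ξ)
  have h2 : ∀ i, ∑ k, Z i k ((Pi.single j ξ : ι → H) k) = Z i j ξ := by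
    intro i
    rw [Finset.sum_eq_single j]
    · simp
    · intro k _ hk; rw [Pi.single_eq_of_ne hk, map_zero]
    · simp
  simp only [h2] at h1
  have h3 : QF α P (Pi.single j ξ) = α j j * (inner ℂ ξ (P ξ)).re := by
    unfold QF
    rw [Finset.sum_eq_single j]
    · rw [Finset.sum_eq_single j]
      · simp
      · intro k _ hk; rw [Pi.single_eq_of_ne hk, map_zero, inner_zero_right]; simp
      · simp
    · intro k _ hk
      refine Finset.sum_eq_zero fun l _ => ?_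
      rw [Pi.single_eq_of_ne hk, inner_zero_left]; simp
    · simp
  have h4 : (inner ℂ ξ (P ξ)).re ≤ ‖ξ‖ ^ 2 := by
    calc (inner ℂ ξ (P ξ)).re ≤ ‖inner ℂ ξ (P ξ)‖ := Complex.re_le_norm _
      _ ≤ ‖ξ‖ * ‖P ξ‖ := norm_inner_le_norm _ _
      _ ≤ ‖ξ‖ * ‖ξ‖ := by gcongr; exact hP _
      _ = _ := by ring
  rw [h3] at h1
  calc _ ≤ R * (α j j * (inner ℂ ξ (P ξ)).re) := h1
    _ ≤ R * (α j j * ‖ξ‖ ^ 2) := by
      gcongr
      exact hα0 _ _
    _ = _ := by ring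

/-! ### the initial block -/

theorem BP.init {c : ℝ} (hc : 0 ≤ c) {y : H →L[ℂ] H} (hy : ‖y‖ ≤ 1) :
    BP (ι := ι) (fun _ _ => c) (1 : H →L[ℂ] H) (Matrix.of fun _ _ => (c : ℂ) • y) := by
  intro v w
  have hQ : ∀ v : ι → H, QF (fun _ _ => c) (1 : H →L[ℂ] H) v = c * ‖∑ i, v i‖ ^ 2 := by
    intro v
    unfold QF
    have : ((‖∑ i, v i‖ ^ 2 : ℝ) : ℂ) = inner ℂ (∑ i, v i) (∑ i, v i) := by
      rw [inner_self_eq_norm_sq_to_K]; push_cast; rfl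
    have h2 := congrArg Complex.re this
    rw [Complex.ofReal_re, sum_inner, Complex.re_sum] at h2
    rw [h2, Finset.mul_sum]
    refine Finset.sum_congr rfl fun i _ => ?_
    rw [inner_sum, Complex.re_sum, Finset.mul_sum]
    rfl
  have hZ : ∑ i, ∑ j, (inner ℂ (v i) ((Matrix.of fun _ _ => (c : ℂ) • y : Matrix ι ι (H →L[ℂ] H)) i j (w j))).re
      = c * (inner ℂ (∑ i, v i) (y (∑ j, w j))).re := by
    rw [sum_inner, Complex.re_sum, Finset.mul_sum]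
    refine Finset.sum_congr rfl fun i _ => ?_
    rw [map_sum, inner_sum, Complex.re_sum, Finset.mul_sum]
    refine Finset.sum_congr rfl fun j _ => ?_
    rw [Matrix.of_apply, smul_apply, inner_smul_right, Complex.re_ofReal_mul]
  rw [hQ, hQ, hZ]
  set a := ∑ i, v i
  set b := ∑ i, w i
  have h1 : -(‖a‖ * ‖b‖) ≤ (inner ℂ a (y b)).re := by
    have h2 : |(inner ℂ a (y b)).re| ≤ ‖a‖ * ‖b‖ := by
      calc |(inner ℂ a (y b)).re| ≤ ‖inner ℂ a (y b)‖ := Complex.abs_re_le_norm _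
        _ ≤ ‖a‖ * ‖y b‖ := norm_inner_le_norm _ _
        _ ≤ ‖a‖ * (‖y‖ * ‖b‖) := by gcongr; exact y.le_opNorm _
        _ ≤ ‖a‖ * (1 * ‖b‖) := by gcongr
        _ = _ := by ring
    linarith [neg_abs_le (inner ℂ a (y b)).re]
  have h3 : 0 ≤ c * ((‖a‖ - ‖b‖) ^ 2 + 2 * ((inner ℂ a (y b)).re + ‖a‖ * ‖b‖)) := by
    apply mul_nonneg hc
    nlinarith [sq_nonneg (‖a‖ - ‖b‖)]
  nlinarith

/-! ### one Radon–Nikodym step -/

/-- `T` is the Radon–Nikodym map of weight `lam`. -/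
def HT (M : VonNeumannAlgebra H) (ξ : H) (lam : ℝ) (T : (H →L[ℂ] H) →ₗ[ℂ] (H →L[ℂ] H)) : Prop :=
  ∀ x ∈ M, T x ∈ M.commutant ∧ RN M ξ lam x (T x) ∧ Sup M ξ (T x) ∧ Sup M ξ (star (T x))

theorem RN_iff {M : VonNeumannAlgebra H} {ξ : H} {lam : ℝ} {x h : H →L[ℂ] H} :
    RN M ξ lam x h ↔ RvD.RN M ξ lam x h := by
  unfold RN RvD.RN
  push_cast
  rfl

theorem Sup_ee (M : VonNeumannAlgebra H) (ξ : H) : Sup M ξ (RvD.ee M.commutant ξ) := by
  intro v hv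
  unfold RvD.ee
  rw [Submodule.starProjection_apply_eq_zero_iff, Submodule.mem_orthogonal]
  intro u hu
  rw [VonNeumannAlgebra.commutant_commutant] at hu
  have hcl : IsClosed {u : H | inner ℂ u v = 0} := isClosed_eq (by fun_prop) continuous_const
  refine closure_minimal ?_ hcl (show u ∈ closure _ from hu)
  rintro _ ⟨z, hz, rfl⟩
  exact hv z hz

theorem RN_proj {M : VonNeumannAlgebra H} {ξ : H} {lam : ℝ} (hl : 0 < lam) {E : H →L[ℂ] H}
    (hE : E ξ = ξ) : RN M ξ lam E (((2 / (lam + lam⁻¹) : ℝ) : ℂ) • RvD.ee M.commutant ξ) := by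
  intro y hy
  have h1 : star ((((2 / (lam + lam⁻¹) : ℝ) : ℂ)) • RvD.ee M.commutant ξ)
      = (((2 / (lam + lam⁻¹) : ℝ) : ℂ)) • RvD.ee M.commutant ξ := by
    rw [star_smul, RvD.ee_star, RCLike.star_def, Complex.conj_ofReal]
  rw [h1, smul_apply, RvD.ee_self, hE, inner_smul_left, inner_smul_right, Complex.conj_ofReal,
    inner_star_right]
  have h2 : lam * (2 / (lam + lam⁻¹)) + lam⁻¹ * (2 / (lam + lam⁻¹)) = 2 := by
    have : 0 < lam + lam⁻¹ := by positivity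
    field_simp
  have h3 : (lam : ℂ) * ((2 / (lam + lam⁻¹) : ℝ) : ℂ) + ((lam⁻¹ : ℝ) : ℂ) * ((2 / (lam + lam⁻¹) : ℝ) : ℂ) = 2 := by
    exact_mod_cast h2
  linear_combination (-(inner ℂ (y ξ) ξ : ℂ)) * h3

theorem RN_smul {M : VonNeumannAlgebra H} {ξ : H} {lam : ℝ} {x h : H →L[ℂ] H} (c : ℝ)
    (h1 : RN M ξ lam x h) : RN M ξ lam ((c : ℂ) • x) ((c : ℂ) • h) := by
  intro y hy
  have e := h1 y hy
  rw [star_smul, RCLike.star_def, Complex.conj_ofReal]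
  simp only [smul_apply, inner_smul_left, inner_smul_right, Complex.conj_ofReal]
  linear_combination (c : ℂ) * e

/-- `1 / cosh`. -/
def sc (ω : ι → ℝ) (i j : ι) : ℝ := 2 / (Real.sqrt (ω i / ω j) + (Real.sqrt (ω i / ω j))⁻¹)

theorem sc_symm (ω : ι → ℝ) (i j : ι) : sc ω i j = sc ω j i := by
  unfold sc
  rw [← Real.sqrt_inv, ← Real.sqrt_inv, inv_div, inv_div, add_comm]

theorem sc_nonneg (ω : ι → ℝ) (i j : ι) : 0 ≤ sc ω i j := by
  unfold sc; positivity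

theorem sc_self (ω : ι → ℝ) (hω : ∀ i, 0 < ω i) (i : ι) : sc ω i i = 1 := by
  unfold sc
  rw [div_self (hω i).ne']
  norm_num

theorem HT.star_eq {M : VonNeumannAlgebra H} {ξ : H} {lam mu : ℝ} (hl : 0 < lam) (hmu : mu = lam⁻¹)
    {T S : (H →L[ℂ] H) →ₗ[ℂ] (H →L[ℂ] H)} (hT : HT M ξ lam T) (hS : HT M ξ mu S)
    {x : H →L[ℂ] H} (hx : x ∈ M) : S (star x) = star (T x) := by
  subst hmu
  obtain ⟨a1, a2, a3, a4⟩ := hT x hx
  obtain ⟨b1, b2, b3, b4⟩ := hS (star x) (star_mem hx)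
  refine RN.unique (M := M) (ξ := ξ) (inv_pos.mpr hl) b2 (a2.star hx) b1 (star_mem a1) b3 a4

theorem step (M : VonNeumannAlgebra H) (ξ : H) (ω : ι → ℝ) (hω : ∀ i, 0 < ω i)
    (T : ι → ι → (H →L[ℂ] H) →ₗ[ℂ] (H →L[ℂ] H))
    (hT : ∀ i j, HT M ξ (Real.sqrt (ω i / ω j)) (T i j))
    {E : H →L[ℂ] H} (hE : E ∈ M) (hEξ : E ξ = ξ) (hEs : star E = E)
    {α : ι → ι → ℝ} (hα : ∀ i j, α i j = α j i)
    {Z : Matrix ι ι (H →L[ℂ] H)} (hZ : ∀ i j, Z i j ∈ M) (h : BP α E Z) :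
    BP (fun i j => α i j * sc ω i j) (RvD.ee M.commutant ξ)
      (Matrix.of fun i j => T j i (Z j i)) := by
  have hlam : ∀ i j, 0 < Real.sqrt (ω i / ω j) := fun i j =>
    Real.sqrt_pos.mpr (div_pos (hω i) (hω j))
  apply BP.of_isPositive
  set α' : ι → ι → ℝ := fun i j => α i j * sc ω i j with hα'
  have hα's : ∀ i j, α' i j = α' j i := by
    intro i j; simp only [hα']; rw [hα i j, sc_symm]
  let hh : Matrix (ι ⊕ ι) (ι ⊕ ι) (H →L[ℂ] H) :=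
    Matrix.fromBlocks (Matrix.of fun i j => (α' i j : ℂ) • RvD.ee M.commutant ξ)
      (Matrix.of fun i j => T i j (Z i j)) (Matrix.of fun i j => T i j (star (Z j i)))
      (Matrix.of fun i j => (α' i j : ℂ) • RvD.ee M.commutant ξ)
  have hee : RvD.ee M.commutant ξ ∈ M.commutant := RvD.ee_comm_mem M ξ
  have hcee : ∀ c : ℝ, (c : ℂ) • RvD.ee M.commutant ξ ∈ M.commutant := fun c =>
    RvD.smul_mem' _ hee
  have hSee : ∀ c : ℝ, Sup M ξ ((c : ℂ) • RvD.ee M.commutant ξ) := by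
    intro c v hv
    rw [smul_apply, Sup_ee M ξ v hv, smul_zero]
  have hstc : ∀ c : ℝ, star ((c : ℂ) • RvD.ee M.commutant ξ) = (c : ℂ) • RvD.ee M.commutant ξ := by
    intro c
    rw [star_smul, RvD.ee_star, RCLike.star_def, Complex.conj_ofReal]
  have hRE : ∀ i j, RN M ξ (Real.sqrt (ω i / ω j)) ((α i j : ℂ) • E)
      ((α' i j : ℂ) • RvD.ee M.commutant ξ) := by
    intro i j
    have h1 := RN_smul (α i j) (RN_proj (M := M) (hlam i j) hEξ)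
    rw [smul_smul, ← Complex.ofReal_mul] at h1
    exact h1
  have key : (opM hh.transpose).IsPositive := by
    refine pos_transpose M ξ (Sum.elim ω ω) ?_ (blk α E Z) hh ?_ ?_ ?_ ?_ ?_ (h.isPositive hα hEs)
    · rintro (i | i) <;> exact hω i
    · rintro (i | i) (j | j)
      · exact RvD.smul_mem' _ hE
      · exact hZ i j
      · exact star_mem (hZ j i)
      · exact RvD.smul_mem' _ hE
    · rintro (i | i) (j | j)
      · exact hcee _
      · exact (hT i j _ (hZ i j)).1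
      · exact (hT i j _ (star_mem (hZ j i))).1
      · exact hcee _
    · rintro (i | i) (j | j)
      · exact hSee _
      · exact (hT i j _ (hZ i j)).2.2.1
      · exact (hT i j _ (star_mem (hZ j i))).2.2.1
      · exact hSee _
    · rintro (i | i) (j | j)
      · change Sup M ξ (star ((α' i j : ℂ) • RvD.ee M.commutant ξ))
        rw [hstc]; exact hSee _
      · exact (hT i j _ (hZ i j)).2.2.2
      · exact (hT i j _ (star_mem (hZ j i))).2.2.2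
      · change Sup M ξ (star ((α' i j : ℂ) • RvD.ee M.commutant ξ))
        rw [hstc]; exact hSee _
    · rintro (i | i) (j | j)
      · exact hRE i j
      · exact (hT i j _ (hZ i j)).2.1
      · exact (hT i j _ (star_mem (hZ j i))).2.1
      · exact hRE i j
  have e : hh.transpose = (Matrix.fromBlocks (fun i j => (α' i j : ℂ) • RvD.ee M.commutant ξ)
      (fun i j => Star.star ((Matrix.of fun i j => T j i (Z j i) : Matrix ι ι (H →L[ℂ] H)) j i))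
      (fun i j => (Matrix.of fun i j => T j i (Z j i) : Matrix ι ι (H →L[ℂ] H)) i j)
      (fun i j => (α' i j : ℂ) • RvD.ee M.commutant ξ) :
        Matrix (ι ⊕ ι) (ι ⊕ ι) (H →L[ℂ] H)) := by
    refine Matrix.ext fun i j => ?_
    rcases i with i | i <;> rcases j with j | j
    · change (α' j i : ℂ) • RvD.ee M.commutant ξ = (α' i j : ℂ) • RvD.ee M.commutant ξ
      rw [hα's]
    · change T j i (star (Z i j)) = star (T i j (Z i j))
      refine HT.star_eq (hlam i j) ?_ (hT i j) (hT j i) (hZ i j)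
      rw [← Real.sqrt_inv, inv_div]
    · rfl
    · change (α' j i : ℂ) • RvD.ee M.commutant ξ = (α' i j : ℂ) • RvD.ee M.commutant ξ
      rw [hα's]
  rw [← e]
  exact key

/-! ### the iterates -/

/-- `M, M', M, M', …`. -/
def MM (M : VonNeumannAlgebra H) : ℕ → VonNeumannAlgebra H
  | 0 => M
  | q + 1 => (MM M q).commutant

theorem MM_add_two (M : VonNeumannAlgebra H) (q : ℕ) : MM M (q + 2) = MM M q :=
  VonNeumannAlgebra.commutant_commutant _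

theorem MM_even (M : VonNeumannAlgebra H) (k : ℕ) : MM M (2 * k) = M := by
  induction k with
  | zero => rfl
  | succ k ih => rw [mul_add, mul_one, MM_add_two, ih]

theorem MM_odd (M : VonNeumannAlgebra H) (k : ℕ) : MM M (2 * k + 1) = M.commutant := by
  change (MM M (2 * k)).commutant = _
  rw [MM_even]

/-- the projections. -/
def PR (M : VonNeumannAlgebra H) (ξ : H) : ℕ → (H →L[ℂ] H)
  | 0 => 1
  | q + 1 => RvD.ee (MM M q).commutant ξ

theorem PR_mem (M : VonNeumannAlgebra H) (ξ : H) (q : ℕ) : PR M ξ q ∈ MM M q := by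
  cases q with
  | zero => exact one_mem _
  | succ q => exact RvD.ee_mem _ _

theorem PR_self (M : VonNeumannAlgebra H) (ξ : H) (q : ℕ) : PR M ξ q ξ = ξ := by
  cases q with
  | zero => rfl
  | succ q => exact RvD.ee_self _ _

theorem PR_star (M : VonNeumannAlgebra H) (ξ : H) (q : ℕ) : star (PR M ξ q) = PR M ξ q := by
  cases q with
  | zero => exact star_one _
  | succ q => exact RvD.ee_star _ _

theorem PR_norm_le (M : VonNeumannAlgebra H) (ξ : H) (q : ℕ) (v : H) : ‖PR M ξ q v‖ ≤ ‖v‖ := by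
  cases q with
  | zero => exact le_refl _
  | succ q => exact RvD.ee_norm_le _ _ _

/-- the iterates, `zl (q+1) i j = T_q^{(j i)} (zl q j i)`. -/
def zl (T : ℕ → ι → ι → (H →L[ℂ] H) →ₗ[ℂ] (H →L[ℂ] H)) (c : ℝ) :
    ℕ → ι → ι → ((H →L[ℂ] H) →ₗ[ℂ] (H →L[ℂ] H))
  | 0, _, _ => (c : ℂ) • LinearMap.id
  | q + 1, i, j => (T q j i) ∘ₗ (zl T c q j i)

theorem zl_succ (T : ℕ → ι → ι → (H →L[ℂ] H) →ₗ[ℂ] (H →L[ℂ] H)) (c : ℝ) (q : ℕ) (i j : ι)
    (y : H →L[ℂ] H) : zl T c (q + 1) i j y = T q j i (zl T c q j i y) := rfl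

theorem zl_zero (T : ℕ → ι → ι → (H →L[ℂ] H) →ₗ[ℂ] (H →L[ℂ] H)) (c : ℝ) (i j : ι)
    (y : H →L[ℂ] H) : zl T c 0 i j y = (c : ℂ) • y := rfl

section iter

variable {M : VonNeumannAlgebra H} {ξ : H} {ω : ι → ℝ}
  {T : ℕ → ι → ι → (H →L[ℂ] H) →ₗ[ℂ] (H →L[ℂ] H)}

theorem zl_mem (hT : ∀ q i j, HT (MM M q) ξ (Real.sqrt (ω i / ω j)) (T q i j)) (c : ℝ)
    {y : H →L[ℂ] H} (hy : y ∈ M) (q : ℕ) : ∀ i j, zl T c q i j y ∈ MM M q := by
  induction q with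
  | zero => intro i j; exact RvD.smul_mem' _ hy
  | succ q ih => intro i j; exact (hT q j i _ (ih j i)).1

theorem zl_BP (hω : ∀ i, 0 < ω i)
    (hT : ∀ q i j, HT (MM M q) ξ (Real.sqrt (ω i / ω j)) (T q i j)) {c : ℝ} (hc : 0 ≤ c)
    {y : H →L[ℂ] H} (hy : y ∈ M) (hy1 : ‖y‖ ≤ 1) (q : ℕ) :
    BP (fun i j => c * sc ω i j ^ q) (PR M ξ q) (Matrix.of fun i j => zl T c q i j y) := by
  induction q with
  | zero =>
    have h1 := BP.init (ι := ι) hc hy1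
    simp only [pow_zero, mul_one]
    exact h1
  | succ q ih =>
    have h1 := step (MM M q) ξ ω hω (T q) (hT q) (PR_mem M ξ q) (PR_self M ξ q) (PR_star M ξ q)
      (α := fun i j => c * sc ω i j ^ q) (fun i j => by rw [sc_symm])
      (Z := Matrix.of fun i j => zl T c q i j y) (fun i j => zl_mem hT c hy q i j) ih
    have e : (fun i j => c * sc ω i j ^ (q + 1)) = (fun i j => c * sc ω i j ^ q * sc ω i j) := by
      funext i j; rw [pow_succ, mul_assoc]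
    rw [e]
    exact h1

/-- the norm at the entry `(i, j)`. -/
def nn (ω : ι → ℝ) (ξ : H) (i j : ι) (z : H →L[ℂ] H) : ℝ :=
  (ω j * ‖z ξ‖ ^ 2 + ω i * ‖star z ξ‖ ^ 2) / 2

theorem nn_nonneg (hω : ∀ i, 0 < ω i) (i j : ι) (z : H →L[ℂ] H) : 0 ≤ nn ω ξ i j z := by
  unfold nn
  have := (hω i).le
  have := (hω j).le
  positivity

theorem sqrt_mul_1 (hω : ∀ i, 0 < ω i) (i j : ι) :
    Real.sqrt (ω i / ω j) * (Real.sqrt (ω i) * Real.sqrt (ω j)) = ω i := by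
  rw [Real.sqrt_div (hω i).le]
  have h1 := Real.sqrt_pos.mpr (hω j)
  have h2 := Real.mul_self_sqrt (hω i).le
  field_simp
  nlinarith

theorem sqrt_mul_2 (hω : ∀ i, 0 < ω i) (i j : ι) :
    (Real.sqrt (ω i / ω j))⁻¹ * (Real.sqrt (ω i) * Real.sqrt (ω j)) = ω j := by
  rw [← Real.sqrt_inv, inv_div, mul_comm (Real.sqrt (ω i))]
  exact sqrt_mul_1 hω j i

/-- the RN equation, weighted, real part. -/
theorem RN_re (hω : ∀ i, 0 < ω i) {i j : ι} {x h y : H →L[ℂ] H}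
    (hR : RN M ξ (Real.sqrt (ω i / ω j)) x h) (hy : y ∈ M.commutant) :
    2 * (Real.sqrt (ω i) * Real.sqrt (ω j)) * (inner ℂ (y ξ) (x ξ)).re
      = ω i * (inner ℂ (y ξ) (h ξ)).re + ω j * (inner ℂ (star h ξ) (star y ξ)).re := by
  have e := congrArg Complex.re (hR y hy)
  rw [Complex.add_re, Complex.re_ofReal_mul, Complex.re_ofReal_mul,
    show (2 : ℂ) = ((2 : ℝ) : ℂ) by norm_num, Complex.re_ofReal_mul] at e
  have h1 := sqrt_mul_1 hω i j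
  have h2 := sqrt_mul_2 hω i j
  calc _ = (2 * (inner ℂ (y ξ) (x ξ)).re) * (Real.sqrt (ω i) * Real.sqrt (ω j)) := by ring
    _ = (Real.sqrt (ω i / ω j) * (Real.sqrt (ω i) * Real.sqrt (ω j))) * (inner ℂ (y ξ) (h ξ)).re
        + ((Real.sqrt (ω i / ω j))⁻¹ * (Real.sqrt (ω i) * Real.sqrt (ω j))) *
          (inner ℂ (star h ξ) (star y ξ)).re := by rw [e]; ring
    _ = _ := by rw [h1, h2]

theorem inner_self_re (v : H) : (inner ℂ v v).re = ‖v‖ ^ 2 := by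
  have : inner ℂ v v = ((‖v‖ ^ 2 : ℝ) : ℂ) := by
    rw [inner_self_eq_norm_sq_to_K]; push_cast; rfl
  rw [this, Complex.ofReal_re]

/-- `⟨√ω_i √ω_j hξ, xξ⟩ = n(h)`. -/
theorem cross_eq (hω : ∀ i, 0 < ω i) {i j : ι} {x h : H →L[ℂ] H}
    (hR : RN M ξ (Real.sqrt (ω i / ω j)) x h) (hh : h ∈ M.commutant) :
    (Real.sqrt (ω i) * Real.sqrt (ω j)) * (inner ℂ (h ξ) (x ξ)).re = nn ω ξ j i h := by
  have e := RN_re hω hR hh
  rw [inner_self_re, inner_self_re] at e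
  unfold nn
  linarith

theorem cross_star {x h : H →L[ℂ] H} (hx : x ∈ M) (hh : h ∈ M.commutant) :
    (inner ℂ (star h ξ) (star x ξ)).re = (inner ℂ (h ξ) (x ξ)).re := by
  have h1 : inner ℂ (star h ξ) (star x ξ) = inner ℂ (x ξ) (h ξ) := by
    rw [inner_star_right, RvD.comm_apply hx (star_mem hh), RvD.inner_star_left]
  rw [h1, ← inner_conj_symm, Complex.conj_re]

theorem norm_sub_sq_c (s t : ℝ) (v w : H) : ‖(s : ℂ) • v - (t : ℂ) • w‖ ^ 2
    = s ^ 2 * ‖v‖ ^ 2 + t ^ 2 * ‖w‖ ^ 2 - 2 * (s * t * (inner ℂ w v).re) := by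
  have h1 := @norm_sub_sq ℂ H _ _ _ ((s : ℂ) • v) ((t : ℂ) • w)
  rw [h1, norm_smul, norm_smul, mul_pow, mul_pow, Complex.norm_real, Complex.norm_real,
    Real.norm_eq_abs, Real.norm_eq_abs, sq_abs, sq_abs, inner_smul_left, inner_smul_right,
    Complex.conj_ofReal]
  have h2 : RCLike.re ((s : ℂ) * ((t : ℂ) * inner ℂ v w)) = s * t * (inner ℂ w v).re := by
    change ((s : ℂ) * ((t : ℂ) * inner ℂ v w)).re = _
    rw [Complex.re_ofReal_mul, Complex.re_ofReal_mul, ← inner_conj_symm w v, Complex.conj_re]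
    ring
  rw [h2]
  ring

/-- the two defects add up to `2 (n(x) - n(h))`. -/
theorem defect_eq (hω : ∀ i, 0 < ω i) {i j : ι} {x h : H →L[ℂ] H} (hx : x ∈ M)
    (hR : RN M ξ (Real.sqrt (ω i / ω j)) x h) (hh : h ∈ M.commutant) :
    ‖(Real.sqrt (ω j) : ℂ) • x ξ - (Real.sqrt (ω i) : ℂ) • h ξ‖ ^ 2
      + ‖(Real.sqrt (ω i) : ℂ) • star x ξ - (Real.sqrt (ω j) : ℂ) • star h ξ‖ ^ 2
      = 2 * (nn ω ξ i j x - nn ω ξ j i h) := by
  rw [norm_sub_sq_c, norm_sub_sq_c, Real.sq_sqrt (hω i).le, Real.sq_sqrt (hω j).le,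
    cross_star hx hh]
  have e := cross_eq hω hR hh
  have e' : Real.sqrt (ω j) * Real.sqrt (ω i) * (inner ℂ (h ξ) (x ξ)).re = nn ω ξ j i h := by
    rw [mul_comm (Real.sqrt (ω j))]; exact e
  rw [e, e']
  unfold nn
  ring

/-- convexity. -/
theorem convex_eq (hω : ∀ i, 0 < ω i) {i j : ι} {x h z : H →L[ℂ] H} (hx : x ∈ M)
    (hR : RN M ξ (Real.sqrt (ω i / ω j)) x h) (hh : h ∈ M.commutant)
    (hR' : RN M.commutant ξ (Real.sqrt (ω j / ω i)) h z) :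
    nn ω ξ i j x - 2 * nn ω ξ j i h + nn ω ξ i j z = nn ω ξ i j (x - z) := by
  have hx' : x ∈ M.commutant.commutant := by rw [VonNeumannAlgebra.commutant_commutant]; exact hx
  have e1 := cross_eq hω hR hh
  have e2 := RN_re hω hR' hx'
  have e3 : (inner ℂ (x ξ) (h ξ)).re = (inner ℂ (h ξ) (x ξ)).re := by
    rw [← inner_conj_symm, Complex.conj_re]
  rw [e3] at e2
  have e4 : nn ω ξ i j (x - z) = nn ω ξ i j x + nn ω ξ i j z
      - (ω j * (inner ℂ (x ξ) (z ξ)).re + ω i * (inner ℂ (star z ξ) (star x ξ)).re) := by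
    unfold nn
    have f1 : ‖(x - z) ξ‖ ^ 2 = ‖x ξ‖ ^ 2 + ‖z ξ‖ ^ 2 - 2 * (inner ℂ (x ξ) (z ξ)).re := by
      rw [sub_apply, @norm_sub_sq ℂ H]
      change _ - 2 * (inner ℂ (x ξ) (z ξ)).re + _ = _
      ring
    have f2 : ‖star (x - z) ξ‖ ^ 2 = ‖star x ξ‖ ^ 2 + ‖star z ξ‖ ^ 2
        - 2 * (inner ℂ (star z ξ) (star x ξ)).re := by
      rw [star_sub, sub_apply, @norm_sub_sq ℂ H, ← inner_conj_symm (star z ξ), Complex.conj_re]
      change _ - 2 * (inner ℂ (star x ξ) (star z ξ)).re + _ = _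
      ring
    rw [f1, f2]
    ring
  rw [e4]
  linarith

/-- total norm. -/
def NN (T : ℕ → ι → ι → (H →L[ℂ] H) →ₗ[ℂ] (H →L[ℂ] H)) (c : ℝ) (ω : ι → ℝ) (ξ : H) (y : H →L[ℂ] H)
    (q : ℕ) : ℝ := ∑ i, ∑ j, nn ω ξ i j (zl T c q i j y)

theorem NN_nonneg (hω : ∀ i, 0 < ω i) (c : ℝ) (y : H →L[ℂ] H) (q : ℕ) : 0 ≤ NN T c ω ξ y q :=
  Finset.sum_nonneg fun _ _ => Finset.sum_nonneg fun _ _ => nn_nonneg hω _ _ _

theorem NN_swap (c : ℝ) (y : H →L[ℂ] H) (q : ℕ) :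
    NN T c ω ξ y q = ∑ i, ∑ j, nn ω ξ j i (zl T c q j i y) := by
  unfold NN
  rw [Finset.sum_comm]

/-- defect sum. -/
theorem defect_sum (hω : ∀ i, 0 < ω i)
    (hT : ∀ q i j, HT (MM M q) ξ (Real.sqrt (ω i / ω j)) (T q i j)) (c : ℝ)
    {y : H →L[ℂ] H} (hy : y ∈ M) (q : ℕ) :
    ∑ i, ∑ j, (‖(Real.sqrt (ω j) : ℂ) • zl T c q i j y ξ
        - (Real.sqrt (ω i) : ℂ) • zl T c (q + 1) j i y ξ‖ ^ 2
      + ‖(Real.sqrt (ω i) : ℂ) • star (zl T c q i j y) ξ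
        - (Real.sqrt (ω j) : ℂ) • star (zl T c (q + 1) j i y) ξ‖ ^ 2)
      = 2 * (NN T c ω ξ y q - NN T c ω ξ y (q + 1)) := by
  rw [NN_swap c y (q + 1)]
  unfold NN
  rw [← Finset.sum_sub_distrib, Finset.mul_sum]
  refine Finset.sum_congr rfl fun i _ => ?_
  rw [← Finset.sum_sub_distrib, Finset.mul_sum]
  refine Finset.sum_congr rfl fun j _ => ?_
  have hx := zl_mem hT c hy q i j
  exact defect_eq hω hx (hT q i j _ hx).2.1 (hT q i j _ hx).1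

theorem NN_anti (hω : ∀ i, 0 < ω i)
    (hT : ∀ q i j, HT (MM M q) ξ (Real.sqrt (ω i / ω j)) (T q i j)) (c : ℝ)
    {y : H →L[ℂ] H} (hy : y ∈ M) (q : ℕ) : NN T c ω ξ y (q + 1) ≤ NN T c ω ξ y q := by
  have h1 := defect_sum hω hT c hy q
  have h2 : 0 ≤ 2 * (NN T c ω ξ y q - NN T c ω ξ y (q + 1)) := by
    rw [← h1]; positivity
  linarith

theorem NN_convex (hω : ∀ i, 0 < ω i)
    (hT : ∀ q i j, HT (MM M q) ξ (Real.sqrt (ω i / ω j)) (T q i j)) (c : ℝ)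
    {y : H →L[ℂ] H} (hy : y ∈ M) (q : ℕ) :
    NN T c ω ξ y (q + 1) - NN T c ω ξ y (q + 2) ≤ NN T c ω ξ y q - NN T c ω ξ y (q + 1) := by
  have h1 : NN T c ω ξ y q - 2 * NN T c ω ξ y (q + 1) + NN T c ω ξ y (q + 2)
      = ∑ i, ∑ j, nn ω ξ i j (zl T c q i j y - zl T c (q + 2) i j y) := by
    rw [NN_swap c y (q + 1)]
    unfold NN
    rw [Finset.mul_sum, ← Finset.sum_sub_distrib, ← Finset.sum_add_distrib]
    refine Finset.sum_congr rfl fun i _ => ?_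
    rw [Finset.mul_sum, ← Finset.sum_sub_distrib, ← Finset.sum_add_distrib]
    refine Finset.sum_congr rfl fun j _ => ?_
    have hx := zl_mem hT c hy q i j
    have hx1 := zl_mem hT c hy (q + 1) j i
    exact convex_eq hω hx (hT q i j _ hx).2.1 (hT q i j _ hx).1 (hT (q + 1) j i _ hx1).2.1
  have h2 : 0 ≤ ∑ i, ∑ j, nn ω ξ i j (zl T c q i j y - zl T c (q + 2) i j y) :=
    Finset.sum_nonneg fun _ _ => Finset.sum_nonneg fun _ _ => nn_nonneg hω _ _ _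
  linarith

/-- antitone differences. -/
theorem sum_bound (f : ℕ → ℝ) (hf : ∀ q, 0 ≤ f q) (hc : ∀ q, f (q + 1) - f (q + 2) ≤ f q - f (q + 1))
    (m : ℕ) : ((m : ℝ) + 1) * (f (2 * m) - f (2 * m + 1)) ≤ f m := by
  have hanti : Antitone (fun q => f q - f (q + 1)) := antitone_nat_of_succ_le hc
  have h1 : ∑ k ∈ Finset.range (m + 1), (f (m + k) - f (m + k + 1)) = f m - f (2 * m + 1) := by
    have h2 := Finset.sum_range_sub' (fun k => f (m + k)) (m + 1)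
    have e : m + (m + 1) = 2 * m + 1 := by ring
    rw [e] at h2
    exact h2
  have h3 : ∑ _k ∈ Finset.range (m + 1), (f (2 * m) - f (2 * m + 1))
      ≤ ∑ k ∈ Finset.range (m + 1), (f (m + k) - f (m + k + 1)) := by
    refine Finset.sum_le_sum fun k hk => ?_
    have : m + k ≤ 2 * m := by have := Finset.mem_range.mp hk; omega
    exact hanti this
  rw [Finset.sum_const, Finset.card_range, nsmul_eq_mul, h1] at h3
  push_cast at h3
  linarith [hf (2 * m + 1)]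

theorem NN_le (hω : ∀ i, 0 < ω i) (hsum : ∑ i, ω i = 1) (hξ : ‖ξ‖ ≤ 1)
    (hT : ∀ q i j, HT (MM M q) ξ (Real.sqrt (ω i / ω j)) (T q i j)) {c : ℝ} (hc : 0 ≤ c)
    {y : H →L[ℂ] H} (hy : y ∈ M) (hy1 : ‖y‖ ≤ 1) (q : ℕ) {R : ℝ} (hR0 : 0 < R)
    (hR : ∀ i, ∑ j, c * sc ω i j ^ q ≤ R) : NN T c ω ξ y q ≤ R * c := by
  have hBP := zl_BP hω hT hc hy hy1 q
  have hα : ∀ i j, c * sc ω i j ^ q = c * sc ω j i ^ q := fun i j => by rw [sc_symm]
  have hα0 : ∀ i j, 0 ≤ c * sc ω i j ^ q := fun i j => mul_nonneg hc (pow_nonneg (sc_nonneg _ _ _) _)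
  have hcol := hBP.col_le hα hα0 (PR_norm_le M ξ q) hR0 hR ξ
  have hcol' := hBP.star.col_le hα hα0 (PR_norm_le M ξ q) hR0 hR ξ
  simp only [sc_self ω hω, one_pow, mul_one] at hcol hcol'
  have hξ2 : ‖ξ‖ ^ 2 ≤ 1 := by nlinarith [norm_nonneg ξ]
  have hRc : 0 ≤ R * c := mul_nonneg hR0.le hc
  have h1 : ∑ i, ∑ j, ω j * ‖zl T c q i j y ξ‖ ^ 2 ≤ R * c := by
    rw [Finset.sum_comm]
    calc ∑ j, ∑ i, ω j * ‖zl T c q i j y ξ‖ ^ 2 = ∑ j, ω j * ∑ i, ‖zl T c q i j y ξ‖ ^ 2 := by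
          simp only [Finset.mul_sum]
      _ ≤ ∑ j, ω j * (R * c) := by
          refine Finset.sum_le_sum fun j _ => mul_le_mul_of_nonneg_left ?_ (hω j).le
          refine (hcol j).trans ?_
          nlinarith
      _ = R * c := by rw [← Finset.sum_mul, hsum, one_mul]
  have h2 : ∑ i, ∑ j, ω i * ‖star (zl T c q i j y) ξ‖ ^ 2 ≤ R * c := by
    calc ∑ i, ∑ j, ω i * ‖star (zl T c q i j y) ξ‖ ^ 2
        = ∑ i, ω i * ∑ j, ‖star (zl T c q i j y) ξ‖ ^ 2 := by simp only [Finset.mul_sum]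
      _ ≤ ∑ i, ω i * (R * c) := by
          refine Finset.sum_le_sum fun i _ => mul_le_mul_of_nonneg_left ?_ (hω i).le
          refine le_trans ?_ ((hcol' i).trans ?_)
          · simp only [Matrix.star_apply, Matrix.of_apply]
            exact le_refl _
          · nlinarith
      _ = R * c := by rw [← Finset.sum_mul, hsum, one_mul]
  have h3 : NN T c ω ξ y q = (∑ i, ∑ j, ω j * ‖zl T c q i j y ξ‖ ^ 2
      + ∑ i, ∑ j, ω i * ‖star (zl T c q i j y) ξ‖ ^ 2) / 2 := by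
    unfold NN nn
    rw [← Finset.sum_add_distrib, Finset.sum_div]
    refine Finset.sum_congr rfl fun i _ => ?_
    rw [← Finset.sum_add_distrib, Finset.sum_div]
  rw [h3]
  linarith

theorem norm_opM_zl (hω : ∀ i, 0 < ω i)
    (hT : ∀ q i j, HT (MM M q) ξ (Real.sqrt (ω i / ω j)) (T q i j)) {c : ℝ} (hc : 0 ≤ c)
    {y : H →L[ℂ] H} (hy : y ∈ M) (hy1 : ‖y‖ ≤ 1) (q : ℕ) {R : ℝ} (hR0 : 0 < R)
    (hR : ∀ i, ∑ j, c * sc ω i j ^ q ≤ R) :
    ‖opM (Matrix.of fun i j => zl T c q i j y : Matrix ι ι (H →L[ℂ] H))‖ ≤ R := by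
  have hBP := zl_BP hω hT hc hy hy1 q
  have hα : ∀ i j, c * sc ω i j ^ q = c * sc ω j i ^ q := fun i j => by rw [sc_symm]
  have hα0 : ∀ i j, 0 ≤ c * sc ω i j ^ q := fun i j => mul_nonneg hc (pow_nonneg (sc_nonneg _ _ _) _)
  exact hBP.opM_norm_le hα hα0 (PR_norm_le M ξ q) hR0 hR

/-- total defect at level `2m`. -/
theorem defect_bound (hω : ∀ i, 0 < ω i) (hsum : ∑ i, ω i = 1) (hξ : ‖ξ‖ ≤ 1)
    (hT : ∀ q i j, HT (MM M q) ξ (Real.sqrt (ω i / ω j)) (T q i j)) {c : ℝ} (hc : 0 ≤ c)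
    {y : H →L[ℂ] H} (hy : y ∈ M) (hy1 : ‖y‖ ≤ 1) (m : ℕ) {R : ℝ} (hR0 : 0 < R)
    (hR : ∀ i, ∑ j, c * sc ω i j ^ m ≤ R) :
    ∑ i, ∑ j, (‖(Real.sqrt (ω j) : ℂ) • zl T c (2 * m) i j y ξ
        - (Real.sqrt (ω i) : ℂ) • zl T c (2 * m + 1) j i y ξ‖ ^ 2
      + ‖(Real.sqrt (ω i) : ℂ) • star (zl T c (2 * m) i j y) ξ
        - (Real.sqrt (ω j) : ℂ) • star (zl T c (2 * m + 1) j i y) ξ‖ ^ 2)
      ≤ 2 * (R * c / (m + 1)) := by
  rw [defect_sum hω hT c hy]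
  have h1 := sum_bound (NN T c ω ξ y) (NN_nonneg hω c y) (NN_convex hω hT c hy) m
  have h2 := NN_le hω hsum hξ hT hc hy hy1 m hR0 hR
  have h3 : (0 : ℝ) < m + 1 := by positivity
  have h4 : NN T c ω ξ y (2 * m) - NN T c ω ξ y (2 * m + 1) ≤ R * c / (m + 1) := by
    rw [le_div_iff₀ h3]
    linarith
  linarith

end iter

/-! ### the concrete weights -/

/-- `Z = ∑_{i<n} e^{-2hi}`. -/
def Zn (h : ℝ) (n : ℕ) : ℝ := ∑ i ∈ Finset.range n, Real.exp (-(2 * h * i))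

/-- `ω_i = e^{-2hi} / Z`. -/
def omw (h : ℝ) (n : ℕ) (i : Fin n) : ℝ := Real.exp (-(2 * h * (i : ℕ))) / Zn h n

theorem Zn_pos (h : ℝ) {n : ℕ} (hn : 1 ≤ n) : 0 < Zn h n :=
  Finset.sum_pos (fun _ _ => Real.exp_pos _) (Finset.nonempty_range_iff.mpr (by omega))

theorem omw_pos (h : ℝ) {n : ℕ} (hn : 1 ≤ n) (i : Fin n) : 0 < omw h n i :=
  div_pos (Real.exp_pos _) (Zn_pos h hn)

theorem sum_omw (h : ℝ) {n : ℕ} (hn : 1 ≤ n) : ∑ i, omw h n i = 1 := by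
  unfold omw
  rw [← Finset.sum_div, Fin.sum_univ_eq_sum_range (fun i => Real.exp (-(2 * h * i))) n]
  exact div_self (Zn_pos h hn).ne'

theorem sqrt_omw (h : ℝ) {n : ℕ} (hn : 1 ≤ n) (i j : Fin n) :
    Real.sqrt (omw h n i / omw h n j) = Real.exp (-((((i : ℕ) : ℝ) - ((j : ℕ) : ℝ)) * h)) := by
  have hZ := Zn_pos h hn
  have e : omw h n i / omw h n j = Real.exp (-((((i : ℕ) : ℝ) - ((j : ℕ) : ℝ)) * h)) ^ 2 := by
    unfold omw
    rw [div_div_div_cancel_right₀ hZ.ne', ← Real.exp_sub, ← Real.exp_nat_mul]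
    congr 1
    push_cast
    ring
  rw [e, Real.sqrt_sq (Real.exp_pos _).le]

theorem sc_omw (h : ℝ) {n : ℕ} (hn : 1 ≤ n) (i j : Fin n) (q : ℕ) :
    sc (omw h n) i j ^ q = LLB.ph q ((((i : ℕ) : ℝ) - ((j : ℕ) : ℝ)) * h) := by
  unfold sc LLB.ph
  rw [sqrt_omw h hn, Real.cosh_eq, ← Real.exp_neg, neg_neg]
  congr 1
  rw [inv_div, add_comm]

theorem row_omw (h : ℝ) {n : ℕ} (hn : 1 ≤ n) (i : Fin n) (q : ℕ) (c : ℝ) :
    ∑ j, c * sc (omw h n) i j ^ q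
      = c * ∑ j ∈ Finset.range n, LLB.ph q ((((i : ℕ) : ℝ) - (j : ℝ)) * h) := by
  rw [← Finset.mul_sum, ← Fin.sum_univ_eq_sum_range
    (fun j => LLB.ph q ((((i : ℕ) : ℝ) - (j : ℝ)) * h)) n]
  congr 1
  exact Finset.sum_congr rfl fun j _ => sc_omw h hn i j q

theorem sum_inv_omw (h : ℝ) {n : ℕ} (hn : 1 ≤ n) :
    ∑ i, 1 / ((n : ℝ) * omw h n i) = LLB.Kth2 h n := by
  have hZ := Zn_pos h hn
  have hn' : (0 : ℝ) < n := by exact_mod_cast hn
  have e : ∀ i : Fin n, 1 / ((n : ℝ) * omw h n i)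
      = (n : ℝ)⁻¹ * (Zn h n * Real.exp (2 * h * (i : ℕ))) := by
    intro i
    unfold omw
    rw [Real.exp_neg]
    have := Real.exp_pos (2 * h * (i : ℕ))
    field_simp
  simp only [e]
  rw [← Finset.mul_sum, ← Finset.mul_sum, Fin.sum_univ_eq_sum_range (fun i => Real.exp (2 * h * i)) n]
  rfl

/-- **Everything of `LetterOut` except the scalar recovery**, together with the Radon–Nikodym
chain needed for it. -/
structure Core (M : VonNeumannAlgebra H) (ξ : H) (m n : ℕ) (h : ℝ) where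
  a : (H →L[ℂ] H) →ₗ[ℂ] Matrix (Fin n) (Fin n) (H →L[ℂ] H)
  b : (H →L[ℂ] H) →ₗ[ℂ] Matrix (Fin n) (Fin n) (H →L[ℂ] H)
  a_mem : ∀ y ∈ M, ∀ i j, a y i j ∈ M
  b_mem : ∀ y ∈ M, ∀ i j, b y i j ∈ M.commutant
  norm_a : ∀ y ∈ M, ‖y‖ ≤ 1 → ‖opM (a y)‖ ≤ 1 / 2
  norm_b : ∀ y ∈ M, ‖y‖ ≤ 1 → ‖opM (b y)‖ ≤ 1 / 2
  partner : ∀ y ∈ M, ‖y‖ ≤ 1 →
    ∑ i, ∑ j, ‖(Real.sqrt (omw h n j) : ℂ) • a y i j ξ
      - (Real.sqrt (omw h n i) : ℂ) • b y j i ξ‖ ^ 2 ≤ 3 * LLB.c0 m h / (m + 1)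
  partner_star : ∀ y ∈ M, ‖y‖ ≤ 1 →
    ∑ i, ∑ j, ‖(Real.sqrt (omw h n j) : ℂ) • star (a y j i) ξ
      - (Real.sqrt (omw h n i) : ℂ) • star (b y i j) ξ‖ ^ 2 ≤ 3 * LLB.c0 m h / (m + 1)
  chain : ∀ y ∈ M, ∀ i j : Fin n, ∃ z k : ℕ → (H →L[ℂ] H), z 0 = y ∧
    (∀ l, z l ∈ M) ∧ (∀ l, k l ∈ M.commutant) ∧
    (∀ l, RvD.RN M ξ (Real.exp (-((((i : ℕ) : ℝ) - ((j : ℕ) : ℝ)) * h))) (z l) (k l)) ∧
    (∀ l, RvD.RN M.commutant ξ (Real.exp (-((((i : ℕ) : ℝ) - ((j : ℕ) : ℝ)) * h)))⁻¹ (k l) (z (l + 1))) ∧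
    a y i j = ((LLB.c0 m h / 2 : ℝ) : ℂ) • z m

theorem opM_smul {J : Type*} [Fintype J] (c : ℂ) (x : Matrix J J (H →L[ℂ] H)) :
    opM (c • x) = c • opM x := by
  ext v i
  simp [opM_apply, Finset.smul_sum]

/-- the core, for a given family of Radon–Nikodym maps. -/
theorem exists_core (M : VonNeumannAlgebra H) (ξ : H) (hξ : ‖ξ‖ ≤ 1) {m n : ℕ} (hm : 1 ≤ m)
    (hn : 1 ≤ n) {h : ℝ} (hh : 0 < h)
    (T : ℕ → Fin n → Fin n → (H →L[ℂ] H) →ₗ[ℂ] (H →L[ℂ] H))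
    (hT : ∀ q i j, HT (MM M q) ξ (Real.sqrt (omw h n i / omw h n j)) (T q i j)) :
    ∃ C : Core M ξ m n h, (∀ y i j, C.a y i j = (1 / 2 : ℂ) • zl T (LLB.c0 m h) (2 * m) i j y) ∧
      (∀ y i j, C.b y i j = (1 / 2 : ℂ) • zl T (LLB.c0 m h) (2 * m + 1) i j y) := by
  have hω : ∀ i, 0 < omw h n i := omw_pos h hn
  set c : ℝ := LLB.c0 m h with hc
  have hc0 : 0 < c := LLB.c0_pos hm hh
  have hrow1 : ∀ q, 2 * m ≤ q → ∀ i, ∑ j, c * sc (omw h n) i j ^ q ≤ 1 := by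
    intro q hq i
    rw [row_omw h hn]
    exact LLB.c0_row_le hm hq hh n i
  have hrow3 : ∀ i, ∑ j, c * sc (omw h n) i j ^ m ≤ 3 := by
    intro i
    rw [row_omw h hn]
    exact LLB.c0_row_le_three hm hh n i
  have hdef : ∀ y ∈ M, ‖y‖ ≤ 1 → _ := fun y hy hy1 =>
    defect_bound (M := M) (T := T) (ξ := ξ) hω (sum_omw h hn) hξ hT hc0.le (y := y) hy hy1 m
      (by norm_num : (0 : ℝ) < 3) hrow3
  have hbd : 0 ≤ 3 * c / ((m : ℝ) + 1) := by positivity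
  have hhalf : ‖(1 / 2 : ℂ)‖ = 1 / 2 := by norm_num
  refine ⟨{
    a := { toFun := fun y => Matrix.of fun i j => (1 / 2 : ℂ) • zl T c (2 * m) i j y
           map_add' := ?_
           map_smul' := ?_ }
    b := { toFun := fun y => Matrix.of fun i j => (1 / 2 : ℂ) • zl T c (2 * m + 1) i j y
           map_add' := ?_
           map_smul' := ?_ }
    a_mem := ?_
    b_mem := ?_
    norm_a := ?_
    norm_b := ?_
    partner := ?_
    partner_star := ?_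
    chain := ?_ }, fun _ _ _ => rfl, fun _ _ _ => rfl⟩
  · intro x y
    refine Matrix.ext fun i j => ?_
    change (1 / 2 : ℂ) • zl T c (2 * m) i j (x + y) = (1 / 2 : ℂ) • zl T c (2 * m) i j x
      + (1 / 2 : ℂ) • zl T c (2 * m) i j y
    rw [map_add, smul_add]
  · intro r x
    refine Matrix.ext fun i j => ?_
    change (1 / 2 : ℂ) • zl T c (2 * m) i j (r • x) = r • (1 / 2 : ℂ) • zl T c (2 * m) i j x
    rw [map_smul, smul_comm]
  · intro x y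
    refine Matrix.ext fun i j => ?_
    change (1 / 2 : ℂ) • zl T c (2 * m + 1) i j (x + y) = (1 / 2 : ℂ) • zl T c (2 * m + 1) i j x
      + (1 / 2 : ℂ) • zl T c (2 * m + 1) i j y
    rw [map_add, smul_add]
  · intro r x
    refine Matrix.ext fun i j => ?_
    change (1 / 2 : ℂ) • zl T c (2 * m + 1) i j (r • x) = r • (1 / 2 : ℂ) • zl T c (2 * m + 1) i j x
    rw [map_smul, smul_comm]
  · intro y hy i j
    have h1 := zl_mem hT c hy (2 * m) i j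
    rw [MM_even] at h1
    exact RvD.smul_mem' _ h1
  · intro y hy i j
    have h1 := zl_mem hT c hy (2 * m + 1) i j
    rw [MM_odd] at h1
    exact RvD.smul_mem' _ h1
  · intro y hy hy1
    have h1 := norm_opM_zl hω hT hc0.le hy hy1 (2 * m) one_pos (hrow1 _ le_rfl)
    change ‖opM ((1 / 2 : ℂ) • (Matrix.of fun i j => zl T c (2 * m) i j y))‖ ≤ 1 / 2
    rw [opM_smul, norm_smul, hhalf]
    linarith
  · intro y hy hy1
    have h1 := norm_opM_zl hω hT hc0.le hy hy1 (2 * m + 1) one_pos (hrow1 _ (by omega))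
    change ‖opM ((1 / 2 : ℂ) • (Matrix.of fun i j => zl T c (2 * m + 1) i j y))‖ ≤ 1 / 2
    rw [opM_smul, norm_smul, hhalf]
    linarith
  · intro y hy hy1
    have h1 := hdef y hy hy1
    have e : ∀ i j : Fin n, ‖(Real.sqrt (omw h n j) : ℂ) • ((1 / 2 : ℂ) • zl T c (2 * m) i j y) ξ
        - (Real.sqrt (omw h n i) : ℂ) • ((1 / 2 : ℂ) • zl T c (2 * m + 1) j i y) ξ‖ ^ 2
        = 1 / 4 * ‖(Real.sqrt (omw h n j) : ℂ) • zl T c (2 * m) i j y ξ
        - (Real.sqrt (omw h n i) : ℂ) • zl T c (2 * m + 1) j i y ξ‖ ^ 2 := by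
      intro i j
      rw [smul_apply, smul_apply, smul_comm (_ : ℂ) (1 / 2 : ℂ), smul_comm (_ : ℂ) (1 / 2 : ℂ),
        ← smul_sub, norm_smul, hhalf]
      ring
    calc _ = ∑ i, ∑ j, 1 / 4 * ‖(Real.sqrt (omw h n j) : ℂ) • zl T c (2 * m) i j y ξ
        - (Real.sqrt (omw h n i) : ℂ) • zl T c (2 * m + 1) j i y ξ‖ ^ 2 :=
          Finset.sum_congr rfl fun i _ => Finset.sum_congr rfl fun j _ => e i j
      _ ≤ ∑ i, ∑ j, 1 / 4 * (‖(Real.sqrt (omw h n j) : ℂ) • zl T c (2 * m) i j y ξ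
        - (Real.sqrt (omw h n i) : ℂ) • zl T c (2 * m + 1) j i y ξ‖ ^ 2
      + ‖(Real.sqrt (omw h n i) : ℂ) • star (zl T c (2 * m) i j y) ξ
        - (Real.sqrt (omw h n j) : ℂ) • star (zl T c (2 * m + 1) j i y) ξ‖ ^ 2) := by
          gcongr with i _ j _
          exact le_add_of_nonneg_right (by positivity)
      _ = 1 / 4 * (∑ i, ∑ j, (‖(Real.sqrt (omw h n j) : ℂ) • zl T c (2 * m) i j y ξ
        - (Real.sqrt (omw h n i) : ℂ) • zl T c (2 * m + 1) j i y ξ‖ ^ 2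
      + ‖(Real.sqrt (omw h n i) : ℂ) • star (zl T c (2 * m) i j y) ξ
        - (Real.sqrt (omw h n j) : ℂ) • star (zl T c (2 * m + 1) j i y) ξ‖ ^ 2)) := by
          simp only [Finset.mul_sum]
      _ ≤ 1 / 4 * (2 * (3 * c / (m + 1))) := by gcongr
      _ ≤ _ := by linarith
  · intro y hy hy1
    have h1 := hdef y hy hy1
    have hst : ∀ z : H →L[ℂ] H, star ((1 / 2 : ℂ) • z) = (1 / 2 : ℂ) • star z := by
      intro z
      rw [star_smul]
      congr 1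
      simp
    have e : ∀ i j : Fin n, ‖(Real.sqrt (omw h n i) : ℂ) • star ((1 / 2 : ℂ) • zl T c (2 * m) i j y) ξ
        - (Real.sqrt (omw h n j) : ℂ) • star ((1 / 2 : ℂ) • zl T c (2 * m + 1) j i y) ξ‖ ^ 2
        = 1 / 4 * ‖(Real.sqrt (omw h n i) : ℂ) • star (zl T c (2 * m) i j y) ξ
        - (Real.sqrt (omw h n j) : ℂ) • star (zl T c (2 * m + 1) j i y) ξ‖ ^ 2 := by
      intro i j
      rw [hst, hst, smul_apply, smul_apply, smul_comm (_ : ℂ) (1 / 2 : ℂ),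
        smul_comm (_ : ℂ) (1 / 2 : ℂ), ← smul_sub, norm_smul, hhalf]
      ring
    rw [Finset.sum_comm]
    calc _ = ∑ i, ∑ j, 1 / 4 * ‖(Real.sqrt (omw h n i) : ℂ) • star (zl T c (2 * m) i j y) ξ
        - (Real.sqrt (omw h n j) : ℂ) • star (zl T c (2 * m + 1) j i y) ξ‖ ^ 2 :=
          Finset.sum_congr rfl fun i _ => Finset.sum_congr rfl fun j _ => e i j
      _ ≤ ∑ i, ∑ j, 1 / 4 * (‖(Real.sqrt (omw h n j) : ℂ) • zl T c (2 * m) i j y ξ
        - (Real.sqrt (omw h n i) : ℂ) • zl T c (2 * m + 1) j i y ξ‖ ^ 2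
      + ‖(Real.sqrt (omw h n i) : ℂ) • star (zl T c (2 * m) i j y) ξ
        - (Real.sqrt (omw h n j) : ℂ) • star (zl T c (2 * m + 1) j i y) ξ‖ ^ 2) := by
          gcongr with i _ j _
          exact le_add_of_nonneg_left (by positivity)
      _ = 1 / 4 * (∑ i, ∑ j, (‖(Real.sqrt (omw h n j) : ℂ) • zl T c (2 * m) i j y ξ
        - (Real.sqrt (omw h n i) : ℂ) • zl T c (2 * m + 1) j i y ξ‖ ^ 2
      + ‖(Real.sqrt (omw h n i) : ℂ) • star (zl T c (2 * m) i j y) ξ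
        - (Real.sqrt (omw h n j) : ℂ) • star (zl T c (2 * m + 1) j i y) ξ‖ ^ 2)) := by
          simp only [Finset.mul_sum]
      _ ≤ 1 / 4 * (2 * (3 * c / (m + 1))) := by gcongr
      _ ≤ _ := by linarith
  · intro y hy i j
    refine ⟨fun l => ((c⁻¹ : ℝ) : ℂ) • zl T c (2 * l) i j y,
      fun l => ((c⁻¹ : ℝ) : ℂ) • zl T c (2 * l + 1) j i y, ?_, ?_, ?_, ?_, ?_, ?_⟩
    · change ((c⁻¹ : ℝ) : ℂ) • zl T c 0 i j y = y
      rw [zl_zero, smul_smul, ← Complex.ofReal_mul, inv_mul_cancel₀ hc0.ne', Complex.ofReal_one,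
        one_smul]
    · intro l
      have h1 := zl_mem hT c hy (2 * l) i j
      rw [MM_even] at h1
      exact RvD.smul_mem' _ h1
    · intro l
      have h1 := zl_mem hT c hy (2 * l + 1) j i
      rw [MM_odd] at h1
      exact RvD.smul_mem' _ h1
    · intro l
      have h1 := (hT (2 * l) i j _ (zl_mem hT c hy (2 * l) i j)).2.1
      rw [MM_even, sqrt_omw h hn] at h1
      exact RN_iff.mp (RN_smul c⁻¹ h1)
    · intro l
      have h1 := (hT (2 * l + 1) j i _ (zl_mem hT c hy (2 * l + 1) j i)).2.1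
      have e2 : Real.sqrt (omw h n j / omw h n i)
          = (Real.exp (-((((i : ℕ) : ℝ) - ((j : ℕ) : ℝ)) * h)))⁻¹ := by
        rw [← sqrt_omw h hn, ← Real.sqrt_inv, inv_div]
      rw [MM_odd, e2] at h1
      exact RN_iff.mp (RN_smul c⁻¹ h1)
    · change (1 / 2 : ℂ) • zl T c (2 * m) i j y
        = ((c / 2 : ℝ) : ℂ) • ((c⁻¹ : ℝ) : ℂ) • zl T c (2 * m) i j y
      rw [smul_smul, ← Complex.ofReal_mul]
      congr 1
      have : c / 2 * c⁻¹ = 1 / 2 := by field_simp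
      rw [this]
      norm_num

/-- **Main theorem of this file.** -/
theorem nonempty_core (hTL : ∀ (M : VonNeumannAlgebra H) (ξ : H) (lam : ℝ), 0 < lam →
      ∃ T : (H →L[ℂ] H) →ₗ[ℂ] (H →L[ℂ] H), HT M ξ lam T)
    (M : VonNeumannAlgebra H) (ξ : H) (hξ : ‖ξ‖ ≤ 1) {m n : ℕ} (hm : 1 ≤ m) (hn : 1 ≤ n)
    {h : ℝ} (hh : 0 < h) : Nonempty (Core M ξ m n h) := by
  have hω : ∀ i, 0 < omw h n i := omw_pos h hn
  have hex : ∀ (q : ℕ) (i j : Fin n), ∃ T : (H →L[ℂ] H) →ₗ[ℂ] (H →L[ℂ] H),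
      HT (MM M q) ξ (Real.sqrt (omw h n i / omw h n j)) T := fun q i j =>
    hTL (MM M q) ξ _ (Real.sqrt_pos.mpr (div_pos (hω i) (hω j)))
  choose T hT using hex
  exact ⟨(exists_core M ξ hξ hm hn hh T hT).choose⟩

end Crest.Agent.R078.Z.Comp
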