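import Mathlib

/-!
R078 / S0103, block HB (helper50): Hahn-Banach lift.
Abstract part: free-module Hahn-Banach, operators from bounded sesquilinear families,
"all relations have small value => linear lift" and the extension lemma
(quotient duality `N_* = B(H)_*/N_⊥` without preduals).
-/

set_option autoImplicit false

open scoped ComplexConjugate InnerProductSpace

namespace Crest.Agent.R078.Z.HB

section Finsupp

variable {ι : Type*}

/-- weighted `ℓ¹` seminorm on finitely supported functions. -/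
noncomputable def wSem (wt : ι → ℝ) (h : ∀ i, 0 ≤ wt i) : Seminorm ℂ (ι →₀ ℂ) :=
  Seminorm.of (fun v => v.sum fun i c => ‖c‖ * wt i)
    (by
      classical
      intro v w
      have e1 : (v.sum fun i c => ‖c‖ * wt i)
          = ∑ i ∈ v.support ∪ w.support, ‖v i‖ * wt i :=
        Finsupp.sum_of_support_subset _ Finset.subset_union_left _ (by simp)
      have e2 : (w.sum fun i c => ‖c‖ * wt i)
          = ∑ i ∈ v.support ∪ w.support, ‖w i‖ * wt i :=
        Finsupp.sum_of_support_subset _ Finset.subset_union_right _ (by simp)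
      have e3 : ((v + w).sum fun i c => ‖c‖ * wt i)
          = ∑ i ∈ v.support ∪ w.support, ‖(v + w) i‖ * wt i :=
        Finsupp.sum_of_support_subset _ Finsupp.support_add _ (by simp)
      rw [e1, e2, e3, ← Finset.sum_add_distrib]
      refine Finset.sum_le_sum fun i _ => ?_
      rw [← add_mul]
      exact mul_le_mul_of_nonneg_right (norm_add_le _ _) (h i))
    (by
      intro a v
      rw [Finsupp.sum_smul_index' (by simp), Finsupp.mul_sum]
      refine Finset.sum_congr rfl fun i _ => ?_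
      simp [mul_assoc])

theorem wSem_apply (wt : ι → ℝ) (h : ∀ i, 0 ≤ wt i) (v : ι →₀ ℂ) :
    wSem wt h v = v.sum fun i c => ‖c‖ * wt i := rfl

/-- the linear functional on the free module determined by its values on the generators -/
noncomputable def lf (F : ι → ℂ) : (ι →₀ ℂ) →ₗ[ℂ] ℂ := Finsupp.lift ℂ ℂ ι F

theorem lf_apply (F : ι → ℂ) (v : ι →₀ ℂ) : lf F v = v.sum fun i c => c * F i := by
  simp [lf]

theorem lf_single (F : ι → ℂ) (i : ι) (c : ℂ) : lf F (Finsupp.single i c) = c * F i := by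
  simp [lf]

/-- Hahn-Banach on the free module with a weighted `ℓ¹` seminorm. -/
theorem hb_finsupp (wt : ι → ℝ) (hwt : ∀ i, 0 ≤ wt i) (W : Submodule ℂ (ι →₀ ℂ)) (F : ι → ℂ)
    (hW : ∀ v ∈ W, ‖lf F v‖ ≤ v.sum fun i c => ‖c‖ * wt i) :
    ∃ G : ι → ℂ, (∀ i, ‖G i‖ ≤ wt i) ∧ ∀ v ∈ W, lf G v = lf F v := by
  classical
  obtain ⟨g, hg, hle⟩ := Module.Dual.exists_extension_of_le_seminorm W
    ((lf F).domRestrict W) (p := wSem wt hwt) (fun x => by
      simpa [wSem_apply] using hW x x.2)
  refine ⟨fun i => g (Finsupp.single i 1), fun i => ?_, fun v hv => ?_⟩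
  · refine (hle _).trans ?_
    rw [wSem_apply, Finsupp.sum_single_index] <;> simp
  · have : lf (fun i => g (Finsupp.single i 1)) = g := by
      ext i
      simp [lf]
    rw [this]
    exact hg ⟨v, hv⟩

end Finsupp

section Operator

variable {H : Type*} [NormedAddCommGroup H] [InnerProductSpace ℂ H] [CompleteSpace H]

/-- A bounded form, linear in the first variable and conjugate linear in the second,
comes from an operator. -/
theorem exists_op_of_form (b : H → H → ℂ) (C : ℝ)
    (hadd1 : ∀ x x' y, b (x + x') y = b x y + b x' y)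
    (hsmul1 : ∀ (c : ℂ) x y, b (c • x) y = c * b x y)
    (hadd2 : ∀ x y y', b x (y + y') = b x y + b x y')
    (hsmul2 : ∀ (c : ℂ) x y, b x (c • y) = conj c * b x y)
    (hb : ∀ x y, ‖b x y‖ ≤ C * ‖x‖ * ‖y‖) :
    ∃ T : H →L[ℂ] H, ∀ x y, ⟪y, T x⟫_ℂ = b x y := by
  let B : H →L⋆[ℂ] H →L[ℂ] ℂ :=
    LinearMap.mkContinuous₂ (LinearMap.mk₂'ₛₗ (starRingEnd ℂ) (RingHom.id ℂ)
      (fun x y => conj (b x y))
      (fun x x' y => by simp [hadd1]) (fun c x y => by simp [hsmul1])
      (fun x y y' => by simp [hadd2]) (fun c x y => by simp [hsmul2])) C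
      (fun x y => by simpa using hb x y)
  refine ⟨InnerProductSpace.continuousLinearMapOfBilin B, fun x y => ?_⟩
  have h := InnerProductSpace.continuousLinearMapOfBilin_apply B x y
  rw [← inner_conj_symm, h]
  simp [B]

end Operator

section Lift

variable {H : Type*} [NormedAddCommGroup H] [InnerProductSpace ℂ H] [CompleteSpace H]

/-- **Abstract lift lemma** (F5).  `M` is any linear space of operators, `N` a von Neumann algebra.
The index set `ι` parametrises finite "matrix elements" `∑ k, (Y i k) ⊗ ⟨· (a i k), (b i k)⟩`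
with a weight `wt i`; it contains the elementary tensors (`sing`).  If every relation over `N` has
small value then there is a linear map `Θ : M → N` with the corresponding bound for `id - Θ`. -/
theorem exists_lift (M : Submodule ℂ (H →L[ℂ] H)) (N : VonNeumannAlgebra H)
    {ι : Type*} (κ : ι → Type*) [∀ i, Fintype (κ i)]
    (Y : ∀ i, κ i → M) (a b : ∀ i, κ i → H) (wt : ι → ℝ) (hwt : ∀ i, 0 ≤ wt i)
    (Λ : ℝ) (sing : M → H → H → ι)
    (hsing : ∀ (n : H →L[ℂ] H) (y : M) (α β : H),
      ∑ k, ⟪b (sing y α β) k, n (a (sing y α β) k)⟫_ℂ • (Y (sing y α β) k : H →L[ℂ] H)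
        = ⟪β, n α⟫_ℂ • (y : H →L[ℂ] H))
    (hsing' : ∀ (y : M) (α β : H),
      ∑ k, ⟪b (sing y α β) k, (Y (sing y α β) k : H →L[ℂ] H) (a (sing y α β) k)⟫_ℂ
        = ⟪β, (y : H →L[ℂ] H) α⟫_ℂ)
    (hsw : ∀ y α β, wt (sing y α β) ≤ Λ * ‖y‖ * ‖α‖ * ‖β‖)
    (hrel : ∀ v : ι →₀ ℂ,
      (∀ n ∈ N, (v.sum fun i c => c • ∑ k, ⟪b i k, n (a i k)⟫_ℂ • (Y i k : H →L[ℂ] H)) = 0) →
      ‖v.sum fun i c => c * ∑ k, ⟪b i k, (Y i k : H →L[ℂ] H) (a i k)⟫_ℂ‖
        ≤ v.sum fun i c => ‖c‖ * wt i) :
    ∃ Θ : M →ₗ[ℂ] (H →L[ℂ] H), (∀ y, Θ y ∈ N) ∧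
      ∀ i, ‖∑ k, ⟪b i k, ((Y i k : H →L[ℂ] H) - Θ (Y i k)) (a i k)⟫_ℂ‖ ≤ wt i := by
  classical
  -- the relation maps
  let rel : (H →L[ℂ] H) → ι → (H →L[ℂ] H) := fun n i =>
    ∑ k, ⟪b i k, n (a i k)⟫_ℂ • (Y i k : H →L[ℂ] H)
  let R : (H →L[ℂ] H) → ((ι →₀ ℂ) →ₗ[ℂ] (H →L[ℂ] H)) := fun n =>
    Finsupp.lift (H →L[ℂ] H) ℂ ι (rel n)
  have hR : ∀ n v, R n v = v.sum fun i c => c • rel n i := fun n v => by simp [R]
  have hRs : ∀ n i (c : ℂ), R n (Finsupp.single i c) = c • rel n i := fun n i c => by simp [R]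
  let W : Submodule ℂ (ι →₀ ℂ) := ⨅ n : {n : H →L[ℂ] H // n ∈ N}, LinearMap.ker (R n.1)
  have hWmem : ∀ v, v ∈ W ↔ ∀ n ∈ N, R n v = 0 := fun v => by
    simp [W, Submodule.mem_iInf]
  let F : ι → ℂ := fun i => ∑ k, ⟪b i k, (Y i k : H →L[ℂ] H) (a i k)⟫_ℂ
  obtain ⟨G, hG, hGF⟩ := hb_finsupp wt hwt W F (fun v hv => by
    rw [lf_apply]
    exact hrel v fun n hn => by
      have := (hWmem v).1 hv n hn
      rwa [hR] at this)
  -- the trilinear form
  let B : M → H → H → ℂ := fun y α β => F (sing y α β) - G (sing y α β)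
  have hFs : ∀ y α β, F (sing y α β) = ⟪β, (y : H →L[ℂ] H) α⟫_ℂ := hsing'
  have hrels : ∀ n y α β, rel n (sing y α β) = ⟪β, n α⟫_ℂ • (y : H →L[ℂ] H) := hsing
  have key : ∀ v ∈ W, lf (fun i => F i - G i) v = 0 := fun v hv => by
    have h1 : lf (fun i => F i - G i) v = lf F v - lf G v := by
      simp only [lf_apply, Finsupp.sum, mul_sub, Finset.sum_sub_distrib]
    rw [h1, hGF v hv, sub_self]
  have hBbound : ∀ y α β, ‖B y α β‖ ≤ ((1 + Λ) * ‖y‖) * ‖α‖ * ‖β‖ := fun y α β => by
    have h1 : ‖F (sing y α β)‖ ≤ ‖y‖ * ‖α‖ * ‖β‖ := by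
      rw [hFs]
      calc ‖⟪β, (y : H →L[ℂ] H) α⟫_ℂ‖ ≤ ‖β‖ * ‖(y : H →L[ℂ] H) α‖ := norm_inner_le_norm _ _
        _ ≤ ‖β‖ * (‖(y : H →L[ℂ] H)‖ * ‖α‖) := by
          gcongr; exact ContinuousLinearMap.le_opNorm _ _
        _ = ‖y‖ * ‖α‖ * ‖β‖ := by
          rw [Submodule.coe_norm]; ring
    have h2 : ‖G (sing y α β)‖ ≤ Λ * ‖y‖ * ‖α‖ * ‖β‖ := (hG _).trans (hsw y α β)
    calc ‖B y α β‖ ≤ ‖F (sing y α β)‖ + ‖G (sing y α β)‖ := norm_sub_le _ _
      _ ≤ ‖y‖ * ‖α‖ * ‖β‖ + Λ * ‖y‖ * ‖α‖ * ‖β‖ := add_le_add h1 h2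
      _ = _ := by ring
  -- additivity etc.
  have hadd : ∀ y y' α β, B (y + y') α β = B y α β + B y' α β := fun y y' α β => by
    have h := key (Finsupp.single (sing (y + y') α β) 1 - Finsupp.single (sing y α β) 1
      - Finsupp.single (sing y' α β) 1) ((hWmem _).2 fun n _ => by
        simp only [map_sub, hRs, hrels, one_smul, Submodule.coe_add, smul_add]; abel)
    simp only [map_sub, lf_single, one_mul] at h
    linear_combination h
  have hsmul : ∀ (c : ℂ) y α β, B (c • y) α β = c * B y α β := fun c y α β => by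
    have h := key (Finsupp.single (sing (c • y) α β) 1 - Finsupp.single (sing y α β) c)
      ((hWmem _).2 fun n _ => by
        simp only [map_sub, hRs, hrels, one_smul, Submodule.coe_smul]
        rw [smul_comm]; simp)
    simp only [map_sub, lf_single, one_mul] at h
    linear_combination h
  have hadd1 : ∀ y α α' β, B y (α + α') β = B y α β + B y α' β := fun y α α' β => by
    have h := key (Finsupp.single (sing y (α + α') β) 1 - Finsupp.single (sing y α β) 1
      - Finsupp.single (sing y α' β) 1) ((hWmem _).2 fun n _ => by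
        simp only [map_sub, hRs, hrels, one_smul, map_add, inner_add_right, add_smul]; abel)
    simp only [map_sub, lf_single, one_mul] at h
    linear_combination h
  have hsmul1 : ∀ (c : ℂ) y α β, B y (c • α) β = c * B y α β := fun c y α β => by
    have h := key (Finsupp.single (sing y (c • α) β) 1 - Finsupp.single (sing y α β) c)
      ((hWmem _).2 fun n _ => by
        simp only [map_sub, hRs, hrels, one_smul, map_smul, inner_smul_right, mul_smul, sub_self])
    simp only [map_sub, lf_single, one_mul] at h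
    linear_combination h
  have hadd2 : ∀ y α β β', B y α (β + β') = B y α β + B y α β' := fun y α β β' => by
    have h := key (Finsupp.single (sing y α (β + β')) 1 - Finsupp.single (sing y α β) 1
      - Finsupp.single (sing y α β') 1) ((hWmem _).2 fun n _ => by
        simp only [map_sub, hRs, hrels, one_smul, inner_add_left, add_smul]; abel)
    simp only [map_sub, lf_single, one_mul] at h
    linear_combination h
  have hsmul2 : ∀ (c : ℂ) y α β, B y α (c • β) = conj c * B y α β := fun c y α β => by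
    have h := key (Finsupp.single (sing y α (c • β)) 1 - Finsupp.single (sing y α β) (conj c))
      ((hWmem _).2 fun n _ => by
        simp only [map_sub, hRs, hrels, one_smul, inner_smul_left, mul_smul, sub_self])
    simp only [map_sub, lf_single, one_mul] at h
    linear_combination h
  have hcomm : ∀ n' ∈ N.commutant, ∀ y α β, B y (n' α) β = B y α (star n' β) :=
    fun n' hn' y α β => by
    have h := key (Finsupp.single (sing y (n' α) β) 1
      - Finsupp.single (sing y α (star n' β)) 1)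
      ((hWmem _).2 fun n hn => by
        have hc : n (n' α) = n' (n α) := by
          have := (VonNeumannAlgebra.mem_commutant_iff.1 hn') n hn
          exact congrArg (fun T : H →L[ℂ] H => T α) this
        simp only [map_sub, hRs, hrels, one_smul, hc]
        rw [ContinuousLinearMap.star_eq_adjoint, ContinuousLinearMap.adjoint_inner_left, sub_self])
    simp only [map_sub, lf_single, one_mul] at h
    linear_combination h
  -- the operators
  have hex : ∀ y : M, ∃ T : H →L[ℂ] H, ∀ α β, ⟪β, T α⟫_ℂ = B y α β := fun y =>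
    exists_op_of_form (B y) ((1 + Λ) * ‖y‖) (hadd1 y) (fun c α β => hsmul1 c y α β) (hadd2 y)
      (fun c α β => hsmul2 c y α β) (hBbound y)
  choose T hT using hex
  have ext_op : ∀ S S' : H →L[ℂ] H, (∀ α β, ⟪β, S α⟫_ℂ = ⟪β, S' α⟫_ℂ) → S = S' := fun S S' h => by
    ext α
    exact ext_inner_left ℂ fun β => h α β
  let Θ : M →ₗ[ℂ] (H →L[ℂ] H) :=
    { toFun := T
      map_add' := fun y y' => ext_op _ _ fun α β => by
        rw [hT, hadd, add_apply, inner_add_right, hT, hT]
      map_smul' := fun c y => ext_op _ _ fun α β => by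
        rw [hT, hsmul, RingHom.id_apply, smul_apply, inner_smul_right, hT] }
  refine ⟨Θ, fun y => ?_, fun i => ?_⟩
  · rw [← VonNeumannAlgebra.commutant_commutant N]
    refine VonNeumannAlgebra.mem_commutant_iff.2 fun n' hn' => ext_op _ _ fun α β => ?_
    change ⟪β, n' (T y α)⟫_ℂ = ⟪β, T y (n' α)⟫_ℂ
    rw [hT, hcomm n' hn', ← hT, ContinuousLinearMap.star_eq_adjoint,
      ContinuousLinearMap.adjoint_inner_left]
  · have h1 : F i - G i = ∑ k, B (Y i k) (a i k) (b i k) := by
      have h := key (Finsupp.single i 1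
        - ∑ k, Finsupp.single (sing (Y i k) (a i k) (b i k)) 1)
        ((hWmem _).2 fun n _ => by
          simp only [map_sub, map_sum, hRs, hrels, one_smul]
          simp [rel])
      simp only [map_sub, map_sum, lf_single, one_mul] at h
      linear_combination h
    have h2 : (∑ k, ⟪b i k, ((Y i k : H →L[ℂ] H) - Θ (Y i k)) (a i k)⟫_ℂ) = G i := by
      have : ∀ k, ⟪b i k, ((Y i k : H →L[ℂ] H) - Θ (Y i k)) (a i k)⟫_ℂ
          = ⟪b i k, (Y i k : H →L[ℂ] H) (a i k)⟫_ℂ - B (Y i k) (a i k) (b i k) := fun k => by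
        rw [sub_apply, inner_sub_right]
        congr 1
        exact hT _ _ _
      rw [Finset.sum_congr rfl fun k _ => this k, Finset.sum_sub_distrib]
      change F i - _ = G i
      linear_combination h1
    rw [h2]
    exact hG i

end Lift

end Crest.Agent.R078.Z.HB
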