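/-
R78 / S0103.  Ball-closeness implies stable closeness `SC`, given the distance lemma
(`DistC`, from R124).  helper199.
-/
import Crest.Agent.R078.S103TBFrame

set_option autoImplicit false
set_option linter.unusedSectionVars false
open scoped InnerProductSpace

namespace Crest.Agent.R078.Z.SCof

open ContinuousLinearMap TB

universe u

/-- DISTANCE LEMMA with constant `C` (universe `u`). -/
def DistC (C : ℝ) : Prop :=
  ∀ (K : Type u) [NormedAddCommGroup K] [InnerProductSpace ℂ K] [CompleteSpace K]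
    (P : VonNeumannAlgebra K) (T : K →L[ℂ] K) (e : ℝ),
    (∀ x ∈ P, ‖x‖ ≤ 1 → ‖T * x - x * T‖ ≤ e) → ∃ z ∈ P.commutant, ‖T - z‖ ≤ C * e

section Norms

variable {H G : Type*} [NormedAddCommGroup H] [InnerProductSpace ℂ H] [CompleteSpace H]
  [NormedAddCommGroup G] [InnerProductSpace ℂ G] [CompleteSpace G]

section J
variable {J : Type*} [Fintype J] [DecidableEq J] {V : J → H →L[ℂ] G}

/-- Parseval for frames -/
theorem norm_sq_eq (hV : IsFrame V) (g : G) : ‖g‖ ^ 2 = ∑ i, ‖adjoint (V i) g‖ ^ 2 := by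
  have h1 : (⟪g, g⟫_ℂ) = ∑ i, ⟪adjoint (V i) g, adjoint (V i) g⟫_ℂ := by
    conv_lhs => rw [← hV.sum_apply g]
    rw [sum_inner]
    refine Finset.sum_congr rfl fun i _ => ?_
    rw [hV.sum_apply, ← adjoint_inner_right]
  simp only [inner_self_eq_norm_sq_to_K] at h1
  exact_mod_cast h1

theorem norm_sum_sq (hV : IsFrame V) (v : J → H) : ‖∑ i, V i (v i)‖ ^ 2 = ∑ i, ‖v i‖ ^ 2 := by
  rw [norm_sq_eq hV]
  refine Finset.sum_congr rfl fun i _ => ?_
  rw [map_sum, Finset.sum_eq_single i]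
  · rw [hV.orth_self]
  · intro k _ hk
    exact hV.orth_ne hk.symm _
  · simp

theorem norm_V_apply (hV : IsFrame V) (i : J) (x : H) : ‖V i x‖ = ‖x‖ := by
  have h := norm_sum_sq hV (fun k => if k = i then x else 0)
  have h1 : ∑ k, V k (if k = i then x else 0) = V i x := by
    rw [Finset.sum_eq_single i] <;> simp +contextual
  have h2 : ∑ k, ‖(if k = i then x else 0 : H)‖ ^ 2 = ‖x‖ ^ 2 := by
    rw [Finset.sum_eq_single i] <;> simp +contextual
  rw [h1, h2] at h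
  exact (sq_eq_sq₀ (norm_nonneg _) (norm_nonneg _)).1 h

theorem norm_adj_V_apply_le (hV : IsFrame V) (i : J) (g : G) : ‖adjoint (V i) g‖ ≤ ‖g‖ := by
  have h := norm_sq_eq hV g
  have h1 : ‖adjoint (V i) g‖ ^ 2 ≤ ‖g‖ ^ 2 := by
    rw [h]
    exact Finset.single_le_sum (f := fun i => ‖adjoint (V i) g‖ ^ 2)
      (fun k _ => sq_nonneg _) (Finset.mem_univ i)
  exact (sq_le_sq₀ (norm_nonneg _) (norm_nonneg _)).1 h1

theorem norm_ent_le (hV : IsFrame V) (X : G →L[ℂ] G) (i j : J) : ‖ent V X i j‖ ≤ ‖X‖ := by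
  refine opNorm_le_bound _ (norm_nonneg _) fun x => ?_
  rw [ent_apply]
  refine (norm_adj_V_apply_le hV i _).trans ((X.le_opNorm _).trans ?_)
  rw [norm_V_apply hV]

end J

variable {G' : Type*} [NormedAddCommGroup G'] [InnerProductSpace ℂ G'] [CompleteSpace G']
  {J₁ J₂ J₂' : Type*} [Fintype J₁] [DecidableEq J₁] [Fintype J₂] [DecidableEq J₂]
  [Fintype J₂'] [DecidableEq J₂'] {V : J₁ × J₂ → H →L[ℂ] G} {W : J₁ × J₂' → H →L[ℂ] G'}

/-- the norm of `x ⊗ 1` does not depend on the (nonempty) multiplicity space -/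
theorem norm_lft_le (hV : IsFrame V) (hW : IsFrame W) [Nonempty J₂']
    (x : J₁ → J₁ → H →L[ℂ] H) : ‖lft V x‖ ≤ ‖lft W x‖ := by
  obtain ⟨b0⟩ := ‹Nonempty J₂'›
  refine opNorm_le_bound _ (norm_nonneg _) fun g => ?_
  set gb : J₂ → G' := fun b => ∑ a, W (a, b0) (adjoint (V (a, b)) g) with hgb
  have key : ∀ (v : J₁ → H), ‖∑ a, W (a, b0) (v a)‖ ^ 2 = ∑ a, ‖v a‖ ^ 2 := by
    intro v
    have h := norm_sum_sq hW (fun p : J₁ × J₂' => if p.2 = b0 then v p.1 else 0)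
    rw [Fintype.sum_prod_type, Fintype.sum_prod_type] at h
    have h1 : ∑ a, ∑ b, W (a, b) (if b = b0 then v a else 0) = ∑ a, W (a, b0) (v a) := by
      refine Finset.sum_congr rfl fun a _ => ?_
      rw [Finset.sum_eq_single b0] <;> simp +contextual
    have h2 : ∑ a, ∑ b, ‖(if b = b0 then v a else 0 : H)‖ ^ 2 = ∑ a, ‖v a‖ ^ 2 := by
      refine Finset.sum_congr rfl fun a _ => ?_
      rw [Finset.sum_eq_single b0] <;> simp +contextual
    simp only at h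
    rw [h1, h2] at h
    exact h
  have hg : ‖g‖ ^ 2 = ∑ b, ‖gb b‖ ^ 2 := by
    rw [norm_sq_eq hV, Fintype.sum_prod_type_right]
    refine Finset.sum_congr rfl fun b _ => ?_
    rw [hgb]
    exact (key _).symm
  have hx : ‖lft V x g‖ ^ 2 = ∑ b, ‖lft W x (gb b)‖ ^ 2 := by
    rw [norm_sq_eq hV, Fintype.sum_prod_type_right]
    refine Finset.sum_congr rfl fun b _ => ?_
    have h1 : lft W x (gb b) = ∑ a, W (a, b0) (∑ a', x a a' (adjoint (V (a', b)) g)) := by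
      rw [hgb]
      simp only [map_sum]
      rw [Finset.sum_comm]
      refine Finset.sum_congr rfl fun a' _ => ?_
      exact lft_V hW x a' b0 _
    rw [h1, key]
    refine Finset.sum_congr rfl fun a _ => ?_
    rw [adj_lft hV]
  have h3 : ‖lft V x g‖ ^ 2 ≤ (‖lft W x‖ * ‖g‖) ^ 2 := by
    rw [hx, mul_pow, hg, Finset.mul_sum]
    refine Finset.sum_le_sum fun b _ => ?_
    rw [← mul_pow]
    exact pow_le_pow_left₀ (norm_nonneg _) (le_opNorm _ _) 2
  exact (sq_le_sq₀ (norm_nonneg _) (by positivity)).1 h3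

theorem norm_lft_eq (hV : IsFrame V) (hW : IsFrame W) [Nonempty J₂] [Nonempty J₂']
    (x : J₁ → J₁ → H →L[ℂ] H) : ‖lft V x‖ = ‖lft W x‖ :=
  le_antisymm (norm_lft_le hV hW x) (norm_lft_le hW hV x)

end Norms

section Concrete

variable {H : Type u} [NormedAddCommGroup H] [InnerProductSpace ℂ H] [CompleteSpace H]
  {J : Type} [Fintype J] [DecidableEq J]

/-- the standard frame on `PiLp 2 (fun _ : J => H)` -/
noncomputable def stdF (H : Type u) [NormedAddCommGroup H] [InnerProductSpace ℂ H]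
    [CompleteSpace H] (J : Type) [Fintype J] [DecidableEq J] :
    J → H →L[ℂ] PiLp 2 (fun _ : J => H) := fun i => adjoint (PiLp.proj 2 (fun _ : J => H) i)

theorem adj_stdF_apply (i : J) (x : PiLp 2 (fun _ : J => H)) :
    adjoint (stdF H J i) x = x i := by
  rw [stdF, adjoint_adjoint]; rfl

theorem stdF_apply (i : J) (x : H) : stdF H J i x = PiLp.single 2 i x := by
  refine ext_inner_right ℂ fun y => ?_
  rw [stdF, adjoint_inner_left, PiLp.inner_apply, Finset.sum_eq_single i]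
  · simp
  · intro k _ hk
    simp [hk]
  · simp

theorem stdF_isFrame : IsFrame (stdF H J) where
  orth := by
    intro i j
    ext x
    rw [comp_apply, adj_stdF_apply, stdF_apply]
    by_cases h : i = j
    · subst h; simp
    · simp [h]
  compl := by
    ext x j
    simp only [sum_apply, comp_apply, adj_stdF_apply, stdF_apply, id_apply]
    simp [PiLp.single_apply]

end Concrete

section Main

variable {H : Type u} [NormedAddCommGroup H] [InnerProductSpace ℂ H] [CompleteSpace H]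

theorem exists_ball {G : Type*} [NormedAddCommGroup G] [InnerProductSpace ℂ G] [CompleteSpace G]
    (Q : VonNeumannAlgebra G) {T z : G →L[ℂ] G} {r : ℝ} (hT : ‖T‖ ≤ 1) (hz : z ∈ Q)
    (h : ‖T - z‖ ≤ r) : ∃ z' ∈ Q, ‖z'‖ ≤ 1 ∧ ‖T - z'‖ ≤ 2 * r := by
  have hr : 0 ≤ r := (norm_nonneg _).trans h
  by_cases h1 : ‖z‖ ≤ 1
  · exact ⟨z, hz, h1, by linarith⟩
  push Not at h1
  have h0 : 0 < ‖z‖ := by linarith
  have hz1 : ‖z‖ ≤ 1 + r := by
    calc ‖z‖ = ‖T - (T - z)‖ := by congr 1; abel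
      _ ≤ ‖T‖ + ‖T - z‖ := norm_sub_le _ _
      _ ≤ 1 + r := add_le_add hT h
  have hn : ‖((‖z‖⁻¹ : ℝ) : ℂ) • z‖ = 1 := by
    rw [norm_smul, Complex.norm_real, Real.norm_of_nonneg (by positivity)]
    field_simp
  refine ⟨((‖z‖⁻¹ : ℝ) : ℂ) • z, ?_, hn.le, ?_⟩
  · exact Q.toStarSubalgebra.smul_mem hz _
  · have h2 : z - ((‖z‖⁻¹ : ℝ) : ℂ) • z = ((1 - ‖z‖⁻¹ : ℝ) : ℂ) • z := by
      push_cast
      rw [sub_smul, one_smul]
    have h3 : ‖z - ((‖z‖⁻¹ : ℝ) : ℂ) • z‖ ≤ r := by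
      rw [h2, norm_smul, Complex.norm_real, Real.norm_of_nonneg]
      · have : (1 - ‖z‖⁻¹) * ‖z‖ = ‖z‖ - 1 := by field_simp
        rw [this]; linarith
      · have : ‖z‖⁻¹ ≤ 1 := inv_le_one_of_one_le₀ h1.le
        linarith
    calc ‖T - ((‖z‖⁻¹ : ℝ) : ℂ) • z‖ = ‖(T - z) + (z - ((‖z‖⁻¹ : ℝ) : ℂ) • z)‖ := by
          congr 1; abel
      _ ≤ r + r := (norm_add_le _ _).trans (add_le_add h h3)
      _ = 2 * r := by ring

/-- one direction of closeness of commutants -/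
theorem comm_close_one {C δ : ℝ} (hD : DistC.{u} C) {M N : VonNeumannAlgebra H}
    (h : ∀ y ∈ N, ‖y‖ ≤ 1 → ∃ x ∈ M, ‖x‖ ≤ 1 ∧ ‖y - x‖ ≤ δ) :
    ∀ y ∈ M.commutant, ‖y‖ ≤ 1 → ∃ z ∈ N.commutant, ‖z‖ ≤ 1 ∧ ‖y - z‖ ≤ 4 * C * δ := by
  intro y hy hy1
  obtain ⟨z, hz, hyz⟩ := hD H N y (2 * δ) (by
    intro n hn hn1
    obtain ⟨m, hm, -, hnm⟩ := h n hn hn1
    have hc : y * m = m * y := (VonNeumannAlgebra.mem_commutant_iff.1 hy m hm).symm
    have e : y * n - n * y = y * (n - m) - (n - m) * y := by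
      rw [mul_sub, sub_mul, hc]; abel
    rw [e]
    calc _ ≤ ‖y * (n - m)‖ + ‖(n - m) * y‖ := norm_sub_le _ _
      _ ≤ ‖y‖ * ‖n - m‖ + ‖n - m‖ * ‖y‖ := add_le_add (norm_mul_le _ _) (norm_mul_le _ _)
      _ ≤ 1 * δ + δ * 1 := by
          have : 0 ≤ δ := (norm_nonneg _).trans hnm
          gcongr
      _ = 2 * δ := by ring)
  obtain ⟨z', hz', h1, h2⟩ := exists_ball N.commutant hy1 hz hyz
  exact ⟨z', hz', h1, h2.trans (le_of_eq (by ring))⟩

theorem comm_close {C δ : ℝ} (hD : DistC.{u} C) {M N : VonNeumannAlgebra H}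
    (h : BallClose δ M N) : BallClose (4 * C * δ) M.commutant N.commutant := by
  exact ⟨comm_close_one hD h.2, comm_close_one hD h.1⟩

/-- closeness of the amplifications, multiplicity one -/
theorem amp_close_one {C δ : ℝ} (hD : DistC.{u} C) {M N : VonNeumannAlgebra H}
    (h : ∀ z ∈ N.commutant, ‖z‖ ≤ 1 → ∃ y ∈ M.commutant, ‖y‖ ≤ 1 ∧ ‖z - y‖ ≤ δ)
    {G : Type u} [NormedAddCommGroup G] [InnerProductSpace ℂ G] [CompleteSpace G]
    {J₁ : Type} [Fintype J₁] [DecidableEq J₁] [Nonempty J₁] {W : J₁ × Unit → H →L[ℂ] G}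
    (hW : IsFrame W) :
    ∀ x ∈ alg W M, ‖x‖ ≤ 1 → ∃ y ∈ alg W N, ‖y‖ ≤ 1 ∧ ‖x - y‖ ≤ 4 * C * δ := by
  intro x hx hx1
  have hS := swapF_isFrame hW
  obtain ⟨y, hy, hxy⟩ := hD G (alg W N).commutant x (2 * δ) (by
    intro p hp hp1
    rw [commutant_alg hW, mem_alg_iff hS] at hp
    obtain ⟨z, hz, rfl⟩ := hp
    obtain ⟨a0⟩ := ‹Nonempty J₁›
    have hz1 : ‖z () ()‖ ≤ 1 := by
      have h1 := norm_ent_le hS (lft (swapF W) z) ((), a0) ((), a0)
      rw [ent_lft hS] at h1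
      simp only [if_true] at h1
      exact h1.trans hp1
    obtain ⟨y0, hy0, -, hzy⟩ := h (z () ()) (hz () ()) hz1
    set q : G →L[ℂ] G := lft (swapF W) (fun _ _ : Unit => y0) with hq
    have hqmem : q ∈ (alg W M).commutant := by
      rw [commutant_alg hW]
      exact lft_mem_alg hS fun _ _ => hy0
    have hc : x * q = q * x := VonNeumannAlgebra.mem_commutant_iff.1 hqmem x hx
    have hpq : ‖lft (swapF W) z - q‖ ≤ δ := by
      rw [hq, lft_sub hS]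
      have hδ : 0 ≤ δ := (norm_nonneg _).trans hzy
      refine (norm_lft_le hS (triv_isFrame (H := H)) _).trans ?_
      rw [lft_triv]
      exact hzy
    have e : x * lft (swapF W) z - lft (swapF W) z * x
        = x * (lft (swapF W) z - q) - (lft (swapF W) z - q) * x := by
      rw [mul_sub, sub_mul, hc]; abel
    rw [e]
    have hδ : 0 ≤ δ := (norm_nonneg _).trans hzy
    calc _ ≤ ‖x * (lft (swapF W) z - q)‖ + ‖(lft (swapF W) z - q) * x‖ := norm_sub_le _ _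
      _ ≤ ‖x‖ * ‖lft (swapF W) z - q‖ + ‖lft (swapF W) z - q‖ * ‖x‖ :=
          add_le_add (norm_mul_le _ _) (norm_mul_le _ _)
      _ ≤ 1 * δ + δ * 1 := by gcongr
      _ = 2 * δ := by ring)
  rw [VonNeumannAlgebra.commutant_commutant] at hy
  obtain ⟨z', hz', h1, h2⟩ := exists_ball (alg W N) hx1 hy hxy
  exact ⟨z', hz', h1, h2.trans (le_of_eq (by ring))⟩

theorem subsingleton_of_frame {G : Type*} [NormedAddCommGroup G] [InnerProductSpace ℂ G]
    [CompleteSpace G] {J : Type*} [Fintype J] [DecidableEq J] [IsEmpty J] {V : J → H →L[ℂ] G}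
    (hV : IsFrame V) : ∀ g : G, g = 0 := by
  intro g
  rw [← hV.sum_apply g]
  simp

/-- closeness of the amplifications, general multiplicity -/
theorem amp_close_one' {C δ : ℝ} (hC : 0 ≤ C) (hδ : 0 ≤ δ) (hD : DistC.{u} C)
    {M N : VonNeumannAlgebra H}
    (h : ∀ z ∈ N.commutant, ‖z‖ ≤ 1 → ∃ y ∈ M.commutant, ‖y‖ ≤ 1 ∧ ‖z - y‖ ≤ δ)
    {G : Type u} [NormedAddCommGroup G] [InnerProductSpace ℂ G] [CompleteSpace G]
    {J₁ J₂ : Type} [Fintype J₁] [DecidableEq J₁] [Fintype J₂] [DecidableEq J₂]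
    {V : J₁ × J₂ → H →L[ℂ] G} (hV : IsFrame V) :
    ∀ x ∈ alg V M, ‖x‖ ≤ 1 → ∃ y ∈ alg V N, ‖y‖ ≤ 1 ∧ ‖x - y‖ ≤ 4 * C * δ := by
  intro x hx hx1
  rcases isEmpty_or_nonempty (J₁ × J₂) with hE | hNE
  · refine ⟨0, zero_mem _, by simp, ?_⟩
    have : x = 0 := by
      ext g
      rw [subsingleton_of_frame hV (x g)]
      rfl
    rw [this]; simp; positivity
  obtain ⟨⟨a0, b0⟩⟩ := hNE
  have : Nonempty J₁ := ⟨a0⟩
  have : Nonempty J₂ := ⟨b0⟩
  obtain ⟨t, ht, rfl⟩ := (mem_alg_iff hV).1 hx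
  have hW : IsFrame (stdF H (J₁ × Unit)) := stdF_isFrame
  obtain ⟨y, hy, hy1, hxy⟩ := amp_close_one hD h hW (lft (stdF H (J₁ × Unit)) t)
    (lft_mem_alg hW ht) (by rw [norm_lft_eq hW hV]; exact hx1)
  obtain ⟨r, hr, rfl⟩ := (mem_alg_iff hW).1 hy
  refine ⟨lft V r, lft_mem_alg hV hr, by rw [norm_lft_eq hV hW]; exact hy1, ?_⟩
  rw [lft_sub hV, norm_lft_eq hV hW, ← lft_sub hW]
  exact hxy

/-- BALL CLOSENESS ⇒ STABLE CLOSENESS. -/
theorem SC_of_ballClose {C δ : ℝ} (hC : 1 ≤ C) (hδ : 0 ≤ δ) (hD : DistC.{u} C)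
    {M N : VonNeumannAlgebra H} (h : BallClose δ M N) : SC (64 * C ^ 3 * δ) M N := by
  have hc := comm_close hD h
  have hcc := comm_close hD hc
  have hC0 : (0 : ℝ) ≤ C := by linarith
  have mono : ∀ {G : Type u} [NormedAddCommGroup G] [InnerProductSpace ℂ G] [CompleteSpace G]
      {P Q : VonNeumannAlgebra G} {r r' : ℝ}, r ≤ r' →
      (∀ x ∈ P, ‖x‖ ≤ 1 → ∃ y ∈ Q, ‖y‖ ≤ 1 ∧ ‖x - y‖ ≤ r) →
      (∀ x ∈ P, ‖x‖ ≤ 1 → ∃ y ∈ Q, ‖y‖ ≤ 1 ∧ ‖x - y‖ ≤ r') := by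
    intro G _ _ _ P Q r r' hr hh x hx hx1
    obtain ⟨y, h1, h2, h3⟩ := hh x hx hx1
    exact ⟨y, h1, h2, h3.trans hr⟩
  have b1 : 4 * C * (4 * C * δ) ≤ 64 * C ^ 3 * δ := by
    have h1 : C ^ 2 ≤ 4 * C ^ 3 := by nlinarith [sq_nonneg C]
    nlinarith
  have b2 : 4 * C * (4 * C * (4 * C * δ)) = 64 * C ^ 3 * δ := by ring
  intro G _ _ _ J₁ J₂ _ _ _ _ V hV
  refine ⟨⟨?_, ?_⟩, ⟨?_, ?_⟩⟩
  · exact mono b1 (amp_close_one' hC0 (by positivity) hD (fun z hz hz1 => hc.2 z hz hz1) hV)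
  · exact mono b1 (amp_close_one' hC0 (by positivity) hD (fun z hz hz1 => hc.1 z hz hz1) hV)
  · exact mono b2.le (amp_close_one' hC0 (by positivity) hD
      (fun z hz hz1 => hcc.2 z hz hz1) hV)
  · exact mono b2.le (amp_close_one' hC0 (by positivity) hD
      (fun z hz hz1 => hcc.1 z hz hz1) hV)

end Main

end Crest.Agent.R078.Z.SCof
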