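/-
R78 / S0103 (helper45): FINAL ASSEMBLY of S0103 from
* `KeyIneq` (S103Main45), `HB.lift_of_relBd` (S103HB50Plain),
* `SCOf`  : ball-close ⇒ stably close (helper199 + distance lemma of helper914),
* `NewtonT` : linear near-identity map ⇒ near-identity *-isomorphism (helper615),
* `UnitT` : near-identity *-isomorphism ⇒ unitary near 1 (helper914).
-/
import Crest.Agent.R078.S103Main45
import Crest.Agent.R078.S103HB50Plain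

set_option autoImplicit false
set_option linter.unusedSectionVars false
open scoped InnerProductSpace

namespace Crest.Agent.R078.Z.Fin45

open Key

universe u

/-- ball-close ⇒ stably close -/
def SCOf : Prop :=
  ∃ C : ℝ, 1 ≤ C ∧ ∀ (H : Type u) [NormedAddCommGroup H] [InnerProductSpace ℂ H] [CompleteSpace H]
    (M N : VonNeumannAlgebra H) (δ : ℝ), 0 ≤ δ → TB.BallClose δ M N → TB.SC (C * δ) M N

/-- Newton: linear near-identity map ⇒ near-identity *-isomorphism -/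
def NewtonT : Prop :=
  ∃ C K₀ : ℝ, 0 ≤ C ∧ 0 < K₀ ∧
    ∀ (H : Type u) [NormedAddCommGroup H] [InnerProductSpace ℂ H] [CompleteSpace H]
      (M N : VonNeumannAlgebra H) (K : ℝ), 0 ≤ K → K ≤ K₀ → TB.BallClose (1 / 8) M N →
      ∀ Θ : (H →L[ℂ] H) →ₗ[ℂ] (H →L[ℂ] H), (∀ Y ∈ M, Θ Y ∈ N) → (∀ Y ∈ M, ‖Θ Y - Y‖ ≤ K * ‖Y‖) →
      ∃ π : M.toStarSubalgebra ≃⋆ₐ[ℂ] N.toStarSubalgebra,
        ∀ x : M.toStarSubalgebra, ‖((π x : N.toStarSubalgebra) : H →L[ℂ] H) - (x : H →L[ℂ] H)‖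
          ≤ C * K * ‖(x : H →L[ℂ] H)‖

/-- near-identity *-isomorphism ⇒ unitary near `1` -/
def UnitT : Prop :=
  ∃ C K₀ : ℝ, 0 ≤ C ∧ 0 < K₀ ∧
    ∀ (H : Type u) [NormedAddCommGroup H] [InnerProductSpace ℂ H] [CompleteSpace H]
      (M N : VonNeumannAlgebra H) (K : ℝ), 0 ≤ K → K ≤ K₀ →
      ∀ π : M.toStarSubalgebra ≃⋆ₐ[ℂ] N.toStarSubalgebra,
        (∀ x : M.toStarSubalgebra, ‖((π x : N.toStarSubalgebra) : H →L[ℂ] H) - (x : H →L[ℂ] H)‖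
          ≤ K * ‖(x : H →L[ℂ] H)‖) →
      ∃ u : H →L[ℂ] H, u ∈ unitary (H →L[ℂ] H) ∧ ‖u - 1‖ ≤ C * K ∧
        ∀ x : M.toStarSubalgebra,
          ((π x : N.toStarSubalgebra) : H →L[ℂ] H) = u * (x : H →L[ℂ] H) * star u

theorem relBd_neg {G : Type u} [NormedAddCommGroup G] [InnerProductSpace ℂ G] [CompleteSpace G]
    {M N : VonNeumannAlgebra G} {R Λ : ℝ} (h : Slot.RelBd M N |R| Λ) : Slot.RelBd M N R Λ := by
  intro κ ι _ _ μ Y ξ α β η h1 h2 h3 h4 h5 h6 h7 h8 h9 h10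
  exact h κ ι μ Y ξ α β η h1 h2 h3 h4 h5 h6 h7 (fun a => by rw [sq_abs]; exact h8 a) h9 h10

/-- the linear lift for all close pairs -/
theorem lift_of_close (hkey : KeyIneq.{u}) (C : ℝ)
    (hC : ∀ (H : Type u) [NormedAddCommGroup H] [InnerProductSpace ℂ H] [CompleteSpace H]
      (M N : VonNeumannAlgebra H) (δ : ℝ), 0 ≤ δ → TB.BallClose δ M N → TB.SC (C * δ) M N)
    {H : Type u} [NormedAddCommGroup H] [InnerProductSpace ℂ H] [CompleteSpace H]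
    (M N : VonNeumannAlgebra H) {δ : ℝ} (hδ0 : 0 ≤ δ) (hCδ0 : 0 ≤ C * δ)
    (hCδ : C * δ ≤ 1 / 10000) (h : TB.BallClose δ M N) :
    ∃ Θ : (H →L[ℂ] H) →ₗ[ℂ] (H →L[ℂ] H), (∀ Y ∈ M, Θ Y ∈ N) ∧
      ∀ Y ∈ M, ‖Θ Y - Y‖ ≤ (14 * (C * δ)) * ‖Y‖ :=
  HB.lift_of_relBd fun R => relBd_neg
    (relAll_of_key hkey hCδ0 hCδ |R| (abs_nonneg R) H M N (hC H M N δ hδ0 h))

/-- the statement of S0103 -/
def S103Stmt : Prop :=
  ∀ ε : ℝ, 0 < ε → ∃ δ : ℝ, 0 < δ ∧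
      ∀ (H : Type u) [NormedAddCommGroup H] [InnerProductSpace ℂ H] [CompleteSpace H]
        (M N : VonNeumannAlgebra H),
        (∀ x ∈ M, ‖x‖ ≤ 1 → ∃ y ∈ N, ‖y‖ ≤ 1 ∧ ‖x - y‖ < δ) →
        (∀ y ∈ N, ‖y‖ ≤ 1 → ∃ x ∈ M, ‖x‖ ≤ 1 ∧ ‖y - x‖ < δ) →
        ∃ u : H →L[ℂ] H, u ∈ unitary (H →L[ℂ] H) ∧ ‖u - 1‖ < ε ∧
          ∀ y : H →L[ℂ] H, y ∈ N ↔ ∃ x ∈ M, y = u * x * star u

theorem s103 (hkey : KeyIneq.{u}) (hSC : SCOf.{u}) (hNewton : NewtonT.{u}) (hUnit : UnitT.{u}) :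
    S103Stmt.{u} := by
  intro ε hε
  obtain ⟨C, hC1, hC⟩ := hSC
  obtain ⟨C₁, K₁, hC₁, hK₁, hN⟩ := hNewton
  obtain ⟨C₂, K₂, hC₂, hK₂, hU⟩ := hUnit
  -- δ with C δ ≤ 1/10000, 14 C δ ≤ K₁, C₁ (14 C δ) ≤ K₂, C₂ C₁ 14 C δ < ε, δ ≤ 1/8
  have hC0 : 0 < C := by linarith
  obtain ⟨δ, hδ, h1, h2, h3, h4, h5⟩ : ∃ δ : ℝ, 0 < δ ∧ C * δ ≤ 1 / 10000 ∧
      14 * (C * δ) ≤ K₁ ∧ C₁ * (14 * (C * δ)) ≤ K₂ ∧ C₂ * (C₁ * (14 * (C * δ))) < ε ∧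
      δ ≤ 1 / 8 := by
    have ht : ∀ a b : ℝ, 0 < b → ∀ᶠ δ in nhdsWithin (0 : ℝ) (Set.Ioi 0), a * δ < b := by
      intro a b hb
      have : Filter.Tendsto (fun δ : ℝ => a * δ) (nhdsWithin (0 : ℝ) (Set.Ioi 0)) (nhds 0) := by
        have : Filter.Tendsto (fun δ : ℝ => a * δ) (nhds (0 : ℝ)) (nhds (a * 0)) :=
          (continuous_const.mul continuous_id).tendsto 0
        rw [mul_zero] at this
        exact this.mono_left nhdsWithin_le_nhds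
      exact this.eventually (gt_mem_nhds hb)
    have e1 := ht C (1 / 10000) (by norm_num)
    have e2 := ht (14 * C) K₁ hK₁
    have e3 := ht (C₁ * (14 * C)) K₂ hK₂
    have e4 := ht (C₂ * (C₁ * (14 * C))) ε hε
    have e5 := ht 1 (1 / 8) (by norm_num)
    have e0 : ∀ᶠ δ in nhdsWithin (0 : ℝ) (Set.Ioi 0), 0 < δ := self_mem_nhdsWithin
    obtain ⟨δ, ⟨⟨⟨⟨⟨a0, a1⟩, a2⟩, a3⟩, a4⟩, a5⟩⟩ :=
      (((((e0.and e1).and e2).and e3).and e4).and e5).exists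
    refine ⟨δ, a0, a1.le, ?_, ?_, ?_, ?_⟩
    · linarith
    · linarith
    · linarith
    · linarith
  refine ⟨δ, hδ, fun H _ _ _ M N hMN hNM => ?_⟩
  have hball : TB.BallClose δ M N := by
    refine ⟨fun x hx hx1 => ?_, fun y hy hy1 => ?_⟩
    · obtain ⟨y, hy, hy1, hxy⟩ := hMN x hx hx1
      exact ⟨y, hy, hy1, hxy.le⟩
    · obtain ⟨x, hx, hx1, hxy⟩ := hNM y hy hy1
      exact ⟨x, hx, hx1, hxy.le⟩
  have hball8 : TB.BallClose (1 / 8) M N := by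
    refine ⟨fun x hx hx1 => ?_, fun y hy hy1 => ?_⟩
    · obtain ⟨y, hy, hy1, hxy⟩ := hball.1 x hx hx1
      exact ⟨y, hy, hy1, hxy.trans h5⟩
    · obtain ⟨x, hx, hx1, hxy⟩ := hball.2 y hy hy1
      exact ⟨x, hx, hx1, hxy.trans h5⟩
  have hCδ0 : 0 ≤ C * δ := by positivity
  obtain ⟨Θ, hΘN, hΘ⟩ := lift_of_close hkey C hC M N hδ.le hCδ0 h1 hball
  have hK0 : 0 ≤ 14 * (C * δ) := by positivity
  obtain ⟨π, hπ⟩ := hN H M N (14 * (C * δ)) hK0 h2 hball8 Θ hΘN hΘ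
  have hK0' : 0 ≤ C₁ * (14 * (C * δ)) := by positivity
  obtain ⟨u, huU, hu1, hux⟩ := hU H M N (C₁ * (14 * (C * δ))) hK0' h3 π hπ
  refine ⟨u, huU, hu1.trans_lt h4, fun y => ⟨fun hy => ?_, ?_⟩⟩
  · refine ⟨((π.symm ⟨y, hy⟩ : M.toStarSubalgebra) : H →L[ℂ] H), (π.symm ⟨y, hy⟩).2, ?_⟩
    rw [← hux]
    simp
  · rintro ⟨x, hx, rfl⟩
    have := hux ⟨x, hx⟩
    simp only at this
    rw [← this]
    exact (π ⟨x, hx⟩).2

end Crest.Agent.R078.Z.Fin45
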