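import Crest.Agent.R078.S103AH615

/-!
# Row 78 (S0103), end step, block LI-A: from a linear lift to a *-isomorphism near the identity

`near_iso`: if `Θ : M → N` is linear with `‖Θ x - x‖ ≤ K ‖x‖`, `K ≤ 1/100000`, and every element
of `N` is `1/8`-close to `M`, then there is a *-isomorphism `π : M ≃⋆ₐ N` with
`‖π x - x‖ ≤ 600 K ‖x‖`.
-/

set_option autoImplicit false
set_option linter.unusedSectionVars false

open Topology Filter

namespace Crest.Agent.R078.Z.NearIso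

open Crest.Agent.R121 Crest.Agent.R078.Z.Newton

noncomputable section

variable {H : Type*} [NormedAddCommGroup H] [InnerProductSpace ℂ H] [CompleteSpace H]

lemma coe_norm {M : VonNeumannAlgebra H} (x : Al M) : ‖(x : H →L[ℂ] H)‖ = ‖x‖ := rfl

/-- a map close to the identity is a bijection `M → N` -/
theorem exists_inverse (M N : VonNeumannAlgebra H)
    (hNM : ∀ y ∈ N, ∃ x ∈ M, ‖y - x‖ ≤ 1 / 8 * ‖y‖) (β : Al M →L[ℂ] Al N)
    (hβ : ∀ x : Al M, ‖(β x : H →L[ℂ] H) - x‖ ≤ 1 / 8 * ‖x‖) :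
    ∃ γ : Al N →L[ℂ] Al M, (∀ y, β (γ y) = y) ∧ (∀ x, γ (β x) = x) ∧ ‖γ‖ ≤ 4 / 3 := by
  have hlow : ∀ x : Al M, ‖x‖ ≤ 8 / 7 * ‖β x‖ := by
    intro x
    have h1 : ‖(x : H →L[ℂ] H)‖ ≤ ‖(β x : H →L[ℂ] H)‖ + ‖(β x : H →L[ℂ] H) - x‖ := by
      have := norm_sub_le (β x : H →L[ℂ] H) ((β x : H →L[ℂ] H) - x)
      rwa [sub_sub_cancel] at this
    rw [coe_norm, coe_norm] at h1
    have := hβ x
    linarith
  have hcl : IsClosed ((LinearMap.range (β : Al M →ₗ[ℂ] Al N) : Submodule ℂ (Al N)) :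
      Set (Al N)) := by
    have h1 : AntilipschitzWith (8 / 7 : NNReal) β :=
      AddMonoidHomClass.antilipschitz_of_bound β (by
        intro x
        have := hlow x
        simpa using this)
    have := h1.isClosed_range β.uniformContinuous
    exact this
  have hsurj : Function.Surjective β := by
    by_contra hns
    have hex : ∃ y, y ∉ LinearMap.range (β : Al M →ₗ[ℂ] Al N) := by
      by_contra h
      push Not at h
      exact hns fun y => by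
        obtain ⟨x, hx⟩ := h y
        exact ⟨x, hx⟩
    obtain ⟨y, hy, hy'⟩ := riesz_lemma hcl hex (r := 1 / 2) (by norm_num)
    obtain ⟨x, hxM, hx⟩ := hNM (y : H →L[ℂ] H) y.2
    have hy0 : 0 < ‖y‖ := by
      rw [norm_pos_iff]
      rintro rfl
      exact hy (Submodule.zero_mem _)
    have h1 := hy' (β ⟨x, hxM⟩) ⟨⟨x, hxM⟩, rfl⟩
    have h2 : ‖y - β ⟨x, hxM⟩‖ ≤ ‖(y : H →L[ℂ] H) - x‖ + ‖(β ⟨x, hxM⟩ : H →L[ℂ] H) - x‖ := by
      have h3 : ‖y - β ⟨x, hxM⟩‖ = ‖((y : H →L[ℂ] H) - x) - ((β ⟨x, hxM⟩ : H →L[ℂ] H) - x)‖ := by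
        rw [sub_sub_sub_cancel_right]
        rfl
      rw [h3]
      exact norm_sub_le _ _
    have h3 := hβ ⟨x, hxM⟩
    have h4 : ‖(⟨x, hxM⟩ : Al M)‖ ≤ ‖y‖ + ‖(y : H →L[ℂ] H) - x‖ := by
      have := norm_sub_le (y : H →L[ℂ] H) ((y : H →L[ℂ] H) - x)
      rw [sub_sub_cancel] at this
      exact this
    change ‖(β ⟨x, hxM⟩ : H →L[ℂ] H) - x‖ ≤ _ at h3
    rw [coe_norm] at hx
    linarith
  have hinj : Function.Injective β := by
    rw [injective_iff_map_eq_zero]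
    intro x hx
    have := hlow x
    rw [hx, norm_zero, mul_zero] at this
    exact norm_le_zero_iff.1 this
  let e : Al M ≃ₗ[ℂ] Al N := LinearEquiv.ofBijective (β : Al M →ₗ[ℂ] Al N) ⟨hinj, hsurj⟩
  have he : ∀ x, e x = β x := fun x => rfl
  refine ⟨LinearMap.mkContinuous (e.symm : Al N →ₗ[ℂ] Al M) (8 / 7) (fun y => ?_), fun y => ?_,
    fun x => ?_, ?_⟩
  · have h1 := hlow (e.symm y)
    rw [← he, e.apply_symm_apply] at h1
    exact h1
  · change β (e.symm y) = y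
    rw [← he, e.apply_symm_apply]
  · change e.symm (β x) = x
    rw [← he, e.symm_apply_apply]
  · refine (LinearMap.mkContinuous_norm_le _ (by norm_num) _).trans (by norm_num)

/-- **From a linear lift to a *-isomorphism close to the identity.** -/
theorem near_iso (M N : VonNeumannAlgebra H) {K : ℝ} (hK0 : 0 ≤ K) (hK : K ≤ 1 / 100000)
    (hNM : ∀ y ∈ N, ∃ x ∈ M, ‖y - x‖ ≤ 1 / 8 * ‖y‖)
    (Θ : Al M →ₗ[ℂ] (H →L[ℂ] H)) (hΘN : ∀ x, Θ x ∈ N)
    (hΘ : ∀ x : Al M, ‖Θ x - (x : H →L[ℂ] H)‖ ≤ K * ‖x‖) :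
    ∃ π : M.toStarSubalgebra ≃⋆ₐ[ℂ] N.toStarSubalgebra,
      ∀ x : M.toStarSubalgebra, ‖(π x : H →L[ℂ] H) - x‖ ≤ 600 * K * ‖(x : H →L[ℂ] H)‖ := by
  -- the codomain restriction
  let T0 : Al M →ₗ[ℂ] Al N :=
    { toFun := fun x => ⟨Θ x, hΘN x⟩
      map_add' := fun x y => Subtype.ext (by
        change Θ (x + y) = Θ x + Θ y
        exact map_add Θ x y)
      map_smul' := fun c x => Subtype.ext (by
        change Θ (c • x) = c • Θ x
        exact map_smul Θ c x) }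
  let T : Al M →L[ℂ] Al N := LinearMap.mkContinuous T0 (1 + K) (fun x => by
    change ‖Θ x‖ ≤ _
    have h1 : ‖Θ x‖ ≤ ‖Θ x - x‖ + ‖(x : H →L[ℂ] H)‖ := by
      have := norm_add_le (Θ x - (x : H →L[ℂ] H)) (x : H →L[ℂ] H)
      rwa [sub_add_cancel] at this
    have h2 := hΘ x
    rw [coe_norm] at h1
    linarith)
  have hT : ∀ x : Al M, ‖(T x : H →L[ℂ] H) - x‖ ≤ K * ‖x‖ := hΘ
  -- the symmetrised map
  let β : Al M →L[ℂ] Al N := sym T
  have hβsp : SP β := sym_SP T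
  have hβ : ∀ x : Al M, ‖(β x : H →L[ℂ] H) - x‖ ≤ K * ‖x‖ := by
    intro x
    have h1 : (β x : H →L[ℂ] H) - x = (1 / 2 : ℂ) • (((T x : H →L[ℂ] H) - x)
        + star ((T (star x) : H →L[ℂ] H) - ((star x : Al M) : H →L[ℂ] H))) := by
      have h2 : (β x : H →L[ℂ] H)
          = (1 / 2 : ℂ) • ((T x : H →L[ℂ] H) + star (T (star x) : H →L[ℂ] H)) := rfl
      have h3 : star ((star x : Al M) : H →L[ℂ] H) = x := by
        change star (star (x : H →L[ℂ] H)) = x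
        exact star_star _
      rw [h2, star_sub, h3]
      have h4 : (x : H →L[ℂ] H) = (1 / 2 : ℂ) • ((x : H →L[ℂ] H) + x) := by
        rw [← two_smul ℂ (x : H →L[ℂ] H), smul_smul]; norm_num
      nth_rewrite 1 [h4]
      rw [← smul_sub]
      congr 1
      abel
    rw [h1]
    refine (norm_smul_le _ _).trans ?_
    have h5 : ‖(1 / 2 : ℂ)‖ = 1 / 2 := by norm_num
    rw [h5]
    have h6 := norm_add_le ((T x : H →L[ℂ] H) - x)
      (star ((T (star x) : H →L[ℂ] H) - ((star x : Al M) : H →L[ℂ] H)))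
    rw [norm_star] at h6
    have h7 := hT x
    have h8 := hT (star x)
    rw [norm_star] at h8
    linarith
  have hK8 : K ≤ 1 / 8 := by linarith
  obtain ⟨γ, hγ1, hγ2, hγn⟩ := exists_inverse M N hNM β (fun x =>
    (hβ x).trans (by gcongr))
  have hβb : ∀ x : Al M, ‖β x‖ ≤ (1 + K) * ‖x‖ := by
    intro x
    have h1 : ‖(β x : H →L[ℂ] H)‖ ≤ ‖(β x : H →L[ℂ] H) - x‖ + ‖(x : H →L[ℂ] H)‖ := by
      have := norm_add_le ((β x : H →L[ℂ] H) - (x : H →L[ℂ] H)) (x : H →L[ℂ] H)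
      rwa [sub_add_cancel] at this
    rw [coe_norm, coe_norm] at h1
    have := hβ x
    linarith
  have hβn : ‖β‖ ≤ 3 / 2 := by
    refine ContinuousLinearMap.opNorm_le_bound _ (by norm_num) fun x => ?_
    refine (hβb x).trans ?_
    have := norm_nonneg x
    nlinarith
  have hdef : Dft β (4 * K) := by
    intro x y
    have h1 : ‖β x * β y - β (x * y)‖
        = ‖((β x : H →L[ℂ] H) - x) * (β y : H →L[ℂ] H) + (x : H →L[ℂ] H) * ((β y : H →L[ℂ] H) - y)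
          - ((β (x * y) : H →L[ℂ] H) - ((x * y : Al M) : H →L[ℂ] H))‖ := by
      change ‖(β x : H →L[ℂ] H) * (β y : H →L[ℂ] H) - (β (x * y) : H →L[ℂ] H)‖ = _
      congr 1
      have h2 : ((x * y : Al M) : H →L[ℂ] H) = (x : H →L[ℂ] H) * (y : H →L[ℂ] H) := rfl
      rw [h2, sub_mul, mul_sub]
      abel
    rw [h1]
    have b1 : ‖((β x : H →L[ℂ] H) - x) * (β y : H →L[ℂ] H)‖ ≤ (K * ‖x‖) * ((1 + K) * ‖y‖) :=
      (norm_mul_le _ _).trans (mul_le_mul (hβ x) (hβb y) (norm_nonneg _) (by positivity))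
    have b2 : ‖(x : H →L[ℂ] H) * ((β y : H →L[ℂ] H) - y)‖ ≤ ‖x‖ * (K * ‖y‖) :=
      (norm_mul_le _ _).trans (mul_le_mul le_rfl (hβ y) (norm_nonneg _) (norm_nonneg _))
    have b3 : ‖(β (x * y) : H →L[ℂ] H) - ((x * y : Al M) : H →L[ℂ] H)‖ ≤ K * (‖x‖ * ‖y‖) :=
      (hβ (x * y)).trans (by gcongr; exact norm_mul_le _ _)
    refine (norm_sub_le _ _).trans ?_
    refine (add_le_add_left (norm_add_le _ _) _).trans ?_
    have hxy : 0 ≤ K * (‖x‖ * ‖y‖) := by positivity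
    nlinarith
  obtain ⟨π, hπ⟩ := newton (AHM.ah M) β γ hγ1 hγ2 hγn hβn hβsp (by positivity)
    (by linarith) hdef
  refine ⟨π, fun x => ?_⟩
  have h1 : ‖(π x : H →L[ℂ] H) - x‖ ≤ ‖π x - β x‖ + ‖(β x : H →L[ℂ] H) - x‖ := by
    have h2 : (π x : H →L[ℂ] H) - x
        = ((π x - β x : Al N) : H →L[ℂ] H) + ((β x : H →L[ℂ] H) - x) := by
      change _ = ((π x : H →L[ℂ] H) - (β x : H →L[ℂ] H)) + ((β x : H →L[ℂ] H) - x)
      abel
    rw [h2]
    exact norm_add_le _ _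
  have h3 := hπ x
  have h4 := hβ x
  have h5 : 0 ≤ K * ‖x‖ := by positivity
  change _ ≤ 600 * K * ‖x‖
  nlinarith

/-- variant of `near_iso` with `Θ` defined on all of `B(H)` -/
theorem near_iso' (M N : VonNeumannAlgebra H) {K : ℝ} (hK0 : 0 ≤ K) (hK : K ≤ 1 / 100000)
    (hNM : ∀ y ∈ N, ∃ x ∈ M, ‖y - x‖ ≤ 1 / 8 * ‖y‖)
    (Θ : (H →L[ℂ] H) →ₗ[ℂ] (H →L[ℂ] H)) (hΘN : ∀ x ∈ M, Θ x ∈ N)
    (hΘ : ∀ x ∈ M, ‖Θ x - x‖ ≤ K * ‖x‖) :
    ∃ π : M.toStarSubalgebra ≃⋆ₐ[ℂ] N.toStarSubalgebra,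
      ∀ x : M.toStarSubalgebra, ‖(π x : H →L[ℂ] H) - x‖ ≤ 600 * K * ‖(x : H →L[ℂ] H)‖ :=
  near_iso M N hK0 hK hNM
    { toFun := fun x => Θ (x : H →L[ℂ] H)
      map_add' := fun x y => map_add Θ (x : H →L[ℂ] H) (y : H →L[ℂ] H)
      map_smul' := fun c x => map_smul Θ c (x : H →L[ℂ] H) }
    (fun x => hΘN x x.2) (fun x => hΘ x x.2)

end

end Crest.Agent.R078.Z.NearIso
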