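import Crest.Agent.R078.S103NearIso615
import Crest.Agent.R078.S103End45

/-!
# Row 78 (S0103): `NewtonT` in the form of the final assembly
-/

set_option autoImplicit false

namespace Crest.Agent.R078.Z.NearIso

universe u

/-- linear near-identity map ⇒ near-identity *-isomorphism -/
theorem newtonT : Fin45.NewtonT.{u} := by
  refine ⟨600, 1 / 100000, by norm_num, by norm_num, ?_⟩
  intro H _ _ _ M N K hK0 hK hball Θ hΘN hΘ
  refine near_iso' M N hK0 hK (fun y hy => ?_) Θ hΘN hΘ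
  rcases eq_or_ne y 0 with rfl | hy0
  · exact ⟨0, zero_mem M, by simp⟩
  · have hn : 0 < ‖y‖ := norm_pos_iff.2 hy0
    set c : ℂ := ((‖y‖⁻¹ : ℝ) : ℂ) with hc
    have hcn : ‖c‖ = ‖y‖⁻¹ := by
      rw [hc, Complex.norm_real, Real.norm_of_nonneg (by positivity)]
    obtain ⟨x, hx, -, hxy⟩ := hball.2 (c • y) (SMulMemClass.smul_mem (S := StarSubalgebra ℂ (H →L[ℂ] H)) (s := N.toStarSubalgebra) c hy) (by
      rw [norm_smul, hcn, inv_mul_cancel₀ hn.ne'])
    refine ⟨((‖y‖ : ℝ) : ℂ) • x, SMulMemClass.smul_mem (S := StarSubalgebra ℂ (H →L[ℂ] H)) (s := M.toStarSubalgebra) _ hx, ?_⟩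
    have h1 : y - ((‖y‖ : ℝ) : ℂ) • x = ((‖y‖ : ℝ) : ℂ) • (c • y - x) := by
      rw [smul_sub, smul_smul, hc, ← Complex.ofReal_mul, mul_inv_cancel₀ hn.ne', Complex.ofReal_one,
        one_smul]
    rw [h1, norm_smul, Complex.norm_real, Real.norm_of_nonneg hn.le, mul_comm]
    gcongr

end Crest.Agent.R078.Z.NearIso
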