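/-
R78 / S0103 (helper445): KeyIneq from the slot instance (TB) and the letter lemma (LL).
-/
import Crest.Agent.R078.S103Comp445
import Crest.Agent.R078.S103N1_330

set_option autoImplicit false
set_option linter.unusedSectionVars false
open scoped InnerProductSpace
open Crest.Agent.R078.Z.Slot
open Crest.Agent.R078.S103.LSys

namespace Crest.Agent.R078.Z.Comp

universe u

/-- TB final: every adapted relation on a stably close pair has slot instances. -/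
def TBFinal : Prop :=
  ∀ (H : Type u) [NormedAddCommGroup H] [InnerProductSpace ℂ H] [CompleteSpace H]
    (M N : VonNeumannAlgebra H) (δ R K v : ℝ) (ad : N1.Adapted M N R v),
    0 ≤ δ → 1 ≤ R → 1 ≤ K → TB.SC δ M N → (∀ a, ‖ad.A a‖ ≤ K) → (∀ a, ‖ad.B a‖ ≤ K) →
    TBInst M ad.μ ad.ξ ad.Y ad.A ad.B ad.η δ R K

/-- LL final: the letter lemma. -/
def LLFinal : Prop :=
  ∀ (H : Type u) [NormedAddCommGroup H] [InnerProductSpace ℂ H] [CompleteSpace H]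
    (M : VonNeumannAlgebra H) (ξ : H), ‖ξ‖ = 1 → ∀ (m : ℕ) (Y A B : Fin m → (H →L[ℂ] H)),
    (∀ a, Y a ∈ M) → (∀ a, ‖Y a‖ ≤ 1) → (∀ a, A a ∈ M.commutant) → (∀ a, B a ∈ M.commutant) →
    LLOut M ξ Y A B

/-- THE KEY INEQUALITY from TB and LL. -/
theorem keyIneq (hTB : TBFinal.{u}) (hLL : LLFinal.{u}) : Key.KeyIneq.{u} := by
  intro δ R Λ hδ hR hΛ hall H _ _ _ M N hSC
  have h3 : (1 : ℝ) ≤ Real.sqrt 3 := by rw [Real.one_le_sqrt]; norm_num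
  have hR' : 1 ≤ Real.sqrt 3 * R := by nlinarith
  refine N1.relBd_of_adapted (by linarith) (by positivity) M N hSC ?_
  intro G _ _ _ M₁ N₁ hSC₁ v _ ad
  -- the constant `K`
  obtain ⟨K, hK1, hKA, hKB⟩ : ∃ K : ℝ, 1 ≤ K ∧ (∀ a, ‖ad.A a‖ ≤ K) ∧ (∀ a, ‖ad.B a‖ ≤ K) := by
    refine ⟨1 + ∑ a, ‖ad.A a‖ + ∑ a, ‖ad.B a‖, ?_, fun a => ?_, fun a => ?_⟩
    · have h1 : 0 ≤ ∑ a, ‖ad.A a‖ := Finset.sum_nonneg fun a _ => norm_nonneg _
      have h2 : 0 ≤ ∑ a, ‖ad.B a‖ := Finset.sum_nonneg fun a _ => norm_nonneg _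
      linarith
    · have h1 : ‖ad.A a‖ ≤ ∑ a, ‖ad.A a‖ :=
        Finset.single_le_sum (f := fun a => ‖ad.A a‖) (fun a _ => norm_nonneg _)
          (Finset.mem_univ a)
      have h2 : 0 ≤ ∑ a, ‖ad.B a‖ := Finset.sum_nonneg fun a _ => norm_nonneg _
      linarith
    · have h1 : ‖ad.B a‖ ≤ ∑ a, ‖ad.B a‖ :=
        Finset.single_le_sum (f := fun a => ‖ad.B a‖) (fun a _ => norm_nonneg _)
          (Finset.mem_univ a)
      have h2 : 0 ≤ ∑ a, ‖ad.A a‖ := Finset.sum_nonneg fun a _ => norm_nonneg _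
      linarith
  have key := value_le M₁ ad.μ ad.ξ ad.Y ad.A ad.B ad.η hδ hR' (by linarith : 0 ≤ K) hΛ
    ad.μ_nonneg ad.μ_sum ad.Y_mem ad.norm_Y ad.rel
    (hLL G M₁ ad.ξ ad.norm_ξ ad.m ad.Y ad.A ad.B ad.Y_mem ad.norm_Y ad.A_memM ad.B_memM)
    (hTB G M₁ N₁ δ _ K v ad hδ hR' hK1 hSC₁ hKA hKB) hall
  have hval : (val ad.μ ad.ξ ad.Y ad.A ad.B).re = v := by
    have : val ad.μ ad.ξ ad.Y ad.A ad.B = (v : ℂ) := ad.value
    rw [this, Complex.ofReal_re]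
  rwa [hval] at key

end Crest.Agent.R078.Z.Comp
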