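import Crest.Agent.R078.S103TBFin304
import Crest.Agent.R078.S103KeyIneq445

/-! Row 78, S0103: `TBFinal`. -/

set_option autoImplicit false

namespace Crest.Agent.R078.Z.TBI

universe u

theorem tbFinal : Comp.TBFinal.{u} := by
  intro H _ _ _ M N δ R K v ad _ _ hK hSC hA hB
  exact tbInst hSC ad.norm_ξ ad.μ_nonneg ad.μ_sum ad.A_memM ad.A_memN ad.B_memM ad.B_memN hA hB
    (zero_le_one.trans hK) ad.norm_Aξ ad.norm_Bξ ad.norm_η ad.avg ad.p_mem ad.p_sa ad.p_idem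
    ad.p_ξ ad.p_η ad.star_id

end Crest.Agent.R078.Z.TBI
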