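import Crest.Agent.R078.S103End45
import Crest.Agent.R078.S103TBFinal304
import Crest.Agent.R078.S103Dist199
import Crest.Agent.R078.S103NewtonT615
import Crest.Agent.R078.S103N2_615

/-!
# Row 78 (S0103): everything except the letter lemma `Comp.LLFinal`
-/

set_option autoImplicit false

namespace Crest.Agent.R078.Z

universe u

/-- **S0103 from the letter lemma.** -/
theorem s103_of_LL (hLL : Comp.LLFinal.{u}) : Fin45.S103Stmt.{u} := by
  obtain ⟨C, hC, hD⟩ := SCof.exists_distC.{u}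
  exact Fin45.s103 (Comp.keyIneq TBI.tbFinal hLL) SCof.scOf NearIso.newtonT
    (N2.unitT_of_dist (by linarith) hD)

/-- shape test of the final statement -/
theorem s103_shape (hLL : Comp.LLFinal.{u}) (ε : ℝ) (hε : 0 < ε) :
    ∃ δ : ℝ, 0 < δ ∧
      ∀ (H : Type u) [NormedAddCommGroup H] [InnerProductSpace ℂ H] [CompleteSpace H]
        (M N : VonNeumannAlgebra H),
        (∀ x ∈ M, ‖x‖ ≤ 1 → ∃ y ∈ N, ‖y‖ ≤ 1 ∧ ‖x - y‖ < δ) →
        (∀ y ∈ N, ‖y‖ ≤ 1 → ∃ x ∈ M, ‖x‖ ≤ 1 ∧ ‖y - x‖ < δ) →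
        ∃ u : H →L[ℂ] H, u ∈ unitary (H →L[ℂ] H) ∧ ‖u - 1‖ < ε ∧
          ∀ y : H →L[ℂ] H, y ∈ N ↔ ∃ x ∈ M, y = u * x * star u :=
  s103_of_LL hLL ε hε

end Crest.Agent.R078.Z
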