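import Crest.Agent.R121.Glue
import Crest.Agent.R121.Cochain
import Crest.Agent.R121.RhoFin
import Crest.Agent.R121.PI

/-!
# Row 78 (S0103): bounded Hochschild cohomology with universal constants

`good_const`: every `(k+1)`-cocycle `f` of a von Neumann algebra is `d g` with
`‖g‖ ≤ (4 k + 7) ‖f‖`.
-/

set_option autoImplicit false
set_option linter.unusedSectionVars false

open scoped InnerProductSpace Topology
open Filter

namespace Crest.Agent.R078.Z.GoodConst

open Crest.Agent.R121 Crest.Agent.R121.PI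
open Crest.Agent.R124 (csupp csupp_mem csupp_comm csupp_proj csupp_mul_self)

variable {H : Type*} [NormedAddCommGroup H] [InnerProductSpace ℂ H] [CompleteSpace H]

theorem pi_red_const (M : VonNeumannAlgebra H) (k : ℕ) :
    ∀ z : Al M, IsCP M z → IsPI z → ∀ f : Coch M (k + 1), IsCocycle f →
      ∃ (g : Coch M k) (ψ : Coch M (k + 1)), ‖g‖ ≤ (2 * k + 3 : ℝ) * ‖f‖ ∧
      IsCocycle ψ ∧ (∀ x, f x * z = Crest.OpAlg.hochschildDiff g x + ψ x) ∧
      ∀ a : Fin k → Al M, IsCB ((2 * k + 3 : ℝ) * ‖f‖ * ∏ i, ‖a i‖) (ψ.curryRight a) := by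
  rintro z hz ⟨s, t, hs, ht, hst⟩ f hf
  have hfam : ∀ i : ℕ, Fam z (fun j : Fin (i + 1) => ww s t j.val) :=
    fun i => fam_ww hz hs ht hst (i + 1)
  choose G hG1 hG2 using fun i : ℕ => exists_fixed hz (hfam i) f hf
  set Ψ : ℕ → Coch M (k + 1) := fun i => psi hz (hfam i) f with hΨ
  obtain ⟨g, hg1, hg2⟩ := exists_coch_lim (𝒰 := hyperfilter ℕ) G (K := (2 * k + 3) * ‖f‖) hG1
  obtain ⟨ψ, _, hψ2⟩ := exists_coch_lim (𝒰 := hyperfilter ℕ) Ψ (K := 2 * ‖f‖)
    (fun i => norm_psi_le hz (hfam i) f)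
  have hrel : ∀ x, f x * z = Crest.OpAlg.hochschildDiff g x + ψ x := by
    intro x
    apply Subtype.ext
    have h1 := (hochschildDiff_wtends G g hg2 x).add (hψ2 x)
    have h2 : (fun i : ℕ => ((Crest.OpAlg.hochschildDiff (G i) x : Al M) : H →L[ℂ] H)
        + ((Ψ i x : Al M) : H →L[ℂ] H)) = fun _ => ((f x * z : Al M) : H →L[ℂ] H) := by
      funext i
      rw [hG2 i x]
      rfl
    rw [h2] at h1
    exact (WTends.const _).unique h1
  refine ⟨g, ψ, hg1, isCocycle_of_eq hz.comm hf hrel, hrel, fun a => ?_⟩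
  refine isCB_of_wtends (𝒰 := hyperfilter ℕ) (fun i => (Ψ i).curryRight a) (ψ.curryRight a)
    (fun x => ?_) (by positivity) (fun n => ?_)
  · exact hψ2 (Fin.snoc a x)
  · have hev : ∀ᶠ i in (hyperfilter ℕ : Filter ℕ), n ≤ i + 1 := by
      have : ∀ᶠ i in (atTop : Filter ℕ), n ≤ i + 1 := by
        filter_upwards [eventually_ge_atTop n] with i hi
        omega
      exact Nat.hyperfilter_le_atTop this
    filter_upwards [hev] with i hi X hX
    have h1 := psi_MB hz (hfam i) f a hi X hX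
    intro ξ
    refine (h1 ξ).trans ?_
    have h2 : 2 * ‖f‖ * ∏ i, ‖a i‖ ≤ (2 * k + 3) * ‖f‖ * ∏ i, ‖a i‖ := by
      have h3 : (2 : ℝ) ≤ 2 * k + 3 := by
        have : (0 : ℝ) ≤ k := by positivity
        linarith
      gcongr
    gcongr

/-- Universal constants for the bounded cohomology of von Neumann algebras. -/
theorem good_const (M : VonNeumannAlgebra H) (k : ℕ) : Good M k (2 * (2 * k + 3) + 1) 1 := by
  have hcob := fun (E : Scale M) (z : Al M) (hz : ∀ x, z * x = x * z) (C : ℝ)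
    (ρ : En M → Al M) (hρ : IsRho E z C ρ) (f : Coch M (k + 1)) (hf : IsCocycle f) (K : ℝ)
    (hK : 0 ≤ K) (hE : ∀ a : Fin k → Al M, E.mem (K * ∏ i, ‖a i‖) (f.curryRight a)) =>
      cob_of_rho hz hρ f hf hK hE
  have hpi := pi_red_const M k
  set Ck : ℝ := 2 * k + 3 with hCkdef
  have hCk : 0 ≤ Ck := by positivity
  have hgood : ∀ (z : Al M), (∀ x, z * x = x * z) → ∀ ρ : En M → Al M,
      IsRho (bdS M) z 1 ρ → Good M k (2 * Ck + 1) z := by
    intro z hz ρ hρ f hf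
    obtain ⟨g, hg, hg'⟩ := hcob (bdS M) z hz 1 ρ hρ f hf ‖f‖ (norm_nonneg _) (fun a => by
      change ‖f.curryRight a‖ ≤ ‖f‖ * ∏ i, ‖a i‖
      refine (f.curryRight.le_opNorm a).trans ?_
      rw [ContinuousMultilinearMap.curryRight_norm])
    refine ⟨g, hg.trans ?_, hg'⟩
    have := norm_nonneg f
    nlinarith
  refine good_sum (by positivity) fun p hp hp0 => ?_
  have hpc : ∀ x ∈ M, (p : H →L[ℂ] H) * x = x * p := fun x hx =>
    congrArg Subtype.val (hp.comm ⟨x, hx⟩)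
  have hpiece : ∀ (e : H →L[ℂ] H) (heM : e ∈ M), e ≠ 0 → (p : H →L[ℂ] H) * e = e →
      (∃ ρ : En M → Al M, IsRho (bdS M) ⟨csupp M e, csupp_mem M e heM⟩ 1 ρ) →
      ∃ z : Al M, IsCP M z ∧ z ≠ 0 ∧ z * p = z ∧ Good M k (2 * Ck + 1) z := by
    rintro e heM he0 hpe ⟨ρ, hρ⟩
    have hcomm : ∀ x ∈ M, csupp M e * x = x * csupp M e := fun x hx =>
      csupp_comm M e heM x (Or.inl hx)
    refine ⟨⟨csupp M e, csupp_mem M e heM⟩, ⟨⟨Subtype.ext (csupp_proj M e).isIdempotentElem,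
      Subtype.ext (csupp_proj M e).isSelfAdjoint⟩, fun x => Subtype.ext (hcomm x x.2)⟩, ?_,
      Subtype.ext ?_, hgood _ (fun x => Subtype.ext (hcomm x x.2)) ρ hρ⟩
    · intro h0
      have h1 : csupp M e = 0 := congrArg Subtype.val h0
      have h2 := csupp_mul_self M e
      rw [h1, zero_mul] at h2
      exact he0 h2.symm
    · change csupp M e * (p : H →L[ℂ] H) = csupp M e
      rw [hcomm p p.2]
      exact csupp_le hpc hpe
  rcases dichotomy M p.2 ⟨congrArg Subtype.val hp.proj.isIdempotentElem,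
    congrArg Subtype.val hp.proj.isSelfAdjoint⟩ hpc (fun h => hp0 (Subtype.ext h)) with
    ⟨f, hfM, hf, hf0, hpf, ξ, C, htr⟩ | ⟨c, hcM, hc, hcc, hc0, hpc', hPI⟩
  · by_cases hab : ∀ e ∈ M, IsStarProjection e → f * e = e →
        (∀ x ∈ M, ∀ y ∈ M, (e * x * e) * (e * y * e) = (e * y * e) * (e * x * e)) → e = 0
    · exact hpiece f hfM hf0 hpf (rho_fin hfM hf htr hab)
    · push Not at hab
      obtain ⟨e, heM, he, hfe, heab, he0⟩ := hab
      refine hpiece e heM he0 ?_ (rho_abel heM he heab)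
      rw [← hfe, ← mul_assoc, hpf]
  · refine ⟨⟨c, hcM⟩, ⟨⟨Subtype.ext hc.isIdempotentElem, Subtype.ext hc.isSelfAdjoint⟩,
      fun x => Subtype.ext (hcc x x.2)⟩, fun h => hc0 (congrArg Subtype.val h),
      Subtype.ext ?_, ?_⟩
    · change c * (p : H →L[ℂ] H) = c
      rw [hcc p p.2, hpc']
    · intro f hf
      have hcP : IsCP M (⟨c, hcM⟩ : Al M) := ⟨⟨Subtype.ext hc.isIdempotentElem,
        Subtype.ext hc.isSelfAdjoint⟩, fun x => Subtype.ext (hcc x x.2)⟩
      obtain ⟨g, ψ, hg, hψ, hfg, hcb⟩ := hpi ⟨c, hcM⟩ hcP (isPI_of_PIc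
        (Subtype.ext hc.isIdempotentElem) hPI) f hf
      obtain ⟨ρ, hρ⟩ := rho_cb M
      obtain ⟨g', hg', hgd⟩ := hcob (cbS M) 1 (fun x => by rw [one_mul, mul_one]) 1 ρ hρ ψ hψ
        (Ck * ‖f‖) (mul_nonneg hCk (norm_nonneg _)) hcb
      refine ⟨g + g', ?_, fun a => ?_⟩
      · refine (norm_add_le _ _).trans ?_
        have := norm_nonneg f
        nlinarith
      · rw [hfg]
        have h1 : Crest.OpAlg.hochschildDiff (⇑(g + g')) a
            = Crest.OpAlg.hochschildDiff g a + Crest.OpAlg.hochschildDiff g' a :=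
          Glue.hochschildDiff_add _ _ _
        rw [h1, hgd, mul_one]

end Crest.Agent.R078.Z.GoodConst
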