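import Crest.Agent.R078.S103HB50
import Crest.Agent.R078.S103Slot199
import Crest.Agent.R078.S103LSys938

/-!
R078 / S0103, block HB (helper50), part 3: the completely bounded lift.
-/

set_option autoImplicit false
set_option linter.unusedSectionVars false

open scoped ComplexConjugate InnerProductSpace

namespace Crest.Agent.R078.Z.HB

open Crest.Agent.R078.Z.Slot Crest.Agent.R078.S103.LSys

universe u

section Plain

variable {G : Type u} [NormedAddCommGroup G] [InnerProductSpace ℂ G] [CompleteSpace G]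

/-- (F4): relation bounds for all classes `R` give the bound for all relations, normalised form. -/
theorem relBd_all {M N : VonNeumannAlgebra G} {L : ℝ} (h : ∀ R, RelBd M N R L)
    {ι : Type} [Fintype ι] (μ : ι → ℝ) (Y : ι → G →L[ℂ] G) (a b : ι → G)
    (hμ : ∀ i, 0 ≤ μ i) (hμ1 : ∑ i, μ i = 1) (hY : ∀ i, Y i ∈ M) (hY1 : ∀ i, ‖Y i‖ ≤ 1)
    (ha : ∀ i, ‖a i‖ ≤ 1) (hb : ∀ i, ‖b i‖ ≤ 1)
    (hrel : ∀ n ∈ N, ∑ i, ((μ i : ℂ) * ⟪b i, n (a i)⟫_ℂ) • Y i = 0) :
    ‖∑ i, (μ i : ℂ) * ⟪b i, Y i (a i)⟫_ℂ‖ ≤ L := by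
  classical
  -- the vectors
  let ξ : ι → G := fun k => ((Real.sqrt (μ k) : ℝ) : ℂ) • a k
  let α : ι → ι → G := fun i k => if k = i then (if μ i = 0 then 0 else a i) else 0
  let β : ι → ι → G := fun i k => if k = i then b i else 0
  let η : ι → ι → G := fun i k =>
    if k = i then (((Real.sqrt (μ i))⁻¹ : ℝ) : ℂ) • b i else 0
  let R : ℝ := Real.sqrt (∑ i, ((Real.sqrt (μ i))⁻¹) ^ 2)
  have hR : R ^ 2 = ∑ i, ((Real.sqrt (μ i))⁻¹) ^ 2 :=
    Real.sq_sqrt (Finset.sum_nonneg fun i _ => sq_nonneg _)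
  have e1 : ∀ (n : G →L[ℂ] G) (i : ι), ∑ k, ⟪β i k, n (α i k)⟫_ℂ
      = if μ i = 0 then 0 else ⟪b i, n (a i)⟫_ℂ := fun n i => by
    rw [Finset.sum_eq_single i]
    · simp only [α, β, if_true]
      split_ifs <;> simp
    · intro k _ hk
      simp [β, hk]
    · simp
  have e2 : ∀ (n : G →L[ℂ] G) (i : ι), ∑ k, ⟪η i k, n (ξ k)⟫_ℂ
      = if μ i = 0 then 0 else ⟪b i, n (a i)⟫_ℂ := fun n i => by
    rw [Finset.sum_eq_single i]
    · simp only [ξ, η, if_true, map_smul, inner_smul_left, inner_smul_right, Complex.conj_ofReal]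
      by_cases h0 : μ i = 0
      · simp [h0]
      · have hs : Real.sqrt (μ i) ≠ 0 := by
          rw [Real.sqrt_ne_zero (hμ i)]; exact h0
        rw [if_neg h0]
        have hs' : ((Real.sqrt (μ i) : ℝ) : ℂ) ≠ 0 := by exact_mod_cast hs
        push_cast
        field_simp
    · intro k _ hk
      simp [η, hk]
    · simp
  have key := h R ι ι μ Y ξ α β η hμ hμ1 hY hY1 ?_ ?_ ?_ ?_ ?_ ?_
  · refine le_trans (le_of_eq ?_) key
    congr 1
    refine Finset.sum_congr rfl fun i _ => ?_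
    rw [e1]
    by_cases h0 : μ i = 0 <;> simp [h0]
  · calc ∑ k, ‖ξ k‖ ^ 2 ≤ ∑ k, μ k := by
          refine Finset.sum_le_sum fun k _ => ?_
          simp only [ξ]
          rw [norm_smul, mul_pow, Complex.norm_real, Real.norm_eq_abs, sq_abs, Real.sq_sqrt (hμ k)]
          have := ha k
          have h2 : ‖a k‖ ^ 2 ≤ 1 := pow_le_one₀ (norm_nonneg _) this
          nlinarith [hμ k]
      _ ≤ 1 := hμ1.le
  · intro i
    rw [Finset.sum_eq_single i]
    · simp only [α, if_true]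
      split_ifs
      · simp
      · exact pow_le_one₀ (norm_nonneg _) (ha i)
    · intro k _ hk
      simp [α, hk]
    · simp
  · intro i
    rw [Finset.sum_eq_single i]
    · simp only [β, if_true]
      exact pow_le_one₀ (norm_nonneg _) (hb i)
    · intro k _ hk
      simp [β, hk]
    · simp
  · intro i
    rw [Finset.sum_eq_single i]
    · simp only [η, if_true]
      rw [norm_smul, mul_pow, Complex.norm_real, Real.norm_eq_abs, sq_abs, hR]
      have h2 : ‖b i‖ ^ 2 ≤ 1 := pow_le_one₀ (norm_nonneg _) (hb i)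
      have h3 : ((Real.sqrt (μ i))⁻¹) ^ 2 ≤ ∑ i, ((Real.sqrt (μ i))⁻¹) ^ 2 :=
        Finset.single_le_sum (f := fun i => ((Real.sqrt (μ i))⁻¹) ^ 2)
          (fun i _ => sq_nonneg _) (Finset.mem_univ i)
      calc ((Real.sqrt (μ i))⁻¹) ^ 2 * ‖b i‖ ^ 2 ≤ ((Real.sqrt (μ i))⁻¹) ^ 2 * 1 := by gcongr
        _ ≤ _ := by rw [mul_one]; exact h3
    · intro k _ hk
      simp [η, hk]
    · simp
  · intro i n _
    rw [e1, e2]
  · intro n hn
    rw [← hrel n hn]
    refine Finset.sum_congr rfl fun i _ => ?_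
    rw [e2]
    by_cases h0 : μ i = 0 <;> simp [h0]

/-- (F4): relation bounds for all classes `R` give the bound for all relations. -/
theorem relBd_all' {M N : VonNeumannAlgebra G} {L : ℝ} (h : ∀ R, RelBd M N R L)
    {ι : Type} [Fintype ι] (Y : ι → G →L[ℂ] G) (a b : ι → G) (hY : ∀ i, Y i ∈ M)
    (hrel : ∀ n ∈ N, ∑ i, ⟪b i, n (a i)⟫_ℂ • Y i = 0) :
    ‖∑ i, ⟪b i, Y i (a i)⟫_ℂ‖ ≤ L * ∑ i, ‖Y i‖ * ‖a i‖ * ‖b i‖ := by
  classical
  let t : ι → ℝ := fun i => ‖Y i‖ * ‖a i‖ * ‖b i‖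
  have ht : ∀ i, 0 ≤ t i := fun i => by positivity
  have hzero : ∀ i, t i = 0 → Y i = 0 ∨ a i = 0 ∨ b i = 0 := fun i hi => by
    rcases mul_eq_zero.1 hi with h | h
    · rcases mul_eq_zero.1 h with h | h
      · exact Or.inl (norm_eq_zero.1 h)
      · exact Or.inr (Or.inl (norm_eq_zero.1 h))
    · exact Or.inr (Or.inr (norm_eq_zero.1 h))
  have hterm : ∀ i, t i = 0 → ⟪b i, Y i (a i)⟫_ℂ = 0 := fun i hi => by
    rcases hzero i hi with h | h | h <;> simp [h]
  have hterm' : ∀ i, t i = 0 → ∀ n : G →L[ℂ] G, ⟪b i, n (a i)⟫_ℂ • Y i = 0 := fun i hi n => by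
    rcases hzero i hi with h | h | h <;> simp [h]
  let T : ℝ := ∑ i, t i
  have hT : 0 ≤ T := Finset.sum_nonneg fun i _ => ht i
  rcases hT.eq_or_lt with hT0 | hT0
  · have h0 : ∀ i, t i = 0 := fun i =>
      (Finset.sum_eq_zero_iff_of_nonneg fun i _ => ht i).1 hT0.symm i (Finset.mem_univ i)
    rw [Finset.sum_eq_zero fun i _ => hterm i (h0 i)]
    have : ∑ i, ‖Y i‖ * ‖a i‖ * ‖b i‖ = 0 := hT0.symm
    rw [this]; simp
  · have hinv : ∀ x : ℝ, 0 ≤ x → x⁻¹ * x ≤ 1 := fun x hx => by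
      rcases hx.eq_or_lt with h | h
      · rw [← h]; simp
      · rw [inv_mul_cancel₀ h.ne']
    have hmain := relBd_all h (fun i => t i / T) (fun i => ((‖Y i‖⁻¹ : ℝ) : ℂ) • Y i)
      (fun i => ((‖a i‖⁻¹ : ℝ) : ℂ) • a i) (fun i => ((‖b i‖⁻¹ : ℝ) : ℂ) • b i)
      (fun i => div_nonneg (ht i) hT) (by rw [← Finset.sum_div, div_self hT0.ne'])
      (fun i => by
        have := (M.toStarSubalgebra.toSubalgebra.toSubmodule).smul_mem ((‖Y i‖⁻¹ : ℝ) : ℂ) (hY i)
        exact this)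
      (fun i => by
        rw [norm_smul, Complex.norm_real, Real.norm_eq_abs, abs_inv, abs_norm]
        exact hinv _ (norm_nonneg _))
      (fun i => by
        rw [norm_smul, Complex.norm_real, Real.norm_eq_abs, abs_inv, abs_norm]
        exact hinv _ (norm_nonneg _))
      (fun i => by
        rw [norm_smul, Complex.norm_real, Real.norm_eq_abs, abs_inv, abs_norm]
        exact hinv _ (norm_nonneg _))
      ?_
    · have e : ∑ i, ((t i / T : ℝ) : ℂ) * ⟪((‖b i‖⁻¹ : ℝ) : ℂ) • b i,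
          (((‖Y i‖⁻¹ : ℝ) : ℂ) • Y i) (((‖a i‖⁻¹ : ℝ) : ℂ) • a i)⟫_ℂ
          = ((T⁻¹ : ℝ) : ℂ) * ∑ i, ⟪b i, Y i (a i)⟫_ℂ := by
        rw [Finset.mul_sum]
        refine Finset.sum_congr rfl fun i _ => ?_
        by_cases hi : t i = 0
        · rw [hterm i hi, hi]; simp
        · have h1 : ‖Y i‖ ≠ 0 := fun h => hi (by simp only [t, h]; ring)
          have h2 : ‖a i‖ ≠ 0 := fun h => hi (by simp only [t, h]; ring)
          have h3 : ‖b i‖ ≠ 0 := fun h => hi (by simp only [t, h]; ring)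
          have h1' : (‖Y i‖ : ℂ) ≠ 0 := by exact_mod_cast h1
          have h2' : (‖a i‖ : ℂ) ≠ 0 := by exact_mod_cast h2
          have h3' : (‖b i‖ : ℂ) ≠ 0 := by exact_mod_cast h3
          have hT' : (T : ℂ) ≠ 0 := by exact_mod_cast hT0.ne'
          rw [smul_apply, map_smul, inner_smul_left, inner_smul_right,
            inner_smul_right]
          simp only [Complex.conj_ofReal]
          have ht' : ((t i : ℝ) : ℂ) = ‖Y i‖ * ‖a i‖ * ‖b i‖ := by
            simp only [t]; push_cast; ring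
          push_cast
          rw [ht']
          field_simp
      rw [e, norm_mul, Complex.norm_real, Real.norm_eq_abs, abs_of_pos (inv_pos.2 hT0)] at hmain
      have h4 : T * (T⁻¹ * ‖∑ i, ⟪b i, Y i (a i)⟫_ℂ‖) ≤ T * L :=
        mul_le_mul_of_nonneg_left hmain hT
      rw [← mul_assoc, mul_inv_cancel₀ hT0.ne', one_mul, mul_comm] at h4
      exact h4
    · intro n hn
      have h5 : ∑ i, (((t i / T : ℝ) : ℂ) * ⟪((‖b i‖⁻¹ : ℝ) : ℂ) • b i,
          n (((‖a i‖⁻¹ : ℝ) : ℂ) • a i)⟫_ℂ) • (((‖Y i‖⁻¹ : ℝ) : ℂ) • Y i)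
          = ((T⁻¹ : ℝ) : ℂ) • ∑ i, ⟪b i, n (a i)⟫_ℂ • Y i := by
        rw [Finset.smul_sum]
        refine Finset.sum_congr rfl fun i _ => ?_
        by_cases hi : t i = 0
        · rw [hterm' i hi, hi]; simp
        · have h1 : ‖Y i‖ ≠ 0 := fun h => hi (by simp only [t, h]; ring)
          have h2 : ‖a i‖ ≠ 0 := fun h => hi (by simp only [t, h]; ring)
          have h3 : ‖b i‖ ≠ 0 := fun h => hi (by simp only [t, h]; ring)
          have h1' : (‖Y i‖ : ℂ) ≠ 0 := by exact_mod_cast h1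
          have h2' : (‖a i‖ : ℂ) ≠ 0 := by exact_mod_cast h2
          have h3' : (‖b i‖ : ℂ) ≠ 0 := by exact_mod_cast h3
          have hT' : (T : ℂ) ≠ 0 := by exact_mod_cast hT0.ne'
          rw [map_smul, inner_smul_left, inner_smul_right, smul_smul, smul_smul]
          simp only [Complex.conj_ofReal]
          have ht' : ((t i : ℝ) : ℂ) = ‖Y i‖ * ‖a i‖ * ‖b i‖ := by
            simp only [t]; push_cast; ring
          congr 1
          push_cast
          rw [ht']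
          field_simp
      rw [h5, hrel n hn, smul_zero]

theorem relBd_nonneg {M N : VonNeumannAlgebra G} {R L : ℝ} (h : RelBd M N R L) : 0 ≤ L := by
  have := h Unit Unit (fun _ => 1) (fun _ => 0) (fun _ => 0) (fun _ _ => 0) (fun _ _ => 0)
    (fun _ _ => 0) (by simp) (by simp) (fun _ => zero_mem M) (by simp) (by simp) (by simp)
    (by simp) (fun _ => by simp; positivity) (by simp) (by simp)
  simpa using this

end Plain

section Amp

variable {H : Type u} [NormedAddCommGroup H] [InnerProductSpace ℂ H] [CompleteSpace H]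

/-- `MM` is the algebra `Mat_J(M)` on `H^J`. -/
def IsAmp {J : Type} [Fintype J] (MM : VonNeumannAlgebra (PiLp 2 (fun _ : J => H)))
    (M : VonNeumannAlgebra H) : Prop :=
  ∀ X, X ∈ MM ↔ ∃ x : Matrix J J (H →L[ℂ] H), (∀ i j, x i j ∈ M) ∧ X = opM x

theorem sign_sum {J : Type} [Fintype J] [DecidableEq J] {V : Type*} [AddCommGroup V] [Module ℂ V]
    (r : J) (f : J → V) :
    ∑ s : J → ℤˣ, ∑ p, (((s p : ℤ) : ℂ) * ((s r : ℤ) : ℂ)) • f p
      = (Fintype.card (J → ℤˣ) : ℂ) • f r := by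
  rw [Finset.sum_comm, Finset.sum_eq_single r]
  · have h1 : ∀ s : J → ℤˣ, (((s r : ℤ) : ℂ) * ((s r : ℤ) : ℂ)) • f r = f r := fun s => by
      rcases Int.units_eq_one_or (s r) with h | h <;> simp [h]
    rw [Finset.sum_congr rfl fun s _ => h1 s, Finset.sum_const, Finset.card_univ,
      Nat.cast_smul_eq_nsmul]
  · intro p _ hp
    rw [← Finset.sum_smul]
    have h2 : ∑ s : J → ℤˣ, (((s p : ℤ) : ℂ) * ((s r : ℤ) : ℂ))
        = -∑ s : J → ℤˣ, (((s p : ℤ) : ℂ) * ((s r : ℤ) : ℂ)) := by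
      rw [← Finset.sum_neg_distrib]
      refine Fintype.sum_equiv (Equiv.mulRight (Pi.mulSingle p (-1 : ℤˣ))) _ _ fun s => ?_
      have hrp : (Pi.mulSingle p (-1 : ℤˣ) : J → ℤˣ) r = 1 :=
        Pi.mulSingle_eq_of_ne (M := fun _ : J => ℤˣ) (Ne.symm hp) _
      simp [hrp]
    have h3 : ∑ s : J → ℤˣ, (((s p : ℤ) : ℂ) * ((s r : ℤ) : ℂ)) = 0 := by
      have : (2 : ℂ) * ∑ s : J → ℤˣ, (((s p : ℤ) : ℂ) * ((s r : ℤ) : ℂ)) = 0 := by
        linear_combination h2
      simpa using this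
    rw [h3, zero_smul]
  · simp

variable {J : Type} [Fintype J]

/-- signed translation of a vector of `H^J`. -/
def tw [AddCommGroup J] (s : J → ℤˣ) (t : J) (v : PiLp 2 (fun _ : J => H)) :
    PiLp 2 (fun _ : J => H) :=
  WithLp.toLp 2 fun p => ((s p : ℤ) : ℂ) • v (p + t)

theorem tw_apply [AddCommGroup J] (s : J → ℤˣ) (t : J) (v : PiLp 2 (fun _ : J => H)) (p : J) :
    tw s t v p = ((s p : ℤ) : ℂ) • v (p + t) := rfl

theorem norm_tw [AddCommGroup J] (s : J → ℤˣ) (t : J) (v : PiLp 2 (fun _ : J => H)) :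
    ‖tw s t v‖ = ‖v‖ := by
  rw [← sq_eq_sq₀ (norm_nonneg _) (norm_nonneg _), PiLp.norm_sq_eq_of_L2, PiLp.norm_sq_eq_of_L2]
  rw [← Equiv.sum_comp (Equiv.addRight t) fun p => ‖v p‖ ^ 2]
  refine Finset.sum_congr rfl fun p _ => ?_
  rw [tw_apply, norm_smul]
  have : ‖(((s p : ℤ) : ℂ))‖ = 1 := by
    rcases Int.units_eq_one_or (s p) with h | h <;> simp [h]
  rw [this, one_mul]
  rfl

/-- twisted matrix. -/
def twm [AddCommGroup J] (s : J → ℤˣ) (t : J) (s' : J → ℤˣ) (t' : J)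
    (x : Matrix J J (H →L[ℂ] H)) : Matrix J J (H →L[ℂ] H) :=
  fun p q => (((s p : ℤ) : ℂ) * ((s' q : ℤ) : ℂ)) • x (p + t) (q + t')

theorem norm_opM_twm_le [AddCommGroup J] (s : J → ℤˣ) (t : J) (s' : J → ℤˣ) (t' : J)
    (x : Matrix J J (H →L[ℂ] H)) : ‖opM (twm s t s' t' x)‖ ≤ ‖opM x‖ := by
  refine ContinuousLinearMap.opNorm_le_bound _ (norm_nonneg _) fun v => ?_
  let w : PiLp 2 (fun _ : J => H) := tw (fun q => s' (q - t')) (-t') v
  have hw : ∀ q, w q = ((s' (q - t') : ℤ) : ℂ) • v (q - t') := fun q => by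
    simp [w, tw_apply, sub_eq_add_neg]
  have h1 : opM (twm s t s' t' x) v = tw s t (opM x w) := by
    ext p
    rw [opM_apply, tw_apply, opM_apply, Finset.smul_sum,
      ← Equiv.sum_comp (Equiv.addRight t') fun q => ((s p : ℤ) : ℂ) • (x (p + t) q) (w q)]
    refine Finset.sum_congr rfl fun q _ => ?_
    simp only [Equiv.coe_addRight, hw, add_sub_cancel_right, map_smul, twm, smul_apply]
    rw [smul_smul]
  rw [h1, norm_tw]
  refine (ContinuousLinearMap.le_opNorm _ _).trans ?_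
  rw [show ‖w‖ = ‖v‖ from norm_tw _ _ _]

theorem inner_tw_twm [AddCommGroup J] (s : J → ℤˣ) (t : J) (s' : J → ℤˣ) (t' : J)
    (x : Matrix J J (H →L[ℂ] H)) (a b : PiLp 2 (fun _ : J => H)) :
    ⟪tw s t b, opM (twm s t s' t' x) (tw s' t' a)⟫_ℂ = ⟪b, opM x a⟫_ℂ := by
  have hu : ∀ (s : J → ℤˣ) p, (((s p : ℤ) : ℂ)) * ((s p : ℤ) : ℂ) = 1 := fun s p => by
    rcases Int.units_eq_one_or (s p) with h | h <;> simp [h]
  rw [PiLp.inner_apply, PiLp.inner_apply,
    ← Equiv.sum_comp (Equiv.addRight t) fun p => ⟪b p, opM x a p⟫_ℂ]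
  refine Finset.sum_congr rfl fun p _ => ?_
  rw [tw_apply, opM_apply, opM_apply, inner_smul_left]
  simp only [Equiv.coe_addRight, inner_sum, Finset.mul_sum]
  rw [← Equiv.sum_comp (Equiv.addRight t') fun q => ⟪b (p + t), x (p + t) q (a q)⟫_ℂ]
  refine Finset.sum_congr rfl fun q _ => ?_
  simp only [Equiv.coe_addRight, tw_apply, twm, smul_apply, map_smul, inner_smul_right,
    map_intCast]
  linear_combination (⟪b (p + t), (x (p + t) (q + t')) (a (q + t'))⟫_ℂ)
    * (((s' q : ℤ) : ℂ) * ((s' q : ℤ) : ℂ) * hu s p + hu s' q)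

theorem opM_add (x y : Matrix J J (H →L[ℂ] H)) : opM (x + y) = opM x + opM y := by
  ext v i
  simp [opM_apply, Finset.sum_add_distrib]

theorem opM_smul (c : ℂ) (x : Matrix J J (H →L[ℂ] H)) : opM (c • x) = c • opM x := by
  ext v i
  simp [opM_apply, Finset.smul_sum]

theorem opM_zero : opM (0 : Matrix J J (H →L[ℂ] H)) = 0 := by
  ext v i
  simp [opM_apply]

/-- `opM` as a linear map. -/
noncomputable def opML : Matrix J J (H →L[ℂ] H) →ₗ[ℂ]
    (PiLp 2 (fun _ : J => H) →L[ℂ] PiLp 2 (fun _ : J => H)) where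
  toFun := opM
  map_add' := opM_add
  map_smul' := opM_smul

theorem inner_opM (x : Matrix J J (H →L[ℂ] H)) (a b : PiLp 2 (fun _ : J => H)) :
    ⟪b, opM x a⟫_ℂ = ∑ p, ∑ q, ⟪b p, x p q (a q)⟫_ℂ := by
  rw [PiLp.inner_apply]
  exact Finset.sum_congr rfl fun p _ => by rw [opM_apply, inner_sum]

/-- (F5-cb, first half): averaging over signed translations turns partial relations into
relations for the amplified pair. -/
theorem partial_bd [AddCommGroup J] {M N : VonNeumannAlgebra H}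
    {MM NN : VonNeumannAlgebra (PiLp 2 (fun _ : J => H))} (hMM : IsAmp MM M) (hNN : IsAmp NN N)
    {L : ℝ} (h : ∀ R, RelBd MM NN R L) {ι : Type} [Fintype ι]
    (x : ι → Matrix J J (H →L[ℂ] H)) (hx : ∀ i p q, x i p q ∈ M)
    (a b : ι → PiLp 2 (fun _ : J => H))
    (hrel : ∀ n ∈ N, ∑ i, ∑ p, ∑ q, ⟪b i p, n (a i q)⟫_ℂ • x i p q = 0) :
    ‖∑ i, ⟪b i, opM (x i) (a i)⟫_ℂ‖ ≤ L * ∑ i, ‖opM (x i)‖ * ‖a i‖ * ‖b i‖ := by
  classical
  have hL : 0 ≤ L := relBd_nonneg (h 0)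
  let τ := (J → ℤˣ) × J
  -- the averaged family
  let Y' : ι × τ × τ → (PiLp 2 (fun _ : J => H) →L[ℂ] PiLp 2 (fun _ : J => H)) := fun t =>
    opM (twm t.2.1.1 t.2.1.2 t.2.2.1 t.2.2.2 (x t.1))
  let a' : ι × τ × τ → PiLp 2 (fun _ : J => H) := fun t => tw t.2.2.1 t.2.2.2 (a t.1)
  let b' : ι × τ × τ → PiLp 2 (fun _ : J => H) := fun t => tw t.2.1.1 t.2.1.2 (b t.1)
  have hM : ∀ t, Y' t ∈ MM := fun t => by
    refine (hMM _).2 ⟨_, fun i j => ?_, rfl⟩
    exact (M.toStarSubalgebra.toSubalgebra.toSubmodule).smul_mem _ (hx _ _ _)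
  have hr : ∀ n ∈ NN, ∑ t, ⟪b' t, n (a' t)⟫_ℂ • Y' t = 0 := fun n hn => by
    obtain ⟨nn, hnn, rfl⟩ := (hNN n).1 hn
    have h1 : ∑ t, ⟪b' t, opM nn (a' t)⟫_ℂ • Y' t
        = opML (∑ t : ι × τ × τ, ⟪b' t, opM nn (a' t)⟫_ℂ •
            twm t.2.1.1 t.2.1.2 t.2.2.1 t.2.2.2 (x t.1)) := by
      rw [map_sum]
      exact Finset.sum_congr rfl fun t _ => by rw [map_smul]; rfl
    rw [h1]
    have h2 : (∑ t : ι × τ × τ, ⟪b' t, opM nn (a' t)⟫_ℂ •
            twm t.2.1.1 t.2.1.2 t.2.2.1 t.2.2.2 (x t.1)) = 0 := by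
      ext1 r u
      rw [Matrix.sum_apply]
      simp only [Matrix.smul_apply, Matrix.zero_apply]
      rw [Fintype.sum_prod_type]
      have h3 : ∀ i : ι, ∑ y : τ × τ, ⟪b' (i, y), opM nn (a' (i, y))⟫_ℂ •
          twm y.1.1 y.1.2 y.2.1 y.2.2 (x i) r u
          = ((Fintype.card (J → ℤˣ) : ℂ) * (Fintype.card (J → ℤˣ) : ℂ)) •
            ∑ p, ∑ q, ⟪b i p, nn r u (a i q)⟫_ℂ • x i p q := fun i => by
        -- expand
        have e1 : ∀ y : τ × τ, ⟪b' (i, y), opM nn (a' (i, y))⟫_ℂ •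
          twm y.1.1 y.1.2 y.2.1 y.2.2 (x i) r u
          = ∑ p, (((y.1.1 p : ℤ) : ℂ) * ((y.1.1 r : ℤ) : ℂ)) •
            ∑ q, (((y.2.1 q : ℤ) : ℂ) * ((y.2.1 u : ℤ) : ℂ)) •
              (⟪b i (p + y.1.2), nn p q (a i (q + y.2.2))⟫_ℂ •
                x i (r + y.1.2) (u + y.2.2)) := fun y => by
          rw [inner_opM, Finset.sum_smul]
          refine Finset.sum_congr rfl fun p _ => ?_
          rw [Finset.sum_smul, Finset.smul_sum]
          refine Finset.sum_congr rfl fun q _ => ?_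
          simp only [b', a', tw_apply, twm, map_smul, inner_smul_left, inner_smul_right,
            map_intCast, smul_smul]
          congr 1
          ring
        rw [Finset.sum_congr rfl fun y _ => e1 y, Fintype.sum_prod_type, Fintype.sum_prod_type]
        -- sum over the first signs
        have e2 : ∀ (s : J → ℤˣ) (t : J), ∑ y : τ, (∑ p, (((s p : ℤ) : ℂ) * ((s r : ℤ) : ℂ)) •
            ∑ q, (((y.1 q : ℤ) : ℂ) * ((y.1 u : ℤ) : ℂ)) •
              (⟪b i (p + t), nn p q (a i (q + y.2))⟫_ℂ • x i (r + t) (u + y.2)))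
            = ∑ p, (((s p : ℤ) : ℂ) * ((s r : ℤ) : ℂ)) •
              ((Fintype.card (J → ℤˣ) : ℂ) • ∑ t' : J,
                (⟪b i (p + t), nn p u (a i (u + t'))⟫_ℂ • x i (r + t) (u + t'))) := fun s t => by
          rw [Finset.sum_comm]
          refine Finset.sum_congr rfl fun p _ => ?_
          rw [← Finset.smul_sum]
          congr 1
          rw [Fintype.sum_prod_type, Finset.sum_comm, Finset.smul_sum]
          exact Finset.sum_congr rfl fun t' _ => sign_sum u fun q =>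
            (⟪b i (p + t), nn p q (a i (q + t'))⟫_ℂ • x i (r + t) (u + t'))
        have e3 : ∑ s : J → ℤˣ, ∑ t : J, ∑ y : τ,
            (∑ p, (((s p : ℤ) : ℂ) * ((s r : ℤ) : ℂ)) •
            ∑ q, (((y.1 q : ℤ) : ℂ) * ((y.1 u : ℤ) : ℂ)) •
              (⟪b i (p + t), nn p q (a i (q + y.2))⟫_ℂ • x i (r + t) (u + y.2)))
            = ∑ t : J, (Fintype.card (J → ℤˣ) : ℂ) • ((Fintype.card (J → ℤˣ) : ℂ) • ∑ t' : J,
                (⟪b i (r + t), nn r u (a i (u + t'))⟫_ℂ • x i (r + t) (u + t'))) := by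
          rw [Finset.sum_comm]
          refine Finset.sum_congr rfl fun t _ => ?_
          rw [Finset.sum_congr rfl fun s _ => e2 s t]
          exact sign_sum r fun p => ((Fintype.card (J → ℤˣ) : ℂ) • ∑ t' : J,
                (⟪b i (p + t), nn p u (a i (u + t'))⟫_ℂ • x i (r + t) (u + t')))
        refine e3.trans ?_
        rw [← Finset.smul_sum, ← Finset.smul_sum, smul_smul]
        congr 1
        rw [← Equiv.sum_comp (Equiv.addLeft r) fun p => ∑ q, ⟪b i p, nn r u (a i q)⟫_ℂ • x i p q]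
        refine Finset.sum_congr rfl fun t _ => ?_
        rw [← Equiv.sum_comp (Equiv.addLeft u) fun q =>
          ⟪b i (Equiv.addLeft r t), nn r u (a i q)⟫_ℂ • x i (Equiv.addLeft r t) q]
        rfl
      rw [Finset.sum_congr rfl fun i _ => h3 i, ← Finset.smul_sum, hrel _ (hnn r u), smul_zero]
    rw [h2, map_zero]
  have key := relBd_all' h Y' a' b' hM hr
  have hval : ∑ t, ⟪b' t, Y' t (a' t)⟫_ℂ
      = (Fintype.card (τ × τ) : ℂ) * ∑ i, ⟪b i, opM (x i) (a i)⟫_ℂ := by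
    rw [Fintype.sum_prod_type, Finset.mul_sum]
    refine Finset.sum_congr rfl fun i _ => ?_
    have : ∀ y : τ × τ, ⟪b' (i, y), Y' (i, y) (a' (i, y))⟫_ℂ = ⟪b i, opM (x i) (a i)⟫_ℂ :=
      fun y => inner_tw_twm _ _ _ _ _ _ _
    rw [Finset.sum_congr rfl fun y _ => this y, Finset.sum_const, Finset.card_univ,
      nsmul_eq_mul]
  have hnorm : ∑ t, ‖Y' t‖ * ‖a' t‖ * ‖b' t‖
      ≤ (Fintype.card (τ × τ) : ℝ) * ∑ i, ‖opM (x i)‖ * ‖a i‖ * ‖b i‖ := by
    rw [Fintype.sum_prod_type, Finset.mul_sum]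
    refine Finset.sum_le_sum fun i _ => ?_
    have : ∀ y ∈ (Finset.univ : Finset (τ × τ)), ‖Y' (i, y)‖ * ‖a' (i, y)‖ * ‖b' (i, y)‖
        ≤ ‖opM (x i)‖ * ‖a i‖ * ‖b i‖ := fun y _ => by
      simp only [a', b', norm_tw]
      gcongr
      exact norm_opM_twm_le _ _ _ _ _
    refine (Finset.sum_le_card_nsmul _ _ _ this).trans ?_
    rw [Finset.card_univ, nsmul_eq_mul]
  rw [hval, norm_mul, Complex.norm_natCast] at key
  have hc : (0 : ℝ) < (Fintype.card (τ × τ) : ℝ) := by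
    have : 0 < Fintype.card (τ × τ) := Fintype.card_pos_iff.2 ⟨((1, 0), (1, 0))⟩
    exact_mod_cast this
  have h5 := key.trans (mul_le_mul_of_nonneg_left hnorm hL)
  refine le_of_mul_le_mul_left ?_ hc
  refine h5.trans (le_of_eq ?_)
  ring

/-- padding of a vector along an injection `f : J → J'`. -/
noncomputable def padv {J' : Type} [Fintype J'] (f : J → J') (a : PiLp 2 (fun _ : J => H)) :
    PiLp 2 (fun _ : J' => H) :=
  WithLp.toLp 2 (Function.extend f (fun j => a j) 0)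

/-- padding of a matrix. -/
noncomputable def padm {J' : Type} (f : J → J') (x : Matrix J J (H →L[ℂ] H)) : Matrix J' J' (H →L[ℂ] H) :=
  fun p' q' => Function.extend f (fun p => Function.extend f (x p) 0 q') 0 p'

theorem padv_apply {J' : Type} [Fintype J'] {f : J → J'} (hf : Function.Injective f)
    (a : PiLp 2 (fun _ : J => H)) (j : J) : padv f a (f j) = a j := by
  simp [padv, hf.extend_apply]

theorem padv_apply' {J' : Type} [Fintype J'] {f : J → J'}
    (a : PiLp 2 (fun _ : J => H)) (j' : J') (h : j' ∉ Set.range f) : padv f a j' = 0 := by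
  have : ¬ ∃ a, f a = j' := h
  simp [padv, Function.extend_apply' _ _ _ this]

theorem padm_apply {J' : Type} {f : J → J'} (hf : Function.Injective f)
    (x : Matrix J J (H →L[ℂ] H)) (p q : J) : padm f x (f p) (f q) = x p q := by
  simp [padm, hf.extend_apply]

theorem padm_apply_left {J' : Type} {f : J → J'}
    (x : Matrix J J (H →L[ℂ] H)) (p' q' : J') (h : p' ∉ Set.range f) : padm f x p' q' = 0 := by
  have : ¬ ∃ a, f a = p' := h
  simp [padm, Function.extend_apply' _ _ _ this]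

theorem padm_apply_right {J' : Type} {f : J → J'}
    (x : Matrix J J (H →L[ℂ] H)) (p' q' : J') (h : q' ∉ Set.range f) : padm f x p' q' = 0 := by
  have h1 : ¬ ∃ a, f a = q' := h
  have h2 : ∀ p, Function.extend f (x p) 0 q' = 0 := fun p => by
    simp [Function.extend_apply' _ _ _ h1]
  simp only [padm, h2]
  by_cases h3 : ∃ a, f a = p'
  · obtain ⟨a, rfl⟩ := h3
    unfold Function.extend
    split_ifs <;> simp
  · simp [Function.extend_apply' _ _ _ h3]

theorem norm_padv {J' : Type} [Fintype J'] {f : J → J'} (hf : Function.Injective f)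
    (a : PiLp 2 (fun _ : J => H)) : ‖padv f a‖ = ‖a‖ := by
  rw [← sq_eq_sq₀ (norm_nonneg _) (norm_nonneg _), PiLp.norm_sq_eq_of_L2, PiLp.norm_sq_eq_of_L2]
  refine (Fintype.sum_of_injective f hf _ _ (fun j' hj' => ?_) fun j => ?_).symm
  · simp [padv_apply' a j' hj']
  · rw [padv_apply hf]

theorem norm_opM_padm_le {J' : Type} [Fintype J'] {f : J → J'} (hf : Function.Injective f)
    (x : Matrix J J (H →L[ℂ] H)) : ‖opM (padm f x)‖ ≤ ‖opM x‖ := by
  refine ContinuousLinearMap.opNorm_le_bound _ (norm_nonneg _) fun v => ?_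
  let w : PiLp 2 (fun _ : J => H) := WithLp.toLp 2 fun j => v (f j)
  have hw : ∀ j, w j = v (f j) := fun j => rfl
  have hwn : ‖w‖ ≤ ‖v‖ := by
    rw [← sq_le_sq₀ (norm_nonneg _) (norm_nonneg _), PiLp.norm_sq_eq_of_L2,
      PiLp.norm_sq_eq_of_L2]
    simp only [hw]
    have h1 : ∑ j, ‖v (f j)‖ ^ 2 = ∑ j' ∈ Finset.univ.map ⟨f, hf⟩, ‖v j'‖ ^ 2 := by
      rw [Finset.sum_map]; rfl
    rw [h1]
    exact Finset.sum_le_sum_of_subset_of_nonneg (Finset.subset_univ _) fun _ _ _ => sq_nonneg _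
  have h1 : opM (padm f x) v = padv f (opM x w) := by
    ext p'
    by_cases hp : p' ∈ Set.range f
    · obtain ⟨p, rfl⟩ := hp
      rw [padv_apply hf, opM_apply, opM_apply]
      refine (Fintype.sum_of_injective f hf _ _ (fun j' hj' => ?_) fun j => ?_).symm
      · rw [padm_apply_right x _ _ hj']; rfl
      · rw [padm_apply hf, hw]
    · rw [padv_apply' _ _ hp, opM_apply]
      exact Finset.sum_eq_zero fun q _ => by rw [padm_apply_left x _ _ hp]; rfl
  rw [h1, norm_padv hf]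
  exact (ContinuousLinearMap.le_opNorm _ _).trans (by gcongr)

theorem sum_pad {J' : Type} [Fintype J'] {f : J → J'} (hf : Function.Injective f)
    (x : Matrix J J (H →L[ℂ] H)) (a b : PiLp 2 (fun _ : J => H)) (n : H →L[ℂ] H) :
    ∑ p', ∑ q', ⟪padv f b p', n (padv f a q')⟫_ℂ • padm f x p' q'
      = ∑ p, ∑ q, ⟪b p, n (a q)⟫_ℂ • x p q := by
  refine (Fintype.sum_of_injective f hf _ _ (fun p' hp' => ?_) fun p => ?_).symm
  · exact Finset.sum_eq_zero fun q _ => by rw [padm_apply_left x _ _ hp', smul_zero]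
  · refine (Fintype.sum_of_injective f hf _ _ (fun q' hq' => ?_) fun q => ?_)
    · rw [padm_apply_right x _ _ hq', smul_zero]
    · rw [padv_apply hf, padv_apply hf, padm_apply hf]

theorem inner_pad {J' : Type} [Fintype J'] {f : J → J'} (hf : Function.Injective f)
    (x : Matrix J J (H →L[ℂ] H)) (a b : PiLp 2 (fun _ : J => H)) :
    ⟪padv f b, opM (padm f x) (padv f a)⟫_ℂ = ⟪b, opM x a⟫_ℂ := by
  rw [inner_opM, inner_opM]
  refine (Fintype.sum_of_injective f hf _ _ (fun p' hp' => ?_) fun p => ?_).symm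
  · exact Finset.sum_eq_zero fun q _ => by rw [padm_apply_left x _ _ hp']; simp
  · refine (Fintype.sum_of_injective f hf _ _ (fun q' hq' => ?_) fun q => ?_)
    · rw [padm_apply_right x _ _ hq']; simp
    · rw [padv_apply hf, padv_apply hf, padm_apply hf]

end Amp

section Lift

variable {H : Type u} [NormedAddCommGroup H] [InnerProductSpace ℂ H] [CompleteSpace H]

/-- generators for the completely bounded lift. -/
structure Gen (M : Submodule ℂ (H →L[ℂ] H)) where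
  k : ℕ
  x : Matrix (Fin (k + 1)) (Fin (k + 1)) M
  a : PiLp 2 (fun _ : Fin (k + 1) => H)
  b : PiLp 2 (fun _ : Fin (k + 1) => H)

/-- the matrix of operators of a generator -/
def Gen.mat {M : Submodule ℂ (H →L[ℂ] H)} (g : Gen M) :
    Matrix (Fin (g.k + 1)) (Fin (g.k + 1)) (H →L[ℂ] H) := fun p q => g.x p q

/-- **Completely bounded lift**: `Θ : M → N` linear with `‖(Θ - id)_J‖ ≤ L` for all finite `J`. -/
def CbLift (M N : VonNeumannAlgebra H) (L : ℝ) : Prop :=
  ∃ Θ : (H →L[ℂ] H) →ₗ[ℂ] (H →L[ℂ] H), (∀ Y ∈ M, Θ Y ∈ N) ∧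
    ∀ (J : Type) [Fintype J] (Y : Matrix J J (H →L[ℂ] H)), (∀ i j, Y i j ∈ M) →
      ‖opM (fun i j => Θ (Y i j) - Y i j)‖ ≤ L * ‖opM Y‖

theorem norm_opM_one (y : H →L[ℂ] H) (x : Matrix (Fin (0 + 1)) (Fin (0 + 1)) (H →L[ℂ] H))
    (hx : ∀ i j, x i j = y) : ‖opM x‖ ≤ ‖y‖ := by
  refine ContinuousLinearMap.opNorm_le_bound _ (norm_nonneg _) fun v => ?_
  rw [← sq_le_sq₀ (norm_nonneg _) (by positivity), mul_pow, PiLp.norm_sq_eq_of_L2,
    PiLp.norm_sq_eq_of_L2]
  have h1 : ∀ i, opM x v i = y (v 0) := fun i => by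
    rw [opM_apply]
    simp [hx]
  have h2 : ∑ i : Fin (0 + 1), ‖opM x v i‖ ^ 2 = ‖y (v 0)‖ ^ 2 := by simp [h1]
  have h3 : ∑ i : Fin (0 + 1), ‖v i‖ ^ 2 = ‖v 0‖ ^ 2 := by simp
  rw [h2, h3, ← mul_pow]
  gcongr
  exact ContinuousLinearMap.le_opNorm _ _

/-- **F5, completely bounded form.** -/
theorem cbLift_of_relBd {M N : VonNeumannAlgebra H} {L : ℝ}
    (h : ∀ k : ℕ, ∃ MM NN : VonNeumannAlgebra (PiLp 2 (fun _ : Fin (k + 1) => H)),
      IsAmp MM M ∧ IsAmp NN N ∧ ∀ R, RelBd MM NN R L) : CbLift M N L := by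
  classical
  have hL : 0 ≤ L := by
    obtain ⟨MM, NN, -, -, h0⟩ := h 0
    exact relBd_nonneg (h0 0)
  let Ms : Submodule ℂ (H →L[ℂ] H) := M.toStarSubalgebra.toSubalgebra.toSubmodule
  have hMs : ∀ y : Ms, (y : H →L[ℂ] H) ∈ M := fun y => y.2
  let wt : Gen Ms → ℝ := fun g => L * ‖opM g.mat‖ * ‖g.a‖ * ‖g.b‖
  let sing : Ms → H → H → Gen Ms := fun y α β =>
    ⟨0, fun _ _ => y, WithLp.toLp 2 fun _ => α, WithLp.toLp 2 fun _ => β⟩
  obtain ⟨Θ, hΘN, hΘ⟩ := exists_lift Ms N (ι := Gen Ms)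
    (fun g => Fin (g.k + 1) × Fin (g.k + 1)) (fun g k => g.x k.1 k.2) (fun g k => g.a k.2)
    (fun g k => g.b k.1) wt (fun g => by positivity) L sing
    (fun n y α β => by simp [sing])
    (fun y α β => by simp [sing])
    (fun y α β => by
      have h1 : ‖opM (sing y α β).mat‖ ≤ ‖y‖ := by
        exact norm_opM_one (y : H →L[ℂ] H) _ fun _ _ => rfl
      have h2 : ‖(sing y α β).a‖ = ‖α‖ := by
        rw [← sq_eq_sq₀ (norm_nonneg _) (norm_nonneg _), PiLp.norm_sq_eq_of_L2]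
        simp [sing]
      have h3 : ‖(sing y α β).b‖ = ‖β‖ := by
        rw [← sq_eq_sq₀ (norm_nonneg _) (norm_nonneg _), PiLp.norm_sq_eq_of_L2]
        simp [sing]
      simp only [wt, h2, h3]
      gcongr)
    (fun v hv => by
      -- the hard part: pad to a common size
      let K : ℕ := v.support.sup fun g => g.k
      let e := v.support.equivFin.symm
      let g : Fin v.support.card → Gen Ms := fun j => (e j).1
      have hgK : ∀ j, (g j).k + 1 ≤ K + 1 := fun j =>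
        Nat.succ_le_succ (Finset.le_sup (f := fun g : Gen Ms => g.k) (e j).2)
      let f : ∀ j, Fin ((g j).k + 1) → Fin (K + 1) := fun j => Fin.castLE (hgK j)
      have hf : ∀ j, Function.Injective (f j) := fun j => Fin.castLE_injective (hgK j)
      obtain ⟨MM, NN, hMM, hNN, hrel⟩ := h K
      have hsum : ∀ {V : Type u} [AddCommMonoid V] (F : Gen Ms → V),
          ∑ j, F (g j) = ∑ i ∈ v.support, F i := fun F => by
        rw [← Finset.sum_coe_sort v.support, ← Equiv.sum_comp e]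
      have hsum' : ∀ {V : Type} [AddCommMonoid V] (F : Gen Ms → V),
          ∑ j, F (g j) = ∑ i ∈ v.support, F i := fun F => by
        rw [← Finset.sum_coe_sort v.support, ← Equiv.sum_comp e]
      have key := partial_bd hMM hNN hrel (ι := Fin v.support.card)
        (fun j => padm (f j) (g j).mat)
        (fun j p q => by
          by_cases hp : p ∈ Set.range (f j)
          · by_cases hq : q ∈ Set.range (f j)
            · obtain ⟨p, rfl⟩ := hp
              obtain ⟨q, rfl⟩ := hq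
              rw [padm_apply (hf j)]
              exact hMs _
            · rw [padm_apply_right _ _ _ hq]; exact zero_mem M
          · rw [padm_apply_left _ _ _ hp]; exact zero_mem M)
        (fun j => padv (f j) (g j).a) (fun j => padv (f j) (conj (v (g j)) • (g j).b))
        (fun n hn => by
          rw [← hv n hn, Finsupp.sum,
            ← hsum fun i => v i • ∑ k : Fin (i.k + 1) × Fin (i.k + 1),
              ⟪i.b k.1, n (i.a k.2)⟫_ℂ • ((i.x k.1 k.2 : Ms) : H →L[ℂ] H)]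
          refine Finset.sum_congr rfl fun j _ => ?_
          rw [sum_pad (hf j), Fintype.sum_prod_type, Finset.smul_sum]
          refine Finset.sum_congr rfl fun p _ => ?_
          rw [Finset.smul_sum]
          refine Finset.sum_congr rfl fun q _ => ?_
          rw [PiLp.smul_apply, inner_smul_left, smul_smul, Complex.conj_conj]
          rfl)
      have e1 : (v.sum fun i c => c * ∑ k : Fin (i.k + 1) × Fin (i.k + 1),
          ⟪i.b k.1, ((i.x k.1 k.2 : Ms) : H →L[ℂ] H) (i.a k.2)⟫_ℂ)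
          = ∑ j, ⟪padv (f j) (conj (v (g j)) • (g j).b),
              opM (padm (f j) (g j).mat) (padv (f j) (g j).a)⟫_ℂ := by
        rw [Finsupp.sum, ← hsum' fun i => v i * ∑ k : Fin (i.k + 1) × Fin (i.k + 1),
          ⟪i.b k.1, ((i.x k.1 k.2 : Ms) : H →L[ℂ] H) (i.a k.2)⟫_ℂ]
        refine Finset.sum_congr rfl fun j _ => ?_
        rw [inner_pad (hf j), inner_smul_left, Complex.conj_conj, inner_opM,
          Fintype.sum_prod_type]
        rfl
      rw [e1]
      refine key.trans ?_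
      rw [Finset.mul_sum, Finsupp.sum, ← hsum' fun i => ‖v i‖ * wt i]
      refine Finset.sum_le_sum fun j _ => ?_
      rw [norm_padv (hf j), norm_padv (hf j), norm_smul, RCLike.norm_conj]
      have h4 := norm_opM_padm_le (hf j) (g j).mat
      have h5 : 0 ≤ L * (‖v (g j)‖ * ‖(g j).a‖ * ‖(g j).b‖) := by positivity
      calc L * (‖opM (padm (f j) (g j).mat)‖ * ‖(g j).a‖ * (‖v (g j)‖ * ‖(g j).b‖))
          = ‖opM (padm (f j) (g j).mat)‖ * (L * (‖v (g j)‖ * ‖(g j).a‖ * ‖(g j).b‖)) := by ring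
        _ ≤ ‖opM (g j).mat‖ * (L * (‖v (g j)‖ * ‖(g j).a‖ * ‖(g j).b‖)) := by gcongr
        _ = ‖v (g j)‖ * wt (g j) := by simp only [wt]; ring)
  -- extend `Θ` to all of `B(H)`
  obtain ⟨Θ', hΘ'⟩ := LinearMap.exists_extend Θ
  have hΘ'' : ∀ y (hy : y ∈ M), Θ' y = Θ ⟨y, hy⟩ := fun y hy => by
    rw [← hΘ']; rfl
  refine ⟨Θ', fun y hy => by rw [hΘ'' y hy]; exact hΘN _, fun J _ Y hY => ?_⟩
  -- reindex by `Fin (k + 1)`
  rcases isEmpty_or_nonempty J with hJ | hJ
  · have : opM (fun i j : J => Θ' (Y i j) - Y i j) = 0 := by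
      ext v i
      exact (hJ.false i).elim
    rw [this, norm_zero]
    positivity
  obtain ⟨k, hk⟩ : ∃ k, Fintype.card J = k + 1 :=
    Nat.exists_eq_succ_of_ne_zero Fintype.card_ne_zero
  let e : J ≃ Fin (k + 1) := (Fintype.equivFin J).trans (finCongr hk)
  refine ContinuousLinearMap.opNorm_le_bound _ (by positivity) fun v => ?_
  set D : Matrix J J (H →L[ℂ] H) := fun i j => Θ' (Y i j) - Y i j with hD
  set w : PiLp 2 (fun _ : J => H) := opM D v with hw
  let g : Gen Ms := ⟨k, fun p q => ⟨Y (e.symm p) (e.symm q), hY _ _⟩,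
    WithLp.toLp 2 fun p => v (e.symm p), WithLp.toLp 2 fun p => w (e.symm p)⟩
  have hg := hΘ g
  have hga : ‖g.a‖ = ‖v‖ := by
    rw [← sq_eq_sq₀ (norm_nonneg _) (norm_nonneg _), PiLp.norm_sq_eq_of_L2,
      PiLp.norm_sq_eq_of_L2, ← Equiv.sum_comp e.symm]
  have hgb : ‖g.b‖ = ‖w‖ := by
    rw [← sq_eq_sq₀ (norm_nonneg _) (norm_nonneg _), PiLp.norm_sq_eq_of_L2,
      PiLp.norm_sq_eq_of_L2, ← Equiv.sum_comp e.symm]
  have hgm : ‖opM g.mat‖ ≤ ‖opM Y‖ := by
    have h1 := norm_opM_padm_le e.injective Y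
    have h2 : padm e Y = g.mat := by
      ext1 p q
      obtain ⟨p, rfl⟩ := e.surjective p
      obtain ⟨q, rfl⟩ := e.surjective q
      rw [padm_apply e.injective]
      simp [Gen.mat, g]
    rwa [h2] at h1
  have hval : ∑ k : Fin (g.k + 1) × Fin (g.k + 1),
      ⟪g.b k.1, (((g.x k.1 k.2 : Ms) : H →L[ℂ] H) - Θ (g.x k.1 k.2)) (g.a k.2)⟫_ℂ
      = -⟪w, w⟫_ℂ := by
    have h3 : ⟪w, w⟫_ℂ = ∑ p, ∑ q, ⟪w p, D p q (v q)⟫_ℂ := by
      conv_lhs => rw [hw]
      rw [← hw]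
      exact inner_opM D v w
    rw [h3, Fintype.sum_prod_type, ← Finset.sum_neg_distrib, ← Equiv.sum_comp e.symm]
    refine Finset.sum_congr rfl fun p _ => ?_
    rw [← Finset.sum_neg_distrib, ← Equiv.sum_comp e.symm]
    refine Finset.sum_congr rfl fun q _ => ?_
    rw [← inner_neg_right]
    have h4 : Θ (g.x p q) = Θ' (Y (e.symm p) (e.symm q)) := (hΘ'' _ _).symm
    change ⟪w (e.symm p), (Y (e.symm p) (e.symm q) - Θ (g.x p q)) (v (e.symm q))⟫_ℂ = _
    rw [h4, hD]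
    congr 1
    simp only [sub_apply]
    abel
  rw [hval, norm_neg, inner_self_eq_norm_sq_to_K] at hg
  have h6 : ‖w‖ * ‖w‖ ≤ (L * ‖opM Y‖ * ‖v‖) * ‖w‖ := by
    have h7 : ‖((‖w‖ : ℝ) : ℂ) ^ 2‖ = ‖w‖ * ‖w‖ := by
      rw [norm_pow, Complex.norm_real, norm_norm, sq]
    have h8 : wt g ≤ (L * ‖opM Y‖ * ‖v‖) * ‖w‖ := by
      simp only [wt, hga, hgb]
      gcongr
    exact (le_of_eq h7.symm).trans (hg.trans h8)
  by_cases h0 : ‖w‖ = 0
  · rw [h0]; positivity
  · exact le_of_mul_le_mul_right h6 (lt_of_le_of_ne (norm_nonneg _) (Ne.symm h0))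

end Lift

end Crest.Agent.R078.Z.HB
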