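import Crest.Agent.R078.S103HB50Plain
import Crest.Agent.R078.S103Main45

/-!
R078 / S0103, block HB (helper50), part 5: `RelAll` for all `R` gives `Key.Lift`.
-/

set_option autoImplicit false

namespace Crest.Agent.R078.Z.HB

open Crest.Agent.R078.Z.Slot Crest.Agent.R078.Z.Key

universe u

variable {H : Type u} [NormedAddCommGroup H] [InnerProductSpace ℂ H] [CompleteSpace H]

theorem relBd_abs {M N : VonNeumannAlgebra H} {R L : ℝ} (h : RelBd M N |R| L) :
    RelBd M N R L := by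
  intro κ ι _ _ μ Y ξ α β η h1 h2 h3 h4 h5 h6 h7 h8 h9 h10
  exact h κ ι μ Y ξ α β η h1 h2 h3 h4 h5 h6 h7 (fun a => by rw [sq_abs]; exact h8 a) h9 h10

/-- Relation bounds of all classes `R ≥ 0` give the linear near-identity map. -/
theorem lift_of_relBd_nonneg {M N : VonNeumannAlgebra H} {L : ℝ}
    (h : ∀ R, 0 ≤ R → RelBd M N R L) : Lift H M N L :=
  lift_of_relBd fun R => relBd_abs (h |R| (abs_nonneg R))

/-- `KeyIneq ⇒` every stably `δ`-close pair has a linear lift within `14 δ`. -/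
theorem lift_of_key (hkey : KeyIneq.{u}) {δ : ℝ} (hδ0 : 0 ≤ δ) (hδ : δ ≤ 1 / 10000)
    (M N : VonNeumannAlgebra H) (hSC : TB.SC δ M N) : Lift H M N (14 * δ) :=
  lift_of_relBd_nonneg fun R hR => relAll_of_key hkey hδ0 hδ R hR H M N hSC

end Crest.Agent.R078.Z.HB
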