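import Crest.Agent.R078.S103HB50Cb

/-!
R078 / S0103, block HB (helper50), part 4: the plain lift.
-/

set_option autoImplicit false
set_option linter.unusedSectionVars false

open scoped ComplexConjugate InnerProductSpace

namespace Crest.Agent.R078.Z.HB

open Crest.Agent.R078.Z.Slot

universe u

variable {H : Type u} [NormedAddCommGroup H] [InnerProductSpace ℂ H] [CompleteSpace H]

/-- **F5, plain form, from an abstract relation bound.** -/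
theorem exists_lift_plain {M N : VonNeumannAlgebra H} {L : ℝ} (hL : 0 ≤ L)
    (hrel : ∀ (m : ℕ) (Y : Fin m → H →L[ℂ] H) (a b : Fin m → H), (∀ i, Y i ∈ M) →
      (∀ n ∈ N, ∑ i, ⟪b i, n (a i)⟫_ℂ • Y i = 0) →
      ‖∑ i, ⟪b i, Y i (a i)⟫_ℂ‖ ≤ L * ∑ i, ‖Y i‖ * ‖a i‖ * ‖b i‖) :
    ∃ Θ : (H →L[ℂ] H) →ₗ[ℂ] (H →L[ℂ] H), (∀ Y ∈ M, Θ Y ∈ N) ∧
      ∀ Y ∈ M, ‖Θ Y - Y‖ ≤ L * ‖Y‖ := by
  classical
  let Ms : Submodule ℂ (H →L[ℂ] H) := M.toStarSubalgebra.toSubalgebra.toSubmodule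
  have hMs : ∀ y : Ms, (y : H →L[ℂ] H) ∈ M := fun y => y.2
  obtain ⟨Θ, hΘN, hΘ⟩ := exists_lift Ms N (ι := Ms × H × H) (fun _ => Unit)
    (fun i _ => i.1) (fun i _ => i.2.1) (fun i _ => i.2.2)
    (fun i => L * ‖i.1‖ * ‖i.2.1‖ * ‖i.2.2‖) (fun i => by positivity) L
    (fun y α β => (y, α, β)) (fun n y α β => by simp) (fun y α β => by simp)
    (fun y α β => le_rfl)
    (fun v hv => by
      let e := v.support.equivFin.symm
      let g : Fin v.support.card → Ms × H × H := fun j => (e j).1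
      have hsum : ∀ {V : Type u} [AddCommMonoid V] (F : Ms × H × H → V),
          ∑ j, F (g j) = ∑ i ∈ v.support, F i := fun F => by
        rw [← Finset.sum_coe_sort v.support, ← Equiv.sum_comp e]
      have hsum' : ∀ {V : Type} [AddCommMonoid V] (F : Ms × H × H → V),
          ∑ j, F (g j) = ∑ i ∈ v.support, F i := fun F => by
        rw [← Finset.sum_coe_sort v.support, ← Equiv.sum_comp e]
      have key := hrel v.support.card (fun j => ((g j).1 : H →L[ℂ] H)) (fun j => (g j).2.1)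
        (fun j => conj (v (g j)) • (g j).2.2) (fun j => hMs _)
        (fun n hn => by
          rw [← hv n hn, Finsupp.sum,
            ← hsum fun i => v i • ∑ _k : Unit, ⟪i.2.2, n (i.2.1)⟫_ℂ • ((i.1 : Ms) : H →L[ℂ] H)]
          refine Finset.sum_congr rfl fun j _ => ?_
          rw [inner_smul_left, Complex.conj_conj]
          simp [smul_smul])
      have e1 : (v.sum fun i c => c * ∑ _k : Unit, ⟪i.2.2, ((i.1 : Ms) : H →L[ℂ] H) (i.2.1)⟫_ℂ)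
          = ∑ j, ⟪conj (v (g j)) • (g j).2.2, ((g j).1 : H →L[ℂ] H) ((g j).2.1)⟫_ℂ := by
        rw [Finsupp.sum, ← hsum' fun i => v i * ∑ _k : Unit,
          ⟪i.2.2, ((i.1 : Ms) : H →L[ℂ] H) (i.2.1)⟫_ℂ]
        refine Finset.sum_congr rfl fun j _ => ?_
        rw [inner_smul_left, Complex.conj_conj]
        simp
      rw [e1]
      refine key.trans (le_of_eq ?_)
      rw [Finset.mul_sum, Finsupp.sum,
        ← hsum' fun i => ‖v i‖ * (L * ‖i.1‖ * ‖i.2.1‖ * ‖i.2.2‖)]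
      refine Finset.sum_congr rfl fun j _ => ?_
      rw [norm_smul, RCLike.norm_conj, Submodule.coe_norm]
      ring)
  obtain ⟨Θ', hΘ'⟩ := LinearMap.exists_extend Θ
  have hΘ'' : ∀ y (hy : y ∈ M), Θ' y = Θ ⟨y, hy⟩ := fun y hy => by
    rw [← hΘ']; rfl
  refine ⟨Θ', fun y hy => by rw [hΘ'' y hy]; exact hΘN _, fun Y hY => ?_⟩
  refine ContinuousLinearMap.opNorm_le_bound _ (by positivity) fun v => ?_
  set w := (Θ' Y - Y) v with hw
  have h1 := hΘ (⟨Y, hY⟩, v, w)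
  have h2 : ∑ _k : Unit, ⟪w, ((Y : H →L[ℂ] H) - Θ ⟨Y, hY⟩) v⟫_ℂ = -⟪w, w⟫_ℂ := by
    rw [← hΘ'' Y hY]
    simp only [Finset.univ_unique, Finset.sum_singleton]
    rw [← inner_neg_right]
    congr 1
    rw [hw]
    simp only [sub_apply]
    abel
  change ‖∑ _k : Unit, ⟪w, ((Y : H →L[ℂ] H) - Θ ⟨Y, hY⟩) v⟫_ℂ‖ ≤ L * ‖Y‖ * ‖v‖ * ‖w‖ at h1
  rw [h2, norm_neg, inner_self_eq_norm_sq_to_K] at h1
  have h7 : ‖((‖w‖ : ℝ) : ℂ) ^ 2‖ = ‖w‖ * ‖w‖ := by
    rw [norm_pow, Complex.norm_real, norm_norm, sq]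
  have h6 : ‖w‖ * ‖w‖ ≤ (L * ‖Y‖ * ‖v‖) * ‖w‖ := (le_of_eq h7.symm).trans h1
  by_cases h0 : ‖w‖ = 0
  · rw [h0]; positivity
  · exact le_of_mul_le_mul_right h6 (lt_of_le_of_ne (norm_nonneg _) (Ne.symm h0))

/-- **F5, plain form**: relation bounds of all classes `R` give a linear map `Θ : M → N`,
`‖Θ - id‖ ≤ L`. -/
theorem lift_of_relBd {M N : VonNeumannAlgebra H} {L : ℝ} (h : ∀ R, RelBd M N R L) :
    ∃ Θ : (H →L[ℂ] H) →ₗ[ℂ] (H →L[ℂ] H), (∀ Y ∈ M, Θ Y ∈ N) ∧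
      ∀ Y ∈ M, ‖Θ Y - Y‖ ≤ L * ‖Y‖ :=
  exists_lift_plain (relBd_nonneg (h 0)) fun _ Y a b hY hr => relBd_all' h Y a b hY hr

end Crest.Agent.R078.Z.HB
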