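import Crest.Agent.R078.S103LetterDef16
import Crest.Agent.R078.S103Comp535
import Crest.Agent.R078.S103KeyIneq445

/-!
# R78 / S0103 : the letter lemma (helper535)

`NormOK` and `PartnerOK` of helper16 for the letters `aM`, `bM`, and `LLFinal` of helper445.
-/

set_option autoImplicit false
set_option linter.unusedSectionVars false

noncomputable section

namespace Crest.Agent.R078.Z.LLF

open Crest.Agent.R078.Z.LLB Crest.Agent.R078.Z.Rcv16 Crest.Agent.R078.S103.LSys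
open Crest.Agent.R078.Z

universe u

variable {H : Type u} [NormedAddCommGroup H] [InnerProductSpace ℂ H] [CompleteSpace H]

/-- the family of Radon–Nikodym maps. -/
def TT (M : VonNeumannAlgebra H) (ξ : H) (n : ℕ) (h : ℝ) (q : ℕ) (i j : Fin n) :
    (H →L[ℂ] H) →ₗ[ℂ] (H →L[ℂ] H) := TL (Comp.MM M q) ξ (lamij h i j)

theorem HT_of_TLamAt {M : VonNeumannAlgebra H} {ξ : H} {lam : ℝ}
    {T : (H →L[ℂ] H) →ₗ[ℂ] (H →L[ℂ] H)} (h : TLamAt M ξ lam T) : Comp.HT M ξ lam T := by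
  intro x hx
  obtain ⟨h1, h2, h3, h4⟩ := h x hx
  exact ⟨h1, Comp.RN_iff.mpr h2, h3, h4⟩

theorem omw_eq (h : ℝ) (n : ℕ) (i : Fin n) : Comp.omw h n i = om h n i := rfl

theorem HT_TT (M : VonNeumannAlgebra H) (ξ : H) {n : ℕ} (hn : 1 ≤ n) (h : ℝ) (q : ℕ)
    (i j : Fin n) : Comp.HT (Comp.MM M q) ξ (Real.sqrt (Comp.omw h n i / Comp.omw h n j))
      (TT M ξ n h q i j) := by
  rw [omw_eq, omw_eq, sqrt_om_div hn]
  exact HT_of_TLamAt (TL_spec _ _ (lamij_pos h i j))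

theorem lamij_inv (h : ℝ) (i j : ℕ) : lamij h j i = (lamij h i j)⁻¹ := by
  unfold lamij
  rw [← Real.exp_neg]
  congr 1
  ring

theorem zl_even (M : VonNeumannAlgebra H) (ξ : H) (n : ℕ) (h c : ℝ) (k : ℕ) (i j : Fin n)
    (y : H →L[ℂ] H) : Comp.zl (TT M ξ n h) c (2 * k) i j y
      = (c : ℂ) • ((UL M ξ (lamij h i j)) ^ k) y := by
  induction k with
  | zero => rfl
  | succ k ih =>
    change TT M ξ n h (2 * k + 1) j i (TT M ξ n h (2 * k) i j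
      (Comp.zl (TT M ξ n h) c (2 * k) i j y)) = _
    rw [ih, map_smul, map_smul, pow_succ', Module.End.mul_apply]
    unfold TT UL
    rw [Comp.MM_odd, Comp.MM_even, lamij_inv h i j]
    rfl

theorem zl_odd (M : VonNeumannAlgebra H) (ξ : H) (n : ℕ) (h c : ℝ) (k : ℕ) (i j : Fin n)
    (y : H →L[ℂ] H) : Comp.zl (TT M ξ n h) c (2 * k + 1) j i y
      = TL M ξ (lamij h i j) ((c : ℂ) • ((UL M ξ (lamij h i j)) ^ k) y) := by
  change TT M ξ n h (2 * k) i j (Comp.zl (TT M ξ n h) c (2 * k) i j y) = _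
  rw [zl_even]
  unfold TT
  rw [Comp.MM_even]

theorem half_smul (c : ℝ) (z : H →L[ℂ] H) :
    ((1 / 2 * c : ℝ) : ℂ) • z = (1 / 2 : ℂ) • (c : ℂ) • z := by
  rw [smul_smul]
  congr 1
  push_cast
  ring

/-- helper16's letters are the letters of `Core`. -/
theorem exists_core' (M : VonNeumannAlgebra H) (ξ : H) (hξ : ‖ξ‖ ≤ 1) {m n : ℕ} (hm : 1 ≤ m)
    (hn : 1 ≤ n) {h : ℝ} (hh : 0 < h) :
    ∃ C : Comp.Core M ξ m n h, (∀ y, C.a y = aM M ξ m n h y) ∧ (∀ y, C.b y = bM M ξ m n h y) := by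
  obtain ⟨C, hCa, hCb⟩ := Comp.exists_core M ξ hξ hm hn hh (TT M ξ n h) (HT_TT M ξ hn h)
  refine ⟨C, fun y => ?_, fun y => ?_⟩
  · refine Matrix.ext fun i j => ?_
    rw [hCa, zl_even, aM_apply, half_smul]
  · refine Matrix.ext fun j i => ?_
    rw [hCb, zl_odd, bM_apply, aM_apply, half_smul, map_smul _ (1 / 2 : ℂ)]

theorem normOK (M : VonNeumannAlgebra H) (ξ : H) (hξ : ‖ξ‖ ≤ 1) {m n : ℕ} (hm : 1 ≤ m)
    (hn : 1 ≤ n) {h : ℝ} (hh : 0 < h) : NormOK M ξ m n h := by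
  obtain ⟨C, hCa, hCb⟩ := exists_core' M ξ hξ hm hn hh
  intro y hy hy1
  rw [← hCa, ← hCb]
  exact ⟨C.norm_a y hy hy1, C.norm_b y hy hy1⟩

theorem partnerOK (M : VonNeumannAlgebra H) (ξ : H) (hξ : ‖ξ‖ ≤ 1) {m n : ℕ} (hm : 1 ≤ m)
    (hn : 1 ≤ n) {h : ℝ} (hh : 0 < h) : PartnerOK M ξ m n h 3 := by
  obtain ⟨C, hCa, hCb⟩ := exists_core' M ξ hξ hm hn hh
  intro y hy hy1
  rw [← hCa, ← hCb, ← mul_div_assoc]
  exact ⟨C.partner y hy hy1, C.partner_star y hy hy1⟩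

/-- **THE LETTER LEMMA.** -/
theorem llFinal : Comp.LLFinal.{u} := by
  intro H _ _ _ M ξ hξ m Y A B hY _ hA hB κ hκ τ hτ
  exact exists_letterOut M ξ (by norm_num : (0 : ℝ) < 3)
    (fun m n h hm hn hh _ => normOK M ξ hξ.le hm hn hh)
    (fun m n h hm hn hh _ => partnerOK M ξ hξ.le hm hn hh) hY hA hB hκ hτ

end Crest.Agent.R078.Z.LLF
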