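import Mathlib
import Crest.Agent.R121.WLim

/-!
# Row 78, S0103, Letter Lemma part (A): Sakai's linear Radon–Nikodym theorem for a vector state,
proved by minimising `‖x ξ - h ξ‖` over `0 ≤ h ≤ 1`, `h ∈ M'` (no separation theorem, no Jordan
decomposition).
-/

set_option autoImplicit false
set_option linter.unusedSectionVars false

namespace Crest.Agent.R078.LL975

open scoped InnerProductSpace Topology
open ContinuousLinearMap Filter

variable {H : Type*} [NormedAddCommGroup H] [InnerProductSpace ℂ H] [CompleteSpace H]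

lemma re_inner_nonneg_of_nonneg {a : H →L[ℂ] H} (ha : 0 ≤ a) (v : H) : 0 ≤ (⟪v, a v⟫_ℂ).re :=
  ((ContinuousLinearMap.nonneg_iff_isPositive a).1 ha).re_inner_nonneg_right v

lemma inner_sa {a : H →L[ℂ] H} (ha : star a = a) (v w : H) : ⟪a v, w⟫_ℂ = ⟪v, a w⟫_ℂ := by
  conv_rhs => rw [← ha]
  rw [star_eq_adjoint, adjoint_inner_right]

lemma star_eq_of_nonneg {a : H →L[ℂ] H} (ha : 0 ≤ a) : star a = a :=
  (IsSelfAdjoint.of_nonneg ha)

lemma wtends_nonneg {ι : Type*} {𝒰 : Ultrafilter ι} {F : ι → H →L[ℂ] H} {L : H →L[ℂ] H}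
    (h : R121.WTends 𝒰 F L) (hF : ∀ i, 0 ≤ F i) : 0 ≤ L := by
  rw [ContinuousLinearMap.nonneg_iff_isPositive, ContinuousLinearMap.isPositive_iff_complex]
  intro v
  have hc : IsClosed {z : ℂ | ((RCLike.re z : ℝ) : ℂ) = z ∧ 0 ≤ RCLike.re z} := by
    have h1 : IsClosed {z : ℂ | ((z.re : ℝ) : ℂ) = z} :=
      isClosed_eq (Complex.continuous_ofReal.comp Complex.continuous_re) continuous_id
    have h2 : IsClosed {z : ℂ | 0 ≤ z.re} :=
      isClosed_le continuous_const Complex.continuous_re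
    exact h1.inter h2
  refine hc.mem_of_tendsto (h v v) (Eventually.of_forall fun i => ?_)
  have := (ContinuousLinearMap.nonneg_iff_isPositive _).1 (hF i)
  exact (ContinuousLinearMap.isPositive_iff_complex _).1 this v

/-- the unit interval of a von Neumann algebra -/
def Ival (N : VonNeumannAlgebra H) : Set (H →L[ℂ] H) := {h | h ∈ N ∧ 0 ≤ h ∧ h ≤ 1}

lemma norm_le_one_of_mem_Ival {N : VonNeumannAlgebra H} {h : H →L[ℂ] H} (hh : h ∈ Ival N) :
    ‖h‖ ≤ 1 :=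
  (CStarAlgebra.norm_le_one_iff_of_nonneg h hh.2.1).2 hh.2.2

lemma smul_real_mem {N : VonNeumannAlgebra H} {a : H →L[ℂ] H} (ha : a ∈ N) (t : ℝ) : t • a ∈ N := by
  have : t • a = (t : ℂ) • a := by ext v; simp
  rw [this]
  exact N.toStarSubalgebra.smul_mem ha _

lemma convex_Ival (N : VonNeumannAlgebra H) : Convex ℝ (Ival N) := by
  intro a ha b hb s t hs ht hst
  refine ⟨N.toStarSubalgebra.add_mem (smul_real_mem ha.1 s) (smul_real_mem hb.1 t),
    add_nonneg (smul_nonneg hs ha.2.1) (smul_nonneg ht hb.2.1), ?_⟩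
  calc s • a + t • b ≤ s • (1 : H →L[ℂ] H) + t • (1 : H →L[ℂ] H) :=
        add_le_add (smul_le_smul_of_nonneg_left ha.2.2 hs) (smul_le_smul_of_nonneg_left hb.2.2 ht)
    _ = 1 := by rw [← add_smul, hst, one_smul]

lemma exists_of_mem_closure {N : VonNeumannAlgebra H} {ξ v : H}
    (hv : v ∈ closure ((fun h : H →L[ℂ] H => h ξ) '' Ival N)) : ∃ h ∈ Ival N, h ξ = v := by
  obtain ⟨w, hw, hlim⟩ := mem_closure_iff_seq_limit.1 hv
  choose h hh hhw using hw
  obtain ⟨L, -, hL⟩ := R121.exists_wtends (hyperfilter ℕ) (F := h) (K := 1)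
    (fun n => norm_le_one_of_mem_Ival (hh n))
  refine ⟨L, ⟨hL.mem fun n => (hh n).1, wtends_nonneg hL fun n => (hh n).2.1, ?_⟩, ?_⟩
  · have h1 := (R121.WTends.const (𝒰 := hyperfilter ℕ) (1 : H →L[ℂ] H)).sub hL
    have h2 := wtends_nonneg h1 fun n => sub_nonneg.2 (hh n).2.2
    exact sub_nonneg.1 h2
  · refine ext_inner_right ℂ fun η => ?_
    have h1 := hL ξ η
    have h2 : Tendsto (fun n => ⟪h n ξ, η⟫_ℂ) (hyperfilter ℕ) (𝓝 ⟪v, η⟫_ℂ) := by
      have h3 : Tendsto (fun n => ⟪h n ξ, η⟫_ℂ) atTop (𝓝 ⟪v, η⟫_ℂ) := by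
        have : (fun n => ⟪h n ξ, η⟫_ℂ) = fun n => ⟪w n, η⟫_ℂ := by
          funext n
          rw [← hhw n]
        rw [this]
        exact hlim.inner tendsto_const_nhds
      exact h3.mono_left Nat.hyperfilter_le_atTop
    exact tendsto_nhds_unique h1 h2

/-- the minimiser of `‖u - h ξ‖` over the unit interval -/
lemma exists_minimizer (N : VonNeumannAlgebra H) (ξ u : H) :
    ∃ h ∈ Ival N, ∀ k ∈ Ival N, (⟪h ξ - u, h ξ⟫_ℂ).re ≤ (⟪h ξ - u, k ξ⟫_ℂ).re := by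
  let _ : InnerProductSpace ℝ H := InnerProductSpace.rclikeToReal ℂ H
  set S : Set H := (fun h : H →L[ℂ] H => h ξ) '' Ival N with hS
  have hne : S.Nonempty := ⟨(0 : H →L[ℂ] H) ξ, 0, ⟨N.toStarSubalgebra.zero_mem, le_rfl,
    zero_le_one⟩, rfl⟩
  have hcl : IsClosed S := by
    refine isClosed_of_closure_subset fun v hv => ?_
    obtain ⟨h, hh, hhv⟩ := exists_of_mem_closure hv
    exact ⟨h, hh, hhv⟩
  have hconv : Convex ℝ S := by
    rintro _ ⟨a, ha, rfl⟩ _ ⟨b, hb, rfl⟩ s t hs ht hst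
    exact ⟨s • a + t • b, convex_Ival N ha hb hs ht hst, by simp⟩
  obtain ⟨v, hvS, hv⟩ := exists_norm_eq_iInf_of_complete_convex hne hcl.isComplete hconv u
  have h1 := (norm_eq_iInf_iff_real_inner_le_zero hconv hvS).1 hv
  obtain ⟨h, hh, rfl⟩ := hvS
  refine ⟨h, hh, fun k hk => ?_⟩
  have h2 := h1 (k ξ) ⟨k, hk, rfl⟩
  simp only at h2
  have h3 : (⟪u - h ξ, k ξ - h ξ⟫_ℂ).re ≤ 0 := h2
  rw [inner_sub_right, Complex.sub_re] at h3
  have h4 : ∀ w : H, (⟪u - h ξ, w⟫_ℂ).re = - (⟪h ξ - u, w⟫_ℂ).re := by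
    intro w
    rw [← neg_sub, inner_neg_left, Complex.neg_re]
  rw [h4, h4] at h3
  linarith

lemma aux_pow {g : H →L[ℂ] H} (h0 : 0 ≤ g) (h1 : g ≤ 1) (n : ℕ) :
    0 ≤ g ^ (n + 1) * (1 - g) ∧ 0 ≤ g - g ^ (n + 1) * (1 - g) ∧ g + g ^ (n + 1) * (1 - g) ≤ 1 := by
  have h1' : 0 ≤ 1 - g := sub_nonneg.2 h1
  have hp : ∀ n, 0 ≤ g ^ n := fun n => CStarAlgebra.pow_nonneg h0 n
  have hp1 : ∀ n, 0 ≤ 1 - g ^ n := fun n => by
    have := CStarAlgebra.pow_antitone h0 h1 (Nat.zero_le n)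
    simpa using this
  have c1 : ∀ n, Commute (g ^ n) (1 - g) := fun n =>
    (Commute.one_right _).sub_right (Commute.pow_self g n)
  refine ⟨Commute.mul_nonneg (hp _) h1' (c1 _), ?_, ?_⟩
  · have e : g - g ^ (n + 1) * (1 - g) = g * (1 - g ^ n) + g * g ^ (n + 1) := by
      simp only [pow_succ', mul_sub, mul_one, mul_assoc, Commute.eq (Commute.pow_self g n)]
      abel
    rw [e]
    exact add_nonneg (Commute.mul_nonneg h0 (hp1 n)
      ((Commute.one_right _).sub_right (Commute.self_pow g n)))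
      (Commute.mul_nonneg h0 (hp _) (Commute.self_pow g _))
  · rw [← sub_nonneg]
    have e : 1 - (g + g ^ (n + 1) * (1 - g)) = (1 - g ^ (n + 1)) * (1 - g) := by
      rw [sub_mul, one_mul]; abel
    rw [e]
    exact Commute.mul_nonneg (hp1 _) h1' ((Commute.one_left _).sub_left (c1 _))

lemma tendsto_diff {g : H →L[ℂ] H} (h0 : 0 ≤ g) (h1 : g ≤ 1) (ξ : H) :
    Tendsto (fun n : ℕ => (⟪ξ, (g ^ (n + 1)) ξ⟫_ℂ).re - (⟪ξ, (g ^ (n + 2)) ξ⟫_ℂ).re) atTop
      (𝓝 0) := by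
  set a : ℕ → ℝ := fun n => (⟪ξ, (g ^ n) ξ⟫_ℂ).re with ha
  have hanti : Antitone a := by
    intro m n hmn
    have := re_inner_nonneg_of_nonneg (sub_nonneg.2 (CStarAlgebra.pow_antitone h0 h1 hmn)) ξ
    rw [sub_apply, inner_sub_right, Complex.sub_re] at this
    exact sub_nonneg.1 this
  have hbdd : BddBelow (Set.range a) := ⟨0, by
    rintro _ ⟨n, rfl⟩
    exact re_inner_nonneg_of_nonneg (CStarAlgebra.pow_nonneg h0 n) ξ⟩
  have hl := tendsto_atTop_ciInf hanti hbdd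
  have h2 := (hl.comp (tendsto_add_atTop_nat 1)).sub (hl.comp (tendsto_add_atTop_nat 2))
  rw [sub_self] at h2
  exact h2

/-- the gradient vanishes at the minimiser. -/
theorem gradient_zero (N : VonNeumannAlgebra H) {ξ : H} {x : H →L[ℂ] H} (hx0 : 0 ≤ x) (hx1 : x ≤ 1)
    (hxN : ∀ k ∈ N, Commute x k) {h : H →L[ℂ] H} (hh : h ∈ Ival N)
    (hmin : ∀ k ∈ Ival N, (⟪h ξ - x ξ, h ξ⟫_ℂ).re ≤ (⟪h ξ - x ξ, k ξ⟫_ℂ).re) :
    ∀ k ∈ Ival N, (⟪h ξ - x ξ, k ξ⟫_ℂ).re = 0 := by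
  obtain ⟨hN, h0, h1⟩ := hh
  set l : (H →L[ℂ] H) → ℝ := fun k => (⟪h ξ - x ξ, k ξ⟫_ℂ).re with hl
  have ladd : ∀ a b, l (a + b) = l a + l b := by
    intro a b
    simp only [hl, add_apply, inner_add_right, Complex.add_re]
  have lsub : ∀ a b, l (a - b) = l a - l b := by
    intro a b
    simp only [hl, sub_apply, inner_sub_right, Complex.sub_re]
  have h1' : 0 ≤ 1 - h := sub_nonneg.2 h1
  have h1N : (1 : H →L[ℂ] H) - h ∈ N := N.toStarSubalgebra.sub_mem N.toStarSubalgebra.one_mem hN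
  have hsah : star h = h := star_eq_of_nonneg h0
  have hsax : star x = x := star_eq_of_nonneg hx0
  -- l is constant on positive powers of h
  have P1 : ∀ n, l (h ^ (n + 1)) = l (h ^ (n + 2)) := by
    intro n
    obtain ⟨q0, q1, q2⟩ := aux_pow h0 h1 n
    have hqN : h ^ (n + 1) * (1 - h) ∈ N :=
      N.toStarSubalgebra.mul_mem (N.toStarSubalgebra.pow_mem hN _) h1N
    have m1 := hmin (h + h ^ (n + 1) * (1 - h))
      ⟨N.toStarSubalgebra.add_mem hN hqN, add_nonneg h0 q0, q2⟩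
    have m2 := hmin (h - h ^ (n + 1) * (1 - h))
      ⟨N.toStarSubalgebra.sub_mem hN hqN, q1, (sub_le_self _ q0).trans h1⟩
    change l h ≤ l (h + h ^ (n + 1) * (1 - h)) at m1
    change l h ≤ l (h - h ^ (n + 1) * (1 - h)) at m2
    rw [ladd] at m1
    rw [lsub] at m2
    have e : l (h ^ (n + 1) * (1 - h)) = l (h ^ (n + 1)) - l (h ^ (n + 2)) := by
      rw [← lsub, mul_sub, mul_one, pow_succ h (n + 1)]
    linarith
  have P2 : ∀ n, l ((1 - h) ^ (n + 1)) = l ((1 - h) ^ (n + 2)) := by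
    intro n
    obtain ⟨q0, q1, q2⟩ := aux_pow h1' (sub_le_self _ h0) n
    have hqN : (1 - h) ^ (n + 1) * (1 - (1 - h)) ∈ N :=
      N.toStarSubalgebra.mul_mem (N.toStarSubalgebra.pow_mem h1N _)
        (N.toStarSubalgebra.sub_mem N.toStarSubalgebra.one_mem h1N)
    set q := (1 - h) ^ (n + 1) * (1 - (1 - h)) with hq
    have m1 := hmin (h + q)
      ⟨N.toStarSubalgebra.add_mem hN hqN, add_nonneg h0 q0, by
        have : h + q = 1 - (1 - h - q) := by abel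
        rw [this]; exact sub_le_self _ q1⟩
    have m2 := hmin (h - q)
      ⟨N.toStarSubalgebra.sub_mem hN hqN, by
        have : h - q = 1 - (1 - h + q) := by abel
        rw [this]; exact sub_nonneg.2 q2, (sub_le_self _ q0).trans h1⟩
    change l h ≤ l (h + q) at m1
    change l h ≤ l (h - q) at m2
    rw [ladd] at m1
    rw [lsub] at m2
    have e : l q = l ((1 - h) ^ (n + 1)) - l ((1 - h) ^ (n + 2)) := by
      rw [← lsub, hq, mul_sub, mul_one, pow_succ (1 - h) (n + 1)]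
    linarith
  have P1' : ∀ n, l (h ^ (n + 1)) = l h := by
    intro n
    induction n with
    | zero => simp
    | succ n ih => rw [← P1, ih]
  have P2' : ∀ n, l ((1 - h) ^ (n + 1)) = l (1 - h) := by
    intro n
    induction n with
    | zero => simp
    | succ n ih => rw [← P2, ih]
  have lh : 0 ≤ l h := by
    have ht := (tendsto_diff h0 h1 ξ).neg
    rw [neg_zero] at ht
    refine le_of_tendsto ht (Eventually.of_forall fun n => ?_)
    rw [← P1' n]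
    have e1 : l (h ^ (n + 1)) = (⟪ξ, (h ^ (n + 2)) ξ⟫_ℂ).re - (⟪ξ, (x * h ^ (n + 1)) ξ⟫_ℂ).re := by
      simp only [hl]
      rw [inner_sub_left, Complex.sub_re, inner_sa hsah, inner_sa hsax, pow_succ' h (n + 1)]
      rfl
    have hc : Commute (1 - x) (h ^ (n + 1)) :=
      (Commute.one_left _).sub_left (hxN _ (N.toStarSubalgebra.pow_mem hN _))
    have e2 := re_inner_nonneg_of_nonneg
      (Commute.mul_nonneg (sub_nonneg.2 hx1) (CStarAlgebra.pow_nonneg h0 (n + 1)) hc) ξ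
    rw [sub_mul, one_mul, sub_apply, inner_sub_right, Complex.sub_re] at e2
    rw [e1]
    linarith
  have lh1 : l (1 - h) ≤ 0 := by
    have ht := tendsto_diff h1' (sub_le_self _ h0) ξ
    refine ge_of_tendsto ht (Eventually.of_forall fun n => ?_)
    rw [← P2' n]
    have e1 : l ((1 - h) ^ (n + 1)) = (⟪ξ, (h * (1 - h) ^ (n + 1)) ξ⟫_ℂ).re
        - (⟪ξ, (x * (1 - h) ^ (n + 1)) ξ⟫_ℂ).re := by
      simp only [hl]
      rw [inner_sub_left, Complex.sub_re, inner_sa hsah, inner_sa hsax]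
      rfl
    have hc : Commute x ((1 - h) ^ (n + 1)) := hxN _ (N.toStarSubalgebra.pow_mem h1N _)
    have e2 := re_inner_nonneg_of_nonneg
      (Commute.mul_nonneg hx0 (CStarAlgebra.pow_nonneg h1' (n + 1)) hc) ξ
    have e3 : h * (1 - h) ^ (n + 1) = (1 - h) ^ (n + 1) - (1 - h) ^ (n + 2) := by
      rw [pow_succ' (1 - h) (n + 1)]
      nth_rewrite 1 [show h = 1 - (1 - h) by abel]
      rw [sub_mul, one_mul]
    rw [e3, sub_apply, inner_sub_right, Complex.sub_re] at e1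
    rw [e1]
    linarith
  intro k hk
  obtain ⟨kN, k0, k1⟩ := hk
  have m1 : l h ≤ l k := hmin k ⟨kN, k0, k1⟩
  have m2 : l h ≤ l (1 - k) := hmin (1 - k)
    ⟨N.toStarSubalgebra.sub_mem N.toStarSubalgebra.one_mem kN, sub_nonneg.2 k1, sub_le_self _ k0⟩
  rw [lsub] at m2 lh1
  change l k = 0
  linarith

/-- every element of `N` is a linear combination of elements of the unit interval: a
(complex-)linear identity that holds on the unit interval holds on `N`. -/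
theorem linear_of_Ival (N : VonNeumannAlgebra H) {E : Type*} [AddCommGroup E] [Module ℂ E]
    (F : (H →L[ℂ] H) →ₗ[ℂ] E) (hF : ∀ k ∈ Ival N, F k = 0) : ∀ y ∈ N, F y = 0 := by
  have h1 : F 1 = 0 := hF 1 ⟨N.toStarSubalgebra.one_mem, zero_le_one, le_rfl⟩
  have hsa1 : ∀ b ∈ N, star b = b → ‖b‖ ≤ 1 → F b = 0 := by
    intro b hb hbs hb1
    have hle : b ≤ 1 := by
      have := IsSelfAdjoint.le_algebraMap_norm_self (a := b) hbs
      refine this.trans ?_
      rw [Algebra.algebraMap_eq_smul_one]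
      calc ‖b‖ • (1 : H →L[ℂ] H) ≤ (1 : ℝ) • (1 : H →L[ℂ] H) :=
            smul_le_smul_of_nonneg_right hb1 zero_le_one
        _ = 1 := one_smul _ _
    have hge : -1 ≤ b := by
      have := IsSelfAdjoint.neg_algebraMap_norm_le_self (a := b) hbs
      refine le_trans ?_ this
      rw [Algebra.algebraMap_eq_smul_one, neg_le_neg_iff]
      calc ‖b‖ • (1 : H →L[ℂ] H) ≤ (1 : ℝ) • (1 : H →L[ℂ] H) :=
            smul_le_smul_of_nonneg_right hb1 zero_le_one
        _ = 1 := one_smul _ _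
    have hmem : ((1 / 2 : ℝ)) • ((1 : H →L[ℂ] H) + b) ∈ Ival N := by
      refine ⟨smul_real_mem (N.toStarSubalgebra.add_mem N.toStarSubalgebra.one_mem hb) _,
        smul_nonneg (by norm_num) ?_, ?_⟩
      · have := add_le_add_right hge 1
        simpa using this
      · calc ((1 / 2 : ℝ)) • ((1 : H →L[ℂ] H) + b)
            ≤ ((1 / 2 : ℝ)) • ((1 : H →L[ℂ] H) + 1) :=
              smul_le_smul_of_nonneg_left (add_le_add_right hle 1) (by norm_num)
          _ = 1 := by rw [← two_smul ℝ (1 : H →L[ℂ] H), smul_smul]; norm_num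
    have h2 := hF _ hmem
    have h3 : b = (2 : ℂ) • (((1 / 2 : ℝ)) • ((1 : H →L[ℂ] H) + b)) - 1 := by
      have : ((1 / 2 : ℝ)) • ((1 : H →L[ℂ] H) + b) = ((1 / 2 : ℂ)) • ((1 : H →L[ℂ] H) + b) := by
        rw [RCLike.real_smul_eq_coe_smul (K := ℂ)]
        norm_num
      rw [this, smul_smul]
      norm_num
    rw [h3, map_sub, map_smul, h2, h1, smul_zero, sub_zero]
  have hsa : ∀ b ∈ N, star b = b → F b = 0 := by
    intro b hb hbs
    rcases eq_or_ne b 0 with rfl | hb0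
    · exact map_zero F
    have hn : (0 : ℝ) < ‖b‖ := norm_pos_iff.2 hb0
    have h4 := hsa1 (((‖b‖⁻¹ : ℝ) : ℂ) • b) (N.toStarSubalgebra.smul_mem hb _) (by
      rw [star_smul, hbs, Complex.star_def, Complex.conj_ofReal]) (by
      rw [norm_smul, Complex.norm_real, Real.norm_of_nonneg (inv_nonneg.2 hn.le),
        inv_mul_cancel₀ hn.ne'])
    rw [map_smul] at h4
    have h5 : ((‖b‖⁻¹ : ℝ) : ℂ) ≠ 0 := by exact_mod_cast (inv_pos.2 hn).ne'
    exact (smul_eq_zero.1 h4).resolve_left h5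
  intro y hy
  have hys : star y ∈ N := star_mem hy
  have e : y = (1 / 2 : ℂ) • (y + star y) - ((1 / 2 : ℂ) * Complex.I) • (Complex.I • (y - star y)) := by
    rw [smul_smul, mul_assoc, Complex.I_mul_I, smul_add, smul_sub]
    simp only [mul_neg, mul_one, neg_smul]
    rw [sub_neg_eq_add, ← sub_eq_zero]
    have : y = (1 / 2 : ℂ) • y + (1 / 2 : ℂ) • y := by rw [← add_smul]; norm_num
    nth_rewrite 1 [this]
    abel
  have ha := hsa (y + star y) (N.toStarSubalgebra.add_mem hy hys) (by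
    rw [star_add, star_star, add_comm])
  have hb := hsa (Complex.I • (y - star y))
    (N.toStarSubalgebra.smul_mem (N.toStarSubalgebra.sub_mem hy hys) _) (by
    rw [star_smul, star_sub, star_star, Complex.star_def, Complex.conj_I, neg_smul, ← smul_neg,
      neg_sub])
  rw [e, map_sub, map_smul, map_smul, ha, hb, smul_zero, smul_zero, sub_zero]

/-- **Sakai's linear Radon–Nikodym theorem** for a vector state: for `0 ≤ x ≤ 1` in `M` there is
`0 ≤ h ≤ 1` in `M'` with `2⟪x ξ, y ξ⟫ = ⟪h ξ, y ξ⟫ + ⟪y* ξ, h ξ⟫` for all `y ∈ M'`. -/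
theorem sakai_pos (M : VonNeumannAlgebra H) (ξ : H) {x : H →L[ℂ] H} (hx : x ∈ M) (hx0 : 0 ≤ x)
    (hx1 : x ≤ 1) :
    ∃ h ∈ M.commutant, 0 ≤ h ∧ h ≤ 1 ∧ ∀ y ∈ M.commutant,
      2 * ⟪x ξ, y ξ⟫_ℂ = ⟪h ξ, y ξ⟫_ℂ + ⟪star y ξ, h ξ⟫_ℂ := by
  have hxN : ∀ k ∈ M.commutant, Commute x k := fun k hk =>
    VonNeumannAlgebra.mem_commutant_iff.1 hk x hx
  obtain ⟨h, hh, hmin⟩ := exists_minimizer M.commutant ξ (x ξ)
  have hg := gradient_zero M.commutant hx0 hx1 hxN hh hmin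
  have hsah : star h = h := star_eq_of_nonneg hh.2.1
  have hsax : star x = x := star_eq_of_nonneg hx0
  refine ⟨h, hh.1, hh.2.1, hh.2.2, ?_⟩
  -- the linear functional
  let F : (H →L[ℂ] H) →ₗ[ℂ] ℂ :=
    { toFun := fun y => 2 * ⟪x ξ, y ξ⟫_ℂ - ⟪h ξ, y ξ⟫_ℂ - ⟪ξ, y (h ξ)⟫_ℂ
      map_add' := fun a b => by
        simp only [add_apply, inner_add_right]; ring
      map_smul' := fun c a => by
        simp only [smul_apply, inner_smul_right, RingHom.id_apply, smul_eq_mul]; ring }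
  have hF : ∀ k ∈ Ival M.commutant, F k = 0 := by
    intro k hk
    have h1 := hg k hk
    have hsak : star k = k := star_eq_of_nonneg hk.2.1
    change 2 * ⟪x ξ, k ξ⟫_ℂ - ⟪h ξ, k ξ⟫_ℂ - ⟪ξ, k (h ξ)⟫_ℂ = 0
    rw [← inner_sa hsak ξ (h ξ)]
    have e1 : ⟪k ξ, h ξ⟫_ℂ = (starRingEnd ℂ) ⟪h ξ, k ξ⟫_ℂ := (inner_conj_symm _ _).symm
    have e2 : (starRingEnd ℂ) ⟪x ξ, k ξ⟫_ℂ = ⟪x ξ, k ξ⟫_ℂ := by
      rw [inner_conj_symm, inner_sa hsak, inner_sa hsax]
      congr 1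
      have := (hxN k hk.1).eq
      exact (congrArg (fun T : H →L[ℂ] H => T ξ) this).symm
    have e3 : 2 * ⟪x ξ, k ξ⟫_ℂ = ⟪x ξ, k ξ⟫_ℂ + (starRingEnd ℂ) ⟪x ξ, k ξ⟫_ℂ := by
      rw [e2]; ring
    rw [e1, e3, Complex.add_conj, sub_sub, Complex.add_conj, ← sub_eq_zero]
    rw [inner_sub_left, Complex.sub_re] at h1
    have h5 : (⟪h ξ, k ξ⟫_ℂ).re = (⟪x ξ, k ξ⟫_ℂ).re := by linarith
    rw [h5]
    ring
  intro y hy
  have h6 := linear_of_Ival M.commutant F hF y hy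
  have h7 : ⟪star y ξ, h ξ⟫_ℂ = ⟪ξ, y (h ξ)⟫_ℂ := by
    rw [star_eq_adjoint, adjoint_inner_left]
  rw [h7]
  have h8 : 2 * ⟪x ξ, y ξ⟫_ℂ - ⟪h ξ, y ξ⟫_ℂ - ⟪ξ, y (h ξ)⟫_ℂ = 0 := h6
  linear_combination h8

end Crest.Agent.R078.LL975
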