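import Mathlib
import Crest.Agent.R078.S103TLam975

/-!
# Row 78, S0103, Letter Lemma part (A): the linear map `T_lam : M → p M' p`
-/

set_option autoImplicit false
set_option linter.unusedSectionVars false

namespace Crest.Agent.R078.LL975

open scoped InnerProductSpace Topology
open ContinuousLinearMap Filter

variable {H : Type*} [NormedAddCommGroup H] [InnerProductSpace ℂ H] [CompleteSpace H]

/-- `{x ξ | x ∈ M}` as a subspace -/
def orb (M : VonNeumannAlgebra H) (ξ : H) : Submodule ℂ H where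
  carrier := {v | ∃ x ∈ M, x ξ = v}
  add_mem' := by
    rintro _ _ ⟨x, hx, rfl⟩ ⟨y, hy, rfl⟩
    exact ⟨x + y, M.toStarSubalgebra.add_mem hx hy, rfl⟩
  zero_mem' := ⟨0, M.toStarSubalgebra.zero_mem, rfl⟩
  smul_mem' := by
    rintro c _ ⟨x, hx, rfl⟩
    exact ⟨c • x, M.toStarSubalgebra.smul_mem hx c, rfl⟩

/-- the projection onto the closure of `M ξ` -/
noncomputable def pr (M : VonNeumannAlgebra H) (ξ : H) : H →L[ℂ] H :=
  (orb M ξ).topologicalClosure.starProjection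

lemma apply_mem_orb {M : VonNeumannAlgebra H} {x : H →L[ℂ] H} (hx : x ∈ M) (ξ : H) :
    x ξ ∈ orb M ξ := ⟨x, hx, rfl⟩

lemma pr_apply {M : VonNeumannAlgebra H} {x : H →L[ℂ] H} (hx : x ∈ M) (ξ : H) :
    pr M ξ (x ξ) = x ξ :=
  Submodule.starProjection_eq_self_iff.2
    ((orb M ξ).le_topologicalClosure (apply_mem_orb hx ξ))

lemma pr_self (M : VonNeumannAlgebra H) (ξ : H) : pr M ξ ξ = ξ := by
  simpa using pr_apply (M := M) M.toStarSubalgebra.one_mem ξ

lemma star_pr (M : VonNeumannAlgebra H) (ξ : H) : star (pr M ξ) = pr M ξ :=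
  (isStarProjection_starProjection (U := (orb M ξ).topologicalClosure)).isSelfAdjoint.star_eq

lemma pr_mul_pr (M : VonNeumannAlgebra H) (ξ : H) : pr M ξ * pr M ξ = pr M ξ :=
  (isStarProjection_starProjection (U := (orb M ξ).topologicalClosure)).isIdempotentElem.eq

lemma norm_pr_le (M : VonNeumannAlgebra H) (ξ : H) : ‖pr M ξ‖ ≤ 1 :=
  Submodule.starProjection_norm_le _

lemma pr_eq_zero_iff {M : VonNeumannAlgebra H} {ξ v : H} :
    pr M ξ v = 0 ↔ ∀ z ∈ M, ⟪z ξ, v⟫_ℂ = 0 := by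
  unfold pr
  rw [Submodule.starProjection_apply_eq_zero_iff, Submodule.orthogonal_closure]
  constructor
  · intro h z hz
    exact (Submodule.mem_orthogonal _ _).1 h _ (apply_mem_orb hz ξ)
  · intro h
    refine (Submodule.mem_orthogonal _ _).2 ?_
    rintro _ ⟨z, hz, rfl⟩
    exact h z hz

lemma pr_mem (M : VonNeumannAlgebra H) (ξ : H) : pr M ξ ∈ M.commutant := by
  have h1 : ∀ g ∈ M, pr M ξ * g * pr M ξ = g * pr M ξ := by
    intro g hg
    ext v
    refine Submodule.starProjection_eq_self_iff.2 ?_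
    have hv : pr M ξ v ∈ (orb M ξ).topologicalClosure := Submodule.starProjection_apply_mem _ _
    have hinv : Set.MapsTo g (orb M ξ : Set H) (orb M ξ : Set H) := by
      rintro _ ⟨x, hx, rfl⟩
      exact ⟨g * x, M.toStarSubalgebra.mul_mem hg hx, rfl⟩
    exact hinv.closure g.continuous hv
  rw [VonNeumannAlgebra.mem_commutant_iff]
  intro g hg
  have h2 := h1 g hg
  have h3 := congrArg star (h1 (star g) (star_mem hg))
  simp only [star_mul, star_star, star_pr] at h3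
  rw [← h2, mul_assoc]
  exact h3

lemma pr_comm {M : VonNeumannAlgebra H} {x : H →L[ℂ] H} (hx : x ∈ M) (ξ : H) :
    x * pr M ξ = pr M ξ * x := VonNeumannAlgebra.mem_commutant_iff.1 (pr_mem M ξ) x hx

section RN

variable {M : VonNeumannAlgebra H} {ξ : H} {lam : ℝ}

lemma RN.add {x x' h h' : H →L[ℂ] H} (hr : RN M ξ lam x h) (hr' : RN M ξ lam x' h') :
    RN M ξ lam (x + x') (h + h') := by
  intro y hy
  simp only [add_apply, inner_add_right, star_add, inner_add_left]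
  linear_combination hr y hy + hr' y hy

lemma RN.smul {x h : H →L[ℂ] H} (hr : RN M ξ lam x h) (c : ℂ) : RN M ξ lam (c • x) (c • h) := by
  intro y hy
  simp only [smul_apply, inner_smul_right, star_smul, inner_smul_left, Complex.star_def,
    Complex.conj_conj]
  linear_combination c * hr y hy

lemma RN.zero : RN M ξ lam 0 0 := by
  intro y hy
  simp

lemma RN.sub {x x' h h' : H →L[ℂ] H} (hr : RN M ξ lam x h) (hr' : RN M ξ lam x' h') :
    RN M ξ lam (x - x') (h - h') := by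
  have := hr.add (hr'.smul (-1))
  simpa [sub_eq_add_neg] using this

/-- the adjoint relation: `T_lam(x)^* = T_{1/lam}(x^*)` -/
lemma RN.star {x h : H →L[ℂ] H} (hx : x ∈ M) (hr : RN M ξ lam x h) :
    RN M ξ lam⁻¹ (star x) (star h) := by
  intro y hy
  have h1 := hr (Star.star y) (star_mem hy)
  have h2 := congrArg (starRingEnd ℂ) h1
  simp only [map_mul, map_add, inner_conj_symm, Complex.conj_ofReal, star_star] at h2
  have e1 : ⟪x ξ, (Star.star y) ξ⟫_ℂ = ⟪y ξ, (Star.star x) ξ⟫_ℂ := by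
    rw [star_eq_adjoint, adjoint_inner_right, star_eq_adjoint, adjoint_inner_right]
    have : y * x = x * y := (VonNeumannAlgebra.mem_commutant_iff.1 hy x hx).symm
    exact congrArg (fun T : H →L[ℂ] H => ⟪T ξ, ξ⟫_ℂ) this
  have e2 : (starRingEnd ℂ) 2 = (2 : ℂ) := map_ofNat _ 2
  rw [e1, e2] at h2
  rw [h2, inv_inv, star_star, add_comm]

/-- cutting by the projection on the closure of `M ξ` -/
lemma RN.cut {x h : H →L[ℂ] H} (hx : x ∈ M) (hr : RN M ξ lam x h) :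
    RN M ξ lam x (pr M ξ * h * pr M ξ) := by
  intro y hy
  have h1 := hr (pr M ξ * y * pr M ξ) (M.commutant.toStarSubalgebra.mul_mem
    (M.commutant.toStarSubalgebra.mul_mem (pr_mem M ξ) hy) (pr_mem M ξ))
  have hsym : ∀ v w : H, ⟪pr M ξ v, w⟫_ℂ = ⟪v, pr M ξ w⟫_ℂ := inner_sa (star_pr M ξ)
  simp only [star_mul, star_pr, mul_apply_eq_comp, pr_self, hsym, pr_apply hx] at h1 ⊢
  rw [h1]

lemma RN.eq_zero_apply (hlam : 0 < lam) {h : H →L[ℂ] H} (hh : h ∈ M.commutant)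
    (hr : RN M ξ lam 0 h) : h ξ = 0 ∧ Star.star h ξ = 0 := by
  have h1 := hr h hh
  rw [zero_apply, inner_zero_right, mul_zero, inner_self_eq_norm_sq_to_K,
    inner_self_eq_norm_sq_to_K] at h1
  have h2 : (0 : ℝ) = lam * ‖h ξ‖ ^ 2 + lam⁻¹ * ‖Star.star h ξ‖ ^ 2 := by
    have h3 : ((0 : ℝ) : ℂ) = ((lam * ‖h ξ‖ ^ 2 + lam⁻¹ * ‖Star.star h ξ‖ ^ 2 : ℝ) : ℂ) := by
      push_cast
      push_cast at h1
      exact h1
    exact_mod_cast h3
  have h4 : 0 ≤ lam * ‖h ξ‖ ^ 2 := by positivity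
  have h5 : 0 ≤ lam⁻¹ * ‖Star.star h ξ‖ ^ 2 := by positivity
  have h6 : lam * ‖h ξ‖ ^ 2 = 0 := by linarith
  have h7 : lam⁻¹ * ‖Star.star h ξ‖ ^ 2 = 0 := by linarith
  have hlam' : lam⁻¹ ≠ 0 := (inv_pos.2 hlam).ne'
  constructor
  · simpa [hlam.ne'] using h6
  · simpa [hlam'] using h7

/-- uniqueness of the partner in `p M' p` -/
lemma RN.unique (hlam : 0 < lam) {x h h' : H →L[ℂ] H} (hh : h ∈ M.commutant)
    (hh' : h' ∈ M.commutant) (hp : ∀ v, pr M ξ v = 0 → h v = 0)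
    (hp' : ∀ v, pr M ξ v = 0 → h' v = 0)
    (hr : RN M ξ lam x h) (hr' : RN M ξ lam x h') : h = h' := by
  have h1 : RN M ξ lam 0 (h - h') := by simpa using hr.sub hr'
  have hd : h - h' ∈ M.commutant := M.commutant.toStarSubalgebra.sub_mem hh hh'
  obtain ⟨h2, -⟩ := h1.eq_zero_apply hlam hd
  -- vanishing on `M ξ`, hence on its closure, and on the complement
  have h3 : ∀ v ∈ (orb M ξ).topologicalClosure, (h - h') v = 0 := by
    have hcl : IsClosed {v : H | (h - h') v = 0} :=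
      isClosed_eq (h - h').continuous continuous_const
    have hsub : (orb M ξ : Set H) ⊆ {v : H | (h - h') v = 0} := by
      rintro _ ⟨x, hx, rfl⟩
      have : x * (h - h') = (h - h') * x := VonNeumannAlgebra.mem_commutant_iff.1 hd x hx
      have h4 := congrArg (fun T : H →L[ℂ] H => T ξ) this
      simp only [mul_apply_eq_comp] at h4
      rw [Set.mem_ofPred_eq, ← h4, h2, map_zero]
    exact fun v hv => closure_minimal hsub hcl hv
  rw [← sub_eq_zero]
  ext v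
  have e : v = pr M ξ v + (v - pr M ξ v) := by abel
  have h5 : pr M ξ (v - pr M ξ v) = 0 := by
    rw [map_sub]
    have := congrArg (fun T : H →L[ℂ] H => T v) (pr_mul_pr M ξ)
    simp only [mul_apply_eq_comp] at this
    rw [this, sub_self]
  have h6 : (h - h') (pr M ξ v) = 0 := h3 _ (Submodule.starProjection_apply_mem _ _)
  rw [e, map_add, h6, zero_add, sub_apply, hp _ h5,
    hp' _ h5, sub_zero, zero_apply]

end RN

/-- existence with the support conditions, no normalisation -/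
theorem exists_RN (M : VonNeumannAlgebra H) (ξ : H) {lam : ℝ} (hlam : 0 < lam)
    {x : H →L[ℂ] H} (hx : x ∈ M) :
    ∃ h ∈ M.commutant, ‖h‖ ≤ ‖x‖ ∧ RN M ξ lam x h ∧ (∀ v, pr M ξ v = 0 → h v = 0) ∧
      ∀ v, pr M ξ v = 0 → star h v = 0 := by
  rcases eq_or_ne x 0 with rfl | hx0
  · exact ⟨0, M.commutant.toStarSubalgebra.zero_mem, le_rfl, RN.zero, by simp, by simp⟩
  have hn : 0 < ‖x‖ := norm_pos_iff.2 hx0
  have hnc : ((‖x‖ : ℝ) : ℂ) ≠ 0 := by exact_mod_cast hn.ne'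
  obtain ⟨h, hh, hh1, hr⟩ := exists_RN_ball M ξ hlam
    (M.toStarSubalgebra.smul_mem hx (((‖x‖ : ℝ) : ℂ)⁻¹)) (by
      rw [norm_smul, norm_inv, Complex.norm_real, Real.norm_of_nonneg hn.le,
        inv_mul_cancel₀ hn.ne'])
  have hr2 := hr.smul ((‖x‖ : ℝ) : ℂ)
  rw [smul_smul, mul_inv_cancel₀ hnc, one_smul] at hr2
  refine ⟨pr M ξ * (((‖x‖ : ℝ) : ℂ) • h) * pr M ξ, ?_, ?_, hr2.cut hx, ?_, ?_⟩
  · exact M.commutant.toStarSubalgebra.mul_mem (M.commutant.toStarSubalgebra.mul_mem (pr_mem M ξ)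
      (M.commutant.toStarSubalgebra.smul_mem hh _)) (pr_mem M ξ)
  · have h1 : ‖((‖x‖ : ℝ) : ℂ) • h‖ ≤ ‖x‖ := by
      rw [norm_smul, Complex.norm_real, Real.norm_of_nonneg hn.le]
      exact mul_le_of_le_one_right hn.le hh1
    have h2 := norm_pr_le M ξ
    calc ‖pr M ξ * (((‖x‖ : ℝ) : ℂ) • h) * pr M ξ‖
        ≤ ‖pr M ξ‖ * ‖((‖x‖ : ℝ) : ℂ) • h‖ * ‖pr M ξ‖ := norm_mul₃_le
      _ ≤ 1 * ‖x‖ * 1 := by gcongr
      _ = ‖x‖ := by ring
  · intro v hv
    simp only [mul_apply_eq_comp, hv, map_zero]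
  · intro v hv
    simp only [star_mul, star_pr, mul_apply_eq_comp, hv, map_zero]

/-- **The map `T_lam`.** -/
theorem exists_TLam (M : VonNeumannAlgebra H) (ξ : H) (lam : ℝ) (hlam : 0 < lam) :
    ∃ T : (H →L[ℂ] H) →ₗ[ℂ] (H →L[ℂ] H), ∀ x ∈ M, T x ∈ M.commutant ∧ RN M ξ lam x (T x) ∧
      ‖T x‖ ≤ ‖x‖ ∧ (∀ v, (∀ z ∈ M, ⟪z ξ, v⟫_ℂ = 0) → T x v = 0) ∧
      (∀ v, (∀ z ∈ M, ⟪z ξ, v⟫_ℂ = 0) → star (T x) v = 0) := by
  choose! f hf using fun (x : H →L[ℂ] H) (hx : x ∈ M) => exists_RN M ξ hlam hx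
  set S : Submodule ℂ (H →L[ℂ] H) := Subalgebra.toSubmodule M.toStarSubalgebra.toSubalgebra with hS
  have hSmem : ∀ x, x ∈ S ↔ x ∈ M := fun x => Iff.rfl
  let T0 : S →ₗ[ℂ] (H →L[ℂ] H) :=
    { toFun := fun x => f x.1
      map_add' := by
        rintro ⟨a, ha⟩ ⟨b, hb⟩
        have ha' : a ∈ M := ha
        have hb' : b ∈ M := hb
        have hab : a + b ∈ M := M.toStarSubalgebra.add_mem ha hb
        refine RN.unique hlam (hf _ hab).1 (M.commutant.toStarSubalgebra.add_mem (hf a ha').1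
          (hf b hb').1) (hf _ hab).2.2.2.1 (fun v hv => ?_) (hf _ hab).2.2.1
          ((hf a ha').2.2.1.add (hf b hb').2.2.1)
        rw [add_apply, (hf a ha').2.2.2.1 v hv, (hf b hb').2.2.2.1 v hv, add_zero]
      map_smul' := by
        rintro c ⟨a, ha⟩
        have ha' : a ∈ M := ha
        have hab : c • a ∈ M := M.toStarSubalgebra.smul_mem ha c
        refine RN.unique hlam (hf _ hab).1 (M.commutant.toStarSubalgebra.smul_mem (hf a ha').1 c)
          (hf _ hab).2.2.2.1 (fun v hv => ?_) (hf _ hab).2.2.1 ((hf a ha').2.2.1.smul c)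
        rw [smul_apply, (hf a ha').2.2.2.1 v hv, smul_zero] }
  obtain ⟨T, hT⟩ := LinearMap.exists_extend T0
  refine ⟨T, fun x hx => ?_⟩
  have e : T x = f x := by
    exact congrArg (fun g : S →ₗ[ℂ] (H →L[ℂ] H) => g ⟨x, hx⟩) hT
  rw [e]
  obtain ⟨h1, h2, h3, h4, h5⟩ := hf x hx
  exact ⟨h1, h3, h2, fun v hv => h4 v (pr_eq_zero_iff.2 hv), fun v hv => h5 v (pr_eq_zero_iff.2 hv)⟩

end Crest.Agent.R078.LL975
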