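import Crest.Agent.R078.S103RecovT16
import Crest.Agent.R078.S103TLamMap975
import Crest.Agent.R078.S103LSys938

/-!
# R78 / S0103, letter lemma: the letters `a(Y)`, `b(Y)` (helper16)

`aM y i j = (1/2) c₀ (T'_{1/λ_ij} T_{λ_ij})^m y`, `bM y j i = T_{λ_ij} (aM y i j)`,
`λ_ij = exp (-(i - j) h)`, `om i = exp (-2 h i) / Z`.
-/

set_option autoImplicit false

open Filter Topology Set
open scoped ComplexOrder

namespace Crest.Agent.R078.Z.Rcv16

open Crest.Agent.R078.Z.LLB Crest.Agent.R078.Z.RvD Crest.Agent.R078.S103.LSys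

noncomputable section

universe u

variable {H : Type u} [NormedAddCommGroup H] [InnerProductSpace ℂ H] [CompleteSpace H]

theorem rn_of_975 {M : VonNeumannAlgebra H} {ξ : H} {lam : ℝ} {x h : H →L[ℂ] H}
    (hr : LL975.RN M ξ lam x h) : RN M ξ lam x h := by
  intro y hy
  have := hr y hy
  rwa [Complex.ofReal_inv] at this

/-- the Radon–Nikodym map `T_λ` of `(M, ξ)` -/
def TL (M : VonNeumannAlgebra H) (ξ : H) (lam : ℝ) : (H →L[ℂ] H) →ₗ[ℂ] (H →L[ℂ] H) :=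
  if h : 0 < lam then Classical.choose (LL975.exists_TLam M ξ lam h) else 0

theorem TL_spec (M : VonNeumannAlgebra H) (ξ : H) {lam : ℝ} (h : 0 < lam) :
    TLamAt M ξ lam (TL M ξ lam) := by
  intro x hx
  unfold TL
  rw [dif_pos h]
  obtain ⟨h1, h2, _, h4, h5⟩ := Classical.choose_spec (LL975.exists_TLam M ξ lam h) x hx
  exact ⟨h1, rn_of_975 h2, h4, h5⟩

theorem norm_TL_le (M : VonNeumannAlgebra H) (ξ : H) {lam : ℝ} (h : 0 < lam) {x : H →L[ℂ] H}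
    (hx : x ∈ M) : ‖TL M ξ lam x‖ ≤ ‖x‖ := by
  unfold TL
  rw [dif_pos h]
  exact (Classical.choose_spec (LL975.exists_TLam M ξ lam h) x hx).2.2.1

theorem lamij_pos (h : ℝ) (i j : ℕ) : 0 < lamij h i j := Real.exp_pos _

/-- one step `T'_{1/λ} T_λ` -/
def UL (M : VonNeumannAlgebra H) (ξ : H) (lam : ℝ) : (H →L[ℂ] H) →ₗ[ℂ] (H →L[ℂ] H) :=
  TL M.commutant ξ lam⁻¹ ∘ₗ TL M ξ lam

theorem UL_pow_mem (M : VonNeumannAlgebra H) (ξ : H) {lam : ℝ} (h : 0 < lam) {y : H →L[ℂ] H}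
    (hy : y ∈ M) (q : ℕ) : ((UL M ξ lam) ^ q) y ∈ M :=
  pow_mem (TL_spec M ξ h) (TL_spec M.commutant ξ (inv_pos.2 h)) hy q

/-- the letter `a` -/
def aM (M : VonNeumannAlgebra H) (ξ : H) (m n : ℕ) (h : ℝ) :
    (H →L[ℂ] H) →ₗ[ℂ] Matrix (Fin n) (Fin n) (H →L[ℂ] H) where
  toFun y := fun i j => ((1 / 2 * c0 m h : ℝ) : ℂ) • ((UL M ξ (lamij h i j)) ^ m) y
  map_add' y z := by
    ext i j : 2
    simp only [map_add, smul_add, Matrix.add_apply]
  map_smul' c y := by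
    ext i j : 2
    simp only [map_smul, RingHom.id_apply, Matrix.smul_apply]
    rw [smul_comm]

theorem aM_apply (M : VonNeumannAlgebra H) (ξ : H) (m n : ℕ) (h : ℝ) (y : H →L[ℂ] H)
    (i j : Fin n) :
    aM M ξ m n h y i j = ((1 / 2 * c0 m h : ℝ) : ℂ) • ((UL M ξ (lamij h i j)) ^ m) y := rfl

/-- the partner letter `b` -/
def bM (M : VonNeumannAlgebra H) (ξ : H) (m n : ℕ) (h : ℝ) :
    (H →L[ℂ] H) →ₗ[ℂ] Matrix (Fin n) (Fin n) (H →L[ℂ] H) where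
  toFun y := fun j i => TL M ξ (lamij h i j) (aM M ξ m n h y i j)
  map_add' y z := by
    ext i j : 2
    simp only [map_add, Matrix.add_apply]
  map_smul' c y := by
    ext i j : 2
    simp only [map_smul, RingHom.id_apply, Matrix.smul_apply]

theorem bM_apply (M : VonNeumannAlgebra H) (ξ : H) (m n : ℕ) (h : ℝ) (y : H →L[ℂ] H)
    (i j : Fin n) :
    bM M ξ m n h y j i = TL M ξ (lamij h i j) (aM M ξ m n h y i j) := rfl

theorem aM_mem (M : VonNeumannAlgebra H) (ξ : H) (m n : ℕ) (h : ℝ) {y : H →L[ℂ] H} (hy : y ∈ M)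
    (i j : Fin n) : aM M ξ m n h y i j ∈ M :=
  M.toStarSubalgebra.smul_mem (UL_pow_mem M ξ (lamij_pos h i j) hy m) _

theorem bM_mem (M : VonNeumannAlgebra H) (ξ : H) (m n : ℕ) (h : ℝ) {y : H →L[ℂ] H} (hy : y ∈ M)
    (i j : Fin n) : bM M ξ m n h y i j ∈ M.commutant :=
  (TL_spec M ξ (lamij_pos h j i) _ (aM_mem M ξ m n h hy j i)).1

/-- the weights -/
def Zom (h : ℝ) (n : ℕ) : ℝ := ∑ i ∈ Finset.range n, Real.exp (-(2 * h * i))

theorem Zom_pos {h : ℝ} {n : ℕ} (hn : 1 ≤ n) : 0 < Zom h n :=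
  Finset.sum_pos (fun _ _ => Real.exp_pos _) (Finset.nonempty_range_iff.2 (by omega))

def om (h : ℝ) (n : ℕ) (i : Fin n) : ℝ := Real.exp (-(2 * h * (i : ℕ))) / Zom h n

theorem om_pos {h : ℝ} {n : ℕ} (hn : 1 ≤ n) (i : Fin n) : 0 < om h n i :=
  div_pos (Real.exp_pos _) (Zom_pos hn)

theorem sum_om {h : ℝ} {n : ℕ} (hn : 1 ≤ n) : ∑ i, om h n i = 1 := by
  unfold om
  rw [← Finset.sum_div, div_eq_one_iff_eq (Zom_pos hn).ne', Zom,
    Finset.sum_range (fun i => Real.exp (-(2 * h * (i : ℝ))))]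

theorem sum_inv_om {h : ℝ} {n : ℕ} (hn : 1 ≤ n) : ∑ i, 1 / ((n : ℝ) * om h n i) = Kth2 h n := by
  have hn' : (0 : ℝ) < n := by exact_mod_cast hn
  unfold Kth2 om
  rw [show (∑ i ∈ Finset.range n, Real.exp (-(2 * h * i))) = Zom h n from rfl,
    Finset.sum_range (fun i => Real.exp (2 * h * (i : ℝ))), Finset.mul_sum, Finset.mul_sum]
  refine Finset.sum_congr rfl fun i _ => ?_
  have hZ := (Zom_pos (h := h) hn).ne'
  rw [Real.exp_neg]
  have he := (Real.exp_pos (2 * h * (i : ℕ))).ne'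
  field_simp

/-- `λ_ij = √(om i / om j)` -/
theorem sqrt_om_div {h : ℝ} {n : ℕ} (hn : 1 ≤ n) (i j : Fin n) :
    Real.sqrt (om h n i / om h n j) = lamij h i j := by
  have hZ := (Zom_pos (h := h) hn).ne'
  have h1 : om h n i / om h n j = (lamij h i j) ^ 2 := by
    unfold om lamij
    rw [div_div_div_cancel_right₀ hZ, ← Real.exp_sub, ← Real.exp_nat_mul]
    congr 1
    push_cast
    ring
  rw [h1, Real.sqrt_sq (lamij_pos h i j).le]

theorem one_le_Kth2 {h : ℝ} (hh : 0 ≤ h) {n : ℕ} (hn : 1 ≤ n) : 1 ≤ Kth2 h n := by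
  have hn' : (0 : ℝ) < n := by exact_mod_cast hn
  unfold Kth2
  have h1 : 1 ≤ ∑ i ∈ Finset.range n, Real.exp (-(2 * h * i)) := by
    have h3 := Finset.single_le_sum (f := fun i : ℕ => Real.exp (-(2 * h * (i : ℝ))))
      (fun i _ => (Real.exp_pos _).le) (Finset.mem_range.2 (show 0 < n by omega))
    simpa using h3
  have h2 : (n : ℝ) ≤ ∑ i ∈ Finset.range n, Real.exp (2 * h * i) := by
    have h3 : ∑ i ∈ Finset.range n, (1 : ℝ) ≤ ∑ i ∈ Finset.range n, Real.exp (2 * h * i) :=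
      Finset.sum_le_sum fun i _ => Real.one_le_exp (by positivity)
    simpa using h3
  calc (1 : ℝ) = (n : ℝ)⁻¹ * (1 * n) := by field_simp
    _ ≤ (n : ℝ)⁻¹ * ((∑ i ∈ Finset.range n, Real.exp (-(2 * h * i))) *
        ∑ i ∈ Finset.range n, Real.exp (2 * h * i)) := by gcongr

/-- the norm bound `‖opM (a y)‖, ‖opM (b y)‖ ≤ 1/2` (helper535's part) -/
def NormOK (M : VonNeumannAlgebra H) (ξ : H) (m n : ℕ) (h : ℝ) : Prop :=
  ∀ y ∈ M, ‖y‖ ≤ 1 → ‖opM (aM M ξ m n h y)‖ ≤ 1 / 2 ∧ ‖opM (bM M ξ m n h y)‖ ≤ 1 / 2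

/-- the partner bound (helper535's part) -/
def PartnerOK (M : VonNeumannAlgebra H) (ξ : H) (m n : ℕ) (h : ℝ) (C : ℝ) : Prop :=
  ∀ y ∈ M, ‖y‖ ≤ 1 →
    (∑ i, ∑ j, ‖(Real.sqrt (om h n j) : ℂ) • aM M ξ m n h y i j ξ
      - (Real.sqrt (om h n i) : ℂ) • bM M ξ m n h y j i ξ‖ ^ 2 ≤ C * (c0 m h / (m + 1))) ∧
    (∑ i, ∑ j, ‖(Real.sqrt (om h n j) : ℂ) • star (aM M ξ m n h y j i) ξ
      - (Real.sqrt (om h n i) : ℂ) • star (bM M ξ m n h y i j) ξ‖ ^ 2 ≤ C * (c0 m h / (m + 1)))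

/-- **assembly of the letter lemma** -/
theorem exists_letterOut (M : VonNeumannAlgebra H) (ξ : H) {C : ℝ} (hC : 0 < C)
    (hN : ∀ (m n : ℕ) (h : ℝ), 1 ≤ m → 1 ≤ n → 0 < h → h ≤ 1 → NormOK M ξ m n h)
    (hP : ∀ (m n : ℕ) (h : ℝ), 1 ≤ m → 1 ≤ n → 0 < h → h ≤ 1 → PartnerOK M ξ m n h C)
    {p : ℕ} {Y A B : Fin p → (H →L[ℂ] H)} (hY : ∀ c, Y c ∈ M) (hA : ∀ c, A c ∈ M.commutant)
    (hB : ∀ c, B c ∈ M.commutant) {κ τ : ℝ} (hκ : 0 < κ) (hτ : 0 < τ) :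
    ∃ K ε : ℝ, 1 ≤ K ∧ 0 ≤ ε ∧ ε * K ≤ τ ∧ Nonempty (LetterOut M ξ Y A B κ K ε) := by
  obtain ⟨η, hη, hrec⟩ := recov_of_TLam (M := M) (ξ := ξ) (T := TL M ξ) (T' := TL M.commutant ξ)
    (fun lam hl => TL_spec M ξ hl) (fun lam hl => TL_spec M.commutant ξ hl) hA hB hY hκ
  obtain ⟨m, n, h, hm, hn, hh, hh1, hKt, hPhi⟩ := exists_params η η (3 * τ ^ 2 / C) hη hη
    (by positivity)
  have hc0 := c0_pos hm hh
  have hm' : (0 : ℝ) < (m : ℝ) + 1 := by positivity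
  have hK1 := one_le_Kth2 hh.le hn
  have hε0 : 0 ≤ C * (c0 m h / (m + 1)) := by positivity
  refine ⟨Real.sqrt (Kth2 h n), Real.sqrt (C * (c0 m h / (m + 1))), ?_, Real.sqrt_nonneg _, ?_, ?_⟩
  · exact Real.one_le_sqrt.2 hK1
  · rw [← Real.sqrt_mul hε0]
    refine Real.sqrt_le_iff.2 ⟨hτ.le, ?_⟩
    rw [le_div_iff₀ hC] at hKt
    calc C * (c0 m h / (m + 1)) * Kth2 h n
        = (3 * c0 m h / (m + 1)) * Kth2 h n * C / 3 := by ring
      _ ≤ 3 * τ ^ 2 / 3 := by gcongr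
      _ = τ ^ 2 := by ring
  · have hn' : (0 : ℝ) < n := by exact_mod_cast hn
    exact ⟨{
      n := n
      om := om h n
      om_pos := om_pos hn
      sum_om := sum_om hn
      a := aM M ξ m n h
      b := bM M ξ m n h
      a_mem := fun y hy i j => aM_mem M ξ m n h hy i j
      b_mem := fun y hy i j => bM_mem M ξ m n h hy i j
      norm_a := fun y hy hy1 => (hN m n h hm hn hh hh1 y hy hy1).1
      norm_b := fun y hy hy1 => (hN m n h hm hn hh hh1 y hy hy1).2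
      partner := fun y hy hy1 => by
        rw [Real.sq_sqrt hε0]
        exact (hP m n h hm hn hh hh1 y hy hy1).1
      partner_star := fun y hy hy1 => by
        rw [Real.sq_sqrt hε0]
        exact (hP m n h hm hn hh hh1 y hy hy1).2
      sum_inv := by
        rw [Real.sq_sqrt (zero_le_one.trans hK1), sum_inv_om hn]
      recov := fun c => hrec m n h hm hn hh hPhi c }⟩

end

end Crest.Agent.R078.Z.Rcv16
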