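/-
R78 / S0103 (helper45): `NewtonT` from helper615's `near_iso'`.
-/
import Crest.Agent.R078.S103End45
import Crest.Agent.R078.S103NearIso615

set_option autoImplicit false
set_option linter.unusedSectionVars false
open scoped InnerProductSpace

namespace Crest.Agent.R078.Z.Fin45

universe u

theorem newtonT : NewtonT.{u} := by
  refine ⟨600, 1 / 100000, by norm_num, by norm_num, ?_⟩
  intro H _ _ _ M N K hK0 hK hball Θ hΘN hΘ
  refine NearIso.near_iso' M N hK0 hK (fun y hy => ?_) Θ hΘN hΘ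
  by_cases hy0 : y = 0
  · exact ⟨0, zero_mem _, by simp [hy0]⟩
  have hn : 0 < ‖y‖ := norm_pos_iff.mpr hy0
  have hc : ‖((‖y‖ : ℂ))⁻¹‖ = ‖y‖⁻¹ := by
    rw [norm_inv, Complex.norm_real, norm_norm]
  obtain ⟨x, hx, -, hxy⟩ := hball.2 (((‖y‖ : ℂ))⁻¹ • y) (N.toStarSubalgebra.smul_mem hy _)
    (by rw [norm_smul, hc, inv_mul_cancel₀ hn.ne'])
  refine ⟨(‖y‖ : ℂ) • x, M.toStarSubalgebra.smul_mem hx _, ?_⟩
  have hne : (‖y‖ : ℂ) ≠ 0 := by exact_mod_cast hn.ne'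
  have e : y - (‖y‖ : ℂ) • x = (‖y‖ : ℂ) • (((‖y‖ : ℂ))⁻¹ • y - x) := by
    rw [smul_sub, smul_smul, mul_inv_cancel₀ hne, one_smul]
  rw [e, norm_smul, Complex.norm_real, norm_norm, mul_comm]
  exact mul_le_mul_of_nonneg_right hxy hn.le

end Crest.Agent.R078.Z.Fin45
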