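import Crest.Agent.R078.S103Num535
import Crest.Agent.R078.S103RvD

/-!
# R78 / S0103, letter lemma, part D2: functional calculus of `ρ` and vector recovery (helper16)

`ρ`, `f` are the operators of D1 (helper965): `f` = projection onto `H₀`, `0 ≤ ρ ≤ 1`,
`f ρ = ρ`, `ρ` and `f - ρ` injective on the range of `f`.
-/

set_option autoImplicit false

open Filter Topology Set
open scoped ComplexOrder

namespace Crest.Agent.R078.Z.Rcv16

open Crest.Agent.R078.Z.LLB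

noncomputable section

universe u

variable {H : Type u} [NormedAddCommGroup H] [InnerProductSpace ℂ H] [CompleteSpace H]

theorem spec_mem {ρ : H →L[ℂ] H} (h0 : 0 ≤ ρ) (h1 : ρ ≤ 1) {x : ℝ} (hx : x ∈ spectrum ℝ ρ) :
    x ∈ Icc (0 : ℝ) 1 := by
  have hsa : IsSelfAdjoint ρ := IsSelfAdjoint.of_nonneg h0
  refine ⟨spectrum_nonneg_of_nonneg h0 hx, ?_⟩
  have h2 : ρ ≤ algebraMap ℝ _ 1 := by simpa using h1
  exact (le_algebraMap_iff_spectrum_le (a := ρ) hsa).1 h2 x hx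

theorem G_den_pos (lam : ℝ) (hlam : 0 < lam) {x : ℝ} (h : x ∈ Icc (0 : ℝ) 1) :
    0 < ((1 - x) + lam ^ 2 * x) := by
  obtain ⟨h0, h1⟩ := h
  rcases h1.lt_or_eq with h | h
  · have : 0 ≤ lam ^ 2 * x := by positivity
    linarith
  · subst h
    have : 0 < lam ^ 2 := by positivity
    simpa using this

theorem continuousOn_G (lam : ℝ) (hlam : 0 < lam) : ContinuousOn (G lam) (Icc 0 1) := by
  unfold G
  refine ContinuousOn.div (by fun_prop) (by fun_prop) fun t ht => ?_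
  exact (pow_pos (G_den_pos lam hlam ht) 2).ne'

theorem continuousOn_F (m : ℕ) (h : ℝ) (n i : ℕ) : ContinuousOn (F m h n i) (Icc 0 1) := by
  unfold F
  refine ContinuousOn.mul continuousOn_const ?_
  refine continuousOn_finsetSum _ fun j _ => ?_
  exact (continuousOn_G _ (Real.exp_pos _)).pow m

theorem continuousOn_Phi (m : ℕ) (h : ℝ) (n : ℕ) : ContinuousOn (Phi m h n) (Icc 0 1) := by
  unfold Phi
  refine ContinuousOn.mul continuousOn_const ?_
  exact continuousOn_finsetSum _ fun i _ => continuousOn_F m h n i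

/-- one step of the iteration `x ↦ T'_{1/λ} T_λ x` is `G_λ(ρ)` -/
theorem step {ρ : H →L[ℂ] H} (h0 : 0 ≤ ρ) (h1 : ρ ≤ 1) {lam : ℝ} (hlam : 0 < lam)
    {D : H →L[ℂ] H} (hD : D = 1 - ρ + ((lam : ℂ) ^ 2) • ρ) {u w : H}
    (key : D (D w) = (4 * (lam : ℂ) ^ 2) • (ρ u - ρ (ρ u))) :
    w = cfc (G lam) ρ u := by
  have hsa : IsSelfAdjoint ρ := IsSelfAdjoint.of_nonneg h0
  have hspec : ∀ x ∈ spectrum ℝ ρ, x ∈ Icc (0 : ℝ) 1 := fun x hx => spec_mem h0 h1 hx
  have hreal : ∀ (r : ℝ) (T : H →L[ℂ] H), (r : ℂ) • T = r • T := fun r T => Complex.coe_smul r T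
  have hDcfc : D = cfc (fun x : ℝ => (1 - x) + lam ^ 2 * x) ρ := by
    rw [cfc_add (fun x : ℝ => 1 - x) (fun x : ℝ => lam ^ 2 * x) (a := ρ) (by fun_prop) (by fun_prop),
      cfc_sub (fun _ : ℝ => (1 : ℝ)) (fun x : ℝ => x) (a := ρ) (by fun_prop) (by fun_prop),
      cfc_const_one ℝ ρ, cfc_id' ℝ ρ, cfc_const_mul (lam ^ 2) (fun x : ℝ => x) ρ (by fun_prop),
      cfc_id' ℝ ρ, hD, ← hreal]
    push_cast
    rfl
  have hcont : ContinuousOn (fun x : ℝ => (((1 - x) + lam ^ 2 * x) ^ 2)⁻¹) (spectrum ℝ ρ) := by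
    refine ContinuousOn.inv₀ (by fun_prop) fun x hx => ?_
    exact (pow_pos (G_den_pos lam hlam (hspec x hx)) 2).ne'
  set J : H →L[ℂ] H := cfc (fun x : ℝ => (((1 - x) + lam ^ 2 * x) ^ 2)⁻¹) ρ with hJ
  have hJD : J * (D * D) = 1 := by
    rw [hDcfc, hJ, ← cfc_mul _ _ ρ (by fun_prop) (by fun_prop), ← cfc_mul _ _ ρ hcont (by fun_prop),
      ← cfc_const_one ℝ ρ]
    refine cfc_congr fun x hx => ?_
    have hp := G_den_pos lam hlam (hspec x hx)
    have hne : ((1 - x) + lam ^ 2 * x) ^ 2 ≠ 0 := (pow_pos hp 2).ne'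
    rw [← sq]
    exact inv_mul_cancel₀ hne
  have hJG : J * ((4 * lam ^ 2 : ℝ) • (ρ * (1 - ρ))) = cfc (G lam) ρ := by
    have h3 : ((4 * lam ^ 2 : ℝ) • (ρ * (1 - ρ))) =
        cfc (fun x : ℝ => (4 * lam ^ 2) * (x * (1 - x))) ρ := by
      rw [cfc_const_mul (4 * lam ^ 2) (fun x : ℝ => x * (1 - x)) ρ (by fun_prop),
        cfc_mul (fun x : ℝ => x) (fun x : ℝ => 1 - x) ρ (by fun_prop) (by fun_prop),
        cfc_sub (fun _ : ℝ => (1 : ℝ)) (fun x : ℝ => x) (a := ρ) (by fun_prop) (by fun_prop),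
        cfc_const_one ℝ ρ, cfc_id' ℝ ρ]
    rw [h3, hJ, ← cfc_mul _ _ ρ hcont (by fun_prop)]
    refine cfc_congr fun x hx => ?_
    simp only [G]
    rw [div_eq_inv_mul]
  have key2 : D (D w) = ((4 * lam ^ 2 : ℝ) • (ρ * (1 - ρ))) u := by
    rw [key, ← hreal]
    simp only [smul_apply]
    push_cast
    simp
  calc w = (J * (D * D)) w := by rw [hJD]; rfl
    _ = J (D (D w)) := rfl
    _ = J (((4 * lam ^ 2 : ℝ) • (ρ * (1 - ρ))) u) := by rw [key2]
    _ = (J * ((4 * lam ^ 2 : ℝ) • (ρ * (1 - ρ)))) u := rfl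
    _ = _ := by rw [hJG]

/-- the iterates -/
theorem iter {ρ : H →L[ℂ] H} (h0 : 0 ≤ ρ) (h1 : ρ ≤ 1) {lam : ℝ} (hlam : 0 < lam)
    {D : H →L[ℂ] H} (hD : D = 1 - ρ + ((lam : ℂ) ^ 2) • ρ) {x : ℕ → H}
    (key : ∀ q, D (D (x (q + 1))) = (4 * (lam : ℂ) ^ 2) • (ρ (x q) - ρ (ρ (x q)))) (q : ℕ) :
    x q = cfc (fun t => G lam t ^ q) ρ (x 0) := by
  have hsa : IsSelfAdjoint ρ := IsSelfAdjoint.of_nonneg h0
  have hspec : spectrum ℝ ρ ⊆ Icc (0 : ℝ) 1 := fun x hx => spec_mem h0 h1 hx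
  have hG : ContinuousOn (G lam) (spectrum ℝ ρ) := (continuousOn_G lam hlam).mono hspec
  induction q with
  | zero =>
    simp only [pow_zero]
    rw [cfc_const_one ℝ ρ]
    rfl
  | succ q ih =>
    have h2 := step h0 h1 hlam hD (key q)
    have h3 : cfc (fun t => G lam t ^ (q + 1)) ρ = cfc (G lam) ρ * cfc (fun t => G lam t ^ q) ρ := by
      have h4 : ContinuousOn (fun t => G lam t ^ q) (spectrum ℝ ρ) := hG.pow q
      rw [← cfc_mul (G lam) (fun t => G lam t ^ q) ρ hG h4]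
      refine cfc_congr fun t _ => ?_
      rw [pow_succ, mul_comm]
    rw [h2, ih, h3]
    rfl

/-- `f w = w` is a limit of vectors `ρ (1 - ρ) u` -/
theorem mem_closure_range {ρ f : H →L[ℂ] H} (h0 : 0 ≤ ρ) (hf : star f = f) (hfi : f * f = f)
    (hfρ : f * ρ = ρ) (inj0 : ∀ v, f v = v → ρ v = 0 → v = 0)
    (inj1 : ∀ v, f v = v → ρ v = v → v = 0) {w : H} (hw : f w = w) {δ : ℝ} (hδ : 0 < δ) :
    ∃ u : H, ‖w - (ρ * (1 - ρ)) u‖ < δ := by
  have hsa : IsSelfAdjoint ρ := IsSelfAdjoint.of_nonneg h0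
  have hρf : ρ * f = ρ := by
    have := congrArg star hfρ
    rwa [star_mul, hf, hsa.star_eq] at this
  set A : H →L[ℂ] H := ρ * (1 - ρ) with hA
  have hAsa : IsSelfAdjoint A := by
    rw [IsSelfAdjoint, hA, star_mul, star_sub, star_one, hsa.star_eq]
    simp only [mul_sub, sub_mul, mul_one, one_mul]
  have hmem : w ∈ (A.ker)ᗮ := by
    rw [Submodule.mem_orthogonal]
    intro v hv
    have hv' : A v = 0 := hv
    have hfv : f v = 0 := by
      have hff : f (f v) = f v := congrArg (fun T : H →L[ℂ] H => T v) hfi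
      have hAf : A (f v) = 0 := by
        have h3 : A * f = A := by
          rw [hA, mul_assoc, sub_mul, one_mul, hρf, mul_sub, hρf, mul_sub, mul_one]
        have := congrArg (fun T : H →L[ℂ] H => T v) h3
        simpa [hv'] using this
      have hu : f ((1 - ρ) (f v)) = (1 - ρ) (f v) := by
        have h3 : f * ((1 - ρ) * f) = (1 - ρ) * f := by
          rw [sub_mul, one_mul, mul_sub, hfi, ← mul_assoc, hfρ]
        exact congrArg (fun T : H →L[ℂ] H => T v) h3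
      have h4 : (1 - ρ) (f v) = 0 := inj0 _ hu hAf
      have h5 : ρ (f v) = f v := by
        have : f v - ρ (f v) = 0 := by simpa using h4
        exact (sub_eq_zero.1 this).symm
      exact inj1 _ hff h5
    calc inner ℂ v w = inner ℂ v (f w) := by rw [hw]
      _ = inner ℂ (star f v) w := by
          rw [ContinuousLinearMap.star_eq_adjoint, ContinuousLinearMap.adjoint_inner_left]
      _ = 0 := by rw [hf, hfv, inner_zero_left]
  rw [A.orthogonal_ker, ← ContinuousLinearMap.star_eq_adjoint, hAsa.star_eq] at hmem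
  have h6 : w ∈ closure (A.range : Set H) := hmem
  obtain ⟨y, ⟨u, rfl⟩, hy⟩ := Metric.mem_closure_iff.1 h6 δ hδ
  refine ⟨u, ?_⟩
  rw [dist_eq_norm] at hy
  exact hy

/-- **vector recovery** -/
theorem vec_recov {ρ f : H →L[ℂ] H} (h0 : 0 ≤ ρ) (h1 : ρ ≤ 1) (hf : star f = f) (hfi : f * f = f)
    (hfρ : f * ρ = ρ) (inj0 : ∀ v, f v = v → ρ v = 0 → v = 0)
    (inj1 : ∀ v, f v = v → ρ v = v → v = 0) {w : H} (hw : f w = w) {δ : ℝ} (hδ : 0 < δ) :
    ∃ η : ℝ, 0 < η ∧ ∀ φ : ℝ → ℝ, ContinuousOn φ (Icc 0 1) → (∀ x ∈ Icc (0 : ℝ) 1, |φ x - 1| ≤ 1) →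
      (∀ x ∈ Icc (0 : ℝ) 1, |φ x - 1| * (x * (1 - x)) ≤ η) → ‖cfc φ ρ w - w‖ ≤ δ := by
  have hsa : IsSelfAdjoint ρ := IsSelfAdjoint.of_nonneg h0
  have hspec : spectrum ℝ ρ ⊆ Icc (0 : ℝ) 1 := fun x hx => spec_mem h0 h1 hx
  obtain ⟨u, hu⟩ := mem_closure_range h0 hf hfi hfρ inj0 inj1 hw (half_pos hδ)
  refine ⟨δ / 2 / (‖u‖ + 1), by positivity, fun φ hφ hφ1 hφ2 => ?_⟩
  have hφc : ContinuousOn φ (spectrum ℝ ρ) := hφ.mono hspec
  set E : H →L[ℂ] H := cfc (fun x => φ x - 1) ρ with hE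
  have hEeq : E = cfc φ ρ - 1 := by
    rw [hE, cfc_sub φ (fun _ => (1 : ℝ)) (a := ρ) hφc (by fun_prop), cfc_const_one ℝ ρ]
  have hEn : ‖E‖ ≤ 1 := by
    refine norm_cfc_le zero_le_one fun x hx => ?_
    exact hφ1 x (hspec hx)
  set A : H →L[ℂ] H := ρ * (1 - ρ) with hA
  have hAcfc : A = cfc (fun x : ℝ => x * (1 - x)) ρ := by
    rw [cfc_mul (fun x : ℝ => x) (fun x : ℝ => 1 - x) ρ (by fun_prop) (by fun_prop),
        cfc_sub (fun _ : ℝ => (1 : ℝ)) (fun x : ℝ => x) (a := ρ) (by fun_prop) (by fun_prop),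
        cfc_const_one ℝ ρ, cfc_id' ℝ ρ]
  have hEA : ‖E * A‖ ≤ δ / 2 / (‖u‖ + 1) := by
    rw [hE, hAcfc, ← cfc_mul (fun x => φ x - 1) (fun x : ℝ => x * (1 - x)) ρ
      (hφc.sub continuousOn_const) (by fun_prop)]
    refine norm_cfc_le (by positivity) fun x hx => ?_
    have hx' := hspec hx
    rw [Real.norm_eq_abs, abs_mul, abs_of_nonneg (mul_nonneg hx'.1 (by linarith [hx'.2]))]
    exact hφ2 x hx'
  have h3 : cfc φ ρ w - w = E (w - A u) + (E * A) u := by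
    have : cfc φ ρ w - w = E w := by rw [hEeq]; rfl
    rw [this, map_sub]
    simp
  rw [h3]
  have h4 : ‖E (w - A u)‖ ≤ δ / 2 := by
    calc ‖E (w - A u)‖ ≤ ‖E‖ * ‖w - A u‖ := E.le_opNorm _
      _ ≤ 1 * (δ / 2) := by gcongr
      _ = δ / 2 := one_mul _
  have h5 : ‖(E * A) u‖ ≤ δ / 2 := by
    calc ‖(E * A) u‖ ≤ ‖E * A‖ * ‖u‖ := (E * A).le_opNorm _
      _ ≤ (δ / 2 / (‖u‖ + 1)) * (‖u‖ + 1) := by gcongr; linarith
      _ = δ / 2 := by field_simp
  calc _ ≤ ‖E (w - A u)‖ + ‖(E * A) u‖ := norm_add_le _ _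
    _ ≤ δ := by linarith

/-! ### the operator `rho M ξ` of D1 -/

open Crest.Agent.R078.Z.RvD

variable {M : VonNeumannAlgebra H} {ξ : H}

theorem rho_nonneg (M : VonNeumannAlgebra H) (ξ : H) : 0 ≤ rho M ξ :=
  (ContinuousLinearMap.nonneg_iff_isPositive _).2 rho_isPositive

theorem ff_mul_ff : ff M ξ * ff M ξ = ff M ξ := by
  ext v
  exact ff_idem v

theorem rho_le_one : rho M ξ ≤ 1 := by
  have h1 : ff M ξ ≤ 1 := by
    have hp : IsStarProjection (ff M ξ) := ⟨ff_mul_ff, ff_star⟩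
    exact hp.le_one
  have h2 : rho M ξ ≤ ff M ξ := by
    rw [← rho_add_rho]
    exact le_add_of_nonneg_right (rho_nonneg M.commutant ξ)
  exact h2.trans h1

theorem ff_mul_rho : ff M ξ * rho M ξ = rho M ξ := by
  ext v
  exact ff_rho v

theorem of_ff_eq {v : H} (h : ff M ξ v = v) : ee M ξ v = v ∧ ee M.commutant ξ v = v := by
  constructor
  · rw [← h, ff_left]
  · rw [← h, ff_right]

theorem inj0 (v : H) (h : ff M ξ v = v) (hv : rho M ξ v = 0) : v = 0 :=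
  rho_inj (of_ff_eq h).1 (of_ff_eq h).2 hv

theorem inj1 (v : H) (h : ff M ξ v = v) (hv : rho M ξ v = v) : v = 0 := by
  have h2 := of_ff_eq h
  have h3 := rho_add_rho_apply h2.1 h2.2
  rw [hv] at h3
  have h4 : rho M.commutant ξ v = 0 := by simpa using h3
  refine rho_inj (M := M.commutant) h2.2 ?_ h4
  rw [VonNeumannAlgebra.commutant_commutant]
  exact h2.1

/-- the values of the iterates at `ξ` -/
theorem iter_apply (hEx : ExRN M ξ) (hEx' : ExRN M.commutant ξ) {lam : ℝ} (hlam : 0 < lam)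
    {z k : ℕ → (H →L[ℂ] H)} (hk : ∀ q, k q ∈ M.commutant)
    (hke : ∀ q, ee M.commutant ξ * k q * ee M.commutant ξ = k q)
    (hz : ∀ q, z (q + 1) ∈ M) (hze : ∀ q, ee M ξ * z (q + 1) * ee M ξ = z (q + 1))
    (h1 : ∀ q, RN M ξ lam (z q) (k q)) (h2 : ∀ q, RN M.commutant ξ lam⁻¹ (k q) (z (q + 1)))
    {q : ℕ} (hq : 1 ≤ q) :
    z q ξ = cfc (fun t => G lam t ^ q) (rho M ξ) (ff M ξ (z 0 ξ)) := by
  set x : ℕ → H := fun q => if q = 0 then ff M ξ (z 0 ξ) else z q ξ with hx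
  have hx0 : x 0 = ff M ξ (z 0 ξ) := by simp [hx]
  have hxs : ∀ q, x (q + 1) = z (q + 1) ξ := fun q => by simp [hx]
  have hρ : ∀ q, rho M ξ (x q) = rho M ξ (z q ξ) := by
    intro q
    rcases Nat.eq_zero_or_pos q with h | h
    · subst h
      rw [hx0, rho_ff]
    · obtain ⟨q, rfl⟩ := Nat.exists_eq_succ_of_ne_zero h.ne'
      rw [hxs]
  have key : ∀ q, DD M ξ lam (DD M ξ lam (x (q + 1))) =
      (4 * (lam : ℂ) ^ 2) • (rho M ξ (x q) - rho M ξ (rho M ξ (x q))) := by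
    intro q
    rw [hρ, hxs]
    exact RN_step hEx hEx' hlam.ne' (hk q) (hke q) (hz q) (hze q) (h1 q) (h2 q)
  have h3 := iter (rho_nonneg M ξ) rho_le_one hlam (D := DD M ξ lam) rfl key q
  rw [hx0] at h3
  obtain ⟨q, rfl⟩ := Nat.exists_eq_succ_of_ne_zero (show q ≠ 0 by omega)
  rw [← h3, hxs]

theorem cfc_comm_ff (φ : ℝ → ℝ) (v : H) :
    ff M ξ (cfc φ (rho M ξ) v) = cfc φ (rho M ξ) (ff M ξ v) := by
  have hsa : IsSelfAdjoint (rho M ξ) := IsSelfAdjoint.of_nonneg (rho_nonneg M ξ)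
  have hc : Commute (rho M ξ) (ff M ξ) := by
    change rho M ξ * ff M ξ = ff M ξ * rho M ξ
    ext v
    change rho M ξ (ff M ξ v) = ff M ξ (rho M ξ v)
    rw [rho_ff, ff_rho]
  have h1 : Commute (cfc φ (rho M ξ)) (ff M ξ) := hsa.commute_cfc hc φ
  exact (congrArg (fun T : H →L[ℂ] H => T v) h1).symm

/-- for all parameters `m, n, h` for which the window function is `η`-close to one on
`{η ≤ x (1 - x)}` and all alternating Radon-Nikodym iterates `z i j q` of `y`, the scalar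
recovery holds up to `κ`. -/
def RecovAt (M : VonNeumannAlgebra H) (ξ : H) (y α β : H →L[ℂ] H) (κ η : ℝ) : Prop :=
  ∀ (m n : ℕ) (h : ℝ), 1 ≤ m → 1 ≤ n → 0 < h →
      (∀ x : ℝ, 0 ≤ x → x ≤ 1 → η ≤ x * (1 - x) → |Phi m h n x - 1| ≤ η) →
      ∀ z k : Fin n → Fin n → ℕ → (H →L[ℂ] H),
      (∀ i j, z i j 0 = y) → (∀ i j q, k i j q ∈ M.commutant) →
      (∀ i j q, ee M.commutant ξ * k i j q * ee M.commutant ξ = k i j q) →
      (∀ i j q, z i j (q + 1) ∈ M) →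
      (∀ i j q, ee M ξ * z i j (q + 1) * ee M ξ = z i j (q + 1)) →
      (∀ (i j : Fin n) (q : ℕ), RN M ξ (Real.exp (-((((i : ℕ) : ℝ) - ((j : ℕ) : ℝ)) * h)))
        (z i j q) (k i j q)) →
      (∀ (i j : Fin n) (q : ℕ), RN M.commutant ξ
        (Real.exp (-((((i : ℕ) : ℝ) - ((j : ℕ) : ℝ)) * h)))⁻¹ (k i j q) (z i j (q + 1))) →
      ‖(1 / (n : ℂ)) * ∑ i, ∑ j, inner ℂ (β ξ) (((1 / 2 * c0 m h : ℝ) : ℂ) • z i j m (α ξ))
        - (1 / 2 : ℂ) * inner ℂ (β ξ) (y (α ξ))‖ ≤ κ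

theorem RecovAt.mono {y α β : H →L[ℂ] H} {κ η η' : ℝ} (hr : RecovAt M ξ y α β κ η)
    (h : η' ≤ η) : RecovAt M ξ y α β κ η' := by
  intro m n t hm hn ht hPhi
  exact hr m n t hm hn ht fun x hx0 hx1 hx => (hPhi x hx0 hx1 (h.trans hx)).trans h

/-- **scalar recovery**, one matrix element -/
theorem scalar_recov (hEx : ExRN M ξ) (hEx' : ExRN M.commutant ξ) {y α β : H →L[ℂ] H}
    (hα : α ∈ M.commutant) (hβ : β ∈ M.commutant) (hy : y ∈ M) {κ : ℝ} (hκ : 0 < κ) :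
    ∃ η : ℝ, 0 < η ∧ RecovAt M ξ y α β κ η := by
  have hsa : IsSelfAdjoint (rho M ξ) := IsSelfAdjoint.of_nonneg (rho_nonneg M ξ)
  have hspec : spectrum ℝ (rho M ξ) ⊆ Icc (0 : ℝ) 1 :=
    fun x hx => spec_mem (rho_nonneg M ξ) rho_le_one hx
  set w : H := (star α * β) ξ with hw
  have hwe : ee M ξ w = w := ee_apply_comm (mul_mem (star_mem hα) hβ)
  obtain ⟨η, hη, hη2⟩ := vec_recov (rho_nonneg M ξ) rho_le_one ff_star ff_mul_ff ff_mul_rho
    inj0 inj1 (ff_idem (M := M) (ξ := ξ) w) (δ := κ / (‖y ξ‖ + 1)) (by positivity)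
  refine ⟨η, hη, fun m n h hm hn hh hPhi z k hz0 hk hke hz hze h1 h2 => ?_⟩
  have hn' : (0 : ℝ) < n := by exact_mod_cast hn
  -- the window function
  have hrec : ‖cfc (Phi m h n) (rho M ξ) (ff M ξ w) - ff M ξ w‖ ≤ κ / (‖y ξ‖ + 1) := by
    apply hη2 _ (continuousOn_Phi m h n)
    · intro x hx
      have a1 := Phi_nonneg hm hh n hx.1 hx.2
      have a2 := Phi_le_two hm hh n hx.1 hx.2
      rw [abs_le]
      constructor <;> linarith
    · intro x hx
      have a1 := Phi_nonneg hm hh n hx.1 hx.2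
      have a2 := Phi_le_two hm hh n hx.1 hx.2
      have a3 : |Phi m h n x - 1| ≤ 1 := by
        rw [abs_le]
        constructor <;> linarith
      have a4 : 0 ≤ x * (1 - x) := mul_nonneg hx.1 (by linarith [hx.2])
      have a5 : x * (1 - x) ≤ 1 := by nlinarith [hx.1, hx.2]
      rcases le_total η (x * (1 - x)) with a6 | a6
      · calc |Phi m h n x - 1| * (x * (1 - x)) ≤ η * 1 := by
              gcongr
              exact hPhi x hx.1 hx.2 a6
          _ = η := mul_one _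
      · calc |Phi m h n x - 1| * (x * (1 - x)) ≤ 1 * η := by gcongr
          _ = η := one_mul _
  -- the matrix elements
  set g : ℕ → ℕ → ℂ := fun i j => inner ℂ w
    (cfc (fun t => G (Real.exp (-(((i : ℝ) - (j : ℝ)) * h))) t ^ m) (rho M ξ) (ff M ξ (y ξ))) with hg
  have hterm : ∀ i j : Fin n, inner ℂ (β ξ) (((1 / 2 * c0 m h : ℝ) : ℂ) • z i j m (α ξ)) =
      (1 / 2 : ℂ) * (((c0 m h : ℝ) : ℂ) * g i j) := by
    intro i j
    have hzm : z i j m ∈ M := by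
      obtain ⟨q, rfl⟩ := Nat.exists_eq_succ_of_ne_zero (show m ≠ 0 by omega)
      exact hz i j q
    have h3 := iter_apply hEx hEx' (Real.exp_pos _) (hk i j) (hke i j) (hz i j) (hze i j)
      (h1 i j) (h2 i j) hm
    rw [hz0] at h3
    have h4 : inner ℂ (β ξ) (z i j m (α ξ)) = g i j := by
      rw [comm_apply hzm hα, ← inner_star_left, h3]
      rfl
    rw [inner_smul_right, h4]
    push_cast
    ring
  have hsum : (1 / (n : ℂ)) * ∑ i, ∑ j, inner ℂ (β ξ) (((1 / 2 * c0 m h : ℝ) : ℂ) • z i j m (α ξ))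
      = (1 / 2 : ℂ) * inner ℂ w (cfc (Phi m h n) (rho M ξ) (ff M ξ (y ξ))) := by
    have hG : ∀ i j : ℕ, ContinuousOn (fun t => G (Real.exp (-(((i : ℝ) - j) * h))) t ^ m)
        (spectrum ℝ (rho M ξ)) := fun i j =>
      ((continuousOn_G _ (Real.exp_pos _)).mono hspec).pow m
    have hcfc : cfc (Phi m h n) (rho M ξ) = ((n : ℝ)⁻¹ : ℝ) • ∑ i ∈ Finset.range n, (c0 m h : ℝ) •
        ∑ j ∈ Finset.range n, cfc (fun t => G (Real.exp (-(((i : ℝ) - j) * h))) t ^ m) (rho M ξ) := by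
      unfold Phi
      rw [cfc_const_mul _ _ _ (continuousOn_finsetSum _ fun i _ => (continuousOn_F m h n i).mono hspec)]
      congr 1
      rw [show (fun x => ∑ i ∈ Finset.range n, F m h n i x) = ∑ i ∈ Finset.range n, F m h n i by
        ext x; simp]
      rw [cfc_sum _ _ _ (fun i _ => (continuousOn_F m h n i).mono hspec)]
      refine Finset.sum_congr rfl fun i _ => ?_
      unfold F
      rw [cfc_const_mul _ _ _ (continuousOn_finsetSum _ fun j _ => hG i j)]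
      congr 1
      rw [show (fun x => ∑ j ∈ Finset.range n, G (Real.exp (-(((i : ℝ) - j) * h))) x ^ m) =
        ∑ j ∈ Finset.range n, (fun x => G (Real.exp (-(((i : ℝ) - j) * h))) x ^ m) by
        ext x; simp]
      rw [cfc_sum _ _ _ (fun j _ => hG i j)]
    rw [hcfc]
    have hreal : ∀ (r : ℝ) (T : H →L[ℂ] H), r • T = (r : ℂ) • T :=
      fun r T => (Complex.coe_smul r T).symm
    simp only [hterm]
    simp only [hreal, smul_apply, sum_apply, inner_smul_right, inner_sum]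
    simp only [Finset.sum_range]
    simp only [← Finset.mul_sum]
    push_cast
    rw [hg]
    ring
  have hinner : inner ℂ w (cfc (Phi m h n) (rho M ξ) (ff M ξ (y ξ))) - inner ℂ (β ξ) (y (α ξ)) =
      inner ℂ (cfc (Phi m h n) (rho M ξ) (ff M ξ w) - ff M ξ w) (y ξ) := by
    have hcs : star (cfc (Phi m h n) (rho M ξ)) = cfc (Phi m h n) (rho M ξ) :=
      (cfc_predicate (Phi m h n) (rho M ξ) : IsSelfAdjoint _).star_eq
    have b1 : inner ℂ w (cfc (Phi m h n) (rho M ξ) (ff M ξ (y ξ))) =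
        inner ℂ (cfc (Phi m h n) (rho M ξ) (ff M ξ w)) (y ξ) := by
      rw [← inner_star_left, hcs, ← cfc_comm_ff]
      conv_rhs => rw [← ff_star, inner_star_left]
    have b2 : inner ℂ (β ξ) (y (α ξ)) = inner ℂ (ff M ξ w) (y ξ) := by
      have c1 : inner ℂ (ff M ξ w) (y ξ) = inner ℂ w (ff M ξ (y ξ)) := by
        conv_lhs => rw [← ff_star, inner_star_left]
      have c2 : ff M ξ (y ξ) = ee M ξ (y ξ) := by
        rw [ff_apply, ee_comm_apply hy]
      have c3 : inner ℂ w (ee M ξ (y ξ)) = inner ℂ w (y ξ) := by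
        rw [← inner_star_left, ee_star, hwe]
      rw [c1, c2, c3, comm_apply hy hα, ← inner_star_left]
      rfl
    rw [b1, b2, inner_sub_left]
  rw [hsum, ← mul_sub, hinner, norm_mul]
  have h5 : ‖(1 / 2 : ℂ)‖ ≤ 1 := by norm_num
  calc ‖(1 / 2 : ℂ)‖ * ‖inner ℂ (cfc (Phi m h n) (rho M ξ) (ff M ξ w) - ff M ξ w) (y ξ)‖
      ≤ 1 * (‖cfc (Phi m h n) (rho M ξ) (ff M ξ w) - ff M ξ w‖ * ‖y ξ‖) := by
        gcongr
        exact norm_inner_le_norm _ _
    _ ≤ 1 * ((κ / (‖y ξ‖ + 1)) * (‖y ξ‖ + 1)) := by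
        gcongr
        linarith
    _ = κ := by field_simp

/-- **scalar recovery**, finite family; feed `η` for `κ` and `b` into `LLB.exists_params`. -/
theorem scalar_recov_family (hEx : ExRN M ξ) (hEx' : ExRN M.commutant ξ) {p : ℕ}
    {Y A B : Fin p → (H →L[ℂ] H)} (hA : ∀ c, A c ∈ M.commutant) (hB : ∀ c, B c ∈ M.commutant)
    (hY : ∀ c, Y c ∈ M) {κ : ℝ} (hκ : 0 < κ) :
    ∃ η : ℝ, 0 < η ∧ ∀ c, RecovAt M ξ (Y c) (A c) (B c) κ η := by
  have h := fun c => scalar_recov hEx hEx' (hA c) (hB c) (hY c) hκ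
  choose e he0 he using h
  rcases isEmpty_or_nonempty (Fin p) with hp | hp
  · exact ⟨1, one_pos, fun c => (hp.false c).elim⟩
  · obtain ⟨c₀, hc₀⟩ := Finite.exists_min e
    exact ⟨e c₀, he0 c₀, fun c => (he c).mono (hc₀ c)⟩

end

end Crest.Agent.R078.Z.Rcv16
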