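import Crest.Agent.R078.S103Recov16

/-!
# R78 / S0103, letter lemma: recovery for the linear maps `T_λ` (helper16)
-/

set_option autoImplicit false

open Filter Topology Set
open scoped ComplexOrder

namespace Crest.Agent.R078.Z.Rcv16

open Crest.Agent.R078.Z.LLB Crest.Agent.R078.Z.RvD

noncomputable section

universe u

variable {H : Type u} [NormedAddCommGroup H] [InnerProductSpace ℂ H] [CompleteSpace H]

/-- `T` is the linear Radon–Nikodym map `T_λ` of `(M, ξ)` (535's `TLam` record) -/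
def TLamAt (M : VonNeumannAlgebra H) (ξ : H) (lam : ℝ)
    (T : (H →L[ℂ] H) →ₗ[ℂ] (H →L[ℂ] H)) : Prop :=
  ∀ x ∈ M, T x ∈ M.commutant ∧ RN M ξ lam x (T x) ∧
    (∀ v : H, (∀ z ∈ M, inner ℂ (z ξ) v = 0) → T x v = 0) ∧
    (∀ v : H, (∀ z ∈ M, inner ℂ (z ξ) v = 0) → star (T x) v = 0)

variable {M : VonNeumannAlgebra H} {ξ : H}

theorem mul_ee_of_vanish {T : H →L[ℂ] H} (h : ∀ v : H, (∀ z ∈ M, inner ℂ (z ξ) v = 0) → T v = 0) :
    T * ee M.commutant ξ = T := by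
  ext v
  have h1 : T (v - ee M.commutant ξ v) = 0 := by
    apply h
    intro z hz
    have h2 : inner ℂ (z ξ) (ee M.commutant ξ v) = inner ℂ (z ξ) v := by
      rw [← inner_star_left, ee_star, ee_comm_apply hz]
    rw [inner_sub_right, h2, sub_self]
  rw [map_sub, sub_eq_zero] at h1
  exact h1.symm

theorem corner_of_vanish {T : H →L[ℂ] H}
    (h : ∀ v : H, (∀ z ∈ M, inner ℂ (z ξ) v = 0) → T v = 0)
    (h' : ∀ v : H, (∀ z ∈ M, inner ℂ (z ξ) v = 0) → star T v = 0) :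
    ee M.commutant ξ * T * ee M.commutant ξ = T := by
  have h1 := mul_ee_of_vanish h
  have h2 := congrArg star (mul_ee_of_vanish h')
  rw [star_mul, star_star, ee_star] at h2
  rw [h2, h1]

theorem TLamAt.corner {lam : ℝ} {T : (H →L[ℂ] H) →ₗ[ℂ] (H →L[ℂ] H)} (hT : TLamAt M ξ lam T)
    {x : H →L[ℂ] H} (hx : x ∈ M) : ee M.commutant ξ * T x * ee M.commutant ξ = T x :=
  corner_of_vanish (hT x hx).2.2.1 (hT x hx).2.2.2

theorem TLamAt.exRN {T : (H →L[ℂ] H) →ₗ[ℂ] (H →L[ℂ] H)} (hT : TLamAt M ξ 1 T) : ExRN M ξ :=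
  fun z hz _ => ⟨T z, (hT z hz).1, hT.corner hz, (hT z hz).2.1⟩

theorem mem_of_mem_cc {x : H →L[ℂ] H} (hx : x ∈ M.commutant.commutant) : x ∈ M := by
  rwa [VonNeumannAlgebra.commutant_commutant] at hx

theorem mem_cc {x : H →L[ℂ] H} (hx : x ∈ M) : x ∈ M.commutant.commutant := by
  rwa [VonNeumannAlgebra.commutant_commutant]

/-- `(T'_{1/λ} T_λ)^q y ∈ M` -/
theorem pow_mem {lam : ℝ} {T T' : (H →L[ℂ] H) →ₗ[ℂ] (H →L[ℂ] H)} (hT : TLamAt M ξ lam T)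
    (hT' : TLamAt M.commutant ξ lam⁻¹ T') {y : H →L[ℂ] H} (hy : y ∈ M) (q : ℕ) :
    ((T' ∘ₗ T) ^ q) y ∈ M := by
  induction q with
  | zero => simpa using hy
  | succ q ih =>
    rw [pow_succ', Module.End.mul_apply, LinearMap.comp_apply]
    exact mem_of_mem_cc (hT' _ (hT _ ih).1).1

/-- `λ_ij = exp (-(i - j) h)` -/
def lamij (h : ℝ) (i j : ℕ) : ℝ := Real.exp (-(((i : ℝ) - (j : ℝ)) * h))

/-- **scalar recovery for the `T_λ`** -/
theorem recov_of_TLam {T T' : ℝ → ((H →L[ℂ] H) →ₗ[ℂ] (H →L[ℂ] H))}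
    (hT : ∀ lam : ℝ, 0 < lam → TLamAt M ξ lam (T lam))
    (hT' : ∀ lam : ℝ, 0 < lam → TLamAt M.commutant ξ lam (T' lam)) {p : ℕ}
    {Y A B : Fin p → (H →L[ℂ] H)} (hA : ∀ c, A c ∈ M.commutant) (hB : ∀ c, B c ∈ M.commutant)
    (hY : ∀ c, Y c ∈ M) {κ : ℝ} (hκ : 0 < κ) :
    ∃ η : ℝ, 0 < η ∧ ∀ (m n : ℕ) (h : ℝ), 1 ≤ m → 1 ≤ n → 0 < h →
      (∀ x : ℝ, 0 ≤ x → x ≤ 1 → η ≤ x * (1 - x) → |Phi m h n x - 1| ≤ η) →
      ∀ c, ‖(1 / (n : ℂ)) * ∑ i : Fin n, ∑ j : Fin n, inner ℂ (B c ξ)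
        ((((1 / 2 * c0 m h : ℝ) : ℂ) •
          (((T' (lamij h i j)⁻¹ ∘ₗ T (lamij h i j)) ^ m) (Y c))) (A c ξ))
        - (1 / 2 : ℂ) * inner ℂ (B c ξ) (Y c (A c ξ))‖ ≤ κ := by
  have hEx : ExRN M ξ := (hT 1 one_pos).exRN
  have hEx' : ExRN M.commutant ξ := (hT' 1 one_pos).exRN
  obtain ⟨η, hη, hr⟩ := scalar_recov_family hEx hEx' hA hB hY hκ
  refine ⟨η, hη, fun m n h hm hn hh hPhi c => ?_⟩
  have hl : ∀ i j, 0 < lamij h i j := fun i j => Real.exp_pos _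
  have hzm : ∀ (i j : Fin n) (q : ℕ),
      ((T' (lamij h i j)⁻¹ ∘ₗ T (lamij h i j)) ^ q) (Y c) ∈ M := fun i j q =>
    pow_mem (hT _ (hl i j)) (hT' _ (inv_pos.2 (hl i j))) (hY c) q
  have hzs : ∀ (i j : Fin n) (q : ℕ),
      ((T' (lamij h i j)⁻¹ ∘ₗ T (lamij h i j)) ^ (q + 1)) (Y c) =
      T' (lamij h i j)⁻¹ (T (lamij h i j)
        (((T' (lamij h i j)⁻¹ ∘ₗ T (lamij h i j)) ^ q) (Y c))) := fun i j q => by
    rw [pow_succ', Module.End.mul_apply, LinearMap.comp_apply]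
  have := hr c m n h hm hn hh hPhi
    (fun i j q => ((T' (lamij h i j)⁻¹ ∘ₗ T (lamij h i j)) ^ q) (Y c))
    (fun i j q => T (lamij h i j) (((T' (lamij h i j)⁻¹ ∘ₗ T (lamij h i j)) ^ q) (Y c)))
    (fun i j => by simp)
    (fun i j q => (hT _ (hl i j) _ (hzm i j q)).1)
    (fun i j q => (hT _ (hl i j)).corner (hzm i j q))
    (fun i j q => hzm i j (q + 1))
    (fun i j q => by
      rw [hzs]
      have h1 := (hT' _ (inv_pos.2 (hl i j))).corner (hT _ (hl i j) _ (hzm i j q)).1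
      rwa [VonNeumannAlgebra.commutant_commutant] at h1)
    (fun i j q => (hT _ (hl i j) _ (hzm i j q)).2.1)
    (fun i j q => by
      rw [hzs]
      exact (hT' _ (inv_pos.2 (hl i j)) _ (hT _ (hl i j) _ (hzm i j q)).1).2.1)
  simpa only [smul_apply] using this

end

end Crest.Agent.R078.Z.Rcv16
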