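/-
R78 / S0103, block TB4 (helper836): slot operators, product vectors, (S3), (S4), (S6), (S7).

`W ≃ (Fin d → A)` is the index set of the chain, `G = PiLp 2 (fun _ : W => H)`.
-/
import Crest.Agent.R078.S103LSys938

set_option autoImplicit false
set_option linter.unusedSectionVars false
set_option linter.deprecated false
set_option linter.unusedDecidableInType false
set_option linter.unusedFintypeInType false

open scoped InnerProductSpace ComplexConjugate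

noncomputable section

namespace Crest.Agent.R078.Z.TBV

open Crest.Agent.R078.S103.LSys

universe u

/-! ### combinatorics of one slot -/

section comb

variable {d : ℕ} {W A : Type} (e : W ≃ (Fin d → A)) (j : Fin d)

/-- replace the letter of slot `j` by `a`. -/
def st (w : W) (a : A) : W := e.symm (Function.update (e w) j a)

@[simp] theorem e_st (w : W) (a : A) : e (st e j w a) = Function.update (e w) j a := by
  simp [st]

theorem e_st_same (w : W) (a : A) : e (st e j w a) j = a := by simp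

theorem e_st_of_ne {i : Fin d} (h : i ≠ j) (w : W) (a : A) : e (st e j w a) i = e w i := by
  simp [h]

@[simp] theorem st_get (w : W) : st e j w (e w j) = w := by simp [st]

@[simp] theorem st_st (w : W) (a b : A) : st e j (st e j w a) b = st e j w b := by
  simp [st]

theorem st_comm {i j : Fin d} (h : i ≠ j) (w : W) (a b : A) :
    st e i (st e j w a) b = st e j (st e i w b) a := by
  simp only [st, Equiv.apply_symm_apply]
  rw [Function.update_comm h.symm]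

variable [Fintype W] [Fintype A]

theorem sum_st_swap {E : Type*} [AddCommMonoid E] (F : W → A → W → E) :
    ∑ w, ∑ a, F w a (st e j w a) = ∑ w, ∑ a, F (st e j w a) (e w j) w := by
  rw [← Fintype.sum_prod_type', ← Fintype.sum_prod_type']
  let φ : W × A ≃ W × A :=
    { toFun := fun p => (st e j p.1 p.2, e p.1 j)
      invFun := fun p => (st e j p.1 p.2, e p.1 j)
      left_inv := fun p => by simp
      right_inv := fun p => by simp }
  refine Fintype.sum_equiv φ _ _ fun p => ?_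
  simp [φ]

theorem sum_st_const {E : Type*} [AddCommMonoid E] (F : W → E) :
    ∑ w, ∑ a, F (st e j w a) = Fintype.card A • ∑ w, F w := by
  rw [sum_st_swap e j (fun _ _ w' => F w')]
  simp [Finset.sum_const, Finset.smul_sum]

end comb

/-! ### slot operators -/

variable {H : Type u} [NormedAddCommGroup H] [InnerProductSpace ℂ H]
variable {d : ℕ} {W A : Type} [Fintype W] [DecidableEq W] [Fintype A] [DecidableEq A]
  (e : W ≃ (Fin d → A))

/-- the operator matrix of a slot operator -/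
def slM (j : Fin d) (t : Matrix A A (H →L[ℂ] H)) : Matrix W W (H →L[ℂ] H) :=
  fun w w' => if w' = st e j w (e w' j) then t (e w j) (e w' j) else 0

/-- the operator `t` acting on slot `j`. -/
def sl (j : Fin d) (t : Matrix A A (H →L[ℂ] H)) :
    PiLp 2 (fun _ : W => H) →L[ℂ] PiLp 2 (fun _ : W => H) := opM (slM e j t)

theorem sl_apply (j : Fin d) (t : Matrix A A (H →L[ℂ] H)) (v : PiLp 2 (fun _ : W => H)) (w : W) :
    sl e j t v w = ∑ a, t (e w j) a (v (st e j w a)) := by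
  unfold sl
  rw [opM_apply]
  have h1 : ∀ w' : W, (slM e j t w w') (v w')
      = ∑ a, if w' = st e j w a then t (e w j) a (v w') else 0 := by
    intro w'
    unfold slM
    split_ifs with h
    · rw [Finset.sum_eq_single (e w' j)]
      · rw [if_pos h]
      · intro b _ hb
        rw [if_neg]
        intro h'
        exact hb (by rw [h']; simp)
      · intro h'; exact absurd (Finset.mem_univ _) h'
    · rw [Finset.sum_eq_zero]
      · simp
      · intro b _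
        rw [if_neg]
        intro h'
        exact h (by conv_lhs => rw [h']
                    rw [h']; simp)
  rw [Finset.sum_congr rfl fun w' _ => h1 w', Finset.sum_comm]
  refine Finset.sum_congr rfl fun a _ => ?_
  rw [Finset.sum_ite_eq']
  simp

/-- diagonal operators -/
def dg (x : H →L[ℂ] H) : PiLp 2 (fun _ : W => H) →L[ℂ] PiLp 2 (fun _ : W => H) :=
  opM (Matrix.diagonal fun _ => x)

@[simp] theorem dg_apply (x : H →L[ℂ] H) (v : PiLp 2 (fun _ : W => H)) (w : W) :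
    dg x v w = x (v w) := by
  unfold dg
  rw [opM_apply, Finset.sum_eq_single w]
  · simp
  · intro b _ hb
    rw [Matrix.diagonal_apply_ne _ (Ne.symm hb)]
    simp
  · intro h; exact absurd (Finset.mem_univ _) h

theorem sl_add (j : Fin d) (t s : Matrix A A (H →L[ℂ] H)) : sl e j (t + s) = sl e j t + sl e j s := by
  ext v w
  simp [sl_apply, Finset.sum_add_distrib]

theorem sl_zero (j : Fin d) : sl e j (0 : Matrix A A (H →L[ℂ] H)) = 0 := by
  ext v w
  simp [sl_apply]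

theorem sl_smul (j : Fin d) (c : ℂ) (t : Matrix A A (H →L[ℂ] H)) : sl e j (c • t) = c • sl e j t := by
  ext v w
  simp [sl_apply, Finset.smul_sum]

theorem sl_sum (j : Fin d) {ι : Type*} (s : Finset ι) (t : ι → Matrix A A (H →L[ℂ] H)) :
    sl e j (∑ i ∈ s, t i) = ∑ i ∈ s, sl e j (t i) := by
  classical
  induction s using Finset.induction_on with
  | empty => simp [sl_zero]
  | insert i s hi ih => rw [Finset.sum_insert hi, Finset.sum_insert hi, sl_add, ih]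

theorem sl_one (j : Fin d) : sl e j (1 : Matrix A A (H →L[ℂ] H)) = 1 := by
  ext v w
  rw [sl_apply, Finset.sum_eq_single (e w j)]
  · simp
  · intro b _ hb
    rw [Matrix.one_apply_ne (Ne.symm hb)]
    simp
  · intro h; exact absurd (Finset.mem_univ _) h

theorem sl_mul (j : Fin d) (t s : Matrix A A (H →L[ℂ] H)) : sl e j (t * s) = sl e j t * sl e j s := by
  ext v w
  rw [ContinuousLinearMap.mul_apply, sl_apply, sl_apply]
  simp only [sl_apply, e_st_same, st_st, map_sum]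
  rw [Finset.sum_comm]
  refine Finset.sum_congr rfl fun a _ => ?_
  rw [Matrix.mul_apply, ContinuousLinearMap.sum_apply]
  rfl

theorem sl_comm {i j : Fin d} (h : i ≠ j) (t s : Matrix A A (H →L[ℂ] H))
    (hc : ∀ a b a' b', t a b * s a' b' = s a' b' * t a b) :
    sl e i t * sl e j s = sl e j s * sl e i t := by
  ext v w
  simp only [ContinuousLinearMap.mul_apply, sl_apply, map_sum]
  rw [Finset.sum_comm]
  refine Finset.sum_congr rfl fun a _ => Finset.sum_congr rfl fun b _ => ?_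
  rw [e_st_of_ne e i h.symm, e_st_of_ne e j h, st_comm e h]
  exact DFunLike.congr_fun (hc (e w i) b (e w j) a) _

theorem sl_dg_comm (j : Fin d) (t : Matrix A A (H →L[ℂ] H)) (x : H →L[ℂ] H)
    (hc : ∀ a b, t a b * x = x * t a b) :
    sl e j t * dg x = dg x * sl e j t := by
  ext v w
  simp only [ContinuousLinearMap.mul_apply, sl_apply, dg_apply, map_sum]
  refine Finset.sum_congr rfl fun a _ => ?_
  exact DFunLike.congr_fun (hc (e w j) a) _

theorem dg_mul (x y : H →L[ℂ] H) : dg (W := W) (x * y) = dg x * dg y := by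
  ext v w; simp

theorem dg_smul (c : ℂ) (x : H →L[ℂ] H) : dg (W := W) (c • x) = c • dg x := by
  ext v w; simp

/-! ### norms -/

theorem norm_sq_eq {J : Type} [Fintype J] (v : PiLp 2 (fun _ : J => H)) :
    ‖v‖ ^ 2 = ∑ w, ‖v w‖ ^ 2 :=
  PiLp.norm_sq_eq_of_L2 _ v

theorem norm_sl_apply_sq (j : Fin d) (t : Matrix A A (H →L[ℂ] H)) (v : PiLp 2 (fun _ : W => H)) :
    (Fintype.card A : ℝ) * ‖sl e j t v‖ ^ 2
      = ∑ w, ‖opM t (WithLp.toLp 2 fun b => v (st e j w b))‖ ^ 2 := by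
  rw [norm_sq_eq, ← nsmul_eq_mul, ← sum_st_const e j (fun w => ‖sl e j t v w‖ ^ 2)]
  refine Finset.sum_congr rfl fun w _ => ?_
  rw [norm_sq_eq]
  refine Finset.sum_congr rfl fun a _ => ?_
  rw [sl_apply, opM_apply]
  simp

theorem norm_sq_st (j : Fin d) (v : PiLp 2 (fun _ : W => H)) :
    (Fintype.card A : ℝ) * ‖v‖ ^ 2
      = ∑ w, ‖(WithLp.toLp 2 fun b => v (st e j w b) : PiLp 2 (fun _ : A => H))‖ ^ 2 := by
  rw [norm_sq_eq, ← nsmul_eq_mul, ← sum_st_const e j (fun w => ‖v w‖ ^ 2)]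
  refine Finset.sum_congr rfl fun w _ => ?_
  rw [norm_sq_eq]

theorem norm_sl_le (j : Fin d) (t : Matrix A A (H →L[ℂ] H)) {C : ℝ} (hC : 0 ≤ C)
    (h : ‖opM t‖ ≤ C) : ‖sl e j t‖ ≤ C := by
  refine ContinuousLinearMap.opNorm_le_bound _ hC fun v => ?_
  by_cases hA : Nonempty A
  · have hcard : (0 : ℝ) < Fintype.card A := by exact_mod_cast Fintype.card_pos
    have key : (Fintype.card A : ℝ) * ‖sl e j t v‖ ^ 2 ≤ (Fintype.card A : ℝ) * (C * ‖v‖) ^ 2 := by
      rw [norm_sl_apply_sq, mul_pow, mul_left_comm, norm_sq_st e j, Finset.mul_sum]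
      refine Finset.sum_le_sum fun w _ => ?_
      rw [← mul_pow]
      refine pow_le_pow_left₀ (norm_nonneg _) ?_ 2
      exact (ContinuousLinearMap.le_opNorm _ _).trans (mul_le_mul_of_nonneg_right h (norm_nonneg _))
    have := le_of_mul_le_mul_left key hcard
    exact le_of_sq_le_sq this (by positivity)
  · have hW : IsEmpty W := ⟨fun w => hA ⟨e w j⟩⟩
    have : ‖sl e j t v‖ ^ 2 = 0 := by rw [norm_sq_eq]; simp
    have : ‖sl e j t v‖ = 0 := by simpa using this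
    rw [this]; positivity

theorem norm_dg_le (x : H →L[ℂ] H) : ‖dg (W := W) x‖ ≤ ‖x‖ := by
  refine ContinuousLinearMap.opNorm_le_bound _ (norm_nonneg _) fun v => ?_
  refine le_of_sq_le_sq ?_ (by positivity)
  rw [mul_pow, norm_sq_eq, norm_sq_eq, Finset.mul_sum]
  refine Finset.sum_le_sum fun w _ => ?_
  rw [dg_apply, ← mul_pow]
  exact pow_le_pow_left₀ (norm_nonneg _) (x.le_opNorm _) 2

/-! ### product vectors -/

/-- `∏_i ζ₀(w_i)` -/
def prodv (ζ₀ : A → ℂ) (w : W) : ℂ := ∏ i, ζ₀ (e w i)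

/-- the amplitude of all the slots except `j` -/
def restv (ζ₀ : A → ℂ) (j : Fin d) (w : W) : ℂ := ∏ i ∈ Finset.univ.erase j, ζ₀ (e w i)

theorem restv_st (ζ₀ : A → ℂ) (j : Fin d) (w : W) (a : A) :
    restv e ζ₀ j (st e j w a) = restv e ζ₀ j w := by
  unfold restv
  refine Finset.prod_congr rfl fun i hi => ?_
  rw [e_st_of_ne e j (Finset.ne_of_mem_erase hi)]

theorem prodv_eq (ζ₀ : A → ℂ) (j : Fin d) (w : W) :
    prodv e ζ₀ w = restv e ζ₀ j w * ζ₀ (e w j) := by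
  unfold prodv restv
  rw [mul_comm]
  exact (Finset.mul_prod_erase Finset.univ (fun i => ζ₀ (e w i)) (Finset.mem_univ j)).symm

theorem sum_rest (ζ₀ : A → ℂ) (hζ : ∑ a, ‖ζ₀ a‖ ^ 2 = 1) (j : Fin d) (f : A → ℝ) :
    ∑ w : W, ‖restv e ζ₀ j w‖ ^ 2 * f (e w j) = ∑ a, f a := by
  classical
  have h1 : ∀ w : W, ‖restv e ζ₀ j w‖ ^ 2 * f (e w j)
      = ∏ i, (if i = j then f (e w i) else ‖ζ₀ (e w i)‖ ^ 2) := by
    intro w
    rw [← Finset.mul_prod_erase Finset.univ _ (Finset.mem_univ j), if_pos rfl, mul_comm]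
    congr 1
    unfold restv
    rw [norm_prod, ← Finset.prod_pow]
    refine Finset.prod_congr rfl fun i hi => ?_
    rw [if_neg (Finset.ne_of_mem_erase hi)]
  rw [Finset.sum_congr rfl fun w _ => h1 w]
  rw [Fintype.sum_equiv e _ (fun g : Fin d → A => ∏ i, (if i = j then f (g i) else ‖ζ₀ (g i)‖ ^ 2))
    (fun w => rfl)]
  have h2 := (Finset.prod_univ_sum (fun _ : Fin d => (Finset.univ : Finset A))
    (fun i a => if i = j then f a else ‖ζ₀ a‖ ^ 2))
  rw [Fintype.piFinset_univ] at h2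
  rw [← h2, ← Finset.mul_prod_erase Finset.univ _ (Finset.mem_univ j)]
  simp only [if_true]
  rw [Finset.prod_eq_one, mul_one]
  intro i hi
  simp only [if_neg (Finset.ne_of_mem_erase hi)]
  exact hζ

/-- `v` in slot `j`, `ζ₀` in all the others. -/
def emb (ζ₀ : A → ℂ) (j : Fin d) (v : PiLp 2 (fun _ : A => H)) : PiLp 2 (fun _ : W => H) :=
  WithLp.toLp 2 fun w => restv e ζ₀ j w • v (e w j)

@[simp] theorem emb_apply (ζ₀ : A → ℂ) (j : Fin d) (v : PiLp 2 (fun _ : A => H)) (w : W) :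
    emb e ζ₀ j v w = restv e ζ₀ j w • v (e w j) := rfl

theorem norm_emb (ζ₀ : A → ℂ) (hζ : ∑ a, ‖ζ₀ a‖ ^ 2 = 1) (j : Fin d)
    (v : PiLp 2 (fun _ : A => H)) : ‖emb e ζ₀ j v‖ = ‖v‖ := by
  have : ‖emb e ζ₀ j v‖ ^ 2 = ‖v‖ ^ 2 := by
    rw [norm_sq_eq, norm_sq_eq, ← sum_rest e ζ₀ hζ j]
    refine Finset.sum_congr rfl fun w _ => ?_
    rw [emb_apply, norm_smul, mul_pow]
  exact (sq_eq_sq₀ (norm_nonneg _) (norm_nonneg _)).1 this

theorem emb_sub (ζ₀ : A → ℂ) (j : Fin d) (v v' : PiLp 2 (fun _ : A => H)) :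
    emb e ζ₀ j (v - v') = emb e ζ₀ j v - emb e ζ₀ j v' := by
  ext w; simp [smul_sub]

theorem emb_add (ζ₀ : A → ℂ) (j : Fin d) (v v' : PiLp 2 (fun _ : A => H)) :
    emb e ζ₀ j (v + v') = emb e ζ₀ j v + emb e ζ₀ j v' := by
  ext w; simp [smul_add]

theorem emb_smul (ζ₀ : A → ℂ) (j : Fin d) (c : ℂ) (v : PiLp 2 (fun _ : A => H)) :
    emb e ζ₀ j (c • v) = c • emb e ζ₀ j v := by
  ext w
  rw [emb_apply, PiLp.smul_apply, PiLp.smul_apply, emb_apply, smul_comm]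

theorem inner_emb (ζ₀ : A → ℂ) (hζ : ∑ a, ‖ζ₀ a‖ ^ 2 = 1) (j : Fin d)
    (v v' : PiLp 2 (fun _ : A => H)) : ⟪emb e ζ₀ j v, emb e ζ₀ j v'⟫_ℂ = ⟪v, v'⟫_ℂ := by
  rw [inner_eq_sum_norm_sq_div_four, inner_eq_sum_norm_sq_div_four]
  rw [← emb_add, ← emb_sub, norm_emb e ζ₀ hζ, norm_emb e ζ₀ hζ]
  have h1 : ∀ c : ℂ, ‖emb e ζ₀ j v - c • emb e ζ₀ j v'‖ = ‖v - c • v'‖ := by
    intro c; rw [← emb_smul, ← emb_sub, norm_emb e ζ₀ hζ]
  have h2 : ∀ c : ℂ, ‖emb e ζ₀ j v + c • emb e ζ₀ j v'‖ = ‖v + c • v'‖ := by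
    intro c; rw [← emb_smul, ← emb_add, norm_emb e ζ₀ hζ]
  rw [h1, h2]

theorem sl_emb (ζ₀ : A → ℂ) (j : Fin d) (t : Matrix A A (H →L[ℂ] H))
    (v : PiLp 2 (fun _ : A => H)) : sl e j t (emb e ζ₀ j v) = emb e ζ₀ j (opM t v) := by
  ext w
  rw [sl_apply, emb_apply, opM_apply, Finset.smul_sum]
  refine Finset.sum_congr rfl fun a _ => ?_
  rw [emb_apply, restv_st, e_st_same, map_smul]

theorem dg_emb (ζ₀ : A → ℂ) (j : Fin d) (x : H →L[ℂ] H)
    (v : PiLp 2 (fun _ : A => H)) :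
    dg x (emb e ζ₀ j v) = emb e ζ₀ j (WithLp.toLp 2 fun a => x (v a)) := by
  ext w
  simp

theorem emb_tv (ζ₀ : A → ℂ) (j : Fin d) (x : H) (z : A → ℂ) :
    emb e ζ₀ j (tv x z) = tv x (fun w => restv e ζ₀ j w * z (e w j)) := by
  ext w
  simp [mul_smul]

theorem emb_tv_prod (ζ₀ : A → ℂ) (j : Fin d) (x : H) :
    emb e ζ₀ j (tv x ζ₀) = tv x (prodv e ζ₀) := by
  rw [emb_tv]
  congr 1
  ext w
  rw [prodv_eq e ζ₀ j]

theorem norm_tv_sq (x : H) (z : W → ℂ) : ‖tv x z‖ ^ 2 = (∑ w, ‖z w‖ ^ 2) * ‖x‖ ^ 2 := by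
  rw [norm_sq_eq, Finset.sum_mul]
  refine Finset.sum_congr rfl fun w _ => ?_
  rw [tv_apply, norm_smul, mul_pow]

theorem dg_tv' (x : H →L[ℂ] H) (y : H) (z : W → ℂ) :
    (WithLp.toLp 2 fun w => x (tv y z w) : PiLp 2 (fun _ : W => H)) = tv (x y) z := by
  ext w; simp

theorem dg_tv (x : H →L[ℂ] H) (y : H) (z : W → ℂ) : dg x (tv y z) = tv (x y) z := by
  ext w; simp

/-! ### adjoints -/

section adj

variable [CompleteSpace H]

theorem opM_star {J : Type} [Fintype J] (t : Matrix J J (H →L[ℂ] H)) :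
    opM (star t) = star (opM t) := by
  rw [ContinuousLinearMap.star_eq_adjoint, ContinuousLinearMap.eq_adjoint_iff]
  intro x y
  rw [PiLp.inner_apply, PiLp.inner_apply]
  simp only [opM_apply, sum_inner, inner_sum]
  rw [Finset.sum_comm]
  refine Finset.sum_congr rfl fun i _ => Finset.sum_congr rfl fun k _ => ?_
  rw [Matrix.star_apply, ContinuousLinearMap.star_eq_adjoint,
    ContinuousLinearMap.adjoint_inner_left]

theorem opM_mul {J : Type} [Fintype J] (t s : Matrix J J (H →L[ℂ] H)) :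
    opM (t * s) = opM t * opM s := by
  ext v i
  rw [ContinuousLinearMap.mul_apply, opM_apply, opM_apply]
  simp only [opM_apply, map_sum]
  rw [Finset.sum_comm]
  refine Finset.sum_congr rfl fun a _ => ?_
  rw [Matrix.mul_apply, ContinuousLinearMap.sum_apply]
  rfl

theorem opM_one {J : Type} [Fintype J] [DecidableEq J] :
    opM (1 : Matrix J J (H →L[ℂ] H)) = 1 := by
  ext v i
  rw [opM_apply, Finset.sum_eq_single i]
  · simp
  · intro b _ hb
    rw [Matrix.one_apply_ne (Ne.symm hb)]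
    simp
  · intro h; exact absurd (Finset.mem_univ _) h

/-- a unitary operator matrix acts isometrically. -/
theorem norm_opM_of_unitary {J : Type} [Fintype J] [DecidableEq J] (t : Matrix J J (H →L[ℂ] H))
    (ht : star t * t = 1) (v : PiLp 2 (fun _ : J => H)) : ‖opM t v‖ = ‖v‖ := by
  have h1 : ⟪opM t v, opM t v⟫_ℂ = ⟪v, v⟫_ℂ := by
    rw [← ContinuousLinearMap.adjoint_inner_left, ← ContinuousLinearMap.star_eq_adjoint,
      ← opM_star, ← ContinuousLinearMap.mul_apply, ← opM_mul, ht, opM_one]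
    rfl
  rw [inner_self_eq_norm_sq_to_K, inner_self_eq_norm_sq_to_K] at h1
  have h2 : ‖opM t v‖ ^ 2 = ‖v‖ ^ 2 := by exact_mod_cast h1
  exact (sq_eq_sq₀ (norm_nonneg _) (norm_nonneg _)).1 h2

theorem sl_star (j : Fin d) (t : Matrix A A (H →L[ℂ] H)) : star (sl e j t) = sl e j (star t) := by
  symm
  rw [ContinuousLinearMap.star_eq_adjoint, ContinuousLinearMap.eq_adjoint_iff]
  intro x y
  rw [PiLp.inner_apply, PiLp.inner_apply]
  simp only [sl_apply, sum_inner, inner_sum]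
  have h := sum_st_swap e j (fun w a w' => ⟪x w, t (e w j) a (y w')⟫_ℂ)
  rw [h]
  refine Finset.sum_congr rfl fun w _ => Finset.sum_congr rfl fun a _ => ?_
  rw [Matrix.star_apply, ContinuousLinearMap.star_eq_adjoint,
    ContinuousLinearMap.adjoint_inner_left, e_st_same]

theorem dg_star (x : H →L[ℂ] H) : star (dg (W := W) x) = dg (star x) := by
  unfold dg
  rw [← opM_star]
  congr 1
  rw [Matrix.star_eq_conjTranspose, Matrix.diagonal_conjTranspose]
  rfl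

theorem dg_eq_sl (j : Fin d) (x : H →L[ℂ] H) : dg x = sl e j (Matrix.diagonal fun _ => x) := by
  ext v w
  rw [sl_apply, Finset.sum_eq_single (e w j)]
  · simp
  · intro b _ hb
    rw [Matrix.diagonal_apply_ne _ (Ne.symm hb)]
    simp
  · intro h; exact absurd (Finset.mem_univ _) h

/-! ### scalar matrices -/

/-- scalar operator matrices -/
def sc {J : Type} (k : Matrix J J ℂ) : Matrix J J (H →L[ℂ] H) := fun i j => k i j • 1

@[simp] theorem sc_apply {J : Type} (k : Matrix J J ℂ) (i j : J) :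
    (sc k i j : H →L[ℂ] H) = k i j • 1 := rfl

theorem sc_mul {J : Type} [Fintype J] (k k' : Matrix J J ℂ) :
    (sc (k * k') : Matrix J J (H →L[ℂ] H)) = sc k * sc k' := by
  refine Matrix.ext fun i j => ?_
  rw [sc_apply, Matrix.mul_apply, Matrix.mul_apply, Finset.sum_smul]
  refine Finset.sum_congr rfl fun a _ => ?_
  rw [sc_apply, sc_apply, smul_mul_smul_comm, one_mul]

theorem sc_star {J : Type} (k : Matrix J J ℂ) :
    (star (sc k) : Matrix J J (H →L[ℂ] H)) = sc (star k) := by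
  refine Matrix.ext fun i j => ?_
  rw [Matrix.star_apply, sc_apply, sc_apply, Matrix.star_apply, star_smul, star_one]

theorem sc_comm {J : Type} (k : Matrix J J ℂ) (i j : J) (x : H →L[ℂ] H) :
    (sc k i j) * x = x * sc k i j := by
  rw [sc_apply, smul_one_mul, mul_smul_one]

theorem opM_sc_tv {J : Type} [Fintype J] (k : Matrix J J ℂ) (x : H) (z : J → ℂ) :
    opM (sc k) (tv x z) = tv x (k.mulVec z) := by
  ext i
  rw [opM_apply, tv_apply, Matrix.mulVec, dotProduct, Finset.sum_smul]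
  refine Finset.sum_congr rfl fun a _ => ?_
  rw [sc_apply, tv_apply, ContinuousLinearMap.smul_apply, ContinuousLinearMap.one_apply, smul_smul]

/-- the Hilbert–Schmidt bound -/
theorem norm_opM_sc_le {J : Type} [Fintype J] (k : Matrix J J ℂ) {K : ℝ} (hK : 0 ≤ K)
    (h : ∑ i, ∑ j, ‖k i j‖ ^ 2 ≤ K ^ 2) : ‖opM (sc k : Matrix J J (H →L[ℂ] H))‖ ≤ K := by
  refine ContinuousLinearMap.opNorm_le_bound _ hK fun v => ?_
  refine le_of_sq_le_sq ?_ (by positivity)
  rw [mul_pow, norm_sq_eq]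
  calc ∑ i, ‖opM (sc k) v i‖ ^ 2 ≤ ∑ i, (∑ j, ‖k i j‖ ^ 2) * ‖v‖ ^ 2 := by
        refine Finset.sum_le_sum fun i _ => ?_
        rw [opM_apply, norm_sq_eq v]
        have h1 : ‖∑ j, (sc k i j : H →L[ℂ] H) (v j)‖ ≤ ∑ j, ‖k i j‖ * ‖v j‖ := by
          refine (norm_sum_le _ _).trans (Finset.sum_le_sum fun j _ => ?_)
          rw [sc_apply, ContinuousLinearMap.smul_apply, ContinuousLinearMap.one_apply, norm_smul]
        calc _ ≤ (∑ j, ‖k i j‖ * ‖v j‖) ^ 2 := pow_le_pow_left₀ (norm_nonneg _) h1 2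
          _ ≤ _ := Finset.sum_mul_sq_le_sq_mul_sq _ _ _
    _ = (∑ i, ∑ j, ‖k i j‖ ^ 2) * ‖v‖ ^ 2 := by rw [Finset.sum_mul]
    _ ≤ K ^ 2 * ‖v‖ ^ 2 := mul_le_mul_of_nonneg_right h (by positivity)

/-! ### the slot projection -/

/-- `ζ₀ ζ₀^*` -/
def pz (ζ₀ : A → ℂ) : Matrix A A ℂ := fun a b => ζ₀ a * conj (ζ₀ b)

theorem pz_star (ζ₀ : A → ℂ) : star (pz ζ₀) = pz ζ₀ := by
  ext a b
  rw [Matrix.star_apply]
  simp [pz, mul_comm]

theorem sum_conj_mul {ζ₀ : A → ℂ} (hζ : ∑ a, ‖ζ₀ a‖ ^ 2 = 1) : ∑ b, conj (ζ₀ b) * ζ₀ b = 1 := by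
  have : ∀ b, conj (ζ₀ b) * ζ₀ b = ((‖ζ₀ b‖ ^ 2 : ℝ) : ℂ) := by
    intro b
    rw [← Complex.normSq_eq_conj_mul_self, Complex.normSq_eq_norm_sq]
  rw [Finset.sum_congr rfl fun b _ => this b, ← Complex.ofReal_sum, hζ, Complex.ofReal_one]

theorem pz_mulVec {ζ₀ : A → ℂ} (hζ : ∑ a, ‖ζ₀ a‖ ^ 2 = 1) : (pz ζ₀).mulVec ζ₀ = ζ₀ := by
  ext a
  rw [Matrix.mulVec, dotProduct]
  simp only [pz, mul_assoc]
  rw [← Finset.mul_sum, sum_conj_mul hζ, mul_one]

/-- `p₀ K p₀ = ⟨ζ₀, K ζ₀⟩ p₀` -/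
theorem pz_mul_mul (ζ₀ : A → ℂ) (K : Matrix A A ℂ) :
    pz ζ₀ * K * pz ζ₀ = (∑ a, conj (ζ₀ a) * K.mulVec ζ₀ a) • pz ζ₀ := by
  ext a b
  rw [Matrix.mul_apply, Matrix.smul_apply]
  simp only [Matrix.mul_apply, pz, Matrix.mulVec, dotProduct, smul_eq_mul, Finset.sum_mul,
    Finset.mul_sum]
  rw [Finset.sum_comm]
  refine Finset.sum_congr rfl fun c _ => Finset.sum_congr rfl fun c' _ => ?_
  ring

theorem pz_idem {ζ₀ : A → ℂ} (hζ : ∑ a, ‖ζ₀ a‖ ^ 2 = 1) : pz ζ₀ * pz ζ₀ = pz ζ₀ := by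
  have := pz_mul_mul ζ₀ 1
  rw [mul_one, Matrix.one_mulVec, sum_conj_mul hζ, one_smul] at this
  exact this

/-- slot projection -/
def Pj (ζ₀ : A → ℂ) (j : Fin d) : PiLp 2 (fun _ : W => H) →L[ℂ] PiLp 2 (fun _ : W => H) :=
  sl e j (sc (pz ζ₀))

theorem Pj_star (ζ₀ : A → ℂ) (j : Fin d) : star (Pj (H := H) e ζ₀ j) = Pj e ζ₀ j := by
  rw [Pj, sl_star, sc_star, pz_star]

theorem Pj_idem {ζ₀ : A → ℂ} (hζ : ∑ a, ‖ζ₀ a‖ ^ 2 = 1) (j : Fin d) :
    Pj (H := H) e ζ₀ j * Pj e ζ₀ j = Pj e ζ₀ j := by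
  rw [Pj, ← sl_mul, ← sc_mul, pz_idem hζ]

theorem sl_sc_ζ (ζ₀ : A → ℂ) (j : Fin d) (k : Matrix A A ℂ) (x : H) :
    sl e j (sc k) (tv x (prodv e ζ₀)) = emb e ζ₀ j (tv x (k.mulVec ζ₀)) := by
  rw [← emb_tv_prod e ζ₀ j, sl_emb, opM_sc_tv]

theorem Pj_ζ {ζ₀ : A → ℂ} (hζ : ∑ a, ‖ζ₀ a‖ ^ 2 = 1) (j : Fin d) (x : H) :
    Pj e ζ₀ j (tv x (prodv e ζ₀)) = tv x (prodv e ζ₀) := by
  rw [Pj, sl_sc_ζ, pz_mulVec hζ, emb_tv_prod]

theorem sl_sc_comm {i j : Fin d} (h : i ≠ j) (k : Matrix A A ℂ) (t : Matrix A A (H →L[ℂ] H)) :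
    sl e i (sc k) * sl e j t = sl e j t * sl e i (sc k) :=
  sl_comm e h _ _ fun _ _ _ _ => sc_comm _ _ _ _

theorem Pj_comm (ζ₀ : A → ℂ) (i j : Fin d) :
    Pj (H := H) e ζ₀ i * Pj e ζ₀ j = Pj e ζ₀ j * Pj e ζ₀ i := by
  by_cases h : i = j
  · rw [h]
  · exact sl_sc_comm e h _ _

theorem dg_sc_comm (j : Fin d) (k : Matrix A A ℂ) (x : H →L[ℂ] H) :
    dg x * sl e j (sc k) = sl e j (sc k) * dg x :=
  (sl_dg_comm e j _ x fun _ _ => sc_comm _ _ _ _).symm

/-- (S3) -/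
theorem isom_of_Pj {ζ₀ : A → ℂ} (j : Fin d) (k : Matrix A A ℂ)
    (hk : ∑ a, ‖k.mulVec ζ₀ a‖ ^ 2 = 1) (v : PiLp 2 (fun _ : W => H)) (hv : Pj e ζ₀ j v = v) :
    ‖sl e j (sc k) v‖ = ‖v‖ := by
  have hm : pz ζ₀ * (star k * k) * pz ζ₀ = pz ζ₀ := by
    rw [pz_mul_mul]
    have : ∑ a, conj (ζ₀ a) * (star k * k).mulVec ζ₀ a = 1 := by
      have h1 : ∑ a, conj (ζ₀ a) * (star k * k).mulVec ζ₀ a
          = ∑ a, conj (k.mulVec ζ₀ a) * k.mulVec ζ₀ a := by
        rw [← Matrix.mulVec_mulVec]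
        have := Matrix.dotProduct_mulVec (fun a => conj (ζ₀ a)) (star k) (k.mulVec ζ₀)
        rw [dotProduct, dotProduct] at this
        rw [this]
        refine Finset.sum_congr rfl fun a _ => ?_
        congr 1
        rw [Matrix.vecMul, Matrix.mulVec, dotProduct, dotProduct, map_sum]
        refine Finset.sum_congr rfl fun b _ => ?_
        rw [Matrix.star_apply, map_mul, mul_comm]
        rfl
      rw [h1, sum_conj_mul hk]
    rw [this, one_smul]
  have h1 : ⟪sl e j (sc k) v, sl e j (sc k) v⟫_ℂ = ⟪v, v⟫_ℂ := by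
    have h2 : Pj (H := H) e ζ₀ j * (star (sl e j (sc k)) * sl e j (sc k)) * Pj e ζ₀ j
        = Pj e ζ₀ j := by
      rw [sl_star, sc_star, ← sl_mul, ← sc_mul, Pj, ← sl_mul, ← sc_mul, ← sl_mul, ← sc_mul, hm]
    calc ⟪sl e j (sc k) v, sl e j (sc k) v⟫_ℂ
        = ⟪sl e j (sc k) (Pj e ζ₀ j v), sl e j (sc k) (Pj e ζ₀ j v)⟫_ℂ := by rw [hv]
      _ = ⟪v, (star (Pj (H := H) e ζ₀ j) * (star (sl e j (sc k)) * sl e j (sc k))
            * Pj (H := H) e ζ₀ j : PiLp 2 (fun _ : W => H) →L[ℂ] PiLp 2 (fun _ : W => H)) v⟫_ℂ := by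
          simp only [ContinuousLinearMap.mul_apply, ContinuousLinearMap.star_eq_adjoint,
            ContinuousLinearMap.adjoint_inner_right]
      _ = ⟪v, v⟫_ℂ := by rw [Pj_star, h2, hv]
  rw [inner_self_eq_norm_sq_to_K, inner_self_eq_norm_sq_to_K] at h1
  have h2 : ‖sl e j (sc k) v‖ ^ 2 = ‖v‖ ^ 2 := by exact_mod_cast h1
  exact (sq_eq_sq₀ (norm_nonneg _) (norm_nonneg _)).1 h2

/-- compression of a slot operator to the state `ζ₀`. -/
def comp (ζ₀ : A → ℂ) (t : Matrix A A (H →L[ℂ] H)) : H →L[ℂ] H :=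
  ∑ a, ∑ b, (conj (ζ₀ a) * ζ₀ b) • t a b

theorem comp_star (ζ₀ : A → ℂ) (t : Matrix A A (H →L[ℂ] H)) :
    star (comp ζ₀ t) = comp ζ₀ (star t) := by
  unfold comp
  rw [star_sum, Finset.sum_comm]
  refine Finset.sum_congr rfl fun a _ => ?_
  rw [star_sum]
  refine Finset.sum_congr rfl fun b _ => ?_
  rw [star_smul, Matrix.star_apply, star_mul']
  congr 1
  simp [mul_comm]

/-- (S4) -/
theorem Pj_mul_mul_Pj (ζ₀ : A → ℂ) (j : Fin d) (t : Matrix A A (H →L[ℂ] H)) :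
    Pj e ζ₀ j * sl e j t * Pj e ζ₀ j = dg (comp ζ₀ t) * Pj e ζ₀ j := by
  rw [Pj, dg_eq_sl e j, ← sl_mul, ← sl_mul, ← sl_mul]
  congr 1
  refine Matrix.ext fun a b => ?_
  rw [Matrix.diagonal_mul, Matrix.mul_apply]
  simp only [Matrix.mul_apply, sc_apply, pz, comp, Finset.sum_mul]
  rw [Finset.sum_comm]
  refine Finset.sum_congr rfl fun c _ => Finset.sum_congr rfl fun c' _ => ?_
  rw [smul_one_mul, mul_smul_one, smul_smul, mul_smul_one, smul_smul]
  congr 1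
  ring

theorem comp_apply (ζ₀ : A → ℂ) (t : Matrix A A (H →L[ℂ] H)) (x : H) :
    comp ζ₀ t x = ∑ a, conj (ζ₀ a) • opM t (tv x ζ₀) a := by
  unfold comp
  rw [ContinuousLinearMap.sum_apply]
  refine Finset.sum_congr rfl fun a _ => ?_
  rw [ContinuousLinearMap.sum_apply, opM_apply, Finset.smul_sum]
  refine Finset.sum_congr rfl fun b _ => ?_
  rw [ContinuousLinearMap.smul_apply, tv_apply, map_smul, smul_smul]

theorem norm_comp_le {ζ₀ : A → ℂ} (hζ : ∑ a, ‖ζ₀ a‖ ^ 2 = 1) (t : Matrix A A (H →L[ℂ] H))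
    {C : ℝ} (hC : 0 ≤ C) (ht : ∀ v, ‖opM t v‖ ≤ C * ‖v‖) : ‖comp ζ₀ t‖ ≤ C := by
  refine ContinuousLinearMap.opNorm_le_bound _ hC fun x => ?_
  rw [comp_apply]
  have h1 : ‖∑ a, conj (ζ₀ a) • opM t (tv x ζ₀) a‖ ≤ ∑ a, ‖ζ₀ a‖ * ‖opM t (tv x ζ₀) a‖ := by
    refine (norm_sum_le _ _).trans (Finset.sum_le_sum fun a _ => ?_)
    rw [norm_smul, RCLike.norm_conj]
  have h2 : (∑ a, ‖ζ₀ a‖ * ‖opM t (tv x ζ₀) a‖) ^ 2 ≤ (C * ‖x‖) ^ 2 := by
    refine (Finset.sum_mul_sq_le_sq_mul_sq _ _ _).trans ?_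
    rw [hζ, one_mul, ← norm_sq_eq]
    refine pow_le_pow_left₀ (norm_nonneg _) ((ht _).trans (le_of_eq ?_)) 2
    congr 1
    have := norm_tv_sq x ζ₀
    rw [hζ, one_mul] at this
    exact (sq_eq_sq₀ (norm_nonneg _) (norm_nonneg _)).1 this
  exact h1.trans (le_of_sq_le_sq h2 (by positivity))

end adj

end Crest.Agent.R078.Z.TBV
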