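/-
R78 / S0103, block TB4 (helper836), part 2: the two legs of a slot.
-/
import Crest.Agent.R078.S103TBVec836

set_option autoImplicit false
set_option linter.unusedSectionVars false
set_option linter.deprecated false
set_option linter.unusedDecidableInType false
set_option linter.unusedFintypeInType false

open scoped InnerProductSpace ComplexConjugate

noncomputable section

namespace Crest.Agent.R078.Z.TBV

open Crest.Agent.R078.S103.LSys

universe u

variable {H : Type u} [NormedAddCommGroup H] [InnerProductSpace ℂ H]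

/-! ### the two legs -/

section legs

variable {I : Type} [Fintype I] [DecidableEq I]

theorem leg1_mul (x y : Matrix I I (H →L[ℂ] H)) : leg1 (x * y) = leg1 x * leg1 y := by
  refine Matrix.ext fun p q => ?_
  rw [Matrix.mul_apply, Fintype.sum_prod_type]
  simp only [leg1, Matrix.mul_apply]
  split_ifs with h
  · refine Finset.sum_congr rfl fun a _ => ?_
    rw [Finset.sum_eq_single q.2]
    · simp [h]
    · intro b _ hb
      rw [if_neg hb, mul_zero]
    · intro h; exact absurd (Finset.mem_univ _) h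
  · symm
    refine Finset.sum_eq_zero fun a _ => Finset.sum_eq_zero fun b _ => ?_
    by_cases hb : b = q.2
    · rw [if_neg (by rw [hb]; exact h), zero_mul]
    · rw [if_neg hb, mul_zero]

theorem leg2_mul (x y : Matrix I I (H →L[ℂ] H)) : leg2 (x * y) = leg2 x * leg2 y := by
  refine Matrix.ext fun p q => ?_
  rw [Matrix.mul_apply, Fintype.sum_prod_type_right]
  simp only [leg2, Matrix.mul_apply]
  split_ifs with h
  · refine Finset.sum_congr rfl fun a _ => ?_
    rw [Finset.sum_eq_single q.1]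
    · simp [h]
    · intro b _ hb
      rw [if_neg hb, mul_zero]
    · intro h; exact absurd (Finset.mem_univ _) h
  · symm
    refine Finset.sum_eq_zero fun a _ => Finset.sum_eq_zero fun b _ => ?_
    by_cases hb : b = q.1
    · rw [if_neg (by rw [hb]; exact h), zero_mul]
    · rw [if_neg hb, mul_zero]

theorem leg1_one : leg1 (1 : Matrix I I (H →L[ℂ] H)) = 1 := by
  refine Matrix.ext fun p q => ?_
  simp only [leg1, Matrix.one_apply, Prod.ext_iff]
  by_cases h1 : p.1 = q.1 <;> by_cases h2 : p.2 = q.2 <;> simp [h1, h2]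

theorem leg2_one : leg2 (1 : Matrix I I (H →L[ℂ] H)) = 1 := by
  refine Matrix.ext fun p q => ?_
  simp only [leg2, Matrix.one_apply, Prod.ext_iff]
  by_cases h1 : p.1 = q.1 <;> by_cases h2 : p.2 = q.2 <;> simp [h1, h2]

theorem leg_comm (x y : Matrix I I (H →L[ℂ] H)) (h : ∀ i j i' j', x i j * y i' j' = y i' j' * x i j) :
    leg1 x * leg2 y = leg2 y * leg1 x := by
  refine Matrix.ext fun p q => ?_
  rw [Matrix.mul_apply, Matrix.mul_apply, Finset.sum_eq_single (q.1, p.2),
    Finset.sum_eq_single (p.1, q.2)]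
  · simp [leg1, leg2, h]
  · rintro ⟨a, b⟩ _ hb
    simp only [leg1, leg2]
    by_cases h1 : p.1 = a
    · by_cases h2 : b = q.2
      · exact absurd (by rw [h1, h2]) hb
      · rw [if_neg h2, mul_zero]
    · rw [if_neg h1, zero_mul]
  · intro h; exact absurd (Finset.mem_univ _) h
  · rintro ⟨a, b⟩ _ hb
    simp only [leg1, leg2]
    by_cases h1 : a = q.1
    · by_cases h2 : p.2 = b
      · exact absurd (by rw [h1, h2]) hb
      · rw [if_neg h2, zero_mul]
    · rw [if_neg h1, mul_zero]
  · intro h; exact absurd (Finset.mem_univ _) h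

theorem leg1_smul (c : ℂ) (x : Matrix I I (H →L[ℂ] H)) : leg1 (c • x) = c • leg1 x := by
  refine Matrix.ext fun p q => ?_
  simp only [leg1, Matrix.smul_apply]
  split_ifs <;> simp

theorem leg1_sum {ι : Type*} (s : Finset ι) (x : ι → Matrix I I (H →L[ℂ] H)) :
    leg1 (∑ i ∈ s, x i) = ∑ i ∈ s, leg1 (x i) := by
  refine Matrix.ext fun p q => ?_
  rw [Matrix.sum_apply]
  simp only [leg1, Matrix.sum_apply]
  split_ifs <;> simp

theorem leg1_zero : leg1 (0 : Matrix I I (H →L[ℂ] H)) = 0 := by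
  refine Matrix.ext fun p q => ?_
  simp [leg1]

/-- scalar matrix on the second leg -/
def leg2s (k : Matrix I I ℂ) : Matrix (I × I) (I × I) ℂ :=
  fun p q => if p.1 = q.1 then k p.2 q.2 else 0

theorem leg2s_mulVec (k : Matrix I I ℂ) (z : I × I → ℂ) : (leg2s k).mulVec z = leg2c k z := by
  ext p
  rw [Matrix.mulVec, dotProduct, Fintype.sum_prod_type, leg2c, Finset.sum_eq_single p.1]
  · simp [leg2s]
  · intro b _ hb
    refine Finset.sum_eq_zero fun c _ => ?_
    simp [leg2s, Ne.symm hb]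
  · intro h; exact absurd (Finset.mem_univ _) h

variable [CompleteSpace H]

theorem leg1_star (x : Matrix I I (H →L[ℂ] H)) : leg1 (star x) = star (leg1 x) := by
  refine Matrix.ext fun p q => ?_
  rw [Matrix.star_apply]
  simp only [leg1, Matrix.star_apply]
  by_cases h : p.2 = q.2
  · rw [if_pos h, if_pos h.symm]
  · rw [if_neg h, if_neg (Ne.symm h), star_zero]

theorem leg2_star (x : Matrix I I (H →L[ℂ] H)) : leg2 (star x) = star (leg2 x) := by
  refine Matrix.ext fun p q => ?_
  rw [Matrix.star_apply]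
  simp only [leg2, Matrix.star_apply]
  by_cases h : p.1 = q.1
  · rw [if_pos h, if_pos h.symm]
  · rw [if_neg h, if_neg (Ne.symm h), star_zero]

theorem leg2_sc (k : Matrix I I ℂ) : leg2 (sc k : Matrix I I (H →L[ℂ] H)) = sc (leg2s k) := by
  refine Matrix.ext fun p q => ?_
  simp only [leg2, leg2s, sc_apply]
  split_ifs <;> simp

theorem leg2s_comm_leg1 (k : Matrix I I ℂ) (x : Matrix I I (H →L[ℂ] H)) :
    leg1 x * sc (leg2s k) = sc (leg2s k) * leg1 x := by
  rw [← leg2_sc]
  exact leg_comm _ _ fun i j i' j' => (sc_comm k i' j' _).symm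

/-- Hilbert–Schmidt bound for scalar matrices on the second leg. -/
theorem norm_opM_leg2s_le (k : Matrix I I ℂ) {K : ℝ} (hK : 0 ≤ K)
    (h : ∑ i, ∑ j, ‖k i j‖ ^ 2 ≤ K ^ 2) :
    ‖opM (sc (leg2s k) : Matrix (I × I) (I × I) (H →L[ℂ] H))‖ ≤ K := by
  refine ContinuousLinearMap.opNorm_le_bound _ hK fun v => ?_
  refine le_of_sq_le_sq ?_ (by positivity)
  rw [mul_pow, norm_sq_eq, norm_sq_eq v, Fintype.sum_prod_type, Fintype.sum_prod_type,
    Finset.mul_sum]
  refine Finset.sum_le_sum fun i _ => ?_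
  have h0 : ∀ b, opM (sc (leg2s k)) v (i, b) = ∑ c, k b c • v (i, c) := by
    intro b
    rw [opM_apply, Fintype.sum_prod_type, Finset.sum_eq_single i]
    · simp [leg2s]
    · intro a _ ha
      refine Finset.sum_eq_zero fun c _ => ?_
      simp [leg2s, Ne.symm ha]
    · intro h; exact absurd (Finset.mem_univ _) h
  calc ∑ b, ‖opM (sc (leg2s k)) v (i, b)‖ ^ 2
      ≤ ∑ b, (∑ c, ‖k b c‖ ^ 2) * ∑ c, ‖v (i, c)‖ ^ 2 := by
        refine Finset.sum_le_sum fun b _ => ?_
        rw [h0]
        have h1 : ‖∑ c, k b c • v (i, c)‖ ≤ ∑ c, ‖k b c‖ * ‖v (i, c)‖ := by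
          refine (norm_sum_le _ _).trans (Finset.sum_le_sum fun c _ => ?_)
          rw [norm_smul]
        calc _ ≤ (∑ c, ‖k b c‖ * ‖v (i, c)‖) ^ 2 := pow_le_pow_left₀ (norm_nonneg _) h1 2
          _ ≤ _ := Finset.sum_mul_sq_le_sq_mul_sq _ _ _
    _ = (∑ b, ∑ c, ‖k b c‖ ^ 2) * ∑ c, ‖v (i, c)‖ ^ 2 := by rw [Finset.sum_mul]
    _ ≤ K ^ 2 * ∑ c, ‖v (i, c)‖ ^ 2 := mul_le_mul_of_nonneg_right h (by positivity)

end legs

end Crest.Agent.R078.Z.TBV
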