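/-
R78 / S0103, block TB4 (helper836), part 3: the fields of `SlotSys` coming from a `LetterSystem`
(everything except the memberships in the amplified algebras and the lifts).

`e : W ≃ (Fin d → I × I)`; use `Equiv.refl _` for `W = (Fin d → I × I)`.
-/
import Crest.Agent.R078.S103TBLegs836

set_option autoImplicit false
set_option linter.unusedSectionVars false
set_option linter.deprecated false
set_option linter.unusedDecidableInType false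
set_option linter.unusedFintypeInType false

open scoped InnerProductSpace ComplexConjugate

noncomputable section

namespace Crest.Agent.R078.Z.TBV

open Crest.Agent.R078.S103.LSys

universe u

variable {H : Type u} [NormedAddCommGroup H] [InnerProductSpace ℂ H] [CompleteSpace H]
variable {d : ℕ} {W : Type} [Fintype W] [DecidableEq W]

theorem norm_tv {J : Type} [Fintype J] (x : H) (z : J → ℂ) (hz : ∑ w, ‖z w‖ ^ 2 = 1) :
    ‖tv x z‖ = ‖x‖ := by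
  have h : ‖tv x z‖ ^ 2 = ‖x‖ ^ 2 := by
    rw [norm_sq_eq]
    calc ∑ w, ‖tv x z w‖ ^ 2 = (∑ w, ‖z w‖ ^ 2) * ‖x‖ ^ 2 := by
          rw [Finset.sum_mul]
          refine Finset.sum_congr rfl fun w _ => ?_
          rw [tv_apply, norm_smul, mul_pow]
      _ = ‖x‖ ^ 2 := by rw [hz, one_mul]
  exact (sq_eq_sq₀ (norm_nonneg _) (norm_nonneg _)).1 h

theorem norm_prodv {A : Type} [Fintype A] [DecidableEq A] (e : W ≃ (Fin d → A)) {ζ₀ : A → ℂ}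
    (hζ : ∑ a, ‖ζ₀ a‖ ^ 2 = 1) : ∑ w, ‖prodv e ζ₀ w‖ ^ 2 = 1 := by
  have h1 : ∀ w : W, ‖prodv e ζ₀ w‖ ^ 2 = ∏ i, ‖ζ₀ (e w i)‖ ^ 2 := by
    intro w
    unfold prodv
    rw [norm_prod, Finset.prod_pow]
  rw [Finset.sum_congr rfl fun w _ => h1 w,
    Fintype.sum_equiv e _ (fun g : Fin d → A => ∏ i, ‖ζ₀ (g i)‖ ^ 2) (fun w => rfl)]
  have h2 := (Finset.prod_univ_sum (fun _ : Fin d => (Finset.univ : Finset A))
    (fun _ a => ‖ζ₀ a‖ ^ 2))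
  rw [Fintype.piFinset_univ] at h2
  rw [← h2]
  simp [hζ]

theorem inner_tv {J : Type} [Fintype J] (x : H) (z : J → ℂ) (h : PiLp 2 (fun _ : J => H)) :
    ⟪tv x z, h⟫_ℂ = ⟪x, ∑ w, conj (z w) • h w⟫_ℂ := by
  rw [PiLp.inner_apply, inner_sum]
  refine Finset.sum_congr rfl fun w _ => ?_
  rw [tv_apply, inner_smul_left, inner_smul_right]

section sys

variable {M : VonNeumannAlgebra H} {ξ : H} {m : ℕ} {μ : Fin m → ℝ} {Y A B : Fin m → (H →L[ℂ] H)}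
  {η : Fin m → H} {κ K ε : ℝ} (s : LetterSystem M ξ μ Y A B η κ K ε)
  (e : W ≃ (Fin d → s.I × s.I))

/-- letters -/
def T (j : Fin d) (l : Fin m × Fin 4) : PiLp 2 (fun _ : W => H) →L[ℂ] PiLp 2 (fun _ : W => H) :=
  sl e j (leg1 (s.T l.1 l.2))

def S (j : Fin d) (l : Fin m × Fin 4) : PiLp 2 (fun _ : W => H) →L[ℂ] PiLp 2 (fun _ : W => H) :=
  sl e j (leg2 (s.S l.1 l.2))

/-- `k` and `k1` -/
def kk (j : Fin d) : PiLp 2 (fun _ : W => H) →L[ℂ] PiLp 2 (fun _ : W => H) :=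
  sl e j (sc (leg2s s.k))

def kk1 (j : Fin d) : PiLp 2 (fun _ : W => H) →L[ℂ] PiLp 2 (fun _ : W => H) :=
  sl e j (sc (leg2s s.k1))

def ζ : PiLp 2 (fun _ : W => H) := tv ξ (prodv e s.ζ₀)

def kap (j : Fin d) (l : Fin m × Fin 4) :
    PiLp 2 (fun _ : W => H) →L[ℂ] PiLp 2 (fun _ : W => H) := dg (A l.1) * kk s e j

/-- `b_j = c_l B_l` -/
def bb (_s : LetterSystem M ξ μ Y A B η κ K ε) (l : Fin m × Fin 4) :
    PiLp 2 (fun _ : W => H) →L[ℂ] PiLp 2 (fun _ : W => H) := dg (ph l.2 • B l.1)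

def eta (j : Fin d) (l : Fin m × Fin 4) : PiLp 2 (fun _ : W => H) :=
  emb e s.ζ₀ j (tv (ph l.2 • η l.1) (leg2c s.k1 s.ζ₀))

/-- the operator matrix `Σ_l μ_l T_l S_l` -/
def tau : Matrix (s.I × s.I) (s.I × s.I) (H →L[ℂ] H) :=
  ∑ l : Fin m × Fin 4, ((μ l.1 / 4 : ℝ) : ℂ) • (leg1 (s.T l.1 l.2) * leg2 (s.S l.1 l.2))

def cT : PiLp 2 (fun _ : W => H) →L[ℂ] PiLp 2 (fun _ : W => H) := dg (comp s.ζ₀ (tau s))

theorem norm_ζ (hξ : ‖ξ‖ = 1) : ‖ζ s e‖ = 1 := by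
  unfold ζ
  rw [norm_tv _ _ (norm_prodv e s.norm_ζ₀), hξ]

theorem ζ_eq (j : Fin d) : ζ s e = emb e s.ζ₀ j (tv ξ s.ζ₀) := by
  unfold ζ
  rw [emb_tv_prod]

theorem T_unitary (j : Fin d) (l : Fin m × Fin 4) :
    T s e j l ∈ unitary (PiLp 2 (fun _ : W => H) →L[ℂ] PiLp 2 (fun _ : W => H)) := by
  rw [Unitary.mem_iff]
  unfold T
  rw [sl_star, ← sl_mul, ← sl_mul, ← leg1_star, ← leg1_mul, ← leg1_mul, s.star_T_mul,
    s.T_mul_star, leg1_one, sl_one]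
  exact ⟨rfl, rfl⟩

theorem S_unitary (j : Fin d) (l : Fin m × Fin 4) :
    S s e j l ∈ unitary (PiLp 2 (fun _ : W => H) →L[ℂ] PiLp 2 (fun _ : W => H)) := by
  rw [Unitary.mem_iff]
  unfold S
  rw [sl_star, ← sl_mul, ← sl_mul, ← leg2_star, ← leg2_mul, ← leg2_mul, s.star_S_mul,
    s.S_mul_star, leg2_one, sl_one]
  exact ⟨rfl, rfl⟩

theorem T_inv (j : Fin d) (l : Fin m × Fin 4) : T s e j (l.1, l.2 + 2) = star (T s e j l) := by
  unfold T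
  rw [sl_star, ← leg1_star, s.star_T]

theorem S_inv (j : Fin d) (l : Fin m × Fin 4) : S s e j (l.1, l.2 + 2) = star (S s e j l) := by
  unfold S
  rw [sl_star, ← leg2_star, s.star_S]

theorem TS_ζ (j : Fin d) (l : Fin m × Fin 4) :
    ‖T s e j l (S s e j l (ζ s e)) - ζ s e‖ ≤ ε := by
  rw [ζ_eq s e j]
  unfold T S
  rw [sl_emb, sl_emb, ← emb_sub, norm_emb e s.ζ₀ s.norm_ζ₀]
  exact s.partner l.1 l.2

theorem norm_kk (hK : 0 ≤ K) (j : Fin d) : ‖kk s e j‖ ≤ K :=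
  norm_sl_le e j _ hK (norm_opM_leg2s_le _ hK s.norm_k)

theorem norm_kk1 (hK : 0 ≤ K) (j : Fin d) : ‖kk1 s e j‖ ≤ K :=
  norm_sl_le e j _ hK (norm_opM_leg2s_le _ hK s.norm_k1)

theorem kk_ζ (j : Fin d) : kk s e j (ζ s e) = emb e s.ζ₀ j (tv ξ (leg2c s.k s.ζ₀)) := by
  unfold kk ζ
  rw [sl_sc_ζ, leg2s_mulVec]

theorem kk1_ζ (j : Fin d) : kk1 s e j (ζ s e) = emb e s.ζ₀ j (tv ξ (leg2c s.k1 s.ζ₀)) := by
  unfold kk1 ζ
  rw [sl_sc_ζ, leg2s_mulVec]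

theorem norm_kζ (hξ : ‖ξ‖ = 1) (j : Fin d) : ‖kk s e j (ζ s e)‖ = 1 := by
  rw [kk_ζ, norm_emb e s.ζ₀ s.norm_ζ₀, norm_tv _ _ s.norm_kζ₀, hξ]

theorem norm_kap {K₀ : ℝ} (hK₀ : 0 ≤ K₀) (hK : 0 ≤ K) (hA : ∀ a, ‖A a‖ ≤ K₀) (j : Fin d)
    (l : Fin m × Fin 4) : ‖kap s e j l‖ ≤ K₀ * K := by
  unfold kap
  refine (norm_mul_le _ _).trans ?_
  exact mul_le_mul ((norm_dg_le _).trans (hA _)) (norm_kk s e hK j) (norm_nonneg _) hK₀

theorem norm_ph (k : Fin 4) : ‖ph k‖ = 1 := by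
  fin_cases k <;> simp [ph]

theorem norm_bb {K₀ : ℝ} (hB : ∀ a, ‖B a‖ ≤ K₀) (l : Fin m × Fin 4) :
    ‖bb (W := W) s l‖ ≤ K₀ := by
  unfold bb
  refine (norm_dg_le _).trans ?_
  rw [norm_smul, norm_ph, one_mul]
  exact hB _

theorem kap_ζ (j : Fin d) (l : Fin m × Fin 4) :
    kap s e j l (ζ s e) = emb e s.ζ₀ j (tv (A l.1 ξ) (leg2c s.k s.ζ₀)) := by
  unfold kap
  rw [ContinuousLinearMap.mul_apply, kk_ζ, dg_emb, dg_tv']

theorem bb_kk1_ζ (j : Fin d) (l : Fin m × Fin 4) :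
    bb s l (kk1 s e j (ζ s e)) = emb e s.ζ₀ j (tv (ph l.2 • B l.1 ξ) (leg2c s.k1 s.ζ₀)) := by
  unfold bb
  rw [kk1_ζ, dg_emb, dg_tv']
  rfl

theorem norm_kapζ (hA : ∀ a, ‖A a ξ‖ ≤ 1) (j : Fin d) (l : Fin m × Fin 4) :
    ‖kap s e j l (ζ s e)‖ ≤ 1 := by
  rw [kap_ζ, norm_emb e s.ζ₀ s.norm_ζ₀, norm_tv _ _ s.norm_kζ₀]
  exact hA _

theorem norm_bζ (hB : ∀ a, ‖B a ξ‖ ≤ 1) (j : Fin d) (l : Fin m × Fin 4) :
    ‖bb s l (kk1 s e j (ζ s e))‖ ≤ 1 := by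
  rw [bb_kk1_ζ, norm_emb e s.ζ₀ s.norm_ζ₀, norm_tv _ _ s.norm_k1ζ₀, norm_smul, norm_ph, one_mul]
  exact hB _

theorem norm_eta {R : ℝ} (hη : ∀ a, ‖η a‖ ≤ R) (j : Fin d) (l : Fin m × Fin 4) :
    ‖eta s e j l‖ ≤ R := by
  unfold eta
  rw [norm_emb e s.ζ₀ s.norm_ζ₀, norm_tv _ _ s.norm_k1ζ₀, norm_smul, norm_ph, one_mul]
  exact hη _

/-! (S2) -/

theorem P_ζ (j : Fin d) : Pj e s.ζ₀ j (ζ s e) = ζ s e := Pj_ζ e s.norm_ζ₀ j ξ

theorem P_T {i j : Fin d} (h : i ≠ j) (l : Fin m × Fin 4) :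
    Pj e s.ζ₀ i * T s e j l = T s e j l * Pj e s.ζ₀ i := sl_sc_comm e h _ _

theorem P_S {i j : Fin d} (h : i ≠ j) (l : Fin m × Fin 4) :
    Pj e s.ζ₀ i * S s e j l = S s e j l * Pj e s.ζ₀ i := sl_sc_comm e h _ _

theorem k_S {i j : Fin d} (h : i ≠ j) (l : Fin m × Fin 4) :
    kk s e i * S s e j l = S s e j l * kk s e i := sl_sc_comm e h _ _

theorem k1_S {i j : Fin d} (h : i ≠ j) (l : Fin m × Fin 4) :
    kk1 s e i * S s e j l = S s e j l * kk1 s e i := sl_sc_comm e h _ _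

/-! (S3) -/

theorem k_isom (j : Fin d) (v : PiLp 2 (fun _ : W => H)) (hv : Pj e s.ζ₀ j v = v) :
    ‖kk s e j v‖ = ‖v‖ :=
  isom_of_Pj e j _ (by rw [leg2s_mulVec]; exact s.norm_kζ₀) v hv

theorem k1_isom (j : Fin d) (v : PiLp 2 (fun _ : W => H)) (hv : Pj e s.ζ₀ j v = v) :
    ‖kk1 s e j v‖ = ‖v‖ :=
  isom_of_Pj e j _ (by rw [leg2s_mulVec]; exact s.norm_k1ζ₀) v hv

theorem kap_avg (hA : ∀ x : H, ∑ a, μ a * ‖A a x‖ ^ 2 ≤ 3 * ‖x‖ ^ 2) (j : Fin d)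
    (v : PiLp 2 (fun _ : W => H)) (hv : Pj e s.ζ₀ j v = v) :
    ∑ l : Fin m × Fin 4, μ l.1 / 4 * ‖kap s e j l v‖ ^ 2 ≤ 3 * ‖v‖ ^ 2 := by
  rw [← k_isom s e j v hv]
  set g := kk s e j v with hg
  have h1 : ∀ l : Fin m × Fin 4, ‖kap s e j l v‖ ^ 2 = ∑ w, ‖A l.1 (g w)‖ ^ 2 := by
    intro l
    unfold kap
    rw [ContinuousLinearMap.mul_apply, ← hg, norm_sq_eq]
    simp
  simp only [h1]
  rw [Fintype.sum_prod_type, norm_sq_eq g]
  simp only [Finset.sum_const, Finset.card_univ, Fintype.card_fin, nsmul_eq_mul]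
  have h2 : ∀ a : Fin m, ((4 : ℕ) : ℝ) * (μ a / 4 * ∑ w, ‖A a (g w)‖ ^ 2)
      = ∑ w, μ a * ‖A a (g w)‖ ^ 2 := by
    intro a
    rw [← Finset.mul_sum]
    push_cast
    ring
  rw [Finset.sum_congr rfl fun a _ => h2 a, Finset.sum_comm, Finset.mul_sum]
  exact Finset.sum_le_sum fun w _ => hA (g w)

/-! (S4) -/

theorem T_S_leg_comm (l l' : Fin m × Fin 4) :
    leg1 (s.T l.1 l.2) * leg2 (s.S l'.1 l'.2) = leg2 (s.S l'.1 l'.2) * leg1 (s.T l.1 l.2) :=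
  leg_comm _ _ fun i j i' j' => by
    have := VonNeumannAlgebra.mem_commutant_iff.1 (s.S_mem l'.1 l'.2 i' j') _ (s.T_mem l.1 l.2 i j)
    exact this

theorem tau_star (hμ : True) : star (tau s) = tau s := by
  unfold tau
  rw [star_sum]
  have h1 : ∀ l : Fin m × Fin 4, star (((μ l.1 / 4 : ℝ) : ℂ) •
      (leg1 (s.T l.1 l.2) * leg2 (s.S l.1 l.2)))
      = ((μ l.1 / 4 : ℝ) : ℂ) • (leg1 (s.T l.1 (l.2 + 2)) * leg2 (s.S l.1 (l.2 + 2))) := by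
    intro l
    rw [star_smul, star_mul, ← leg1_star, ← leg2_star, s.star_T, s.star_S,
      ← T_S_leg_comm s (l.1, l.2 + 2) (l.1, l.2 + 2)]
    congr 1
    exact Complex.conj_ofReal _
  rw [Finset.sum_congr rfl fun l _ => h1 l]
  let φ : (Fin m × Fin 4) ≃ (Fin m × Fin 4) := Equiv.prodCongr (Equiv.refl _) (Equiv.addRight 2)
  exact Fintype.sum_equiv φ _ _ fun l => rfl

theorem cT_sa : star (cT (W := W) s) = cT s := by
  unfold cT
  rw [dg_star, comp_star, tau_star s trivial]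

theorem norm_cT (hμ : ∀ a, 0 ≤ μ a) (hμ1 : ∑ a, μ a ≤ 1) : ‖cT (W := W) s‖ ≤ 1 := by
  unfold cT
  refine (norm_dg_le _).trans (norm_comp_le s.norm_ζ₀ _ zero_le_one fun v => ?_)
  have h0 : opM (tau s) v = ∑ l : Fin m × Fin 4, ((μ l.1 / 4 : ℝ) : ℂ) •
      opM (leg1 (s.T l.1 l.2)) (opM (leg2 (s.S l.1 l.2)) v) := by
    ext p
    rw [opM_apply, WithLp.ofLp_sum, Finset.sum_apply]
    unfold tau
    simp only [Matrix.sum_apply, ContinuousLinearMap.sum_apply]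
    rw [Finset.sum_comm]
    refine Finset.sum_congr rfl fun l _ => ?_
    rw [PiLp.smul_apply, ← ContinuousLinearMap.mul_apply, ← opM_mul, opM_apply, Finset.smul_sum]
    rfl
  rw [h0]
  calc _ ≤ ∑ l : Fin m × Fin 4, ‖((μ l.1 / 4 : ℝ) : ℂ) •
        opM (leg1 (s.T l.1 l.2)) (opM (leg2 (s.S l.1 l.2)) v)‖ := norm_sum_le _ _
    _ = ∑ l : Fin m × Fin 4, μ l.1 / 4 * ‖v‖ := by
        refine Finset.sum_congr rfl fun l _ => ?_
        rw [norm_smul, norm_opM_of_unitary, norm_opM_of_unitary]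
        · rw [Complex.norm_real, Real.norm_of_nonneg (by have := hμ l.1; positivity)]
        · rw [← leg2_star, ← leg2_mul, s.star_S_mul, leg2_one]
        · rw [← leg1_star, ← leg1_mul, s.star_T_mul, leg1_one]
    _ = (∑ a, μ a) * ‖v‖ := by
        rw [Fintype.sum_prod_type, Finset.sum_mul]
        refine Finset.sum_congr rfl fun a _ => ?_
        simp only [Finset.sum_const, Finset.card_univ, Fintype.card_fin, nsmul_eq_mul]
        push_cast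
        ring
    _ ≤ 1 * ‖v‖ := mul_le_mul_of_nonneg_right hμ1 (norm_nonneg _)

theorem cT_P (j : Fin d) : cT s * Pj e s.ζ₀ j = Pj e s.ζ₀ j * cT s := dg_sc_comm e j _ _

theorem PTSP (j : Fin d) :
    Pj e s.ζ₀ j * (∑ l : Fin m × Fin 4, ((μ l.1 / 4 : ℝ) : ℂ) • (T s e j l * S s e j l))
      * Pj e s.ζ₀ j = cT s * Pj e s.ζ₀ j := by
  have h : (∑ l : Fin m × Fin 4, ((μ l.1 / 4 : ℝ) : ℂ) • (T s e j l * S s e j l))
      = sl e j (tau s) := by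
    unfold tau
    rw [sl_sum]
    refine Finset.sum_congr rfl fun l _ => ?_
    rw [sl_smul, sl_mul]
    rfl
  rw [h, Pj_mul_mul_Pj]
  rfl

/-! (S6) -/

theorem eta_eq (j : Fin d) (l : Fin m × Fin 4) :
    eta s e j l = tv (ph l.2 • η l.1) (fun w => restv e s.ζ₀ j w * leg2c s.k1 s.ζ₀ (e w j)) := by
  unfold eta
  rw [emb_tv]

theorem exact_T (j : Fin d) (h : PiLp 2 (fun _ : W => H)) :
    ∑ l : Fin m × Fin 4, (((μ l.1 / 4 : ℝ) : ℂ) * ⟪eta s e j l, h⟫_ℂ) • T s e j l = 0 := by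
  have h1 : ∀ l : Fin m × Fin 4, ⟪eta s e j l, h⟫_ℂ = ⟪ph l.2 • η l.1,
      ∑ w, conj (restv e s.ζ₀ j w * leg2c s.k1 s.ζ₀ (e w j)) • h w⟫_ℂ := by
    intro l
    rw [eta_eq, inner_tv]
  set x := ∑ w, conj (restv e s.ζ₀ j w * leg2c s.k1 s.ζ₀ (e w j)) • h w with hx
  simp only [h1]
  have h2 : ∑ l : Fin m × Fin 4, (((μ l.1 / 4 : ℝ) : ℂ) * ⟪ph l.2 • η l.1, x⟫_ℂ) • T s e j l
      = sl e j (leg1 (∑ l : Fin m × Fin 4,
        (((μ l.1 / 4 : ℝ) : ℂ) * ⟪ph l.2 • η l.1, x⟫_ℂ) • s.T l.1 l.2)) := by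
    rw [leg1_sum, sl_sum]
    refine Finset.sum_congr rfl fun l _ => ?_
    rw [leg1_smul, sl_smul]
    rfl
  have h3 : ∑ l : Fin m × Fin 4, (((μ l.1 / 4 : ℝ) : ℂ) * ⟪ph l.2 • η l.1, x⟫_ℂ) • s.T l.1 l.2
      = 0 := by
    refine Matrix.ext fun i i' => ?_
    rw [Matrix.sum_apply, Fintype.sum_prod_type]
    have h4 := congrArg (fun y : H →L[ℂ] H => (1 / 4 : ℂ) • y) (s.relT x i i')
    simp only [smul_zero, Finset.smul_sum] at h4
    rw [Matrix.zero_apply, ← h4]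
    refine Finset.sum_congr rfl fun a _ => Finset.sum_congr rfl fun θ _ => ?_
    rw [Matrix.smul_apply, smul_smul]
    congr 1
    push_cast
    ring
  rw [h2, h3, leg1_zero, sl_zero]

theorem exact_S (j : Fin d) :
    ∑ l : Fin m × Fin 4, ((μ l.1 / 4 : ℝ) : ℂ) • S s e j l (star (kk s e j) (eta s e j l)) = 0 := by
  have h1 : ∀ l : Fin m × Fin 4, star (kk s e j) (eta s e j l)
      = emb e s.ζ₀ j (tv (ph l.2 • η l.1) ((star (leg2s s.k)).mulVec (leg2c s.k1 s.ζ₀))) := by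
    intro l
    unfold kk eta
    rw [sl_star, sc_star, sl_emb, opM_sc_tv]
  set z := (star (leg2s s.k)).mulVec (leg2c s.k1 s.ζ₀) with hz
  have h2 : ∀ l : Fin m × Fin 4, S s e j l (star (kk s e j) (eta s e j l))
      = emb e s.ζ₀ j (opM (leg2 (s.S l.1 l.2)) (tv (ph l.2 • η l.1) z)) := by
    intro l
    rw [h1, S, sl_emb]
  simp only [h2]
  have h3 : ∀ p : s.I × s.I, ∑ l : Fin m × Fin 4, ((μ l.1 / 4 : ℝ) : ℂ) •
      opM (leg2 (s.S l.1 l.2)) (tv (ph l.2 • η l.1) z) p = 0 := by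
    intro p
    simp only [opM_apply, tv_apply, Finset.smul_sum]
    rw [Finset.sum_comm]
    refine Finset.sum_eq_zero fun q _ => ?_
    by_cases hpq : p.1 = q.1
    · have h4 := congrArg (fun y : H => ((1 / 4 : ℂ) * z q) • y) (s.relS p.2 q.2)
      simp only [smul_zero, Finset.smul_sum] at h4
      rw [Fintype.sum_prod_type, ← h4]
      refine Finset.sum_congr rfl fun a _ => Finset.sum_congr rfl fun θ _ => ?_
      simp only [leg2, if_pos hpq, map_smul, ContinuousLinearMap.smul_apply, smul_smul]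
      congr 1
      push_cast
      ring
    · refine Finset.sum_eq_zero fun l _ => ?_
      simp [leg2, hpq]
  ext w
  rw [WithLp.ofLp_sum, Finset.sum_apply]
  simp only [PiLp.smul_apply, emb_apply]
  have h5 := congrArg (fun y : H => restv e s.ζ₀ j w • y) (h3 (e w j))
  simp only [smul_zero, Finset.smul_sum] at h5
  rw [PiLp.zero_apply, ← h5]
  exact Finset.sum_congr rfl fun l _ => smul_comm _ _ _

/-! the projection `p'` -/

theorem p'_sa {q : H →L[ℂ] H} (hq : star q = q) : star (dg (W := W) q) = dg q := by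
  rw [dg_star, hq]

theorem p'_idem {q : H →L[ℂ] H} (hq : q * q = q) : dg (W := W) q * dg q = dg q := by
  rw [← dg_mul, hq]

theorem p'_ζ {q : H →L[ℂ] H} (hq : q ξ = ξ) : dg q (ζ s e) = ζ s e := by
  unfold ζ
  rw [dg_tv, hq]

theorem p'_eta {q : H →L[ℂ] H} (hq : ∀ a, q (η a) = η a) (j : Fin d) (l : Fin m × Fin 4) :
    dg q (eta s e j l) = eta s e j l := by
  rw [eta_eq, dg_tv, map_smul, hq]

theorem p'_P (q : H →L[ℂ] H) (j : Fin d) : dg q * Pj e s.ζ₀ j = Pj e s.ζ₀ j * dg q :=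
  dg_sc_comm e j _ _

theorem p'_k (q : H →L[ℂ] H) (j : Fin d) : dg q * kk s e j = kk s e j * dg q :=
  dg_sc_comm e j _ _

/-! (S7) -/

theorem star_id {N : VonNeumannAlgebra H} {q : H →L[ℂ] H}
    (hst : ∀ a, ∀ n ∈ N, ∀ h : H, q h = h → ⟪B a ξ, n (A a h)⟫_ℂ = ⟪η a, n h⟫_ℂ)
    (j : Fin d) (l : Fin m × Fin 4) (x : Matrix W W (H →L[ℂ] H)) (hx : ∀ w w', x w w' ∈ N)
    (h : PiLp 2 (fun _ : W => H)) (hh : dg q h = h) :
    ⟪bb s l (kk1 s e j (ζ s e)), opM x (kap s e j l h)⟫_ℂ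
      = ⟪eta s e j l, opM x (kk s e j h)⟫_ℂ := by
  rw [bb_kk1_ζ, emb_tv, eta_eq, inner_tv, inner_tv]
  unfold kap
  rw [ContinuousLinearMap.mul_apply]
  set g := kk s e j h with hg
  have hgq : ∀ w, q (g w) = g w := by
    intro w
    have h1 : dg q g = g := by
      rw [hg, ← ContinuousLinearMap.mul_apply, p'_k, ContinuousLinearMap.mul_apply, hh]
    have h2 := congrArg (fun v : PiLp 2 (fun _ : W => H) => v w) h1
    simpa using h2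
  rw [inner_smul_left, inner_smul_left, inner_sum, inner_sum]
  congr 1
  refine Finset.sum_congr rfl fun w _ => ?_
  rw [inner_smul_right, inner_smul_right, opM_apply, opM_apply, inner_sum, inner_sum]
  congr 1
  refine Finset.sum_congr rfl fun w' _ => ?_
  rw [dg_apply]
  exact hst l.1 _ (hx w w') _ (hgq w')

/-! the value of a letter -/

theorem value (j : Fin d) :
    ‖(∑ l : Fin m × Fin 4, ((μ l.1 / 4 : ℝ) : ℂ)
        * ⟪bb s l (kk1 s e j (ζ s e)), T s e j l (kap s e j l (ζ s e))⟫_ℂ)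
      - (1 / 2 : ℂ) * ∑ a, (μ a : ℂ) * ⟪B a ξ, Y a (A a ξ)⟫_ℂ‖ ≤ κ := by
  have h1 : ∑ l : Fin m × Fin 4, ((μ l.1 / 4 : ℝ) : ℂ)
        * ⟪bb s l (kk1 s e j (ζ s e)), T s e j l (kap s e j l (ζ s e))⟫_ℂ
      = ∑ a, ∑ θ, ((μ a : ℂ) / 4) * inner ℂ (tv (B a ξ) (fun p => ph θ * leg2c s.k1 s.ζ₀ p))
      (opM (leg1 (s.T a θ)) (tv (A a ξ) (leg2c s.k s.ζ₀))) := by
    rw [Fintype.sum_prod_type]
    refine Finset.sum_congr rfl fun a _ => Finset.sum_congr rfl fun θ _ => ?_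
    rw [bb_kk1_ζ, kap_ζ, T, sl_emb, inner_emb e s.ζ₀ s.norm_ζ₀]
    congr 1
    · push_cast; ring
    · congr 1
      ext p
      simp only [tv_apply, smul_smul]
      rw [mul_comm]
  rw [h1]
  exact s.value

end sys

end Crest.Agent.R078.Z.TBV
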