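/-
R78 / S0103: bridge between helper304's frames on `PiLp 2` and the slot operators of TBV (helper836).
-/
import Crest.Agent.R078.S103TBSys836
import Crest.Agent.R078.S103TBChain

set_option autoImplicit false
set_option linter.unusedSectionVars false
set_option linter.deprecated false

open scoped InnerProductSpace ComplexConjugate

noncomputable section

namespace Crest.Agent.R078.Z.TBV

open Crest.Agent.R078.S103

universe u

variable {H : Type u} [NormedAddCommGroup H] [InnerProductSpace ℂ H] [CompleteSpace H]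

theorem opM_eq {J : Type} [Fintype J] [DecidableEq J] (t : Matrix J J (H →L[ℂ] H)) :
    TB.opM (TB.injF H J) t = LSys.opM t := by
  ext v i
  rw [TB.opM_injF_apply, LSys.opM_apply]

theorem dia_eq_dg {J : Type} [Fintype J] [DecidableEq J] (y : H →L[ℂ] H) :
    TB.dia (TB.injF H J) y = dg y := by
  ext v i
  rw [dg_apply, ← TB.adj_injF (H := H) i, TB.adj_dia TB.injF_isFrame, TB.adj_injF]

variable {I : Type} [Fintype I] [DecidableEq I] {d : ℕ}

theorem slot_eq_sl (j : Fin d) (x : Matrix (I × I) (I × I) (H →L[ℂ] H)) :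
    TB.slot (TB.injF H (Fin d → I × I)) j x = sl (Equiv.refl _) j x := by
  ext v w
  rw [sl_apply, ← TB.adj_injF (H := H) w, TB.adj_slot TB.injF_isFrame]
  refine Finset.sum_congr rfl fun p _ => ?_
  rw [TB.adj_injF]
  rfl

theorem lg1_eq (t : Matrix I I (H →L[ℂ] H)) : TB.lg1 t = LSys.leg1 t := rfl

theorem lg2_eq (t : Matrix I I (H →L[ℂ] H)) : TB.lg2 t = LSys.leg2 t := rfl

theorem exists_opM_of_mem_MM {N : VonNeumannAlgebra H}
    {n : PiLp 2 (fun _ : Fin d → I × I => H) →L[ℂ] PiLp 2 (fun _ : Fin d → I × I => H)}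
    (hn : n ∈ TB.MM (TB.injF H (Fin d → I × I)) N) :
    ∃ x : Matrix (Fin d → I × I) (Fin d → I × I) (H →L[ℂ] H), (∀ w w', x w w' ∈ N) ∧
      n = LSys.opM x := by
  have hV : TB.IsFrame (TB.injF H (Fin d → I × I)) := TB.injF_isFrame
  rw [TB.MM, TB.mem_alg_iff (TB.reF_isFrame hV _)] at hn
  obtain ⟨u, hu, rfl⟩ := hn
  refine ⟨TB.ent (TB.injF H (Fin d → I × I)) (TB.lft (TB.reF (TB.injF H (Fin d → I × I)) TB.eL) u),
    fun w w' => ?_, ?_⟩
  · rw [TB.ent_lft_reF hV]
    split_ifs
    · exact hu _ _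
    · exact zero_mem _
  · rw [← opM_eq, TB.opM_ent hV]

end Crest.Agent.R078.Z.TBV
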