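import Crest.Agent.R078.S103TBInst304
import Crest.Agent.R078.S103Comp445

/-!
Row 78, S0103, tensor bookkeeping, final form: helper445's `TBInst`.
-/

set_option autoImplicit false
set_option linter.unusedSectionVars false

open scoped InnerProductSpace

namespace Crest.Agent.R078.Z.TBI

open Crest.Agent.R078.Z.Slot Crest.Agent.R078.Z.TB
open Crest.Agent.R078.S103.LSys (LetterSystem)

universe u

variable {H : Type u} [NormedAddCommGroup H] [InnerProductSpace ℂ H] [CompleteSpace H]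

theorem tbInst {M N : VonNeumannAlgebra H} {ξ : H} {m : ℕ} {μ : Fin m → ℝ}
    {Y A B : Fin m → (H →L[ℂ] H)} {η : Fin m → H}
    {δ R K : ℝ} (hSC : SC δ M N) (hξ : ‖ξ‖ = 1) (hμ : ∀ a, 0 ≤ μ a)
    (hμ1 : ∑ a, μ a = 1) (hAM : ∀ a, A a ∈ M.commutant) (hAN : ∀ a, A a ∈ N.commutant)
    (hBM : ∀ a, B a ∈ M.commutant) (hBN : ∀ a, B a ∈ N.commutant)
    (hA : ∀ a, ‖A a‖ ≤ K) (hB : ∀ a, ‖B a‖ ≤ K) (hK : 0 ≤ K)
    (hAξ : ∀ a, ‖A a ξ‖ ≤ 1) (hBξ : ∀ a, ‖B a ξ‖ ≤ 1)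
    (hη : ∀ a, ‖η a‖ ≤ R) (havg : ∀ x : H, ∑ a, μ a * ‖A a x‖ ^ 2 ≤ 3 * ‖x‖ ^ 2)
    {q : H →L[ℂ] H} (hqN : q ∈ N.commutant) (hqs : star q = q) (hqi : q * q = q)
    (hqξ : q ξ = ξ) (hqη : ∀ a, q (η a) = η a)
    (hstar : ∀ a, ∀ n ∈ N, ∀ h : H, q h = h → ⟪B a ξ, n (A a h)⟫_ℂ = ⟪η a, n h⟫_ℂ) :
    Comp.TBInst M μ ξ Y A B η δ R K := by
  intro κ Kθ ε hKθ _ s d _
  obtain ⟨t, ht⟩ := exists_slotSys s hSC hξ hμ hμ1 hAM hAN hBM hBN hA hB hK hAξ hBξ hη havg hqN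
    hqs hqi hqξ hqη hstar (zero_le_one.trans hKθ) d
  exact ⟨PiLp 2 (fun _ : W s.I d => H), inferInstance, inferInstance, inferInstance,
    MM (injF H (W s.I d)) M, MM (injF H (W s.I d)) N, SC_MM hSC injF_isFrame, t, ht⟩

end Crest.Agent.R078.Z.TBI
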