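import Crest.Agent.R078.S103TBOps
import Crest.Agent.R078.S103TBSys836
import Crest.Agent.R078.S103Slot199

/-!
Row 78, S0103, tensor bookkeeping, part 4: the slot system of a letter system.
-/

set_option autoImplicit false
set_option linter.unusedSectionVars false
set_option linter.deprecated false
set_option linter.unusedSimpArgs false

open scoped InnerProductSpace

namespace Crest.Agent.R078.Z.TBI

open ContinuousLinearMap Crest.Agent.R078.Z.Slot Crest.Agent.R078.Z.TB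
open Crest.Agent.R078.S103.LSys (LetterSystem leg1 leg2 leg2c tv ph)

universe u

section bridge

variable {H : Type u} [NormedAddCommGroup H] [InnerProductSpace ℂ H] [CompleteSpace H]
  {I : Type} [Fintype I] [DecidableEq I] {d : ℕ}

abbrev W (I : Type) (d : ℕ) := Fin d → I × I

theorem slot_eq_sl (j : Fin d) (x : Matrix (I × I) (I × I) (H →L[ℂ] H)) :
    slot (injF H (W I d)) j x = TBV.sl (Equiv.refl (W I d)) j x := by
  ext v w
  have h := adj_slot (injF_isFrame (H := H) (J := W I d)) j x v w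
  rw [adj_injF] at h
  rw [h, TBV.sl_apply]
  refine Finset.sum_congr rfl fun p _ => ?_
  rw [adj_injF]
  rfl

theorem dia_eq_dg (x : H →L[ℂ] H) : dia (injF H (W I d)) x = TBV.dg x := by
  ext v w
  have h := adj_dia (injF_isFrame (H := H) (J := W I d)) x v w
  rw [adj_injF, adj_injF] at h
  rw [h, TBV.dg_apply]

theorem lsys_opM_ent (n : PiLp 2 (fun _ : W I d => H) →L[ℂ] PiLp 2 (fun _ : W I d => H)) :
    n = S103.LSys.opM (Matrix.of fun i j => ent (injF H (W I d)) n i j) := by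
  ext v w
  rw [S103.LSys.opM_apply]
  have h := opM_injF_apply (ent (injF H (W I d)) n) v w
  rw [opM_ent injF_isFrame] at h
  exact h

theorem exists_opM_of_mem_MM {N : VonNeumannAlgebra H}
    {n : PiLp 2 (fun _ : W I d => H) →L[ℂ] PiLp 2 (fun _ : W I d => H)}
    (hn : n ∈ MM (injF H (W I d)) N) :
    ∃ x : Matrix (W I d) (W I d) (H →L[ℂ] H), (∀ w w', x w w' ∈ N) ∧ n = S103.LSys.opM x := by
  refine ⟨Matrix.of fun i j => ent (injF H (W I d)) n i j, fun w w' => ?_, lsys_opM_ent n⟩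
  rw [MM, mem_alg_iff (reF_isFrame injF_isFrame _)] at hn
  obtain ⟨u, hu, rfl⟩ := hn
  change ent (injF H (W I d)) _ w w' ∈ N
  rw [ent_lft_reF injF_isFrame]
  split_ifs
  · exact hu _ _
  · exact zero_mem _

end bridge

section inst

variable {H : Type u} [NormedAddCommGroup H] [InnerProductSpace ℂ H] [CompleteSpace H]
  {M N : VonNeumannAlgebra H} {ξ : H} {m : ℕ} {μ : Fin m → ℝ} {Y A B : Fin m → (H →L[ℂ] H)}
  {η : Fin m → H} {κ Kθ ε : ℝ}

theorem leg1_eq {I : Type} [Fintype I] [DecidableEq I] (t : Matrix I I (H →L[ℂ] H)) :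
    leg1 t = lg1 t := rfl

theorem sc_leg2s_eq {I : Type} [Fintype I] [DecidableEq I] (k : Matrix I I ℂ) :
    (TBV.sc (TBV.leg2s k) : Matrix (I × I) (I × I) (H →L[ℂ] H)) = lg2 (TB.sc k) := by
  rw [← TBV.leg2_sc]
  rfl

variable (s : LetterSystem M ξ μ Y A B η κ Kθ ε)

theorem T_eq (d : ℕ) (j : Fin d) (l : Fin m × Fin 4) :
    TBV.T s (Equiv.refl (W s.I d)) j l = slot (injF H (W s.I d)) j (lg1 (s.T l.1 l.2)) :=
  (slot_eq_sl j _).symm

theorem S_eq (d : ℕ) (j : Fin d) (l : Fin m × Fin 4) :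
    TBV.S s (Equiv.refl (W s.I d)) j l = slot (injF H (W s.I d)) j (lg2 (s.S l.1 l.2)) :=
  (slot_eq_sl j _).symm

theorem kk_eq (d : ℕ) (j : Fin d) :
    TBV.kk s (Equiv.refl (W s.I d)) j = slot (injF H (W s.I d)) j (lg2 (TB.sc s.k)) := by
  rw [TBV.kk, sc_leg2s_eq]
  exact (slot_eq_sl j _).symm

theorem kk1_eq (d : ℕ) (j : Fin d) :
    TBV.kk1 s (Equiv.refl (W s.I d)) j = slot (injF H (W s.I d)) j (lg2 (TB.sc s.k1)) := by
  rw [TBV.kk1, sc_leg2s_eq]
  exact (slot_eq_sl j _).symm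

theorem Pj_eq (d : ℕ) (j : Fin d) :
    TBV.Pj (Equiv.refl (W s.I d)) s.ζ₀ j = slot (injF H (W s.I d)) j (TB.pz s.ζ₀) := by
  rw [TBV.Pj]
  exact (slot_eq_sl j _).symm

theorem kk_mem (P : VonNeumannAlgebra H) (d : ℕ) (j : Fin d) :
    TBV.kk s (Equiv.refl (W s.I d)) j ∈ (MM (injF H (W s.I d)) P).commutant := by
  rw [kk_eq]
  exact slot_lg2_mem injF_isFrame P j fun a b => sc_mem _ _ _ _

theorem kk1_mem (P : VonNeumannAlgebra H) (d : ℕ) (j : Fin d) :
    TBV.kk1 s (Equiv.refl (W s.I d)) j ∈ (MM (injF H (W s.I d)) P).commutant := by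
  rw [kk1_eq]
  exact slot_lg2_mem injF_isFrame P j fun a b => sc_mem _ _ _ _

theorem dg_mem {P : VonNeumannAlgebra H} {x : H →L[ℂ] H} (hx : x ∈ P.commutant) (I : Type)
    [Fintype I] [DecidableEq I] (d : ℕ) :
    TBV.dg (W := W I d) x ∈ (MM (injF H (W I d)) P).commutant := by
  rw [← dia_eq_dg]
  exact dia_mem_comm injF_isFrame hx

theorem smul_mem' {P : VonNeumannAlgebra H} (c : ℂ) {x : H →L[ℂ] H} (hx : x ∈ P) : c • x ∈ P := by
  have := mul_mem (smul_one_mem P c) hx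
  simpa using this

/-- THE SLOT SYSTEM of a letter system. -/
theorem exists_slotSys {δ R K : ℝ} (hSC : SC δ M N) (hξ : ‖ξ‖ = 1) (hμ : ∀ a, 0 ≤ μ a)
    (hμ1 : ∑ a, μ a = 1) (hAM : ∀ a, A a ∈ M.commutant) (hAN : ∀ a, A a ∈ N.commutant)
    (hBM : ∀ a, B a ∈ M.commutant) (hBN : ∀ a, B a ∈ N.commutant)
    (hA : ∀ a, ‖A a‖ ≤ K) (hB : ∀ a, ‖B a‖ ≤ K) (hK : 0 ≤ K)
    (hAξ : ∀ a, ‖A a ξ‖ ≤ 1) (hBξ : ∀ a, ‖B a ξ‖ ≤ 1)
    (hη : ∀ a, ‖η a‖ ≤ R) (havg : ∀ x : H, ∑ a, μ a * ‖A a x‖ ^ 2 ≤ 3 * ‖x‖ ^ 2)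
    {q : H →L[ℂ] H} (hqN : q ∈ N.commutant) (hqs : star q = q) (hqi : q * q = q)
    (hqξ : q ξ = ξ) (hqη : ∀ a, q (η a) = η a)
    (hstar : ∀ a, ∀ n ∈ N, ∀ h : H, q h = h → ⟪B a ξ, n (A a h)⟫_ℂ = ⟪η a, n h⟫_ℂ)
    (hKθ : 0 ≤ Kθ) (d : ℕ) :
    ∃ t : SlotSys (MM (injF H (W s.I d)) M) (MM (injF H (W s.I d)) N) d (Fin m × Fin 4)
        δ R K Kθ ε,
      ∀ j, ‖t.value j - (1 / 2 : ℂ) * ∑ a, (μ a : ℂ) * ⟪B a ξ, Y a (A a ξ)⟫_ℂ‖ ≤ κ := by
  have hF : IsFrame (injF H (W s.I d)) := injF_isFrame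
  obtain ⟨fl, fl1, fl2, fl3, fl4⟩ := exists_lft (L := Fin m × Fin 4) hSC hF
    (fun _ l => s.T l.1 l.2) (fun _ l => s.T_mem l.1 l.2) (fun _ l => s.T_mul_star l.1 l.2)
    (fun _ l => s.star_T_mul l.1 l.2)
  obtain ⟨fr, fr1, fr2, fr3, fr4⟩ := exists_rho (L := Fin m × Fin 4) hSC hF
    (fun _ l => s.T l.1 l.2) (fun _ l => s.T_mem l.1 l.2) (fun _ l => s.T_mul_star l.1 l.2)
    (fun _ l => s.star_T_mul l.1 l.2)
  obtain ⟨ft, ft1, ft2, ft3, ft4⟩ := exists_tp (L := Fin m × Fin 4) hSC hF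
    (fun _ l => s.S l.1 l.2) (fun _ l => s.S_mem l.1 l.2) (fun _ l => s.S_mul_star l.1 l.2)
    (fun _ l => s.star_S_mul l.1 l.2)
  have eT : (fun (i : Fin d) (l : Fin m × Fin 4) => slot (injF H (W s.I d)) i (lg1 (s.T l.1 l.2)))
      = TBV.T s (Equiv.refl (W s.I d)) := by
    funext i l
    exact (T_eq s d i l).symm
  have eS : (fun (i : Fin d) (l : Fin m × Fin 4) => slot (injF H (W s.I d)) i (lg2 (s.S l.1 l.2)))
      = TBV.S s (Equiv.refl (W s.I d)) := by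
    funext i l
    exact (S_eq s d i l).symm
  rw [eT] at fl3 fr3
  rw [eS] at ft3
  refine ⟨{
    μ := fun l => μ l.1 / 4
    μ_nonneg := fun l => div_nonneg (hμ _) (by norm_num)
    μ_sum := ?_
    inv := fun l => (l.1, l.2 + 2)
    inv_inv := ?_
    μ_inv := fun l => rfl
    ζ := TBV.ζ s (Equiv.refl (W s.I d))
    norm_ζ := TBV.norm_ζ s _ hξ
    T := TBV.T s (Equiv.refl (W s.I d))
    S := TBV.S s (Equiv.refl (W s.I d))
    T_mem := ?_
    S_mem := ?_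
    T_unitary := TBV.T_unitary s _
    S_unitary := TBV.S_unitary s _
    T_inv := TBV.T_inv s _
    S_inv := TBV.S_inv s _
    TS_ζ := TBV.TS_ζ s _
    k := TBV.kk s (Equiv.refl (W s.I d))
    k1 := TBV.kk1 s (Equiv.refl (W s.I d))
    k_memM := kk_mem s M d
    k_memN := kk_mem s N d
    k1_memM := kk1_mem s M d
    k1_memN := kk1_mem s N d
    norm_k := TBV.norm_kk s _ hKθ
    norm_k1 := TBV.norm_kk1 s _ hKθ
    norm_kζ := TBV.norm_kζ s _ hξ
    kap := TBV.kap s (Equiv.refl (W s.I d))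
    b := fun _ l => TBV.bb s l
    kap_memM := fun j l => mul_mem (dg_mem (hAM _) s.I d) (kk_mem s M d j)
    kap_memN := fun j l => mul_mem (dg_mem (hAN _) s.I d) (kk_mem s N d j)
    b_memM := fun j l => dg_mem (smul_mem' _ (hBM _)) s.I d
    b_memN := fun j l => dg_mem (smul_mem' _ (hBN _)) s.I d
    norm_kap := TBV.norm_kap s _ hK hKθ hA
    norm_b := fun _ l => TBV.norm_bb s hB l
    norm_kapζ := TBV.norm_kapζ s _ hAξ
    norm_bζ := fun j l => TBV.norm_bζ s _ hBξ j l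
    η := TBV.eta s (Equiv.refl (W s.I d))
    norm_η := TBV.norm_eta s _ hη
    P := TBV.Pj (Equiv.refl (W s.I d)) s.ζ₀
    P_sa := TBV.Pj_star _ _
    P_idem := TBV.Pj_idem _ s.norm_ζ₀
    P_ζ := TBV.P_ζ s _
    P_P := TBV.Pj_comm _ _
    P_T := fun i j l h => TBV.P_T s _ h l
    P_S := fun i j l h => TBV.P_S s _ h l
    k_S := fun i j l h => TBV.k_S s _ h l
    k1_S := fun i j l h => TBV.k1_S s _ h l
    k1_isom := TBV.k1_isom s _
    kap_avg := fun j e he => TBV.kap_avg s _ havg j e he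
    cT := TBV.cT s
    cT_sa := TBV.cT_sa s
    norm_cT := TBV.norm_cT s hμ hμ1.le
    cT_P := TBV.cT_P s _
    PTSP := TBV.PTSP s _
    exact_T := TBV.exact_T s _
    exact_S := TBV.exact_S s _
    p' := TBV.dg q
    p'_mem := dg_mem hqN s.I d
    p'_sa := TBV.p'_sa hqs
    p'_idem := TBV.p'_idem hqi
    p'_ζ := TBV.p'_ζ s _ hqξ
    p'_η := TBV.p'_eta s _ hqη
    p'_P := TBV.p'_P s _ q
    p'_k := TBV.p'_k s _ q
    star_id := ?_
    lft := fl
    rho := fr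
    tp := ft
    lft_mem := fl1
    rho_mem := fun j w => MO_le_MM hF N j (fr1 j w)
    tp_mem := fun j w => MO_flip_mem hF N j (ft1 j w)
    norm_lft := fl2
    norm_rho := fr2
    norm_tp := ft2
    lft_near := fl3
    rho_near := fr3
    tp_near := ft3
    lft_upd := fl4
    rho_upd := fr4
    tp_upd := ft4
    rho_P := ?_
    tp_P := ?_
    tp_k := ?_ }, ?_⟩
  · rw [Fintype.sum_prod_type]
    simp only [Finset.sum_const, Finset.card_univ, Fintype.card_fin, nsmul_eq_mul]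
    rw [← hμ1]
    refine Finset.sum_congr rfl fun a _ => ?_
    push_cast
    ring
  · rintro ⟨a, θ⟩
    refine Prod.ext rfl ?_
    change θ + 2 + 2 = θ
    revert θ
    decide
  · intro j l
    rw [T_eq]
    exact slot_lg1_mem_MM hF M j (s.T_mem l.1 l.2)
  · intro j l
    rw [S_eq]
    exact slot_lg2_mem hF M j (s.S_mem l.1 l.2)
  · intro j l n hn h hh
    obtain ⟨x, hx, rfl⟩ := exists_opM_of_mem_MM hn
    exact TBV.star_id s _ hstar j l x hx h hh
  · intro j w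
    rw [Pj_eq]
    exact MO_comm_slot hF N j (fr1 j w) fun p q => pz_mem _ _ _ _
  · intro j w
    rw [Pj_eq]
    exact MO_flip_comm_slot hF N j (ft1 j w) fun p q => pz_mem _ _ _ _
  · intro j w
    rw [kk_eq]
    exact MO_flip_comm_slot hF N j (ft1 j w) fun p q => lg2_sc_mem _ _ _ _
  · intro j
    exact TBV.value s _ j

end inst

end Crest.Agent.R078.Z.TBI
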