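import Mathlib
import Crest.Agent.R078.S103TBChain
import Crest.Agent.R078.S103Slot199
import Crest.Agent.R078.S103Rec445B

/-!
Row 78, S0103, tensor bookkeeping, part 3: the operator part of the slot system
(leg homomorphisms, unitarity, scalars, norms, lifts).
-/

set_option autoImplicit false
set_option linter.unusedSectionVars false
set_option linter.deprecated false
set_option linter.unusedSimpArgs false

namespace Crest.Agent.R078.Z.TB

open ContinuousLinearMap Crest.Agent.R078.Z.Slot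

universe u

section Legs

variable {H G : Type*} [NormedAddCommGroup H] [InnerProductSpace ℂ H] [CompleteSpace H]
  [NormedAddCommGroup G] [InnerProductSpace ℂ G] [CompleteSpace G]
  {I : Type*} [Fintype I] [DecidableEq I] {d : ℕ}
  {V : (Fin d → I × I) → H →L[ℂ] G}

theorem lg1_mul (s t : Matrix I I (H →L[ℂ] H)) :
    (fun p q => ∑ c, lg1 s p c * lg1 t c q) = lg1 (H := H) (s * t : Matrix I I (H →L[ℂ] H)) := by
  funext p q
  rw [Fintype.sum_prod_type]
  unfold lg1
  by_cases h : p.2 = q.2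
  · rw [if_pos h, Matrix.mul_apply]
    refine Finset.sum_congr rfl fun a _ => ?_
    rw [Finset.sum_eq_single p.2]
    · simp [h]
    · intro b _ hb
      simp [Ne.symm hb]
    · simp
  · rw [if_neg h]
    refine Finset.sum_eq_zero fun a _ => Finset.sum_eq_zero fun b _ => ?_
    by_cases h1 : p.2 = b
    · have h2 : b ≠ q.2 := fun e => h (h1.trans e)
      simp [h2]
    · simp [h1]

theorem lg1_star (s : Matrix I I (H →L[ℂ] H)) :
    (fun p q => star (lg1 (H := H) s q p)) = lg1 (H := H) (star s : Matrix I I (H →L[ℂ] H)) := by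
  funext p q
  unfold lg1
  by_cases h : p.2 = q.2
  · rw [if_pos h, if_pos h.symm]
    rfl
  · rw [if_neg h, if_neg (Ne.symm h), star_zero]

theorem lg1_one : lg1 (H := H) (1 : Matrix I I (H →L[ℂ] H)) =
    fun p q => if p = q then 1 else 0 := by
  funext p q
  unfold lg1
  by_cases h : p = q
  · subst h; simp
  · rw [if_neg h]
    by_cases h2 : p.2 = q.2
    · have h1 : p.1 ≠ q.1 := fun e => h (Prod.ext e h2)
      rw [if_pos h2, Matrix.one_apply_ne h1]
    · rw [if_neg h2]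

theorem slot_lg1_mul (hV : IsFrame V) (j : Fin d) (s t : Matrix I I (H →L[ℂ] H)) :
    slot V j (lg1 s) * slot V j (lg1 t) = slot V j (lg1 (s * t : Matrix I I (H →L[ℂ] H))) := by
  rw [slot_mul hV, lg1_mul]

theorem slot_lg1_star (hV : IsFrame V) (j : Fin d) (s : Matrix I I (H →L[ℂ] H)) :
    star (slot V j (lg1 s)) = slot V j (lg1 (star s : Matrix I I (H →L[ℂ] H))) := by
  rw [slot_star hV, lg1_star]

theorem slot_lg1_one (hV : IsFrame V) (j : Fin d) :
    slot V j (lg1 (1 : Matrix I I (H →L[ℂ] H))) = 1 := by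
  rw [lg1_one, slot_one hV]

theorem slot_flip_lg1' (hV : IsFrame V) (j : Fin d) (t : Matrix I I (H →L[ℂ] H)) :
    slot (reF V flipE) j (lg1 t) = slot V j (lg2 t) := slot_flip_lg1 hV j t

theorem slot_lg2_mul (hV : IsFrame V) (j : Fin d) (s t : Matrix I I (H →L[ℂ] H)) :
    slot V j (lg2 s) * slot V j (lg2 t) = slot V j (lg2 (s * t : Matrix I I (H →L[ℂ] H))) := by
  rw [← slot_flip_lg1' hV, ← slot_flip_lg1' hV, ← slot_flip_lg1' hV, slot_lg1_mul (flip_isFrame hV)]

theorem slot_lg2_star (hV : IsFrame V) (j : Fin d) (s : Matrix I I (H →L[ℂ] H)) :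
    star (slot V j (lg2 s)) = slot V j (lg2 (star s : Matrix I I (H →L[ℂ] H))) := by
  rw [← slot_flip_lg1' hV, ← slot_flip_lg1' hV, slot_lg1_star (flip_isFrame hV)]

theorem slot_lg2_one (hV : IsFrame V) (j : Fin d) :
    slot V j (lg2 (1 : Matrix I I (H →L[ℂ] H))) = 1 := by
  rw [← slot_flip_lg1' hV, slot_lg1_one (flip_isFrame hV)]

theorem slot_lg1_unitary (hV : IsFrame V) (j : Fin d) {s : Matrix I I (H →L[ℂ] H)}
    (h1 : s * star s = 1) (h2 : star s * s = 1) :
    slot V j (lg1 s) ∈ unitary (G →L[ℂ] G) := by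
  rw [Unitary.mem_iff]
  constructor
  · rw [slot_lg1_star hV, slot_lg1_mul hV, h2, slot_lg1_one hV]
  · rw [slot_lg1_star hV, slot_lg1_mul hV, h1, slot_lg1_one hV]

theorem slot_lg2_unitary (hV : IsFrame V) (j : Fin d) {s : Matrix I I (H →L[ℂ] H)}
    (h1 : s * star s = 1) (h2 : star s * s = 1) :
    slot V j (lg2 s) ∈ unitary (G →L[ℂ] G) := by
  rw [← slot_flip_lg1' hV]
  exact slot_lg1_unitary (flip_isFrame hV) j h1 h2

/-- scalar matrix -/
def sc (k : I → I → ℂ) : I → I → H →L[ℂ] H := fun a b => k a b • (1 : H →L[ℂ] H)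

theorem smul_one_mem (M : VonNeumannAlgebra H) (c : ℂ) : c • (1 : H →L[ℂ] H) ∈ M := by
  rw [← VonNeumannAlgebra.commutant_commutant M, VonNeumannAlgebra.mem_commutant_iff]
  intro g _
  simp

theorem sc_mem (M : VonNeumannAlgebra H) (k : I → I → ℂ) (a b : I) :
    sc (H := H) k a b ∈ M := smul_one_mem M _

theorem lg2_sc_mem (M : VonNeumannAlgebra H) (k : I → I → ℂ) (p q : I × I) :
    lg2 (sc (H := H) k) p q ∈ M := by
  unfold lg2
  split_ifs
  · exact sc_mem M k _ _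
  · exact zero_mem _

theorem smul_one_comm (c : ℂ) (x : H →L[ℂ] H) :
    (c • (1 : H →L[ℂ] H)) * x = x * (c • (1 : H →L[ℂ] H)) := by
  simp

theorem lg2_sc_comm (k : I → I → ℂ) (p q : I × I) (x : H →L[ℂ] H) :
    lg2 (sc (H := H) k) p q * x = x * lg2 (sc (H := H) k) p q := by
  unfold lg2 sc
  split_ifs
  · simp
  · simp

/-- Hilbert–Schmidt bound of a scalar matrix on leg 2 -/
theorem matBd_lg2_sc {k : I → I → ℂ} {C : ℝ} (hC : 0 ≤ C) (hk : ∑ i, ∑ j, ‖k i j‖ ^ 2 ≤ C ^ 2) :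
    MatBd (lg2 (sc (H := H) k)) C := by
  refine ⟨hC, fun v => ?_⟩
  have e1 : ∀ p : I × I, ∑ q, lg2 (sc (H := H) k) p q (v q) = ∑ b, k p.2 b • v (p.1, b) := by
    intro p
    rw [Fintype.sum_prod_type, Finset.sum_eq_single p.1]
    · exact Finset.sum_congr rfl fun b _ => by simp [lg2, sc]
    · intro a _ ha
      exact Finset.sum_eq_zero fun b _ => by simp [lg2, Ne.symm ha]
    · simp
  simp only [e1]
  have e2 : ∀ p : I × I, ‖∑ b, k p.2 b • v (p.1, b)‖ ^ 2 ≤
      (∑ b, ‖k p.2 b‖ ^ 2) * ∑ b, ‖v (p.1, b)‖ ^ 2 := by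
    intro p
    have h1 : ‖∑ b, k p.2 b • v (p.1, b)‖ ≤ ∑ b, ‖k p.2 b‖ * ‖v (p.1, b)‖ :=
      (norm_sum_le _ _).trans (Finset.sum_le_sum fun b _ => (norm_smul _ _).le)
    refine (pow_le_pow_left₀ (norm_nonneg _) h1 2).trans ?_
    exact Finset.sum_mul_sq_le_sq_mul_sq _ _ _
  refine (Finset.sum_le_sum fun p _ => e2 p).trans ?_
  rw [Fintype.sum_prod_type]
  simp only
  have e3 : ∑ x : I, ∑ y : I, (∑ b, ‖k y b‖ ^ 2) * ∑ b, ‖v (x, b)‖ ^ 2 =
      (∑ i, ∑ j, ‖k i j‖ ^ 2) * ∑ i : I × I, ‖v i‖ ^ 2 := by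
    rw [Fintype.sum_prod_type, Finset.mul_sum]
    refine Finset.sum_congr rfl fun x _ => ?_
    rw [← Finset.sum_mul]
  rw [e3]
  exact mul_le_mul_of_nonneg_right hk (Finset.sum_nonneg fun i _ => by positivity)

theorem slot_lg2_sc_norm_le (hV : IsFrame V) (j : Fin d) {k : I → I → ℂ} {C : ℝ} (hC : 0 ≤ C)
    (hk : ∑ i, ∑ j, ‖k i j‖ ^ 2 ≤ C ^ 2) : ‖slot V j (lg2 (sc (H := H) k))‖ ≤ C :=
  slot_norm_le hV j (matBd_lg2_sc hC hk)

/-- the slot projection `|z⟩⟨z|` -/
def pz (z : I × I → ℂ) : I × I → I × I → H →L[ℂ] H :=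
  fun p q => (z p * (starRingEnd ℂ) (z q)) • (1 : H →L[ℂ] H)

theorem pz_mem (M : VonNeumannAlgebra H) (z : I × I → ℂ) (p q : I × I) :
    pz (H := H) z p q ∈ M := smul_one_mem M _

theorem pz_comm (z : I × I → ℂ) (p q : I × I) (x : H →L[ℂ] H) :
    pz (H := H) z p q * x = x * pz (H := H) z p q := smul_one_comm _ _

theorem slot_pz_star (hV : IsFrame V) (j : Fin d) (z : I × I → ℂ) :
    star (slot V j (pz z)) = slot V j (pz z) := by
  rw [slot_star hV]
  congr 1
  funext a b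
  unfold pz
  rw [star_smul, star_one]
  congr 1
  simp [mul_comm]

theorem slot_pz_idem (hV : IsFrame V) (j : Fin d) {z : I × I → ℂ} (hz : ∑ p, ‖z p‖ ^ 2 = 1) :
    slot V j (pz z) * slot V j (pz z) = slot V j (pz z) := by
  rw [slot_mul hV]
  congr 1
  funext a b
  unfold pz
  have h : ∑ c : I × I, (starRingEnd ℂ) (z c) * z c = 1 := by
    have : ∀ c : I × I, (starRingEnd ℂ) (z c) * z c = ((‖z c‖ ^ 2 : ℝ) : ℂ) := by
      intro c
      rw [mul_comm, Complex.mul_conj, Complex.normSq_eq_norm_sq]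
    simp only [this]
    rw [← Complex.ofReal_sum, hz]
    simp
  calc ∑ c, (z a * (starRingEnd ℂ) (z c)) • (1 : H →L[ℂ] H) *
        (z c * (starRingEnd ℂ) (z b)) • (1 : H →L[ℂ] H)
      = ∑ c, (((starRingEnd ℂ) (z c) * z c) * (z a * (starRingEnd ℂ) (z b))) •
        (1 : H →L[ℂ] H) := by
        refine Finset.sum_congr rfl fun c _ => ?_
        rw [smul_mul_smul_comm, one_mul]
        congr 1
        ring
    _ = (z a * (starRingEnd ℂ) (z b)) • (1 : H →L[ℂ] H) := by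
        rw [← Finset.sum_smul, ← Finset.sum_mul, h, one_mul]

end Legs

section Lifts

variable {H G : Type u} [NormedAddCommGroup H] [InnerProductSpace ℂ H] [CompleteSpace H]
  [NormedAddCommGroup G] [InnerProductSpace ℂ G] [CompleteSpace G]
  {I : Type} [Fintype I] [DecidableEq I] {d : ℕ}
  {V : (Fin d → I × I) → H →L[ℂ] G} {δ : ℝ} {M N : VonNeumannAlgebra H}

theorem ballClose_MM (hSC : SC δ M N) (hV : IsFrame V) : BallClose δ (MM V M) (MM V N) :=
  (hSC G _ _ _ (reF_isFrame hV _)).1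

theorem ballClose_MO (hSC : SC δ M N) (hV : IsFrame V) (j : Fin d) :
    BallClose δ (MO V j M) (MO V j N) :=
  (hSC G _ _ _ (reF_isFrame hV _)).1

theorem SC_MM (hSC : SC δ M N) (hV : IsFrame V) : SC δ (MM V M) (MM V N) :=
  hSC.amp (reF_isFrame hV _)

theorem norm_le_one_of_unitary {x : G →L[ℂ] G} (hx : x ∈ unitary (G →L[ℂ] G)) : ‖x‖ ≤ 1 := by
  refine opNorm_le_bound _ zero_le_one fun g => ?_
  rw [one_mul]
  have h1 : inner ℂ (x g) (x g) = inner ℂ g g := by
    rw [← adjoint_inner_right, ← star_eq_adjoint]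
    have := Unitary.star_mul_self_of_mem hx
    have h2 := congrArg (fun T : G →L[ℂ] G => T g) this
    simp only [ContinuousLinearMap.mul_apply, ContinuousLinearMap.one_apply] at h2
    rw [h2]
  rw [inner_self_eq_norm_sq_to_K, inner_self_eq_norm_sq_to_K] at h1
  have h2 : ‖x g‖ ^ 2 = ‖g‖ ^ 2 := by exact_mod_cast h1
  exact ((sq_eq_sq₀ (norm_nonneg _) (norm_nonneg _)).1 h2).le

variable {L : Type} [Fintype L] [DecidableEq L]

theorem list_prod_mem' (P : VonNeumannAlgebra G) (l : List (G →L[ℂ] G)) (h : ∀ x ∈ l, x ∈ P) :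
    l.prod ∈ P := list_prod_mem h

theorem pre_mem' (P : VonNeumannAlgebra G) (T : Fin d → L → G →L[ℂ] G) (w : Fin d → L) (j : ℕ)
    (h : ∀ i : Fin d, (i : ℕ) < j → ∀ l, T i l ∈ P) : pre T w j ∈ P := by
  refine list_prod_mem fun x hx => ?_
  rw [List.mem_map] at hx
  obtain ⟨i, hi, rfl⟩ := hx
  exact h i (Rec.lt_of_mem_take hi) _

theorem suf_mem' (P : VonNeumannAlgebra G) (T : Fin d → L → G →L[ℂ] G) (w : Fin d → L) (j : ℕ)
    (h : ∀ i : Fin d, j ≤ (i : ℕ) → ∀ l, T i l ∈ P) : suf T w j ∈ P := by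
  refine list_prod_mem fun x hx => ?_
  rw [List.mem_map] at hx
  obtain ⟨i, hi, rfl⟩ := hx
  exact h i (Rec.le_of_mem_drop hi) _

theorem pre_unitary' (T : Fin d → L → G →L[ℂ] G) (w : Fin d → L) (j : ℕ)
    (h : ∀ i l, T i l ∈ unitary (G →L[ℂ] G)) : pre T w j ∈ unitary (G →L[ℂ] G) := by
  refine list_prod_mem fun x hx => ?_
  rw [List.mem_map] at hx
  obtain ⟨i, hi, rfl⟩ := hx
  exact h i _

theorem suf_unitary' (T : Fin d → L → G →L[ℂ] G) (w : Fin d → L) (j : ℕ)
    (h : ∀ i l, T i l ∈ unitary (G →L[ℂ] G)) : suf T w j ∈ unitary (G →L[ℂ] G) := by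
  refine list_prod_mem fun x hx => ?_
  rw [List.mem_map] at hx
  obtain ⟨i, hi, rfl⟩ := hx
  exact h i _

/-- the lifts of the initial words -/
theorem exists_lft (hSC : SC δ M N) (hV : IsFrame V) (T : Fin d → L → Matrix I I (H →L[ℂ] H))
    (hT : ∀ j l a b, T j l a b ∈ M) (hU : ∀ j l, T j l * star (T j l) = 1)
    (hU' : ∀ j l, star (T j l) * T j l = 1) :
    ∃ f : Fin d → (Fin d → L) → G →L[ℂ] G,
      (∀ j w, f j w ∈ MM V N) ∧ (∀ j w, ‖f j w‖ ≤ 1) ∧
      (∀ (j : Fin d) w, ‖pre (fun i l => slot V i (lg1 (T i l))) w j - f j w‖ ≤ δ) ∧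
      (∀ j w l, f j (Function.update w j l) = f j w) := by
  have hB := (ballClose_MM hSC hV).1
  choose! f hf using hB
  have hm : ∀ (w : Fin d → L) (j : Fin d),
      pre (fun i l => slot V i (lg1 (T i l))) w j ∈ MM V M := fun w j =>
    pre_mem' _ _ _ _ fun i _ l => slot_lg1_mem_MM hV M i (hT i l)
  have hn : ∀ (w : Fin d → L) (j : Fin d),
      ‖pre (fun i l => slot V i (lg1 (T i l))) w j‖ ≤ 1 := fun w j =>
    norm_le_one_of_unitary (pre_unitary' _ _ _ fun i l => slot_lg1_unitary hV i (hU i l) (hU' i l))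
  refine ⟨fun j w => f (pre (fun i l => slot V i (lg1 (T i l))) w j), fun j w => ?_,
    fun j w => ?_, fun j w => ?_, fun j w l => ?_⟩
  · exact (hf _ (hm w j) (hn w j)).1
  · exact (hf _ (hm w j) (hn w j)).2.1
  · exact (hf _ (hm w j) (hn w j)).2.2
  · dsimp only
    rw [Rec.pre_update]

/-- the lifts of the final words, off slot `j` -/
theorem exists_rho (hSC : SC δ M N) (hV : IsFrame V) (T : Fin d → L → Matrix I I (H →L[ℂ] H))
    (hT : ∀ j l a b, T j l a b ∈ M) (hU : ∀ j l, T j l * star (T j l) = 1)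
    (hU' : ∀ j l, star (T j l) * T j l = 1) :
    ∃ f : Fin d → (Fin d → L) → G →L[ℂ] G,
      (∀ j w, f j w ∈ MO V j N) ∧ (∀ j w, ‖f j w‖ ≤ 1) ∧
      (∀ (j : Fin d) w, ‖suf (fun i l => slot V i (lg1 (T i l))) w (j + 1) - f j w‖ ≤ δ) ∧
      (∀ j w l, f j (Function.update w j l) = f j w) := by
  have hB := fun j => (ballClose_MO hSC hV j).1
  choose! f hf using hB
  have hm : ∀ (w : Fin d → L) (j : Fin d),
      suf (fun i l => slot V i (lg1 (T i l))) w (j + 1) ∈ MO V j M := fun w j =>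
    suf_mem' _ _ _ _ fun i hi l => slot_lg1_mem_MO hV M (by
      intro e; rw [e] at hi; omega) (hT i l)
  have hn : ∀ (w : Fin d → L) (j : Fin d),
      ‖suf (fun i l => slot V i (lg1 (T i l))) w (j + 1)‖ ≤ 1 := fun w j =>
    norm_le_one_of_unitary (suf_unitary' _ _ _ fun i l => slot_lg1_unitary hV i (hU i l) (hU' i l))
  refine ⟨fun j w => f j (suf (fun i l => slot V i (lg1 (T i l))) w (j + 1)), fun j w => ?_,
    fun j w => ?_, fun j w => ?_, fun j w l => ?_⟩
  · exact (hf j _ (hm w j) (hn w j)).1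
  · exact (hf j _ (hm w j) (hn w j)).2.1
  · exact (hf j _ (hm w j) (hn w j)).2.2
  · dsimp only
    rw [Rec.suf_update]

/-- the lifts of the final words of the commutant letters, off slot `j` -/
theorem exists_tp (hSC : SC δ M N) (hV : IsFrame V) (T : Fin d → L → Matrix I I (H →L[ℂ] H))
    (hT : ∀ j l a b, T j l a b ∈ M.commutant) (hU : ∀ j l, T j l * star (T j l) = 1)
    (hU' : ∀ j l, star (T j l) * T j l = 1) :
    ∃ f : Fin d → (Fin d → L) → G →L[ℂ] G,
      (∀ j w, f j w ∈ MO (reF V flipE) j N.commutant) ∧ (∀ j w, ‖f j w‖ ≤ 1) ∧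
      (∀ (j : Fin d) w, ‖suf (fun i l => slot V i (lg2 (T i l))) w (j + 1) - f j w‖ ≤ δ) ∧
      (∀ j w l, f j (Function.update w j l) = f j w) := by
  obtain ⟨f, h1, h2, h3, h4⟩ := exists_rho (hSC.commutant) (flip_isFrame hV) T hT hU hU'
  refine ⟨f, h1, h2, fun j w => ?_, h4⟩
  have e : (fun i l => slot (reF V flipE) i (lg1 (T i l))) = fun i l => slot V i (lg2 (T i l)) := by
    funext i l
    exact slot_flip_lg1 hV i _
  rw [← e]
  exact h3 j w

theorem MO_flip_mem (hV : IsFrame V) (N : VonNeumannAlgebra H) (j : Fin d) {X : G →L[ℂ] G}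
    (hX : X ∈ MO (reF V flipE) j N.commutant) : X ∈ (MM V N).commutant := by
  rw [commutant_MM hV]
  exact MO_le_MM (flip_isFrame hV) _ j hX

theorem MO_flip_comm_slot (hV : IsFrame V) (N : VonNeumannAlgebra H) (j : Fin d) {X : G →L[ℂ] G}
    (hX : X ∈ MO (reF V flipE) j N.commutant) {x : I × I → I × I → H →L[ℂ] H}
    (hx : ∀ p q, x p q ∈ N) : X * slot V j x = slot V j x * X := by
  have e : slot V j x = slot (reF V flipE) j (fun p q => x p.swap q.swap) := by
    rw [slot_flip hV]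
    rfl
  rw [e]
  refine MO_comm_slot (flip_isFrame hV) N.commutant j hX fun p q => ?_
  rw [VonNeumannAlgebra.commutant_commutant]
  exact hx _ _

end Lifts

end Crest.Agent.R078.Z.TB
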