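import Crest.Agent.R078.S104Targets

set_option autoImplicit false
set_option linter.unusedSectionVars false

/-!
# R78, S0104, block B2: row and column bounds
-/

noncomputable section

namespace Crest.Agent.R078.S104.BoundsFile

open scoped InnerProductSpace
open Crest.Agent.R078.S104

section general

variable {ι : Type} [Fintype ι] [DecidableEq ι] {H : Type} [NormedAddCommGroup H]
  [InnerProductSpace ℂ H] [CompleteSpace H]

theorem inner_star_left (T : H →L[ℂ] H) (x y : H) : ⟪star T x, y⟫_ℂ = ⟪x, T y⟫_ℂ := by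
  rw [ContinuousLinearMap.star_eq_adjoint, ContinuousLinearMap.adjoint_inner_left]

theorem inner_star_right (T : H →L[ℂ] H) (x y : H) : ⟪x, star T y⟫_ℂ = ⟪T x, y⟫_ℂ := by
  rw [ContinuousLinearMap.star_eq_adjoint, ContinuousLinearMap.adjoint_inner_right]

theorem norm_sq_eq_re (x : H) : ‖x‖ ^ 2 = (⟪x, x⟫_ℂ).re := by
  rw [inner_self_eq_norm_sq_to_K]
  norm_cast

theorem norm_sum_iso (t : ι → (H →L[ℂ] H))
    (ht : ∀ a b, star (t a) * t b = if a = b then 1 else 0) (ξ : ι → H) :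
    ‖∑ a, t a (ξ a)‖ ^ 2 = ∑ a, ‖ξ a‖ ^ 2 := by
  rw [norm_sq_eq_re, sum_inner, Complex.re_sum]
  refine Finset.sum_congr rfl fun a _ => ?_
  rw [inner_sum, Finset.sum_eq_single a]
  · rw [← inner_star_right, ← ContinuousLinearMap.mul_apply, ht, if_pos rfl, norm_sq_eq_re]
    rfl
  · intro b _ hb
    rw [← inner_star_right, ← ContinuousLinearMap.mul_apply, ht, if_neg (Ne.symm hb)]
    simp
  · intro h
    exact absurd (Finset.mem_univ a) h

theorem sum_norm_star_iso_le (t : ι → (H →L[ℂ] H))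
    (ht : ∀ a b, star (t a) * t b = if a = b then 1 else 0) (ζ : H) :
    ∑ a, ‖star (t a) ζ‖ ^ 2 ≤ ‖ζ‖ ^ 2 := by
  set v : H := ∑ a, t a (star (t a) ζ) with hv
  have h1 : ‖v‖ ^ 2 = ∑ a, ‖star (t a) ζ‖ ^ 2 := norm_sum_iso t ht _
  have h2 : (⟪v, ζ⟫_ℂ).re = ∑ a, ‖star (t a) ζ‖ ^ 2 := by
    rw [hv, sum_inner, Complex.re_sum]
    refine Finset.sum_congr rfl fun a _ => ?_
    rw [← inner_star_right, norm_sq_eq_re]
  have h3 : (⟪v, ζ⟫_ℂ).re ≤ ‖v‖ * ‖ζ‖ := (Complex.re_le_norm _).trans (norm_inner_le_norm _ _)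
  rw [h2, ← h1] at h3
  rw [← h1]
  by_cases h : ‖v‖ = 0
  · rw [h, zero_pow two_ne_zero]
    positivity
  · have h4 : 0 < ‖v‖ := lt_of_le_of_ne (norm_nonneg _) (Ne.symm h)
    have h5 : ‖v‖ ≤ ‖ζ‖ := by nlinarith
    exact pow_le_pow_left₀ (norm_nonneg _) h5 2

end general

variable {p : ℕ} [NeZero p] {H : Type} [NormedAddCommGroup H] [InnerProductSpace ℂ H]
  [CompleteSpace H]

theorem sumStarL : SumStarL (p := p) (H := H) := fun S ζ =>
  sum_norm_star_iso_le S.l S.star_l_l ζ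

theorem normSumM : NormSumM (p := p) (H := H) := fun S ξ => norm_sum_iso S.m S.star_m_m ξ

theorem norm_star_l_le (S : Sys p H) (a : ZMod p) (ζ : H) : ‖star (S.l a) ζ‖ ≤ ‖ζ‖ := by
  have h1 := sumStarL S ζ
  have h2 : ‖star (S.l a) ζ‖ ^ 2 ≤ ∑ a, ‖star (S.l a) ζ‖ ^ 2 :=
    Finset.single_le_sum (f := fun a => ‖star (S.l a) ζ‖ ^ 2) (fun _ _ => by positivity)
      (Finset.mem_univ a)
  exact le_of_sq_le_sq (h2.trans h1) (norm_nonneg _)

theorem normSumStarL : NormSumStarL (p := p) (H := H) := by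
  intro S ξ
  have h1 : ‖∑ a, star (S.l a) (ξ a)‖ ≤ ∑ a, ‖ξ a‖ :=
    (norm_sum_le _ _).trans (Finset.sum_le_sum fun a _ => norm_star_l_le S a _)
  have h2 : (∑ a, ‖ξ a‖) ^ 2 ≤ p * ∑ a, ‖ξ a‖ ^ 2 := by
    have := sq_sum_le_card_mul_sum_sq (s := (Finset.univ : Finset (ZMod p)))
      (f := fun i => ‖ξ i‖)
    rwa [Finset.card_univ, ZMod.card] at this
  exact (pow_le_pow_left₀ (norm_nonneg _) h1 2).trans h2

theorem X_eq (S : Sys p H) {x : H →L[ℂ] H} (hx : S.Good x) (a : ZMod p) :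
    S.X x a = star (S.l a) * x - x * star (S.l a) := by
  have h := (hx.s a).eq
  unfold Sys.s at h
  rw [mul_add, add_mul] at h
  unfold Sys.X
  rw [sub_eq_sub_iff_add_eq_add, h, add_comm]

theorem starLX : StarLX (p := p) (H := H) := by
  intro S x hx a a'
  rw [X_eq S hx a]
  unfold Sys.X
  rw [mul_sub, sub_mul, ← mul_assoc (star (S.l a)) (S.l a') x, mul_assoc x, S.star_l_l]
  split_ifs
  · rw [one_mul, mul_one, mul_assoc]
  · rw [zero_mul, mul_zero, mul_assoc]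

theorem norm_sub_sq_le (u v : H) : ‖u - v‖ ^ 2 ≤ 2 * ‖u‖ ^ 2 + 2 * ‖v‖ ^ 2 := by
  have h : ‖u - v‖ ≤ ‖u‖ + ‖v‖ := norm_sub_le _ _
  have h2 : ‖u - v‖ ^ 2 ≤ (‖u‖ + ‖v‖) ^ 2 := by gcongr
  nlinarith [sq_nonneg (‖u‖ - ‖v‖)]

theorem sum_comm_le (S : Sys p H) (y : H →L[ℂ] H) (hy : ‖y‖ ≤ 1) (ζ : H) :
    ∑ a, ‖(star (S.l a) * y - y * star (S.l a)) ζ‖ ^ 2 ≤ 4 * ‖ζ‖ ^ 2 := by
  have hyv : ∀ v : H, ‖y v‖ ≤ ‖v‖ := fun v =>
    (y.le_opNorm v).trans (by nlinarith [norm_nonneg v])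
  have h1 : ∀ a, ‖(star (S.l a) * y - y * star (S.l a)) ζ‖ ^ 2 ≤
      2 * ‖star (S.l a) (y ζ)‖ ^ 2 + 2 * ‖star (S.l a) ζ‖ ^ 2 := by
    intro a
    have e : (star (S.l a) * y - y * star (S.l a)) ζ =
        star (S.l a) (y ζ) - y (star (S.l a) ζ) := rfl
    rw [e]
    refine (norm_sub_sq_le _ _).trans ?_
    have := pow_le_pow_left₀ (norm_nonneg _) (hyv (star (S.l a) ζ)) 2
    linarith
  have h2 := sumStarL S (y ζ)
  have h3 := sumStarL S ζ
  have h4 := pow_le_pow_left₀ (norm_nonneg _) (hyv ζ) 2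
  calc ∑ a, ‖(star (S.l a) * y - y * star (S.l a)) ζ‖ ^ 2
      ≤ ∑ a, (2 * ‖star (S.l a) (y ζ)‖ ^ 2 + 2 * ‖star (S.l a) ζ‖ ^ 2) :=
        Finset.sum_le_sum fun a _ => h1 a
    _ = 2 * ∑ a, ‖star (S.l a) (y ζ)‖ ^ 2 + 2 * ∑ a, ‖star (S.l a) ζ‖ ^ 2 := by
        rw [Finset.sum_add_distrib, Finset.mul_sum, Finset.mul_sum]
    _ ≤ 4 * ‖ζ‖ ^ 2 := by linarith

theorem sumX : SumX (p := p) (H := H) := by
  intro S x hx hx1 ζ
  have h := sum_comm_le S x hx1 ζ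
  simp only [← X_eq S hx] at h
  exact h

theorem sumXstar : SumXstar (p := p) (H := H) := by
  intro S x hx hx1 ζ
  have h := sum_comm_le S (star x) (by rw [norm_star]; exact hx1) ζ
  have e : ∀ a, star (S.X x a) = star (S.l a) * star x - star x * star (S.l a) := by
    intro a
    unfold Sys.X
    rw [star_sub, star_mul, star_mul]
  simp only [e]
  exact h

end Crest.Agent.R078.S104.BoundsFile
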