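import Mathlib

/-!
# R78, S0104: definitions (paper proof: post #3287 by helper615)

`K1 = K2 = ℓ²(List (ZMod p))`, `E = ℂ ⊕ ℂ^p`, `H = K1 ⊗ K2 ⊗ E`.  All operators are elements of `H →L[ℂ] H`.
* `l a`, `r a` : left/right creation operators on `K1`,
* `m b`, `t b` : left/right creation operators on `K2`,
* `E b` : matrix unit `e_{3b,1}`, `e1` : the projection on level 1,
* `P` : vacuum projection of `K1`, `v0 = Ω ⊗ Ω ⊗ e_1`.
-/

set_option autoImplicit false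

noncomputable section

namespace Crest.Agent.R078.S104

open scoped InnerProductSpace

/-- All operators with all relations that the proof uses. -/
structure Sys (p : ℕ) [NeZero p] (H : Type) [NormedAddCommGroup H] [InnerProductSpace ℂ H]
    [CompleteSpace H] where
  l : ZMod p → (H →L[ℂ] H)
  r : ZMod p → (H →L[ℂ] H)
  m : ZMod p → (H →L[ℂ] H)
  t : ZMod p → (H →L[ℂ] H)
  E : ZMod p → (H →L[ℂ] H)
  e1 : H →L[ℂ] H
  P : H →L[ℂ] H
  v0 : H
  -- isometries with orthogonal ranges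
  star_l_l : ∀ a b, star (l a) * l b = if a = b then 1 else 0
  star_r_r : ∀ a b, star (r a) * r b = if a = b then 1 else 0
  star_m_m : ∀ a b, star (m a) * m b = if a = b then 1 else 0
  star_t_t : ∀ a b, star (t a) * t b = if a = b then 1 else 0
  -- matrix units
  star_E_E : ∀ a b, star (E a) * E b = if a = b then e1 else 0
  star_e1 : star e1 = e1
  e1_e1 : e1 * e1 = e1
  E_e1 : ∀ b, E b * e1 = E b
  e1_E : ∀ b, e1 * E b = 0
  sum_E : ∑ b, E b * star (E b) = 1 - e1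
  -- `[s_a, d_b] = 0` on `K1` and on `K2`, `[d_a, l_b] = δ_ab P`
  comm_s_d : ∀ a b, Commute (l a + star (l a)) (r b + star (r b))
  comm_s_d' : ∀ a b, Commute (m a + star (m a)) (t b + star (t b))
  d_l : ∀ a b, (r a + star (r a)) * l b - l b * (r a + star (r a)) = if a = b then P else 0
  star_l_P : ∀ a, star (l a) * P = 0
  -- the three tensor factors commute
  comm_l_m : ∀ a b, Commute (l a) (m b)
  comm_l_m' : ∀ a b, Commute (l a) (star (m b))
  comm_l_t : ∀ a b, Commute (l a) (t b)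
  comm_l_t' : ∀ a b, Commute (l a) (star (t b))
  comm_r_m : ∀ a b, Commute (r a) (m b)
  comm_r_m' : ∀ a b, Commute (r a) (star (m b))
  comm_r_t : ∀ a b, Commute (r a) (t b)
  comm_r_t' : ∀ a b, Commute (r a) (star (t b))
  comm_l_E : ∀ a b, Commute (l a) (E b)
  comm_l_E' : ∀ a b, Commute (l a) (star (E b))
  comm_r_E : ∀ a b, Commute (r a) (E b)
  comm_r_E' : ∀ a b, Commute (r a) (star (E b))
  comm_m_E : ∀ a b, Commute (m a) (E b)
  comm_m_E' : ∀ a b, Commute (m a) (star (E b))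
  comm_t_E : ∀ a b, Commute (t a) (E b)
  comm_t_E' : ∀ a b, Commute (t a) (star (E b))
  comm_P_E : ∀ b, Commute P (E b)
  -- vacuum
  norm_v0 : ‖v0‖ = 1
  P_v0 : P v0 = v0
  e1_v0 : e1 v0 = v0
  star_m_v0 : ∀ a, star (m a) v0 = 0
  star_t_v0 : ∀ a, star (t a) v0 = 0
  star_m_t_v0 : ∀ a b, star (m a) (t b v0) = if a = b then v0 else 0

variable {p : ℕ} [NeZero p] {H : Type} [NormedAddCommGroup H] [InnerProductSpace ℂ H]
  [CompleteSpace H]

/-- the phases `c(a,b) = ω^{a² b}` -/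
def c (a b : ZMod p) : ℂ := ZMod.stdAddChar (a ^ 2 * b)

namespace Sys

variable (S : Sys p H)

/-- `s_a = l_a + l_a^*` -/
def s (a : ZMod p) : H →L[ℂ] H := S.l a + star (S.l a)
/-- `d_a = r_a + r_a^*` -/
def d (a : ZMod p) : H →L[ℂ] H := S.r a + star (S.r a)
/-- `s'_b` on `K2` -/
def s' (b : ZMod p) : H →L[ℂ] H := S.m b + star (S.m b)
/-- `d'_b` on `K2` -/
def d' (b : ZMod p) : H →L[ℂ] H := S.t b + star (S.t b)
/-- `û_a e_b = c(a,b) e_{a+b}` on level 3 -/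
def uh (a : ZMod p) : H →L[ℂ] H := ∑ b, c a b • (S.E (a + b) * star (S.E b))
/-- the isometry `J = p^{-1/2} ∑ l_a û_a` of level 3 -/
def J : H →L[ℂ] H := (((Real.sqrt p)⁻¹ : ℝ) : ℂ) • ∑ a, S.l a * S.uh a
/-- `B = ∑ m_b^* e_{3b,1}` -/
def B : H →L[ℂ] H := ∑ b, star (S.m b) * S.E b
/-- `B' = ∑ m_b e_{3b,1}` -/
def B' : H →L[ℂ] H := ∑ b, S.m b * S.E b
/-- `S = ∑ s'_b e_{3b,1} = B + B'` -/
def SS : H →L[ℂ] H := ∑ b, S.s' b * S.E b
/-- `Z = J B` -/
def Z : H →L[ℂ] H := S.J * S.B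
/-- `f = J J^*`, the range projection of `Z` -/
def f : H →L[ℂ] H := S.J * star S.J
/-- `U = (e1 - Z^*Z) + (e3 - ZZ^*) + Z - Z^*`, `e3 = 1 - e1` -/
def U : H →L[ℂ] H :=
  (S.e1 - star S.Z * S.Z) + ((1 - S.e1) - S.f) + S.Z - star S.Z

/-- `x` commutes with `s_a`, with everything on `K2` and on `E`: the properties of `x ∈ {d_a}''` that are used. -/
structure Good (x : H →L[ℂ] H) : Prop where
  s : ∀ a, Commute x (S.s a)
  m : ∀ b, Commute x (S.m b)
  m' : ∀ b, Commute x (star (S.m b))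
  d' : ∀ b, Commute x (S.d' b)
  E : ∀ b, Commute x (S.E b)
  E' : ∀ b, Commute x (star (S.E b))

/-- `y ∈ N` : `y` commutes with all `d'_b`. -/
def InN (y : H →L[ℂ] H) : Prop := ∀ b, Commute y (S.d' b)

/-- `X_a = [x, l_a]` -/
def X (x : H →L[ℂ] H) (a : ZMod p) : H →L[ℂ] H := x * S.l a - S.l a * x

/-- `C = J^* [x, J]` -/
def C (x : H →L[ℂ] H) : H →L[ℂ] H := star S.J * (x * S.J - S.J * x)

/-- the off-diagonal part `C_off = p^{-1} ∑_{a ≠ a'} l_a^* X_{a'} û_a^* û_{a'}` -/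
def Coff (x : H →L[ℂ] H) : H →L[ℂ] H :=
  ((p : ℂ)⁻¹) • ∑ a, ∑ a', if a = a' then 0 else (star (S.l a) * S.X x a') * (star (S.uh a) * S.uh a')

/-- `V = ∑ X_a û_a`, so that `[x, J] = p^{-1/2} V` -/
def V (x : H →L[ℂ] H) : H →L[ℂ] H := ∑ a, S.X x a * S.uh a

end Sys

end Crest.Agent.R078.S104
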