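import Crest.Agent.R078.S104Targets

/-!
# R78, S0104: block F, the detection argument (part (4) of post #3287)
-/

set_option autoImplicit false

noncomputable section

namespace Crest.Agent.R078.S104.DetectF

open scoped InnerProductSpace

variable {p : ℕ} [NeZero p] {H : Type} [NormedAddCommGroup H] [InnerProductSpace ℂ H]
  [CompleteSpace H]

/-! ### generalities -/

lemma star_left (T : H →L[ℂ] H) (x y : H) : ⟪star T x, y⟫_ℂ = ⟪x, T y⟫_ℂ := by
  rw [ContinuousLinearMap.star_eq_adjoint, ContinuousLinearMap.adjoint_inner_left]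

lemma star_right (T : H →L[ℂ] H) (x y : H) : ⟪x, star T y⟫_ℂ = ⟪T x, y⟫_ℂ := by
  rw [ContinuousLinearMap.star_eq_adjoint, ContinuousLinearMap.adjoint_inner_right]

omit [CompleteSpace H] in
lemma comm_apply {A B : H →L[ℂ] H} (h : Commute A B) (x : H) : A (B x) = B (A x) := by
  have := congrArg (fun T : H →L[ℂ] H => T x) h.eq
  simpa using this

omit [CompleteSpace H] in
lemma mul_ap (A B : H →L[ℂ] H) (x : H) : (A * B) x = A (B x) := rfl

lemma norm_unitary {u : H →L[ℂ] H} (hu : u ∈ unitary (H →L[ℂ] H)) (x : H) : ‖u x‖ = ‖x‖ := by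
  have h1 : star u * u = 1 := (Unitary.mem_iff.mp hu).1
  have h2 : ⟪u x, u x⟫_ℂ = ⟪x, x⟫_ℂ := by
    rw [← star_left, ← mul_ap, h1]; rfl
  have h3 : ‖u x‖ ^ 2 = ‖x‖ ^ 2 := by
    rw [inner_self_eq_norm_sq_to_K, inner_self_eq_norm_sq_to_K] at h2
    exact_mod_cast h2
  exact (sq_eq_sq₀ (norm_nonneg _) (norm_nonneg _)).mp h3

lemma norm_c (a b : ZMod p) : ‖c a b‖ = 1 := by
  unfold c
  exact AddChar.norm_apply _ _

variable (S : Sys p H)

lemma star_E_e1 (k : ZMod p) : star (S.E k) * S.e1 = 0 := by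
  have := congrArg star (S.e1_E k)
  rwa [star_mul, S.star_e1, star_zero] at this

lemma star_E_v0 (k : ZMod p) : star (S.E k) S.v0 = 0 := by
  have := congrArg (fun T : H →L[ℂ] H => T S.v0) (star_E_e1 S k)
  simpa [mul_ap, S.e1_v0] using this

lemma E_E (j k : ZMod p) : S.E j * S.E k = 0 := by
  rw [← S.E_e1 j, mul_assoc, S.e1_E, mul_zero]

lemma inner_E (j k : ZMod p) (x y : H) :
    ⟪S.E j x, S.E k y⟫_ℂ = if j = k then ⟪x, S.e1 y⟫_ℂ else 0 := by
  rw [← star_right, ← mul_ap, S.star_E_E]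
  split_ifs with h
  · rfl
  · simp

lemma comm_star {A B : H →L[ℂ] H} (h : Commute A (star B)) : Commute (star A) B := by
  have := h.star_star
  rwa [star_star] at this

lemma comm_star' {A B : H →L[ℂ] H} (h : Commute A B) : Commute (star A) (star B) :=
  h.star_star

lemma e1_eq : S.e1 = star (S.E 0) * S.E 0 := by
  rw [S.star_E_E]; simp

lemma comm_e1 {A : H →L[ℂ] H} (h : ∀ b, Commute A (S.E b)) (h' : ∀ b, Commute A (star (S.E b))) :
    Commute A S.e1 := by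
  rw [e1_eq]
  exact (h' 0).mul_right (h 0)

lemma comm_uh {A : H →L[ℂ] H} (h : ∀ b, Commute A (S.E b)) (h' : ∀ b, Commute A (star (S.E b)))
    (a : ZMod p) : Commute A (S.uh a) := by
  unfold Sys.uh
  refine Commute.sum_right _ _ _ fun b _ => ?_
  exact (((h (a + b)).mul_right (h' b))).smul_right _

lemma comm_t_e1 (b : ZMod p) : Commute (S.t b) S.e1 :=
  comm_e1 S (S.comm_t_E b) (S.comm_t_E' b)

lemma comm_d_E (a b : ZMod p) : Commute (S.d a) (S.E b) :=
  (S.comm_r_E a b).add_left (comm_star (S.comm_r_E' a b))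

lemma comm_d_E' (a b : ZMod p) : Commute (S.d a) (star (S.E b)) :=
  (S.comm_r_E' a b).add_left (comm_star' (S.comm_r_E a b))

lemma uh_mul_E (a b : ZMod p) : S.uh a * S.E b = c a b • S.E (a + b) := by
  unfold Sys.uh
  rw [Finset.sum_mul, Finset.sum_eq_single b]
  · rw [smul_mul_assoc, mul_assoc, S.star_E_E, if_pos rfl, S.E_e1]
  · intro k _ hk
    rw [smul_mul_assoc, mul_assoc, S.star_E_E, if_neg hk, mul_zero, smul_zero]
  · intro h; exact absurd (Finset.mem_univ _) h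

lemma uh_mul_e1 (a : ZMod p) : S.uh a * S.e1 = 0 := by
  unfold Sys.uh
  rw [Finset.sum_mul]
  refine Finset.sum_eq_zero fun b _ => ?_
  rw [smul_mul_assoc, mul_assoc, star_E_e1, mul_zero, smul_zero]

lemma e1_mul_uh (a : ZMod p) : S.e1 * S.uh a = 0 := by
  unfold Sys.uh
  rw [Finset.mul_sum]
  refine Finset.sum_eq_zero fun b _ => ?_
  rw [mul_smul_comm, ← mul_assoc, S.e1_E, zero_mul, smul_zero]

lemma comm_l_e1 (a : ZMod p) : Commute (S.l a) S.e1 :=
  comm_e1 S (S.comm_l_E a) (S.comm_l_E' a)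

lemma J_e1 : S.J * S.e1 = 0 := by
  unfold Sys.J
  rw [smul_mul_assoc, Finset.sum_mul, Finset.sum_eq_zero, smul_zero]
  intro a _
  rw [mul_assoc, uh_mul_e1, mul_zero]

lemma e1_J : S.e1 * S.J = 0 := by
  unfold Sys.J
  rw [mul_smul_comm, Finset.mul_sum, Finset.sum_eq_zero, smul_zero]
  intro a _
  rw [← mul_assoc, ← (comm_l_e1 S a).eq, mul_assoc, e1_mul_uh, mul_zero]

lemma starJ_e1 : star S.J * S.e1 = 0 := by
  have := congrArg star (e1_J S)
  rwa [star_mul, S.star_e1, star_zero] at this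

/-- `J^*` kills everything on level 1 -/
lemma starJ_apply {ζ : H} (h : S.e1 ζ = ζ) : star S.J ζ = 0 := by
  have := congrArg (fun T : H →L[ℂ] H => T ζ) (starJ_e1 S)
  simpa [mul_ap, h] using this

lemma e1_t_v0 (b : ZMod p) : S.e1 (S.t b S.v0) = S.t b S.v0 := by
  rw [← comm_apply (comm_t_e1 S b), S.e1_v0]

lemma proj_zero {ζ : H} (h : S.e1 ζ = ζ) : (1 - S.e1 - S.f) ζ = 0 := by
  simp [Sys.f, h, starJ_apply S h]

lemma comm_mstar_E (a b : ZMod p) : Commute (star (S.m a)) (S.E b) := comm_star (S.comm_m_E' a b)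

lemma B_v0 : S.B S.v0 = 0 := by
  unfold Sys.B
  rw [sum_apply]
  refine Finset.sum_eq_zero fun b _ => ?_
  rw [mul_ap, comm_apply (comm_mstar_E S b b), S.star_m_v0, map_zero]

lemma B_t_v0 (b : ZMod p) : S.B (S.t b S.v0) = S.E b S.v0 := by
  unfold Sys.B
  rw [sum_apply, Finset.sum_eq_single b]
  · rw [mul_ap, comm_apply (comm_mstar_E S b b), S.star_m_t_v0, if_pos rfl]
  · intro k _ hk
    rw [mul_ap, comm_apply (comm_mstar_E S k k), S.star_m_t_v0, if_neg hk, map_zero]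
  · intro h; exact absurd (Finset.mem_univ _) h

lemma B_E (k : ZMod p) : S.B * S.E k = 0 := by
  unfold Sys.B
  rw [Finset.sum_mul]
  refine Finset.sum_eq_zero fun b _ => ?_
  rw [mul_assoc, E_E, mul_zero]

/-- `[d_a, J] = p^{-1/2} P û_a` -/
lemma comm_d_J (a : ZMod p) : S.d a * S.J - S.J * S.d a =
    (((Real.sqrt p)⁻¹ : ℝ) : ℂ) • (S.P * S.uh a) := by
  unfold Sys.J
  rw [mul_smul_comm, smul_mul_assoc, ← smul_sub, Finset.mul_sum, Finset.sum_mul,
    ← Finset.sum_sub_distrib]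
  congr 1
  rw [Finset.sum_eq_single a]
  · have h := S.d_l a a
    rw [if_pos rfl] at h
    have h2 : Commute (S.d a) (S.uh a) := comm_uh S (comm_d_E S a) (comm_d_E' S a) a
    rw [mul_assoc (S.l a), ← h2.eq, ← mul_assoc, ← mul_assoc, ← sub_mul, ← h]
    rfl
  · intro k _ hk
    have h := S.d_l a k
    rw [if_neg (Ne.symm hk)] at h
    have h2 : Commute (S.d a) (S.uh k) := comm_uh S (comm_d_E S a) (comm_d_E' S a) k
    rw [mul_assoc (S.l k), ← h2.eq, ← mul_assoc, ← mul_assoc, ← sub_mul]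
    have h3 : S.d a * S.l k - S.l k * S.d a = 0 := h
    rw [h3, zero_mul]
  · intro h; exact absurd (Finset.mem_univ _) h

lemma comm_d_J_apply (a b : ZMod p) : (S.d a * S.J - S.J * S.d a) (S.E b S.v0) =
    ((((Real.sqrt p)⁻¹ : ℝ) : ℂ) * c a b) • S.E (a + b) S.v0 := by
  rw [comm_d_J, smul_apply, mul_ap, ← mul_ap (S.uh a), uh_mul_E,
    smul_apply, map_smul, smul_smul, comm_apply (S.comm_P_E _), S.P_v0]

lemma starJ_E_v0 (k : ZMod p) : star S.J (S.E k S.v0) = 0 := by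
  unfold Sys.J
  rw [star_smul, star_sum, smul_apply, sum_apply,
    Finset.sum_eq_zero, smul_zero]
  intro a _
  rw [star_mul, mul_ap, comm_apply (comm_star (S.comm_l_E' a k))]
  have h : star (S.l a) S.v0 = 0 := by
    have := congrArg (fun T : H →L[ℂ] H => T S.v0) (S.star_l_P a)
    simpa [mul_ap, S.P_v0] using this
  rw [h, map_zero, map_zero]

lemma e1_E_v0 (k : ZMod p) : S.e1 (S.E k S.v0) = 0 := by
  rw [← mul_ap, S.e1_E]; rfl

lemma proj_E_v0 (k : ZMod p) : (1 - S.e1 - S.f) (S.E k S.v0) = S.E k S.v0 := by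
  simp [Sys.f, starJ_E_v0, e1_E_v0]

/-- `x̂_a = U d_a U^*` -/
def xh (a : ZMod p) : H →L[ℂ] H := S.U * S.d a * star S.U

section withConj

variable (hC : ConjU (p := p) (H := H)) (hG : GoodD (p := p) (H := H))

include hC hG

lemma xh_level1 (a : ZMod p) {ζ : H} (h : S.e1 ζ = ζ) : xh S a ζ = S.d a ζ
    - (1 - S.e1 - S.f) ((S.d a * S.J - S.J * S.d a) (S.B ζ))
    + star S.B (S.C (S.d a) (S.B ζ)) := by
  unfold xh
  rw [hC S (S.d a) (hG S a)]
  generalize hD : S.d a * S.J - S.J * S.d a = D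
  generalize hD' : S.d a * star S.J - star S.J * S.d a = D'
  generalize hQ : 1 - S.e1 - S.f = Q
  have h1 : Q ζ = 0 := by rw [← hQ]; exact proj_zero S h
  have h2 : star S.J ζ = 0 := starJ_apply S h
  simp only [add_apply, sub_apply, mul_ap, h1, h2, map_zero, add_zero, sub_zero]

lemma xh_v0 (a : ZMod p) : xh S a S.v0 = S.d a S.v0 := by
  rw [xh_level1 S hC hG a S.e1_v0, B_v0]
  simp

omit hC hG in
lemma inner_E_d_t (a b k : ZMod p) : ⟪S.E k S.v0, S.d a (S.t b S.v0)⟫_ℂ = 0 := by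
  rw [← star_right, ← comm_apply (comm_d_E' S a k), ← comm_apply (S.comm_t_E' b k), star_E_v0,
    map_zero, map_zero, inner_zero_right]

omit hC hG in
lemma inner_E_starB (k : ZMod p) (y : H) : ⟪S.E k S.v0, star S.B y⟫_ℂ = 0 := by
  rw [star_right, ← mul_ap, B_E]
  simp

omit hC hG in
lemma inner_v0 : ⟪S.v0, S.v0⟫_ℂ = 1 := by
  rw [inner_self_eq_norm_sq_to_K, S.norm_v0]; simp

lemma inner_xh_t (a b : ZMod p) : ⟪S.E (a + b) S.v0, xh S a (S.t b S.v0)⟫_ℂ =
    -((((Real.sqrt p)⁻¹ : ℝ) : ℂ) * c a b) := by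
  rw [xh_level1 S hC hG a (e1_t_v0 S b), B_t_v0, comm_d_J_apply, map_smul, proj_E_v0,
    inner_add_right, inner_sub_right, inner_E_d_t, inner_E_starB, inner_smul_right, inner_E,
    if_pos rfl, S.e1_v0, inner_v0]
  simp

end withConj

lemma d'_v0 (b : ZMod p) : S.d' b S.v0 = S.t b S.v0 := by
  unfold Sys.d'
  rw [add_apply, S.star_t_v0, add_zero]

lemma comm_d'_E (a b : ZMod p) : Commute (S.d' a) (S.E b) :=
  (S.comm_t_E a b).add_left (comm_star (S.comm_t_E' a b))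

lemma comm_d'_E' (a b : ZMod p) : Commute (S.d' a) (star (S.E b)) :=
  (S.comm_t_E' a b).add_left (comm_star' (S.comm_t_E a b))

lemma star_d' (b : ZMod p) : star (S.d' b) = S.d' b := by
  unfold Sys.d'
  rw [star_add, star_star, add_comm]

lemma inner_E_d'_d (a b k : ZMod p) : ⟪S.E k S.v0, S.d' b (S.d a S.v0)⟫_ℂ = 0 := by
  rw [← star_right, ← comm_apply (comm_d'_E' S b k), ← comm_apply (comm_d_E' S a k), star_E_v0,
    map_zero, map_zero, inner_zero_right]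

/-! ### norms -/

lemma norm_sum_r (y : ZMod p → H) : ‖∑ a, S.r a (y a)‖ ^ 2 = ∑ a, ‖y a‖ ^ 2 := by
  have h : ⟪∑ a, S.r a (y a), ∑ a, S.r a (y a)⟫_ℂ = ∑ a, ⟪y a, y a⟫_ℂ := by
    rw [sum_inner]
    refine Finset.sum_congr rfl fun a _ => ?_
    rw [inner_sum, Finset.sum_eq_single a]
    · rw [← star_right, ← mul_ap, S.star_r_r, if_pos rfl]; rfl
    · intro k _ hk
      rw [← star_right, ← mul_ap, S.star_r_r, if_neg (Ne.symm hk)]; simp
    · intro h; exact absurd (Finset.mem_univ _) h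
  simp only [inner_self_eq_norm_sq_to_K] at h
  exact_mod_cast h

lemma norm_r (a : ZMod p) (y : H) : ‖S.r a y‖ = ‖y‖ := by
  have h2 : ⟪S.r a y, S.r a y⟫_ℂ = ⟪y, y⟫_ℂ := by
    rw [← star_right, ← mul_ap, S.star_r_r, if_pos rfl]; rfl
  have h3 : ‖S.r a y‖ ^ 2 = ‖y‖ ^ 2 := by
    rw [inner_self_eq_norm_sq_to_K, inner_self_eq_norm_sq_to_K] at h2
    exact_mod_cast h2
  exact (sq_eq_sq₀ (norm_nonneg _) (norm_nonneg _)).mp h3

lemma norm_star_r (a : ZMod p) (y : H) : ‖star (S.r a) y‖ ≤ ‖y‖ := by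
  have h1 : ‖S.r a‖ ≤ 1 := ContinuousLinearMap.opNorm_le_bound _ zero_le_one fun y => by
    rw [norm_r, one_mul]
  have h2 : ‖star (S.r a)‖ ≤ 1 := by rwa [norm_star]
  calc _ ≤ ‖star (S.r a)‖ * ‖y‖ := ContinuousLinearMap.le_opNorm _ _
    _ ≤ 1 * ‖y‖ := by gcongr
    _ = _ := one_mul _

lemma norm_d (a : ZMod p) (y : H) : ‖S.d a y‖ ≤ 2 * ‖y‖ := by
  unfold Sys.d
  rw [add_apply]
  calc _ ≤ ‖S.r a y‖ + ‖star (S.r a) y‖ := norm_add_le _ _
    _ ≤ ‖y‖ + ‖y‖ := add_le_add (norm_r S a y).le (norm_star_r S a y)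
    _ = _ := by ring

lemma norm_xh (hU : S.U ∈ unitary (H →L[ℂ] H)) (a : ZMod p) (y : H) : ‖xh S a y‖ ≤ 2 * ‖y‖ := by
  unfold xh
  rw [mul_ap, mul_ap, norm_unitary hU]
  calc _ ≤ 2 * ‖star S.U y‖ := norm_d _ _ _
    _ = _ := by rw [norm_unitary (Unitary.star_mem hU)]

omit [InnerProductSpace ℂ H] [CompleteSpace H] in
lemma sum_norm_mul_le (z g : ZMod p → H) (N : ℝ) (hN : 0 ≤ N) (hg : ∀ b, ‖g b‖ ≤ N) :
    ∑ b, ‖z b‖ * ‖g b‖ ≤ Real.sqrt p * N * Real.sqrt (∑ b, ‖z b‖ ^ 2) := by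
  have h1 : (∑ b, ‖z b‖) ^ 2 ≤ p * ∑ b, ‖z b‖ ^ 2 := by
    have := sq_sum_le_card_mul_sum_sq (s := (Finset.univ : Finset (ZMod p))) (f := fun b => ‖z b‖)
    rwa [Finset.card_univ, ZMod.card] at this
  have h2 : ∑ b, ‖z b‖ ≤ Real.sqrt p * Real.sqrt (∑ b, ‖z b‖ ^ 2) := by
    rw [← Real.sqrt_mul (Nat.cast_nonneg p)]
    exact Real.le_sqrt_of_sq_le h1
  calc ∑ b, ‖z b‖ * ‖g b‖ ≤ ∑ b, ‖z b‖ * N := by
        refine Finset.sum_le_sum fun b _ => ?_
        exact mul_le_mul_of_nonneg_left (hg b) (norm_nonneg _)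
    _ = (∑ b, ‖z b‖) * N := by rw [Finset.sum_mul]
    _ ≤ (Real.sqrt p * Real.sqrt (∑ b, ‖z b‖ ^ 2)) * N := by gcongr
    _ = _ := by ring

/-- the form `β(v,w) = ∑ conj c(a,b) ⟨x̂_a v_b, w_{a+b}⟩` -/
def beta (v w : ZMod p → H) : ℂ :=
  ∑ a, ∑ b, (starRingEnd ℂ (c a b)) * ⟪w (a + b), xh S a (v b)⟫_ℂ

lemma beta_sub (v w v' w' : ZMod p → H) :
    beta S v w - beta S v' w' = beta S (fun b => v b - v' b) w + beta S v' (fun b => w b - w' b) := by
  unfold beta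
  rw [← Finset.sum_sub_distrib, ← Finset.sum_add_distrib]
  refine Finset.sum_congr rfl fun a _ => ?_
  rw [← Finset.sum_sub_distrib, ← Finset.sum_add_distrib]
  refine Finset.sum_congr rfl fun b _ => ?_
  rw [map_sub, inner_sub_right, inner_sub_left]
  ring

lemma beta_bound (hU : S.U ∈ unitary (H →L[ℂ] H)) (v w : ZMod p → H) :
    ‖beta S v w‖ ≤ 2 * Real.sqrt p * Real.sqrt (∑ b, ‖v b‖ ^ 2) * Real.sqrt (∑ b, ‖w b‖ ^ 2) := by
  set v' : ZMod p → H := fun b => star S.U (v b) with hv'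
  set w' : ZMod p → H := fun b => star S.U (w b) with hw'
  have hvn : ∀ b, ‖v' b‖ = ‖v b‖ := fun b => norm_unitary (Unitary.star_mem hU) _
  have hwn : ∀ b, ‖w' b‖ = ‖w b‖ := fun b => norm_unitary (Unitary.star_mem hU) _
  have hsv : ∑ b, ‖v' b‖ ^ 2 = ∑ b, ‖v b‖ ^ 2 := Finset.sum_congr rfl fun b _ => by rw [hvn]
  have hsw : ∑ b, ‖w' b‖ ^ 2 = ∑ b, ‖w b‖ ^ 2 := Finset.sum_congr rfl fun b _ => by rw [hwn]
  -- splitting
  have hsplit : beta S v w =
      ∑ k, ⟪w' k, ∑ a, S.r a (starRingEnd ℂ (c a (k - a)) • v' (k - a))⟫_ℂ +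
      ∑ b, ⟪∑ a, S.r a (c a b • w' (a + b)), v' b⟫_ℂ := by
    have h1 : beta S v w = ∑ a, ∑ b, (starRingEnd ℂ (c a b)) * ⟪w' (a + b), S.r a (v' b)⟫_ℂ +
        ∑ a, ∑ b, (starRingEnd ℂ (c a b)) * ⟪S.r a (w' (a + b)), v' b⟫_ℂ := by
      unfold beta
      rw [← Finset.sum_add_distrib]
      refine Finset.sum_congr rfl fun a _ => ?_
      rw [← Finset.sum_add_distrib]
      refine Finset.sum_congr rfl fun b _ => ?_
      rw [← mul_add]
      congr 1
      unfold xh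
      rw [mul_ap, mul_ap, ← star_left, ← star_right (S.r a), ← inner_add_right]
      rfl
    rw [h1]
    congr 1
    · have h2 : ∀ a, ∑ b, (starRingEnd ℂ (c a b)) * ⟪w' (a + b), S.r a (v' b)⟫_ℂ =
          ∑ k, (starRingEnd ℂ (c a (k - a))) * ⟪w' k, S.r a (v' (k - a))⟫_ℂ := by
        intro a
        rw [← (Equiv.subRight a).sum_comp]
        refine Finset.sum_congr rfl fun k _ => ?_
        simp
      rw [Finset.sum_congr rfl fun a _ => h2 a, Finset.sum_comm]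
      refine Finset.sum_congr rfl fun k _ => ?_
      rw [inner_sum]
      refine Finset.sum_congr rfl fun a _ => ?_
      rw [map_smul, inner_smul_right]
    · rw [Finset.sum_comm]
      refine Finset.sum_congr rfl fun b _ => ?_
      rw [sum_inner]
      refine Finset.sum_congr rfl fun a _ => ?_
      rw [map_smul, inner_smul_left]
  have hA : ∀ k, ‖∑ a, S.r a (starRingEnd ℂ (c a (k - a)) • v' (k - a))‖ ≤
      Real.sqrt (∑ b, ‖v b‖ ^ 2) := by
    intro k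
    refine Real.le_sqrt_of_sq_le (le_of_eq ?_)
    rw [norm_sum_r, ← hsv, ← (Equiv.subLeft k).sum_comp (fun b => ‖v' b‖ ^ 2)]
    refine Finset.sum_congr rfl fun a _ => ?_
    rw [norm_smul, RCLike.norm_conj, norm_c, one_mul]
    rfl
  have hB : ∀ b, ‖∑ a, S.r a (c a b • w' (a + b))‖ ≤ Real.sqrt (∑ b, ‖w b‖ ^ 2) := by
    intro b
    refine Real.le_sqrt_of_sq_le (le_of_eq ?_)
    rw [norm_sum_r, ← hsw, ← Equiv.sum_comp (Equiv.addRight b) (fun b => ‖w' b‖ ^ 2)]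
    refine Finset.sum_congr rfl fun a _ => ?_
    rw [norm_smul, norm_c, one_mul]
    rfl
  rw [hsplit]
  calc _ ≤ ‖∑ k, ⟪w' k, ∑ a, S.r a (starRingEnd ℂ (c a (k - a)) • v' (k - a))⟫_ℂ‖ +
        ‖∑ b, ⟪∑ a, S.r a (c a b • w' (a + b)), v' b⟫_ℂ‖ := norm_add_le _ _
    _ ≤ (∑ k, ‖w' k‖ * ‖∑ a, S.r a (starRingEnd ℂ (c a (k - a)) • v' (k - a))‖) +
        ∑ b, ‖v' b‖ * ‖∑ a, S.r a (c a b • w' (a + b))‖ := by
        refine add_le_add ?_ ?_
        · refine (norm_sum_le _ _).trans (Finset.sum_le_sum fun k _ => norm_inner_le_norm _ _)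
        · refine (norm_sum_le _ _).trans (Finset.sum_le_sum fun k _ => ?_)
          rw [mul_comm]
          exact norm_inner_le_norm _ _
    _ ≤ Real.sqrt p * Real.sqrt (∑ b, ‖v b‖ ^ 2) * Real.sqrt (∑ b, ‖w' b‖ ^ 2) +
        Real.sqrt p * Real.sqrt (∑ b, ‖w b‖ ^ 2) * Real.sqrt (∑ b, ‖v' b‖ ^ 2) :=
        add_le_add (sum_norm_mul_le _ _ _ (Real.sqrt_nonneg _) hA)
          (sum_norm_mul_le _ _ _ (Real.sqrt_nonneg _) hB)
    _ = _ := by rw [hsv, hsw]; ring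

lemma norm_t (a : ZMod p) (y : H) : ‖S.t a y‖ = ‖y‖ := by
  have h2 : ⟪S.t a y, S.t a y⟫_ℂ = ⟪y, y⟫_ℂ := by
    rw [← star_right, ← mul_ap, S.star_t_t, if_pos rfl]; rfl
  have h3 : ‖S.t a y‖ ^ 2 = ‖y‖ ^ 2 := by
    rw [inner_self_eq_norm_sq_to_K, inner_self_eq_norm_sq_to_K] at h2
    exact_mod_cast h2
  exact (sq_eq_sq₀ (norm_nonneg _) (norm_nonneg _)).mp h3

lemma norm_E_v0 (k : ZMod p) : ‖S.E k S.v0‖ = 1 := by
  have h2 : ⟪S.E k S.v0, S.E k S.v0⟫_ℂ = 1 := by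
    rw [inner_E, if_pos rfl, S.e1_v0, inner_v0]
  rw [inner_self_eq_norm_sq_to_K] at h2
  have h3 : ‖S.E k S.v0‖ ^ 2 = 1 := by
    have h4 : ((‖S.E k S.v0‖ ^ 2 : ℝ) : ℂ) = ((1 : ℝ) : ℂ) := by push_cast; exact h2
    exact Complex.ofReal_injective h4
  nlinarith [norm_nonneg (S.E k S.v0)]

/-- `γ_a = ∑_b c(a,b) d'_b η_{a+b}` has norm `√p` -/
lemma norm_gamma (a : ZMod p) :
    ‖∑ b, c a b • S.d' b (S.E (a + b) S.v0)‖ = Real.sqrt p := by
  have h0 : ∀ b, c a b • S.d' b (S.E (a + b) S.v0) = c a b • S.E (a + b) (S.t b S.v0) := by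
    intro b
    rw [comm_apply (comm_d'_E S b (a + b)), d'_v0]
  rw [Finset.sum_congr rfl fun b _ => h0 b]
  have h : ⟪∑ b, c a b • S.E (a + b) (S.t b S.v0), ∑ b, c a b • S.E (a + b) (S.t b S.v0)⟫_ℂ =
      (p : ℂ) := by
    rw [sum_inner]
    have h1 : ∀ b, ⟪c a b • S.E (a + b) (S.t b S.v0),
        ∑ b, c a b • S.E (a + b) (S.t b S.v0)⟫_ℂ = 1 := by
      intro b
      rw [inner_sum, Finset.sum_eq_single b]
      · rw [inner_smul_left, inner_smul_right, inner_E, if_pos rfl, e1_t_v0,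
          inner_self_eq_norm_sq_to_K, norm_t, S.norm_v0]
        have : starRingEnd ℂ (c a b) * c a b = 1 := by
          rw [← Complex.normSq_eq_conj_mul_self, Complex.normSq_eq_norm_sq, norm_c]; simp
        simp [this]
      · intro k _ hk
        rw [inner_smul_left, inner_smul_right, inner_E, if_neg]
        · simp
        · intro h
          exact hk (add_left_cancel h).symm
      · intro h; exact absurd (Finset.mem_univ _) h
    rw [Finset.sum_congr rfl fun b _ => h1 b]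
    simp
  rw [inner_self_eq_norm_sq_to_K] at h
  have h3 : ‖∑ b, c a b • S.E (a + b) (S.t b S.v0)‖ ^ 2 = (p : ℝ) := by
    have h4 : ((‖∑ b, c a b • S.E (a + b) (S.t b S.v0)‖ ^ 2 : ℝ) : ℂ) = ((p : ℝ) : ℂ) := by
      push_cast; exact h
    exact Complex.ofReal_injective h4
  rw [← h3, Real.sqrt_sq (norm_nonneg _)]

/-! ### the detection inequality -/

theorem detect (hC : ConjU (p := p) (H := H)) (hG : GoodD (p := p) (H := H))
    (hUU : UUnitary (p := p) (H := H)) : Detect (p := p) (H := H) := by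
  intro S u hu hcomm
  have hU := hUU S
  set ε := ‖u - 1‖ with hε
  have hε0 : 0 ≤ ε := norm_nonneg _
  have hp : (0 : ℝ) < p := by exact_mod_cast Nat.pos_of_ne_zero (NeZero.ne p)
  have hsq : Real.sqrt p * Real.sqrt p = p := Real.mul_self_sqrt hp.le
  have hsp : 0 < Real.sqrt p := Real.sqrt_pos.mpr hp
  set ζ : ZMod p → H := fun b => S.t b S.v0 with hζ
  set η : ZMod p → H := fun k => S.E k S.v0 with hη
  -- `β(ζ,η) = -p^{3/2}`
  have hβ : beta S ζ η = -(((Real.sqrt p * p : ℝ)) : ℂ) := by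
    unfold beta
    have h1 : ∀ a b, (starRingEnd ℂ (c a b)) * ⟪η (a + b), xh S a (ζ b)⟫_ℂ =
        -(((Real.sqrt p)⁻¹ : ℝ) : ℂ) := by
      intro a b
      rw [hη, hζ]
      simp only
      rw [inner_xh_t S hC hG]
      have : starRingEnd ℂ (c a b) * c a b = 1 := by
        rw [← Complex.normSq_eq_conj_mul_self, Complex.normSq_eq_norm_sq, norm_c]; simp
      calc _ = -((((Real.sqrt p)⁻¹ : ℝ) : ℂ) * (starRingEnd ℂ (c a b) * c a b)) := by ring
        _ = _ := by rw [this, mul_one]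
    rw [Finset.sum_congr rfl fun a _ => Finset.sum_congr rfl fun b _ => h1 a b]
    simp only [Finset.sum_const, Finset.card_univ, ZMod.card, nsmul_eq_mul]
    have h2 : ((p : ℝ)) * (p * (-(Real.sqrt p)⁻¹)) = -(Real.sqrt p * p) := by
      have h3 : (p : ℝ) * (Real.sqrt p)⁻¹ = Real.sqrt p := by
        rw [← div_eq_mul_inv, div_eq_iff hsp.ne']; exact hsq.symm
      calc _ = -(p * ((p : ℝ) * (Real.sqrt p)⁻¹)) := by ring
        _ = _ := by rw [h3]; ring
    have h5 : (((p : ℝ) * (p * (-(Real.sqrt p)⁻¹)) : ℝ) : ℂ) = ((-(Real.sqrt p * p) : ℝ) : ℂ) := by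
      rw [h2]
    push_cast at h5 ⊢
    exact h5
  -- `A1 = A2`
  set A2 : ℂ := ∑ a, ∑ b, (starRingEnd ℂ (c a b)) *
    ⟪η (a + b), S.d' b ((u * xh S a * star u) S.v0)⟫_ℂ with hA2
  have hA12 : beta S (fun b => star u (ζ b)) (fun k => star u (η k)) = A2 := by
    unfold beta
    rw [hA2]
    refine Finset.sum_congr rfl fun a _ => Finset.sum_congr rfl fun b _ => ?_
    congr 1
    have h1 := comm_apply (hcomm a b) S.v0
    rw [d'_v0] at h1
    rw [star_left]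
    have h2 : u (xh S a (star u (ζ b))) = (u * xh S a * star u) (ζ b) := rfl
    rw [h2]
    exact congrArg _ h1
  have hA3 : A2 = ∑ a, ⟪∑ b, c a b • S.d' b (S.E (a + b) S.v0),
      (u * xh S a * star u - xh S a) S.v0⟫_ℂ := by
    rw [hA2]
    refine Finset.sum_congr rfl fun a _ => ?_
    rw [sum_inner]
    refine Finset.sum_congr rfl fun b _ => ?_
    rw [inner_smul_left]
    congr 1
    rw [sub_apply, inner_sub_right, xh_v0 S hC hG]
    have h1 : ⟪S.d' b (S.E (a + b) S.v0), S.d a S.v0⟫_ℂ = 0 := by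
      rw [← star_right, star_d', inner_E_d'_d]
    rw [h1, sub_zero]
    conv_lhs => rw [← star_d' S b]
    rw [star_right]
  -- norms
  have hux : ∀ y : H, ‖u y - y‖ ≤ ε * ‖y‖ := by
    intro y
    have : u y - y = (u - 1) y := by simp
    rw [this]
    exact ContinuousLinearMap.le_opNorm _ _
  have hε' : ‖star u - 1‖ = ε := by
    have : star u - 1 = star (u - 1) := by rw [star_sub, star_one]
    rw [this, norm_star]
  have husx : ∀ y : H, ‖star u y - y‖ ≤ ε * ‖y‖ := by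
    intro y
    have : star u y - y = (star u - 1) y := by simp
    rw [this, ← hε']
    exact ContinuousLinearMap.le_opNorm _ _
  have hus : star u ∈ unitary (H →L[ℂ] H) := Unitary.star_mem hu
  have hsζ : ∑ b, ‖ζ b‖ ^ 2 = (p : ℝ) := by
    have : ∀ b, ‖ζ b‖ ^ 2 = 1 := fun b => by
      show ‖S.t b S.v0‖ ^ 2 = 1
      rw [norm_t, S.norm_v0, one_pow]
    simp [this]
  have hsη : ∑ b, ‖η b‖ ^ 2 = (p : ℝ) := by
    have : ∀ b, ‖η b‖ ^ 2 = 1 := fun b => by
      show ‖S.E b S.v0‖ ^ 2 = 1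
      rw [norm_E_v0, one_pow]
    simp [this]
  have hsη' : ∑ b, ‖star u (η b)‖ ^ 2 = (p : ℝ) := by
    rw [← hsη]
    exact Finset.sum_congr rfl fun b _ => by rw [norm_unitary hus]
  have hdζ : Real.sqrt (∑ b, ‖star u (ζ b) - ζ b‖ ^ 2) ≤ ε * Real.sqrt p := by
    refine Real.sqrt_le_iff.mpr ⟨by positivity, ?_⟩
    calc ∑ b, ‖star u (ζ b) - ζ b‖ ^ 2 ≤ ∑ b, (ε * ‖ζ b‖) ^ 2 :=
          Finset.sum_le_sum fun b _ => by
            have := husx (ζ b)
            gcongr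
      _ = ε ^ 2 * ∑ b, ‖ζ b‖ ^ 2 := by
          rw [Finset.mul_sum]; exact Finset.sum_congr rfl fun b _ => by ring
      _ = (ε * Real.sqrt p) ^ 2 := by rw [hsζ, mul_pow, Real.sq_sqrt hp.le]
  have hdη : Real.sqrt (∑ b, ‖star u (η b) - η b‖ ^ 2) ≤ ε * Real.sqrt p := by
    refine Real.sqrt_le_iff.mpr ⟨by positivity, ?_⟩
    calc ∑ b, ‖star u (η b) - η b‖ ^ 2 ≤ ∑ b, (ε * ‖η b‖) ^ 2 :=
          Finset.sum_le_sum fun b _ => by
            have := husx (η b)
            gcongr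
      _ = ε ^ 2 * ∑ b, ‖η b‖ ^ 2 := by
          rw [Finset.mul_sum]; exact Finset.sum_congr rfl fun b _ => by ring
      _ = (ε * Real.sqrt p) ^ 2 := by rw [hsη, mul_pow, Real.sq_sqrt hp.le]
  have hfirst : ‖A2 - beta S ζ η‖ ≤ 4 * ε * (Real.sqrt p * p) := by
    rw [← hA12, beta_sub]
    calc _ ≤ ‖beta S (fun b => star u (ζ b) - ζ b) (fun k => star u (η k))‖ +
          ‖beta S ζ (fun b => star u (η b) - η b)‖ := norm_add_le _ _
      _ ≤ 2 * Real.sqrt p * Real.sqrt (∑ b, ‖star u (ζ b) - ζ b‖ ^ 2) *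
            Real.sqrt (∑ b, ‖star u (η b)‖ ^ 2) +
          2 * Real.sqrt p * Real.sqrt (∑ b, ‖ζ b‖ ^ 2) *
            Real.sqrt (∑ b, ‖star u (η b) - η b‖ ^ 2) :=
          add_le_add (beta_bound S hU _ _) (beta_bound S hU _ _)
      _ ≤ 2 * Real.sqrt p * (ε * Real.sqrt p) * Real.sqrt p +
          2 * Real.sqrt p * Real.sqrt p * (ε * Real.sqrt p) := by
          rw [hsη', hsζ]
          gcongr
      _ = 4 * ε * (Real.sqrt p * (Real.sqrt p * Real.sqrt p)) := by ring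
      _ = _ := by rw [hsq]
  have hΔ : ∀ a, ‖(u * xh S a * star u - xh S a) S.v0‖ ≤ 4 * ε := by
    intro a
    have h1 : (u * xh S a * star u - xh S a) S.v0 =
        (u (xh S a (star u S.v0)) - xh S a (star u S.v0)) + xh S a (star u S.v0 - S.v0) := by
      rw [sub_apply, mul_ap, mul_ap, map_sub]
      abel
    rw [h1]
    calc _ ≤ ‖u (xh S a (star u S.v0)) - xh S a (star u S.v0)‖ +
          ‖xh S a (star u S.v0 - S.v0)‖ := norm_add_le _ _
      _ ≤ ε * ‖xh S a (star u S.v0)‖ + 2 * ‖star u S.v0 - S.v0‖ :=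
          add_le_add (hux _) (norm_xh S hU _ _)
      _ ≤ ε * (2 * ‖star u S.v0‖) + 2 * (ε * ‖S.v0‖) := by
          have h2 := norm_xh S hU a (star u S.v0)
          have h3 := husx S.v0
          gcongr
      _ = 4 * ε := by rw [norm_unitary hus, S.norm_v0]; ring
  have hsecond : ‖A2‖ ≤ 4 * ε * (Real.sqrt p * p) := by
    rw [hA3]
    calc _ ≤ ∑ a, ‖⟪∑ b, c a b • S.d' b (S.E (a + b) S.v0),
            (u * xh S a * star u - xh S a) S.v0⟫_ℂ‖ := norm_sum_le _ _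
      _ ≤ ∑ _a : ZMod p, Real.sqrt p * (4 * ε) := by
          refine Finset.sum_le_sum fun a _ => ?_
          refine (norm_inner_le_norm _ _).trans ?_
          rw [norm_gamma]
          exact mul_le_mul_of_nonneg_left (hΔ a) hsp.le
      _ = _ := by simp; ring
  have hfin : Real.sqrt p * p ≤ 8 * ε * (Real.sqrt p * p) := by
    have h1 : ‖beta S ζ η‖ = Real.sqrt p * p := by
      rw [hβ, norm_neg, Complex.norm_real, Real.norm_of_nonneg (by positivity)]
    calc Real.sqrt p * p = ‖beta S ζ η‖ := h1.symm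
      _ = ‖A2 - (A2 - beta S ζ η)‖ := by rw [sub_sub_cancel]
      _ ≤ ‖A2‖ + ‖A2 - beta S ζ η‖ := norm_sub_le _ _
      _ ≤ 4 * ε * (Real.sqrt p * p) + 4 * ε * (Real.sqrt p * p) := add_le_add hsecond hfirst
      _ = _ := by ring
  have hpos : 0 < Real.sqrt p * p := by positivity
  have h8 : 1 ≤ 8 * ε := by
    by_contra hlt
    push Not at hlt
    have := mul_lt_mul_of_pos_right hlt hpos
    linarith
  linarith

end Crest.Agent.R078.S104.DetectF
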