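import Crest.Agent.R078.S104Alg

/-!
# R78, S0104, block G: assembly
-/

set_option autoImplicit false
set_option linter.unusedSimpArgs false

noncomputable section

namespace Crest.Agent.R078.S104.Final

open scoped InnerProductSpace
open Crest.Agent.R078.S104.Alg

variable {p : ℕ} [NeZero p] {H : Type} [NormedAddCommGroup H] [InnerProductSpace ℂ H]
  [CompleteSpace H]

theorem good_star {S : Sys p H} {x : H →L[ℂ] H} (hx : S.Good x) : S.Good (star x) := by
  refine ⟨fun a => ?_, fun b => ?_, fun b => ?_, fun b => ?_, fun b => ?_, fun b => ?_⟩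
  · have := (hx.s a).star_star
    rwa [star_s] at this
  · simpa using (hx.m' b).star_star
  · exact (hx.m b).star_star
  · have := (hx.d' b).star_star
    rwa [star_d'] at this
  · simpa using (hx.E' b).star_star
  · exact (hx.E b).star_star

/-! ### The projection `e₃ - f` -/

theorem f_f (S : Sys p H) : S.f * S.f = S.f := by
  rw [Sys.f]
  calc S.J * star S.J * (S.J * star S.J) = S.J * (star S.J * S.J) * star S.J := by
        simp only [mul_assoc]
    _ = S.J * star S.J := by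
        rw [star_J_J, mul_sub, mul_one, J_e1, sub_zero]

theorem e1_f (S : Sys p H) : S.e1 * S.f = 0 := by
  rw [Sys.f, ← mul_assoc, e1_J, zero_mul]

theorem f_e1 (S : Sys p H) : S.f * S.e1 = 0 := by
  rw [Sys.f, mul_assoc, star_J_e1, mul_zero]

theorem star_f (S : Sys p H) : star S.f = S.f := by
  rw [Sys.f, star_mul, star_star]

theorem norm_g_le (S : Sys p H) : ‖1 - S.e1 - S.f‖ ≤ 1 := by
  refine IsStarProjection.norm_le (1 - S.e1 - S.f) ⟨?_, ?_⟩
  · change (1 - S.e1 - S.f) * (1 - S.e1 - S.f) = 1 - S.e1 - S.f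
    simp only [mul_sub, sub_mul, mul_one, one_mul, S.e1_e1, f_f, e1_f, f_e1]
    abel
  · change star (1 - S.e1 - S.f) = 1 - S.e1 - S.f
    rw [star_sub, star_sub, star_one, S.star_e1, star_f]

theorem inN_g (S : Sys p H) : S.InN (1 - S.e1 - S.f) := by
  refine InN.sub (InN.sub InN.one inN_e1) ?_
  rw [Sys.f]
  exact InN.mul inN_J (InN.star inN_J)

/-! ### The near inclusion -/

theorem near (hNC : NearC (p := p) (H := H)) (hNV : NearV (p := p) (H := H)) :
    Near (p := p) (H := H) := by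
  intro S hp hp2 x hx hx1
  obtain ⟨n, hn, hn1⟩ := hNV S hp hp2 x hx hx1
  obtain ⟨n', hn', hn1'⟩ := hNV S hp hp2 (star x) (good_star hx) (by rwa [norm_star])
  have hC := hNC S hp hp2 x hx hx1
  have hD : S.InN (x * star S.J - star S.J * x) :=
    InN.sub (InN.mul hx.d' (InN.star inN_J)) (InN.mul (InN.star inN_J) hx.d')
  have hD2 : S.InN (x * S.J - S.J * x) :=
    InN.sub (InN.mul hx.d' inN_J) (InN.mul inN_J hx.d')
  refine ⟨x + S.J * (x * star S.J - star S.J * x) * (1 - S.e1 - S.f)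
    - (x * S.J - S.J * x) * star S.J
    - (1 - S.e1 - S.f) * n
    + (-star n') * (1 - S.e1 - S.f)
    + star S.SS * S.Coff x * S.SS, ?_, ?_⟩
  · refine InN.add (InN.add (InN.sub (InN.sub (InN.add hx.d' ?_) ?_) ?_) ?_) ?_
    · exact InN.mul (InN.mul inN_J hD) (inN_g S)
    · exact InN.mul hD2 (InN.star inN_J)
    · exact InN.mul (inN_g S) hn
    · refine InN.mul ?_ (inN_g S)
      have := InN.sub InN.zero (InN.star hn')
      rwa [zero_sub] at this
    · exact InN.mul (InN.mul (InN.star inN_SS) (inN_Coff hx)) inN_SS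
  · rw [conjU S x hx]
    have hadj : star S.B * (x * star S.J - star S.J * x)
        = -star ((star x * S.J - S.J * star x) * S.B) := by
      rw [star_mul, star_sub, star_mul, star_mul, star_star, ← mul_neg, neg_sub]
    rw [hadj]
    have heq : x + S.J * (x * star S.J - star S.J * x) * (1 - S.e1 - S.f)
        - (x * S.J - S.J * x) * star S.J
        - (1 - S.e1 - S.f) * ((x * S.J - S.J * x) * S.B)
        + (-star ((star x * S.J - S.J * star x) * S.B)) * (1 - S.e1 - S.f)
        + star S.B * S.C x * S.B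
        - (x + S.J * (x * star S.J - star S.J * x) * (1 - S.e1 - S.f)
          - (x * S.J - S.J * x) * star S.J
          - (1 - S.e1 - S.f) * n
          + (-star n') * (1 - S.e1 - S.f)
          + star S.SS * S.Coff x * S.SS)
        = (star S.B * S.C x * S.B - star S.SS * S.Coff x * S.SS)
          - (1 - S.e1 - S.f) * ((x * S.J - S.J * x) * S.B - n)
          - star ((star x * S.J - S.J * star x) * S.B - n') * (1 - S.e1 - S.f) := by
      generalize (x * S.J - S.J * x) * S.B = a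
      generalize (star x * S.J - S.J * star x) * S.B = a'
      generalize 1 - S.e1 - S.f = g
      rw [star_sub]
      noncomm_ring
    rw [heq]
    have h1 : ‖(1 - S.e1 - S.f) * ((x * S.J - S.J * x) * S.B - n)‖
        ≤ 4 / Real.sqrt (Real.sqrt p) := by
      calc _ ≤ ‖1 - S.e1 - S.f‖ * ‖(x * S.J - S.J * x) * S.B - n‖ := norm_mul_le _ _
        _ ≤ 1 * (4 / Real.sqrt (Real.sqrt p)) := by
            gcongr
            exact norm_g_le S
        _ = _ := one_mul _
    have h2 : ‖star ((star x * S.J - S.J * star x) * S.B - n') * (1 - S.e1 - S.f)‖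
        ≤ 4 / Real.sqrt (Real.sqrt p) := by
      calc _ ≤ ‖star ((star x * S.J - S.J * star x) * S.B - n')‖ * ‖1 - S.e1 - S.f‖ :=
            norm_mul_le _ _
        _ ≤ (4 / Real.sqrt (Real.sqrt p)) * 1 := by
            rw [norm_star]
            gcongr
            exact norm_g_le S
        _ = _ := mul_one _
    calc _ ≤ ‖star S.B * S.C x * S.B - star S.SS * S.Coff x * S.SS‖
          + ‖(1 - S.e1 - S.f) * ((x * S.J - S.J * x) * S.B - n)‖
          + ‖star ((star x * S.J - S.J * star x) * S.B - n') * (1 - S.e1 - S.f)‖ := by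
            refine (norm_sub_le _ _).trans ?_
            gcongr
            exact norm_sub_le _ _
      _ ≤ 6 / Real.sqrt p + 4 / Real.sqrt (Real.sqrt p) + 4 / Real.sqrt (Real.sqrt p) := by
            gcongr
      _ = _ := by ring

/-! ### von Neumann algebras as centralizers -/

/-- the commutant of `T ∪ T^*` -/
def vn (T : Set (H →L[ℂ] H)) : VonNeumannAlgebra H where
  toStarSubalgebra := StarSubalgebra.centralizer ℂ T
  centralizer_centralizer' := by
    change Set.centralizer (Set.centralizer (StarSubalgebra.centralizer ℂ T : Set (H →L[ℂ] H)))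
      = (StarSubalgebra.centralizer ℂ T : Set (H →L[ℂ] H))
    rw [StarSubalgebra.coe_centralizer, Set.centralizer_centralizer_centralizer]

theorem mem_vn {T : Set (H →L[ℂ] H)} {x : H →L[ℂ] H} :
    x ∈ vn T ↔ ∀ g ∈ T, g * x = x * g ∧ star g * x = x * star g :=
  StarSubalgebra.mem_centralizer_iff ℂ

/-- the generators of the commutant of `M` -/
def MSet (S : Sys p H) : Set (H →L[ℂ] H) :=
  {g | ∃ y, g = S.U * y * star S.U ∧
    ((∃ a, y = S.s a) ∨ (∃ a, y = S.m a) ∨ (∃ a, y = S.d' a) ∨ (∃ a, y = S.E a))}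

theorem comm_conj_iff (S : Sys p H) (y x : H →L[ℂ] H) :
    (S.U * y * star S.U) * x = x * (S.U * y * star S.U) ↔
      Commute (star S.U * x * S.U) y := by
  have h1 := star_U_mul_U S
  have h2 := U_mul_star_U S
  constructor
  · intro h
    change star S.U * x * S.U * y = y * (star S.U * x * S.U)
    calc star S.U * x * S.U * y = star S.U * x * S.U * y * (star S.U * S.U) := by rw [h1, mul_one]
      _ = star S.U * (x * (S.U * y * star S.U)) * S.U := by simp only [mul_assoc]
      _ = star S.U * ((S.U * y * star S.U) * x) * S.U := by rw [h]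
      _ = (star S.U * S.U) * y * (star S.U * x * S.U) := by simp only [mul_assoc]
      _ = y * (star S.U * x * S.U) := by rw [h1, one_mul]
  · intro h
    have h' : star S.U * x * S.U * y = y * (star S.U * x * S.U) := h
    calc (S.U * y * star S.U) * x = (S.U * y * star S.U) * x * (S.U * star S.U) := by
          rw [h2, mul_one]
      _ = S.U * (y * (star S.U * x * S.U)) * star S.U := by simp only [mul_assoc]
      _ = S.U * (star S.U * x * S.U * y) * star S.U := by rw [h']
      _ = (S.U * star S.U) * x * (S.U * y * star S.U) := by simp only [mul_assoc]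
      _ = x * (S.U * y * star S.U) := by rw [h2, one_mul]

theorem mem_M_iff (S : Sys p H) (x : H →L[ℂ] H) :
    x ∈ vn (MSet S) ↔ S.Good (star S.U * x * S.U) := by
  rw [mem_vn]
  have hstar : ∀ y, star (S.U * y * star S.U) = S.U * star y * star S.U := by
    intro y
    simp only [star_mul, star_star, mul_assoc]
  constructor
  · intro h
    have key : ∀ y, S.U * y * star S.U ∈ MSet S →
        Commute (star S.U * x * S.U) y ∧ Commute (star S.U * x * S.U) (star y) := by
      intro y hy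
      obtain ⟨h1, h2⟩ := h _ hy
      rw [hstar] at h2
      exact ⟨(comm_conj_iff S y x).mp h1, (comm_conj_iff S (star y) x).mp h2⟩
    refine ⟨fun a => ?_, fun b => ?_, fun b => ?_, fun b => ?_, fun b => ?_, fun b => ?_⟩
    · exact (key (S.s a) ⟨_, rfl, Or.inl ⟨a, rfl⟩⟩).1
    · exact (key (S.m b) ⟨_, rfl, Or.inr (Or.inl ⟨b, rfl⟩)⟩).1
    · exact (key (S.m b) ⟨_, rfl, Or.inr (Or.inl ⟨b, rfl⟩)⟩).2
    · exact (key (S.d' b) ⟨_, rfl, Or.inr (Or.inr (Or.inl ⟨b, rfl⟩))⟩).1
    · exact (key (S.E b) ⟨_, rfl, Or.inr (Or.inr (Or.inr ⟨b, rfl⟩))⟩).1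
    · exact (key (S.E b) ⟨_, rfl, Or.inr (Or.inr (Or.inr ⟨b, rfl⟩))⟩).2
  · rintro h g ⟨y, rfl, hy⟩
    rw [hstar, comm_conj_iff, comm_conj_iff]
    rcases hy with ⟨a, rfl⟩ | ⟨a, rfl⟩ | ⟨a, rfl⟩ | ⟨a, rfl⟩
    · rw [star_s]
      exact ⟨h.s a, h.s a⟩
    · exact ⟨h.m a, h.m' a⟩
    · rw [star_d']
      exact ⟨h.d' a, h.d' a⟩
    · exact ⟨h.E a, h.E' a⟩

theorem mem_N_iff (S : Sys p H) (x : H →L[ℂ] H) :
    x ∈ vn (Set.range S.d') ↔ S.InN x := by
  rw [mem_vn]
  constructor
  · intro h b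
    exact (h _ ⟨b, rfl⟩).1.symm
  · rintro h g ⟨b, rfl⟩
    rw [star_d']
    exact ⟨(h b).eq.symm, (h b).eq.symm⟩

/-! ### The final theorem -/

theorem norm_le_one_of_unitary {u : H →L[ℂ] H} (hu : u ∈ unitary (H →L[ℂ] H)) : ‖u‖ ≤ 1 := by
  have h1 : star u * u = 1 := (Unitary.mem_iff.mp hu).1
  have h2 : ‖u‖ * ‖u‖ ≤ 1 := by
    rw [← CStarRing.norm_star_mul_self, h1]
    exact ContinuousLinearMap.norm_id_le
  nlinarith [norm_nonneg u]

theorem exists_prime (δ : ℝ) (hδ : 0 < δ) : ∃ p : ℕ, p.Prime ∧ p ≠ 2 ∧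
    6 / Real.sqrt p + 8 / Real.sqrt (Real.sqrt p) < δ := by
  obtain ⟨p, hp1, hp⟩ := Nat.exists_infinite_primes (⌈(14 / δ) ^ 4⌉₊ + 3)
  refine ⟨p, hp, by omega, ?_⟩
  have h1 : (14 / δ) ^ 4 < p := by
    have h2 : (14 / δ) ^ 4 ≤ (⌈(14 / δ) ^ 4⌉₊ : ℝ) := Nat.le_ceil _
    have h3 : ((⌈(14 / δ) ^ 4⌉₊ + 3 : ℕ) : ℝ) ≤ p := by exact_mod_cast hp1
    push_cast at h3
    linarith
  have hp1' : (1 : ℝ) ≤ p := by
    have : 1 ≤ p := hp.one_lt.le
    exact_mod_cast this
  have hs : (1 : ℝ) ≤ Real.sqrt p := Real.one_le_sqrt.mpr hp1'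
  have hss : (1 : ℝ) ≤ Real.sqrt (Real.sqrt p) := Real.one_le_sqrt.mpr hs
  have h4 : Real.sqrt (Real.sqrt p) ≤ Real.sqrt p := by
    have := Real.sqrt_le_sqrt hs
    have h5 : Real.sqrt (Real.sqrt p) * Real.sqrt (Real.sqrt p) = Real.sqrt p :=
      Real.mul_self_sqrt (Real.sqrt_nonneg _)
    nlinarith
  have h6 : 14 / δ < Real.sqrt (Real.sqrt p) := by
    rw [Real.lt_sqrt (by positivity), Real.lt_sqrt (by positivity)]
    have h9 : ((14 / δ) ^ 2) ^ 2 = (14 / δ) ^ 4 := by ring
    rw [h9]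
    exact h1
  have h7 : 14 / Real.sqrt (Real.sqrt p) < δ := by
    rw [div_lt_iff₀ (by positivity)]
    rw [div_lt_iff₀ hδ] at h6
    linarith
  have h8 : 6 / Real.sqrt p ≤ 6 / Real.sqrt (Real.sqrt p) := by
    gcongr
  calc 6 / Real.sqrt p + 8 / Real.sqrt (Real.sqrt p)
      ≤ 6 / Real.sqrt (Real.sqrt p) + 8 / Real.sqrt (Real.sqrt p) := by gcongr
    _ = 14 / Real.sqrt (Real.sqrt p) := by ring
    _ < δ := h7

theorem final
    (hmodel : ∀ (p : ℕ) [NeZero p], ModelExists p)
    (hNC : ∀ (p : ℕ) [NeZero p] (H : Type) [NormedAddCommGroup H] [InnerProductSpace ℂ H]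
      [CompleteSpace H], NearC (p := p) (H := H))
    (hNV : ∀ (p : ℕ) [NeZero p] (H : Type) [NormedAddCommGroup H] [InnerProductSpace ℂ H]
      [CompleteSpace H], NearV (p := p) (H := H))
    (hDet : ∀ (p : ℕ) [NeZero p] (H : Type) [NormedAddCommGroup H] [InnerProductSpace ℂ H]
      [CompleteSpace H], Detect (p := p) (H := H)) :
    ∃ ε₀ : ℝ, 0 < ε₀ ∧ ∀ δ : ℝ, 0 < δ →
      ∃ (H : Type) (_ : NormedAddCommGroup H) (_ : InnerProductSpace ℂ H) (_ : CompleteSpace H)
        (_ : TopologicalSpace.SeparableSpace H) (M N : VonNeumannAlgebra H),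
        (∀ x ∈ M, ‖x‖ ≤ 1 → ∃ y ∈ N, ‖x - y‖ < δ) ∧
        ∀ u : H →L[ℂ] H, u ∈ unitary (H →L[ℂ] H) →
          (∀ x ∈ M, u * x * star u ∈ N) → ε₀ ≤ ‖u - 1‖ := by
  refine ⟨1 / 8, by norm_num, fun δ hδ => ?_⟩
  obtain ⟨p, hp, hp2, hpδ⟩ := exists_prime δ hδ
  haveI : NeZero p := ⟨hp.ne_zero⟩
  obtain ⟨H, i1, i2, i3, i4, ⟨S⟩⟩ := hmodel p
  refine ⟨H, i1, i2, i3, i4, vn (MSet S), vn (Set.range S.d'), ?_, ?_⟩
  · intro x hx hx1
    rw [mem_M_iff] at hx
    have hx1' : ‖star S.U * x * S.U‖ ≤ 1 := by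
      have hU := uUnitary S
      have hU1 : ‖S.U‖ ≤ 1 := norm_le_one_of_unitary hU
      have hU2 : ‖star S.U‖ ≤ 1 := by rwa [norm_star]
      calc ‖star S.U * x * S.U‖ ≤ ‖star S.U‖ * ‖x‖ * ‖S.U‖ :=
            (norm_mul_le _ _).trans (by gcongr; exact norm_mul_le _ _)
        _ ≤ 1 * 1 * 1 := by gcongr
        _ = 1 := by norm_num
    obtain ⟨y, hy, hy1⟩ := near (hNC p H) (hNV p H) S hp hp2 _ hx hx1'
    refine ⟨y, (mem_N_iff S y).mpr hy, lt_of_le_of_lt ?_ hpδ⟩
    have h2 := U_mul_star_U S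
    have h3 : S.U * (star S.U * x * S.U) * star S.U = x := by
      calc S.U * (star S.U * x * S.U) * star S.U = (S.U * star S.U) * x * (S.U * star S.U) := by
            simp only [mul_assoc]
        _ = x := by rw [h2, one_mul, mul_one]
    rwa [h3] at hy1
  · intro u hu h
    refine hDet p H S u hu fun a b => ?_
    have h1 : S.U * S.d a * star S.U ∈ vn (MSet S) := by
      rw [mem_M_iff]
      have h2 := star_U_mul_U S
      have h3 : star S.U * (S.U * S.d a * star S.U) * S.U = S.d a := by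
        calc star S.U * (S.U * S.d a * star S.U) * S.U
            = (star S.U * S.U) * S.d a * (star S.U * S.U) := by simp only [mul_assoc]
          _ = S.d a := by rw [h2, one_mul, mul_one]
      rw [h3]
      exact goodD S a
    have h4 := (mem_N_iff S _).mp (h _ h1)
    exact h4 b

end Crest.Agent.R078.S104.Final
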