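import Crest.Agent.R078.S104Defs

/-!
# R78, S0104: targets (Prop-valued interfaces).  Each block proves its targets in its own file.
-/

set_option autoImplicit false

noncomputable section

namespace Crest.Agent.R078.S104

open scoped InnerProductSpace

variable {p : ℕ} [NeZero p] {H : Type} [NormedAddCommGroup H] [InnerProductSpace ℂ H]
  [CompleteSpace H]

/-! ### Block A (S104Alg.lean): pure algebra -/

/-- `B B^* = 1_3` -/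
def B_star_B : Prop := ∀ S : Sys p H, S.B * star S.B = 1 - S.e1
/-- `û_a^* û_a = 1_3` -/
def StarUhUh : Prop := ∀ (S : Sys p H) (a : ZMod p), star (S.uh a) * S.uh a = 1 - S.e1
/-- `J^* J = 1_3` -/
def StarJJ : Prop := ∀ S : Sys p H, star S.J * S.J = 1 - S.e1
def UUnitary : Prop := ∀ S : Sys p H, S.U ∈ unitary (H →L[ℂ] H)
/-- identity (1) -/
def ConjU : Prop := ∀ (S : Sys p H) (x : H →L[ℂ] H), S.Good x →
  S.U * x * star S.U = x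
    + S.J * (x * star S.J - star S.J * x) * (1 - S.e1 - S.f)
    - (x * S.J - S.J * x) * star S.J
    - (1 - S.e1 - S.f) * ((x * S.J - S.J * x) * S.B)
    + (star S.B * (x * star S.J - star S.J * x)) * (1 - S.e1 - S.f)
    + star S.B * S.C x * S.B
/-- `d_a` satisfies all the properties of `Good` -/
def GoodD : Prop := ∀ (S : Sys p H) (a : ZMod p), S.Good (S.d a)
/-- membership in `N` -/
def InNList : Prop := ∀ (S : Sys p H),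
  S.InN S.J ∧ S.InN (star S.J) ∧ S.InN S.SS ∧ S.InN (star S.SS) ∧ S.InN S.e1 ∧ S.InN S.f ∧
  ∀ x : H →L[ℂ] H, S.Good x → S.InN x ∧ S.InN (S.V x) ∧ S.InN (star (S.V x)) ∧ S.InN (S.Coff x)

/-! ### Block B (S104Sidon.lean): character sums and row/column bounds -/

/-- The Sidon lemma: `∑_b ‖T E_b ζ‖² ≤ p ‖(∑_a T_aa) ζ‖² + p ∑_{a≠a'} ‖T_aa' ζ‖²`. -/
def Sidon : Prop := ∀ (S : Sys p H), p.Prime → p ≠ 2 → ∀ (T : ZMod p → ZMod p → (H →L[ℂ] H)),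
  (∀ a a' b, Commute (T a a') (S.E b)) → ∀ ζ : H,
  ∑ b, ‖(∑ a, ∑ a', T a a' * (star (S.uh a) * S.uh a')) (S.E b ζ)‖ ^ 2 ≤
    p * ‖(∑ a, T a a) ζ‖ ^ 2 + p * ∑ a, ∑ a', if a = a' then 0 else ‖T a a' ζ‖ ^ 2

/-- column bound for `X_a = [x, l_a]` -/
def SumX : Prop := ∀ (S : Sys p H) (x : H →L[ℂ] H), S.Good x → ‖x‖ ≤ 1 → ∀ ζ : H,
  ∑ a, ‖S.X x a ζ‖ ^ 2 ≤ 4 * ‖ζ‖ ^ 2
/-- row bound for `X_a = [x, l_a]` -/
def SumXstar : Prop := ∀ (S : Sys p H) (x : H →L[ℂ] H), S.Good x → ‖x‖ ≤ 1 → ∀ ζ : H,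
  ∑ a, ‖star (S.X x a) ζ‖ ^ 2 ≤ 4 * ‖ζ‖ ^ 2
/-- `l_a^* X_a' = X_a l_a'` -/
def StarLX : Prop := ∀ (S : Sys p H) (x : H →L[ℂ] H), S.Good x → ∀ a a' : ZMod p,
  star (S.l a) * S.X x a' = S.X x a * S.l a'
/-- `∑_a ‖l_a^* ζ‖² ≤ ‖ζ‖²` -/
def SumStarL : Prop := ∀ (S : Sys p H) (ζ : H), ∑ a, ‖star (S.l a) ζ‖ ^ 2 ≤ ‖ζ‖ ^ 2
/-- `‖∑_a l_a^* ξ_a‖² ≤ p ∑ ‖ξ_a‖²` -/
def NormSumStarL : Prop := ∀ (S : Sys p H) (ξ : ZMod p → H),
  ‖∑ a, star (S.l a) (ξ a)‖ ^ 2 ≤ p * ∑ a, ‖ξ a‖ ^ 2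
/-- `‖∑_b m_b ξ_b‖² = ∑ ‖ξ_b‖²` -/
def NormSumM : Prop := ∀ (S : Sys p H) (ξ : ZMod p → H),
  ‖∑ b, S.m b (ξ b)‖ ^ 2 = ∑ b, ‖ξ b‖ ^ 2

/-! ### Block C (S104NearC.lean): `B^* C B` is near `N` -/

def NearC : Prop := ∀ (S : Sys p H), p.Prime → p ≠ 2 → ∀ x : H →L[ℂ] H, S.Good x → ‖x‖ ≤ 1 →
  ‖star S.B * S.C x * S.B - star S.SS * S.Coff x * S.SS‖ ≤ 6 / Real.sqrt p

/-! ### Block D (S104NearV.lean): `[x, J] B` is near `N` -/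

def NearV : Prop := ∀ (S : Sys p H), p.Prime → p ≠ 2 → ∀ x : H →L[ℂ] H, S.Good x → ‖x‖ ≤ 1 →
  ∃ n : H →L[ℂ] H, S.InN n ∧ ‖(x * S.J - S.J * x) * S.B - n‖ ≤ 4 / Real.sqrt (Real.sqrt p)

/-! ### Block E (S104Model.lean): the concrete model on
`lp (fun _ : List (ZMod p) × List (ZMod p) × Option (ZMod p) => ℂ) 2` -/

def ModelExists (p : ℕ) [NeZero p] : Prop :=
  ∃ (H : Type) (_ : NormedAddCommGroup H) (_ : InnerProductSpace ℂ H) (_ : CompleteSpace H)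
    (_ : TopologicalSpace.SeparableSpace H), Nonempty (Sys p H)

/-! ### Block F (S104Detect.lean): detection -/

def Detect : Prop := ∀ (S : Sys p H) (u : H →L[ℂ] H), u ∈ unitary (H →L[ℂ] H) →
  (∀ a b, Commute (u * (S.U * S.d a * star S.U) * star u) (S.d' b)) → 1 / 8 ≤ ‖u - 1‖

/-! ### Block G (S104Final.lean + S0104.lean): assembly -/

/-- near inclusion -/
def Near : Prop := ∀ (S : Sys p H), p.Prime → p ≠ 2 → ∀ x : H →L[ℂ] H, S.Good x → ‖x‖ ≤ 1 →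
  ∃ y : H →L[ℂ] H, S.InN y ∧
    ‖S.U * x * star S.U - y‖ ≤ 6 / Real.sqrt p + 8 / Real.sqrt (Real.sqrt p)

end Crest.Agent.R078.S104
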