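import Crest.Agent.R078.Ops
import Crest.Agent.R078.S104Targets

/-!
# R78, S0104, block E: the concrete model on `ℓ²(L × L × Option (ZMod p))`, `L = List (ZMod p)`
-/

set_option autoImplicit false
set_option linter.unusedSectionVars false
set_option linter.unusedSimpArgs false

noncomputable section

namespace Crest.Agent.R078.S104.Model

open scoped ENNReal InnerProductSpace
open Crest.Agent.R078.Basic Crest.Agent.R078.Ops

section peq

variable {I : Type}

/-- pull-back of a function along a partial injection -/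
def pull (g : I ≃. I) (ξ : I → ℂ) (i : I) : ℂ := (g i).elim 0 ξ

theorem pull_of_isSome (g : I ≃. I) (ξ : I → ℂ) (i : {i : I // (g i).isSome}) :
    pull g ξ i.1 = ξ ((g i.1).get i.2) := by
  obtain ⟨i, hi⟩ := i
  obtain ⟨j, hj⟩ := Option.isSome_iff_exists.mp hi
  simp [pull, hj]

theorem pull_of_not_isSome (g : I ≃. I) (ξ : I → ℂ) (i : I) (hi : ¬ (g i).isSome) :
    pull g ξ i = 0 := by
  rw [Option.not_isSome_iff_eq_none] at hi
  simp [pull, hi]

theorem get_injective (g : I ≃. I) :
    Function.Injective (fun i : {i : I // (g i).isSome} => (g i.1).get i.2) := by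
  rintro ⟨i, hi⟩ ⟨j, hj⟩ h
  have h1 : (g i).get hi ∈ g i := Option.get_mem hi
  have h2 : (g j).get hj ∈ g j := Option.get_mem hj
  have h' : (g i).get hi = (g j).get hj := h
  rw [← h'] at h2
  exact Subtype.ext (g.inj h1 h2)

theorem summable_pull (g : I ≃. I) (ξ : L2 I ℂ) : Summable fun i => ‖pull g ξ i‖ ^ 2 := by
  have h1 : Summable fun i : {i : I // (g i).isSome} => ‖pull g ξ i.1‖ ^ 2 := by
    simp only [pull_of_isSome]
    exact (hasSum_norm_sq ξ).summable.comp_injective (get_injective g)
  refine (Subtype.val_injective.summable_iff ?_).mp h1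
  intro i hi
  have hi' : ¬ (g i).isSome := fun h => hi ⟨⟨i, h⟩, rfl⟩
  rw [pull_of_not_isSome g _ i hi']
  simp

theorem tsum_pull_le (g : I ≃. I) (ξ : L2 I ℂ) :
    ∑' i, ‖pull g ξ i‖ ^ 2 ≤ ∑' i, ‖ξ i‖ ^ 2 := by
  have h1 : ∑' i : {i : I // (g i).isSome}, ‖pull g ξ i.1‖ ^ 2 = ∑' i, ‖pull g ξ i‖ ^ 2 := by
    refine Function.Injective.tsum_eq Subtype.val_injective ?_
      (f := fun i => ‖pull g ξ i‖ ^ 2)
    intro i hi
    by_contra h
    have hi' : ¬ (g i).isSome := fun h' => h ⟨⟨i, h'⟩, rfl⟩
    apply hi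
    simp [pull_of_not_isSome g _ i hi']
  rw [← h1]
  simp only [pull_of_isSome]
  exact tsum_comp_le_tsum_of_inj (hasSum_norm_sq ξ).summable (fun _ => by positivity)
    (get_injective g)

/-- pull-back along a partial injection, as a bounded operator of `ℓ²` -/
def opT (g : I ≃. I) : L2 I ℂ →L[ℂ] L2 I ℂ :=
  LinearMap.mkContinuous
    { toFun := fun ξ => ⟨pull g ξ, memℓp_two_of_summable (summable_pull g ξ)⟩
      map_add' := fun ξ η => by
        ext i
        change pull g (ξ + η : L2 I ℂ) i = pull g ξ i + pull g η i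
        unfold pull
        cases g i
        · exact (add_zero (0 : ℂ)).symm
        · rfl
      map_smul' := fun c ξ => by
        ext i
        change pull g (c • ξ : L2 I ℂ) i = c • pull g ξ i
        unfold pull
        cases g i
        · exact (smul_zero c).symm
        · rfl } 1
    (fun ξ => by
      have h : ‖(⟨pull g ξ, memℓp_two_of_summable (summable_pull g ξ)⟩ : L2 I ℂ)‖ ^ 2 ≤
          (1 * ‖ξ‖) ^ 2 := by
        rw [norm_sq_eq, one_mul, norm_sq_eq ξ]
        exact tsum_pull_le g ξ
      exact le_of_sq_le_sq h (by positivity))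

theorem opT_apply (g : I ≃. I) (ξ : L2 I ℂ) (i : I) : opT g ξ i = (g i).elim 0 ξ := rfl

theorem opT_mul (g h : I ≃. I) : opT g * opT h = opT (g.trans h) := by
  ext ξ i
  change (opT g (opT h ξ)) i = _
  rw [opT_apply, opT_apply]
  change _ = ((g i).bind h).elim 0 ξ
  cases g i <;> rfl

theorem opT_refl : opT (PEquiv.refl I) = 1 := by
  ext ξ i
  rfl

theorem opT_bot : opT (⊥ : I ≃. I) = 0 := by
  ext ξ i
  rfl

theorem opT_single [DecidableEq I] (g : I ≃. I) (i : I) (a : ℂ) :
    opT g (lp.single 2 i a : L2 I ℂ) = (g.symm i).elim 0 (fun j => lp.single 2 j a) := by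
  ext k
  rw [opT_apply]
  rcases hg : g.symm i with _ | j
  · rcases hk : g k with _ | l
    · rfl
    · have hl : l ≠ i := by
        rintro rfl
        have : g.symm l = some k := (PEquiv.eq_some_iff g).mpr hk
        rw [hg] at this
        cases this
      change (lp.single 2 i a : L2 I ℂ) l = (0 : L2 I ℂ) k
      rw [lp.single_apply_ne _ _ _ hl]
      rfl
  · have hj : g j = some i := (PEquiv.eq_some_iff g).mp hg
    change _ = (lp.single 2 j a : L2 I ℂ) k
    by_cases hkj : k = j
    · subst hkj
      rw [hj]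
      change (lp.single 2 i a : L2 I ℂ) i = _
      rw [lp.single_apply_self, lp.single_apply_self]
    · rw [lp.single_apply_ne _ _ _ hkj]
      rcases hk : g k with _ | l
      · rfl
      · have hl : l ≠ i := by
          rintro rfl
          exact hkj (g.inj (Option.mem_def.mpr hk) (Option.mem_def.mpr hj))
        change (lp.single 2 i a : L2 I ℂ) l = 0
        rw [lp.single_apply_ne _ _ _ hl]

theorem star_opT [DecidableEq I] (g : I ≃. I) : star (opT g) = opT g.symm := by
  ext ξ i
  have h1 : ⟪(lp.single 2 i (1 : ℂ) : L2 I ℂ), star (opT g) ξ⟫_ℂ =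
      ⟪opT g (lp.single 2 i (1 : ℂ) : L2 I ℂ), ξ⟫_ℂ := by
    rw [ContinuousLinearMap.star_eq_adjoint, ContinuousLinearMap.adjoint_inner_right]
  rw [lp.inner_single_left, opT_single] at h1
  have h2 : ⟪(1 : ℂ), (star (opT g) ξ : L2 I ℂ) i⟫_ℂ = (star (opT g) ξ : L2 I ℂ) i := by simp
  rw [h2] at h1
  rw [h1, opT_apply]
  rcases g.symm i with _ | j
  · simp
  · change ⟪(lp.single 2 j (1 : ℂ) : L2 I ℂ), ξ⟫_ℂ = ξ j
    rw [lp.inner_single_left]
    simp

end peq

section factors

variable {A B C : Type}

/-- act on the first factor -/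
def onA (f : A ≃. A) : (A × B × C) ≃. (A × B × C) where
  toFun x := (f x.1).map fun u => (u, x.2.1, x.2.2)
  invFun x := (f.symm x.1).map fun u => (u, x.2.1, x.2.2)
  inv := by
    rintro ⟨a, b, c⟩ ⟨a', b', c'⟩
    simp only [Option.map_eq_some_iff, Prod.mk.injEq]
    constructor
    · rintro ⟨x, hx, rfl, rfl, rfl⟩
      exact ⟨a', (PEquiv.eq_some_iff f).mp hx, rfl, rfl, rfl⟩
    · rintro ⟨x, hx, rfl, rfl, rfl⟩
      exact ⟨a, (PEquiv.eq_some_iff f).mpr hx, rfl, rfl, rfl⟩

/-- act on the second factor -/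
def onB (f : B ≃. B) : (A × B × C) ≃. (A × B × C) where
  toFun x := (f x.2.1).map fun u => (x.1, u, x.2.2)
  invFun x := (f.symm x.2.1).map fun u => (x.1, u, x.2.2)
  inv := by
    rintro ⟨a, b, c⟩ ⟨a', b', c'⟩
    simp only [Option.map_eq_some_iff, Prod.mk.injEq]
    constructor
    · rintro ⟨x, hx, rfl, rfl, rfl⟩
      exact ⟨b', (PEquiv.eq_some_iff f).mp hx, rfl, rfl, rfl⟩
    · rintro ⟨x, hx, rfl, rfl, rfl⟩
      exact ⟨b, (PEquiv.eq_some_iff f).mpr hx, rfl, rfl, rfl⟩

/-- act on the third factor -/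
def onC (f : C ≃. C) : (A × B × C) ≃. (A × B × C) where
  toFun x := (f x.2.2).map fun u => (x.1, x.2.1, u)
  invFun x := (f.symm x.2.2).map fun u => (x.1, x.2.1, u)
  inv := by
    rintro ⟨a, b, c⟩ ⟨a', b', c'⟩
    simp only [Option.map_eq_some_iff, Prod.mk.injEq]
    constructor
    · rintro ⟨x, hx, rfl, rfl, rfl⟩
      exact ⟨c', (PEquiv.eq_some_iff f).mp hx, rfl, rfl, rfl⟩
    · rintro ⟨x, hx, rfl, rfl, rfl⟩
      exact ⟨c, (PEquiv.eq_some_iff f).mpr hx, rfl, rfl, rfl⟩

theorem onA_symm (f : A ≃. A) : (onA f : (A × B × C) ≃. _).symm = onA f.symm := rfl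
theorem onB_symm (f : B ≃. B) : (onB f : (A × B × C) ≃. _).symm = onB f.symm := rfl
theorem onC_symm (f : C ≃. C) : (onC f : (A × B × C) ≃. _).symm = onC f.symm := rfl

def opA (f : A ≃. A) : L2 (A × B × C) ℂ →L[ℂ] L2 (A × B × C) ℂ := opT (onA f)
def opB (f : B ≃. B) : L2 (A × B × C) ℂ →L[ℂ] L2 (A × B × C) ℂ := opT (onB f)
def opC (f : C ≃. C) : L2 (A × B × C) ℂ →L[ℂ] L2 (A × B × C) ℂ := opT (onC f)

theorem opA_apply (f : A ≃. A) (ξ : L2 (A × B × C) ℂ) (a : A) (b : B) (c : C) :
    opA f ξ (a, b, c) = (f a).elim 0 (fun a' => ξ (a', b, c)) := by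
  change (((f a).map fun u => (u, b, c)) : Option (A × B × C)).elim 0 ξ = _
  cases f a <;> rfl

theorem opB_apply (f : B ≃. B) (ξ : L2 (A × B × C) ℂ) (a : A) (b : B) (c : C) :
    opB f ξ (a, b, c) = (f b).elim 0 (fun b' => ξ (a, b', c)) := by
  change (((f b).map fun u => (a, u, c)) : Option (A × B × C)).elim 0 ξ = _
  cases f b <;> rfl

theorem opC_apply (f : C ≃. C) (ξ : L2 (A × B × C) ℂ) (a : A) (b : B) (c : C) :
    opC f ξ (a, b, c) = (f c).elim 0 (fun c' => ξ (a, b, c')) := by
  change (((f c).map fun u => (a, b, u)) : Option (A × B × C)).elim 0 ξ = _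
  cases f c <;> rfl

variable [DecidableEq A] [DecidableEq B] [DecidableEq C]

theorem star_opA (f : A ≃. A) :
    star (opA f : L2 (A × B × C) ℂ →L[ℂ] L2 (A × B × C) ℂ) = opA f.symm := star_opT _
theorem star_opB (f : B ≃. B) :
    star (opB f : L2 (A × B × C) ℂ →L[ℂ] L2 (A × B × C) ℂ) = opB f.symm := star_opT _
theorem star_opC (f : C ≃. C) :
    star (opC f : L2 (A × B × C) ℂ →L[ℂ] L2 (A × B × C) ℂ) = opC f.symm := star_opT _

omit [DecidableEq A] [DecidableEq B] [DecidableEq C] in
theorem commute_AB (f : A ≃. A) (g : B ≃. B) :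
    Commute (opA f : L2 (A × B × C) ℂ →L[ℂ] L2 (A × B × C) ℂ) (opB g) := by
  ext ξ ⟨a, b, c⟩
  change opA f (opB g ξ) (a, b, c) = opB g (opA f ξ) (a, b, c)
  rw [opA_apply, opB_apply]
  cases hf : f a <;> cases hg : g b <;> simp [opA_apply, opB_apply, hf, hg]

omit [DecidableEq A] [DecidableEq B] [DecidableEq C] in
theorem commute_AC (f : A ≃. A) (g : C ≃. C) :
    Commute (opA f : L2 (A × B × C) ℂ →L[ℂ] L2 (A × B × C) ℂ) (opC g) := by
  ext ξ ⟨a, b, c⟩
  change opA f (opC g ξ) (a, b, c) = opC g (opA f ξ) (a, b, c)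
  rw [opA_apply, opC_apply]
  cases hf : f a <;> cases hg : g c <;> simp [opA_apply, opC_apply, hf, hg]

omit [DecidableEq A] [DecidableEq B] [DecidableEq C] in
theorem commute_BC (f : B ≃. B) (g : C ≃. C) :
    Commute (opB f : L2 (A × B × C) ℂ →L[ℂ] L2 (A × B × C) ℂ) (opC g) := by
  ext ξ ⟨a, b, c⟩
  change opB f (opC g ξ) (a, b, c) = opC g (opB f ξ) (a, b, c)
  rw [opB_apply, opC_apply]
  cases hf : f b <;> cases hg : g c <;> simp [opB_apply, opC_apply, hf, hg]

end factors

section lists

variable {Z : Type} [DecidableEq Z]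

/-- `u ↦ a :: u` -/
def consE (a : Z) : List Z ≃. List Z where
  toFun u := some (a :: u)
  invFun v := match v with
    | [] => none
    | c :: u => if c = a then some u else none
  inv := by
    intro u v
    cases v with
    | nil => simp
    | cons c v =>
      by_cases h : c = a
      · subst h; simp [eq_comm]
      · simp [h, Ne.symm h]

theorem consE_apply (a : Z) (u : List Z) : consE a u = some (a :: u) := rfl
theorem consE_symm_nil (a : Z) : (consE a).symm [] = none := rfl
theorem consE_symm_cons (a c : Z) (u : List Z) :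
    (consE a).symm (c :: u) = if c = a then some u else none := rfl

/-- `u ↦ u ++ [a]` -/
def snocE (a : Z) : List Z ≃. List Z where
  toFun u := some (u ++ [a])
  invFun v := if v.getLast? = some a then some v.dropLast else none
  inv := by
    intro u v
    rcases List.eq_nil_or_concat v with rfl | ⟨v, c, rfl⟩
    · simp
    · by_cases h : c = a
      · subst h; simp [eq_comm]
      · simp [h, Ne.symm h]

theorem snocE_apply (a : Z) (u : List Z) : snocE a u = some (u ++ [a]) := rfl
theorem snocE_symm_nil (a : Z) : (snocE a).symm [] = none := by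
  change (if ([] : List Z).getLast? = some a then some ([] : List Z).dropLast else none) = none
  simp
theorem snocE_symm_concat (a c : Z) (u : List Z) :
    (snocE a).symm (u ++ [c]) = if c = a then some u else none := by
  change (if (u ++ [c]).getLast? = some a then some (u ++ [c]).dropLast else none) = _
  simp

/-- projection on the empty word -/
def nilE : List Z ≃. List Z where
  toFun u := match u with
    | [] => some []
    | _ :: _ => none
  invFun u := match u with
    | [] => some []
    | _ :: _ => none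
  inv := by
    intro u v
    cases u <;> cases v <;> simp

theorem nilE_nil : (nilE : List Z ≃. List Z) [] = some [] := rfl
theorem nilE_cons (c : Z) (u : List Z) : (nilE : List Z ≃. List Z) (c :: u) = none := rfl
theorem nilE_symm : (nilE : List Z ≃. List Z).symm = nilE := rfl

/-- `none ↦ some b` -/
def lev (b : Z) : Option Z ≃. Option Z where
  toFun o := match o with
    | none => some (some b)
    | some _ => none
  invFun o := match o with
    | none => none
    | some c => if c = b then some none else none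
  inv := by
    intro u v
    cases u <;> cases v <;> simp
    · exact eq_comm

theorem lev_none (b : Z) : lev b none = some (some b) := rfl
theorem lev_some (b c : Z) : lev b (some c) = none := rfl
theorem lev_symm_none (b : Z) : (lev b).symm none = none := rfl
theorem lev_symm_some (b c : Z) : (lev b).symm (some c) = if c = b then some none else none := rfl

/-- projection on level 1 -/
def lev1 : Option Z ≃. Option Z where
  toFun o := match o with
    | none => some none
    | some _ => none
  invFun o := match o with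
    | none => some none
    | some _ => none
  inv := by
    intro u v
    cases u <;> cases v <;> simp

theorem lev1_none : (lev1 : Option Z ≃. Option Z) none = some none := rfl
theorem lev1_some (c : Z) : (lev1 : Option Z ≃. Option Z) (some c) = none := rfl
theorem lev1_symm : (lev1 : Option Z ≃. Option Z).symm = lev1 := rfl

end lists

section sys

variable (p : ℕ) [NeZero p]

/-- the index set -/
abbrev Idx : Type := List (ZMod p) × List (ZMod p) × Option (ZMod p)

/-- the Hilbert space -/
abbrev HH : Type := L2 (Idx p) ℂ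

variable {p}

def l (a : ZMod p) : HH p →L[ℂ] HH p := opA (consE a).symm
def r (a : ZMod p) : HH p →L[ℂ] HH p := opA (snocE a).symm
def m (a : ZMod p) : HH p →L[ℂ] HH p := opB (consE a).symm
def t (a : ZMod p) : HH p →L[ℂ] HH p := opB (snocE a).symm
def E (b : ZMod p) : HH p →L[ℂ] HH p := opC (lev b).symm
def e1 : HH p →L[ℂ] HH p := opC lev1
def P : HH p →L[ℂ] HH p := opA nilE
def v0 : HH p := lp.single 2 ([], [], none) 1

theorem star_l (a : ZMod p) : star (l a) = opA (consE a) := star_opA _
theorem star_r (a : ZMod p) : star (r a) = opA (snocE a) := star_opA _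
theorem star_m (a : ZMod p) : star (m a) = opB (consE a) := star_opB _
theorem star_t (a : ZMod p) : star (t a) = opB (snocE a) := star_opB _
theorem star_E (a : ZMod p) : star (E a) = opC (lev a) := star_opC _

theorem star_l_l (a b : ZMod p) : star (l a) * l b = if a = b then 1 else 0 := by
  rw [star_l]
  ext ξ ⟨u, w, o⟩
  change opA (consE a) (opA (consE b).symm ξ) (u, w, o) = _
  rw [opA_apply, consE_apply]
  change opA (consE b).symm ξ (a :: u, w, o) = _
  rw [opA_apply, consE_symm_cons]
  split_ifs with h <;> rfl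

theorem star_r_r (a b : ZMod p) : star (r a) * r b = if a = b then 1 else 0 := by
  rw [star_r]
  ext ξ ⟨u, w, o⟩
  change opA (snocE a) (opA (snocE b).symm ξ) (u, w, o) = _
  rw [opA_apply, snocE_apply]
  change opA (snocE b).symm ξ (u ++ [a], w, o) = _
  rw [opA_apply, snocE_symm_concat]
  split_ifs with h <;> rfl

theorem star_m_m (a b : ZMod p) : star (m a) * m b = if a = b then 1 else 0 := by
  rw [star_m]
  ext ξ ⟨u, w, o⟩
  change opB (consE a) (opB (consE b).symm ξ) (u, w, o) = _
  rw [opB_apply, consE_apply]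
  change opB (consE b).symm ξ (u, a :: w, o) = _
  rw [opB_apply, consE_symm_cons]
  split_ifs with h <;> rfl

theorem star_t_t (a b : ZMod p) : star (t a) * t b = if a = b then 1 else 0 := by
  rw [star_t]
  ext ξ ⟨u, w, o⟩
  change opB (snocE a) (opB (snocE b).symm ξ) (u, w, o) = _
  rw [opB_apply, snocE_apply]
  change opB (snocE b).symm ξ (u, w ++ [a], o) = _
  rw [opB_apply, snocE_symm_concat]
  split_ifs with h <;> rfl

theorem star_E_E (a b : ZMod p) : star (E a) * E b = if a = b then e1 else 0 := by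
  rw [star_E]
  ext ξ ⟨u, w, o⟩
  change opC (lev a) (opC (lev b).symm ξ) (u, w, o) = _
  rw [opC_apply]
  cases o with
  | none =>
    rw [lev_none]
    change opC (lev b).symm ξ (u, w, some a) = _
    rw [opC_apply, lev_symm_some]
    split_ifs with h <;> rfl
  | some c =>
    rw [lev_some]
    split_ifs with h <;> rfl

theorem star_e1 : star (e1 : HH p →L[ℂ] HH p) = e1 := star_opC _

theorem e1_e1 : (e1 : HH p →L[ℂ] HH p) * e1 = e1 := by
  ext ξ ⟨u, w, o⟩
  change opC lev1 (opC lev1 ξ) (u, w, o) = opC lev1 ξ (u, w, o)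
  cases o <;> rfl

theorem E_e1 (b : ZMod p) : E b * e1 = E b := by
  ext ξ ⟨u, w, o⟩
  change opC (lev b).symm (opC lev1 ξ) (u, w, o) = opC (lev b).symm ξ (u, w, o)
  rw [opC_apply, opC_apply]
  cases o with
  | none => rfl
  | some c =>
    rw [lev_symm_some]
    split_ifs <;> rfl

theorem e1_E (b : ZMod p) : e1 * E b = 0 := by
  ext ξ ⟨u, w, o⟩
  change opC lev1 (opC (lev b).symm ξ) (u, w, o) = _
  rw [opC_apply]
  cases o <;> rfl

theorem E_star_E_none (b : ZMod p) (ξ : HH p) (u w : List (ZMod p)) :
    (E b * star (E b)) ξ (u, w, none) = 0 := by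
  rw [star_E]
  change opC (lev b).symm (opC (lev b) ξ) (u, w, none) = _
  rw [opC_apply]
  rfl

theorem E_star_E_some (b c : ZMod p) (ξ : HH p) (u w : List (ZMod p)) :
    (E b * star (E b)) ξ (u, w, some c) = if c = b then ξ (u, w, some c) else 0 := by
  rw [star_E]
  change opC (lev b).symm (opC (lev b) ξ) (u, w, some c) = _
  rw [opC_apply, lev_symm_some]
  split_ifs with h
  · subst h
    rfl
  · rfl

theorem sum_E : ∑ b : ZMod p, E b * star (E b) = 1 - e1 := by
  ext ξ ⟨u, w, o⟩
  rw [sum_apply, lp.coeFn_sum, Finset.sum_apply]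
  change _ = ξ (u, w, o) - opC lev1 ξ (u, w, o)
  rw [opC_apply]
  cases o with
  | none =>
    simp only [E_star_E_none]
    change ∑ _b : ZMod p, (0 : ℂ) = ξ (u, w, none) - ξ (u, w, none)
    simp
  | some c =>
    simp only [E_star_E_some]
    change ∑ b : ZMod p, (if c = b then ξ (u, w, some c) else 0) = ξ (u, w, some c) - 0
    simp

theorem opA_cons_symm_nil (a : ZMod p) (ξ : HH p) (w : List (ZMod p)) (o : Option (ZMod p)) :
    opA (consE a).symm ξ ([], w, o) = 0 := by
  rw [opA_apply, consE_symm_nil]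
  rfl

theorem opA_cons_symm_cons (a c : ZMod p) (ξ : HH p) (u w : List (ZMod p))
    (o : Option (ZMod p)) :
    opA (consE a).symm ξ (c :: u, w, o) = if c = a then ξ (u, w, o) else 0 := by
  rw [opA_apply, consE_symm_cons]
  split_ifs <;> rfl

theorem opA_snoc_symm_nil (a : ZMod p) (ξ : HH p) (w : List (ZMod p)) (o : Option (ZMod p)) :
    opA (snocE a).symm ξ ([], w, o) = 0 := by
  rw [opA_apply, snocE_symm_nil]
  rfl

theorem opA_snoc_symm_concat (a c : ZMod p) (ξ : HH p) (u w : List (ZMod p))
    (o : Option (ZMod p)) :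
    opA (snocE a).symm ξ (u ++ [c], w, o) = if c = a then ξ (u, w, o) else 0 := by
  rw [opA_apply, snocE_symm_concat]
  split_ifs <;> rfl

theorem opA_snoc_symm_single (a c : ZMod p) (ξ : HH p) (w : List (ZMod p))
    (o : Option (ZMod p)) :
    opA (snocE a).symm ξ ([c], w, o) = if c = a then ξ ([], w, o) else 0 :=
  opA_snoc_symm_concat a c ξ [] w o

theorem opA_snoc_symm_cons_concat (a c c' : ZMod p) (ξ : HH p) (u w : List (ZMod p))
    (o : Option (ZMod p)) :
    opA (snocE a).symm ξ (c' :: (u ++ [c]), w, o) = if c = a then ξ (c' :: u, w, o) else 0 :=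
  opA_snoc_symm_concat a c ξ (c' :: u) w o

theorem opA_cons (a : ZMod p) (ξ : HH p) (u w : List (ZMod p)) (o : Option (ZMod p)) :
    opA (consE a) ξ (u, w, o) = ξ (a :: u, w, o) := rfl

theorem opA_snoc (a : ZMod p) (ξ : HH p) (u w : List (ZMod p)) (o : Option (ZMod p)) :
    opA (snocE a) ξ (u, w, o) = ξ (u ++ [a], w, o) := rfl

/-- coordinates of `s_a` -/
def sc (a : ZMod p) : HH p →L[ℂ] HH p := l a + star (l a)
/-- coordinates of `d_a` -/
def dc (a : ZMod p) : HH p →L[ℂ] HH p := r a + star (r a)

theorem sc_apply (a : ZMod p) (ξ : HH p) (i : Idx p) :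
    sc a ξ i = opA (consE a).symm ξ i + opA (consE a) ξ i := by
  rw [sc, star_l]
  rfl

theorem dc_apply (a : ZMod p) (ξ : HH p) (i : Idx p) :
    dc a ξ i = opA (snocE a).symm ξ i + opA (snocE a) ξ i := by
  rw [dc, star_r]
  rfl

theorem eq_nil_or_append {Z : Type} (u : List Z) : u = [] ∨ ∃ v c, u = v ++ [c] := by
  rcases List.eq_nil_or_concat u with rfl | ⟨v, c, rfl⟩
  · exact Or.inl rfl
  · exact Or.inr ⟨v, c, by simp⟩

theorem comm_s_d (a b : ZMod p) : Commute (l a + star (l a)) (r b + star (r b)) := by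
  change sc a * dc b = dc b * sc a
  ext ξ ⟨u, w, o⟩
  change sc a (dc b ξ) (u, w, o) = dc b (sc a ξ) (u, w, o)
  simp only [sc_apply, dc_apply]
  rcases u with _ | ⟨c, u⟩
  · simp only [opA_cons_symm_nil, opA_snoc_symm_nil, opA_cons, opA_snoc, List.nil_append,
      dc_apply, sc_apply, opA_cons_symm_cons, opA_snoc_symm_single, List.cons_append, zero_add]
    by_cases h : a = b
    · subst h; simp
    · simp [h, Ne.symm h]
  · rcases eq_nil_or_append u with rfl | ⟨u, c', rfl⟩
    · simp only [opA_cons_symm_nil, opA_snoc_symm_nil, opA_cons, opA_snoc, List.nil_append,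
        dc_apply, sc_apply, opA_cons_symm_cons, opA_snoc_symm_single, List.cons_append, zero_add]
      have h1 := opA_snoc_symm_cons_concat b c a ξ [] w o
      simp only [List.nil_append] at h1
      rw [h1]
      by_cases h : c = a <;> by_cases h' : c = b <;> simp [h, h']
      all_goals ring
    · simp only [opA_snoc_symm_cons_concat, opA_cons, opA_snoc, 
        dc_apply, sc_apply, opA_cons_symm_cons, opA_snoc_symm_concat, List.cons_append]
      have h1 := opA_snoc_symm_concat b c' ξ (a :: c :: u) w o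
      simp only [List.cons_append] at h1
      rw [h1]
      by_cases h : c = a <;> by_cases h' : c' = b <;> simp [h, h']
      all_goals ring

theorem opB_cons_symm_nil (a : ZMod p) (ξ : HH p) (w : List (ZMod p)) (o : Option (ZMod p)) :
    opB (consE a).symm ξ (w, [], o) = 0 := by
  rw [opB_apply, consE_symm_nil]
  rfl

theorem opB_cons_symm_cons (a c : ZMod p) (ξ : HH p) (u w : List (ZMod p))
    (o : Option (ZMod p)) :
    opB (consE a).symm ξ (w, c :: u, o) = if c = a then ξ (w, u, o) else 0 := by
  rw [opB_apply, consE_symm_cons]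
  split_ifs <;> rfl

theorem opB_snoc_symm_nil (a : ZMod p) (ξ : HH p) (w : List (ZMod p)) (o : Option (ZMod p)) :
    opB (snocE a).symm ξ (w, [], o) = 0 := by
  rw [opB_apply, snocE_symm_nil]
  rfl

theorem opB_snoc_symm_concat (a c : ZMod p) (ξ : HH p) (u w : List (ZMod p))
    (o : Option (ZMod p)) :
    opB (snocE a).symm ξ (w, u ++ [c], o) = if c = a then ξ (w, u, o) else 0 := by
  rw [opB_apply, snocE_symm_concat]
  split_ifs <;> rfl

theorem opB_snoc_symm_single (a c : ZMod p) (ξ : HH p) (w : List (ZMod p))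
    (o : Option (ZMod p)) :
    opB (snocE a).symm ξ (w, [c], o) = if c = a then ξ (w, [], o) else 0 :=
  opB_snoc_symm_concat a c ξ [] w o

theorem opB_snoc_symm_cons_concat (a c c' : ZMod p) (ξ : HH p) (u w : List (ZMod p))
    (o : Option (ZMod p)) :
    opB (snocE a).symm ξ (w, c' :: (u ++ [c]), o) = if c = a then ξ (w, c' :: u, o) else 0 :=
  opB_snoc_symm_concat a c ξ (c' :: u) w o

theorem opB_cons (a : ZMod p) (ξ : HH p) (u w : List (ZMod p)) (o : Option (ZMod p)) :
    opB (consE a) ξ (w, u, o) = ξ (w, a :: u, o) := rfl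

theorem opB_snoc (a : ZMod p) (ξ : HH p) (u w : List (ZMod p)) (o : Option (ZMod p)) :
    opB (snocE a) ξ (w, u, o) = ξ (w, u ++ [a], o) := rfl

/-- coordinates of `s'_a` -/
def sc' (a : ZMod p) : HH p →L[ℂ] HH p := m a + star (m a)
/-- coordinates of `d'_a` -/
def dc' (a : ZMod p) : HH p →L[ℂ] HH p := t a + star (t a)

theorem sc'_apply (a : ZMod p) (ξ : HH p) (i : Idx p) :
    sc' a ξ i = opB (consE a).symm ξ i + opB (consE a) ξ i := by
  rw [sc', star_m]
  rfl

theorem dc'_apply (a : ZMod p) (ξ : HH p) (i : Idx p) :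
    dc' a ξ i = opB (snocE a).symm ξ i + opB (snocE a) ξ i := by
  rw [dc', star_t]
  rfl

theorem comm_s_d' (a b : ZMod p) : Commute (m a + star (m a)) (t b + star (t b)) := by
  change sc' a * dc' b = dc' b * sc' a
  ext ξ ⟨w, u, o⟩
  change sc' a (dc' b ξ) (w, u, o) = dc' b (sc' a ξ) (w, u, o)
  simp only [sc'_apply, dc'_apply]
  rcases u with _ | ⟨c, u⟩
  · simp only [opB_cons_symm_nil, opB_snoc_symm_nil, opB_cons, opB_snoc, List.nil_append,
      dc'_apply, sc'_apply, opB_cons_symm_cons, opB_snoc_symm_single, List.cons_append, zero_add]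
    by_cases h : a = b
    · subst h; simp
    · simp [h, Ne.symm h]
  · rcases eq_nil_or_append u with rfl | ⟨u, c', rfl⟩
    · simp only [opB_cons_symm_nil, opB_snoc_symm_nil, opB_cons, opB_snoc, List.nil_append,
        dc'_apply, sc'_apply, opB_cons_symm_cons, opB_snoc_symm_single, List.cons_append, zero_add]
      have h1 := opB_snoc_symm_cons_concat b c a ξ [] w o
      simp only [List.nil_append] at h1
      rw [h1]
      by_cases h : c = a <;> by_cases h' : c = b <;> simp [h, h']
      all_goals ring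
    · simp only [opB_snoc_symm_cons_concat, opB_cons, opB_snoc,
        dc'_apply, sc'_apply, opB_cons_symm_cons, opB_snoc_symm_concat, List.cons_append]
      have h1 := opB_snoc_symm_concat b c' ξ (a :: c :: u) w o
      simp only [List.cons_append] at h1
      rw [h1]
      by_cases h : c = a <;> by_cases h' : c' = b <;> simp [h, h']
      all_goals ring

theorem P_apply_nil (ξ : HH p) (w : List (ZMod p)) (o : Option (ZMod p)) :
    P ξ ([], w, o) = ξ ([], w, o) := by
  rw [P, opA_apply]
  rfl

theorem P_apply_cons (ξ : HH p) (c : ZMod p) (u w : List (ZMod p)) (o : Option (ZMod p)) :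
    P ξ (c :: u, w, o) = 0 := by
  rw [P, opA_apply]
  rfl

theorem d_l (a b : ZMod p) :
    (r a + star (r a)) * l b - l b * (r a + star (r a)) = if a = b then P else 0 := by
  change dc a * l b - l b * dc a = _
  ext ξ ⟨u, w, o⟩
  change dc a (opA (consE b).symm ξ) (u, w, o) - opA (consE b).symm (dc a ξ) (u, w, o) = _
  rcases u with _ | ⟨c, u⟩
  · simp only [opA_cons_symm_nil, opA_snoc_symm_nil, opA_cons, opA_snoc, List.nil_append,
      dc_apply, sc_apply, opA_cons_symm_cons, opA_snoc_symm_single, List.cons_append, zero_add]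
    split_ifs with h
    · rw [P_apply_nil, sub_zero]
    · simp
  · have hR : (if a = b then P else 0 : HH p →L[ℂ] HH p) ξ (c :: u, w, o) = 0 := by
      split_ifs
      · exact P_apply_cons _ _ _ _ _
      · rfl
    rw [hR, sub_eq_zero]
    rcases eq_nil_or_append u with rfl | ⟨u, c', rfl⟩
    · simp only [opA_cons_symm_nil, opA_snoc_symm_nil, opA_cons, opA_snoc, List.nil_append,
        dc_apply, sc_apply, opA_cons_symm_cons, opA_snoc_symm_single, List.cons_append, zero_add]
      by_cases h : c = a <;> simp [h]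
    · simp only [opA_snoc_symm_cons_concat, opA_cons, opA_snoc,
        dc_apply, sc_apply, opA_cons_symm_cons, opA_snoc_symm_concat, List.cons_append]
      by_cases h : c = b <;> by_cases h' : c' = a <;> simp [h, h']

theorem star_l_P (a : ZMod p) : star (l a) * P = 0 := by
  rw [star_l]
  ext ξ ⟨u, w, o⟩
  change opA (consE a) (P ξ) (u, w, o) = _
  rw [opA_cons, P_apply_cons]
  rfl

theorem norm_v0 : ‖(v0 : HH p)‖ = 1 := by
  have h := lp.norm_single (E := fun _ : Idx p => ℂ) (p := 2) (by norm_num)
    (([], [], none) : Idx p) (1 : ℂ)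
  rw [v0]
  rw [h, norm_one]

theorem opT_single_of_none (g : Idx p ≃. Idx p) (i : Idx p) (a : ℂ) (h : g.symm i = none) :
    opT g (lp.single 2 i a : HH p) = 0 := by
  rw [opT_single, h]
  rfl

theorem opT_single_of_some (g : Idx p ≃. Idx p) (i j : Idx p) (a : ℂ) (h : g.symm i = some j) :
    opT g (lp.single 2 i a : HH p) = lp.single 2 j a := by
  rw [opT_single, h]
  rfl

theorem P_v0 : P (v0 : HH p) = v0 := opT_single_of_some _ _ _ _ rfl

theorem e1_v0 : e1 (v0 : HH p) = v0 := opT_single_of_some _ _ _ _ rfl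

theorem star_m_v0 (a : ZMod p) : star (m a) (v0 : HH p) = 0 := by
  rw [star_m]
  exact opT_single_of_none _ _ _ rfl

theorem star_t_v0 (a : ZMod p) : star (t a) (v0 : HH p) = 0 := by
  rw [star_t]
  refine opT_single_of_none _ _ _ ?_
  have h : ((onB (snocE a)) : Idx p ≃. Idx p).symm ([], [], none) =
      ((snocE a).symm []).map (fun u => ([], u, none)) := rfl
  rw [h, snocE_symm_nil]
  rfl

theorem t_v0 (b : ZMod p) : t b (v0 : HH p) = lp.single 2 ([], [b], none) 1 :=
  opT_single_of_some _ _ _ _ rfl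

theorem star_m_t_v0 (a b : ZMod p) : star (m a) (t b (v0 : HH p)) = if a = b then v0 else 0 := by
  rw [star_m, t_v0]
  split_ifs with h
  · subst h
    refine opT_single_of_some _ _ _ _ ?_
    have h : ((onB (consE a)) : Idx p ≃. Idx p).symm ([], [a], none) =
      ((consE a).symm [a]).map (fun u => ([], u, none)) := rfl
    rw [h, consE_symm_cons, if_pos rfl]
    rfl
  · refine opT_single_of_none _ _ _ ?_
    have h' : ((onB (consE a)) : Idx p ≃. Idx p).symm ([], [b], none) =
      ((consE a).symm [b]).map (fun u => ([], u, none)) := rfl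
    rw [h', consE_symm_cons, if_neg (Ne.symm h)]
    rfl

/-- the system -/
def sys : Sys p (HH p) where
  l := l
  r := r
  m := m
  t := t
  E := E
  e1 := e1
  P := P
  v0 := v0
  star_l_l := star_l_l
  star_r_r := star_r_r
  star_m_m := star_m_m
  star_t_t := star_t_t
  star_E_E := star_E_E
  star_e1 := star_e1
  e1_e1 := e1_e1
  E_e1 := E_e1
  e1_E := e1_E
  sum_E := sum_E
  comm_s_d := comm_s_d
  comm_s_d' := comm_s_d'
  d_l := d_l
  star_l_P := star_l_P
  comm_l_m := fun _ _ => commute_AB _ _
  comm_l_m' := fun a b => by rw [star_m]; exact commute_AB _ _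
  comm_l_t := fun _ _ => commute_AB _ _
  comm_l_t' := fun a b => by rw [star_t]; exact commute_AB _ _
  comm_r_m := fun _ _ => commute_AB _ _
  comm_r_m' := fun a b => by rw [star_m]; exact commute_AB _ _
  comm_r_t := fun _ _ => commute_AB _ _
  comm_r_t' := fun a b => by rw [star_t]; exact commute_AB _ _
  comm_l_E := fun _ _ => commute_AC _ _
  comm_l_E' := fun a b => by rw [star_E]; exact commute_AC _ _
  comm_r_E := fun _ _ => commute_AC _ _
  comm_r_E' := fun a b => by rw [star_E]; exact commute_AC _ _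
  comm_m_E := fun _ _ => commute_BC _ _
  comm_m_E' := fun a b => by rw [star_E]; exact commute_BC _ _
  comm_t_E := fun _ _ => commute_BC _ _
  comm_t_E' := fun a b => by rw [star_E]; exact commute_BC _ _
  comm_P_E := fun _ => commute_AC _ _
  norm_v0 := norm_v0
  P_v0 := P_v0
  e1_v0 := e1_v0
  star_m_v0 := star_m_v0
  star_t_v0 := star_t_v0
  star_m_t_v0 := star_m_t_v0

end sys

/-- block E of S0104 -/
theorem modelExists (p : ℕ) [NeZero p] : ModelExists p :=
  ⟨HH p, inferInstance, inferInstance, inferInstance, inferInstance, ⟨sys⟩⟩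

end Crest.Agent.R078.S104.Model
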