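import Crest.Agent.R078.S104Targets

set_option autoImplicit false
set_option linter.unusedSectionVars false

/-!
# R78, S0104, block C: `B^* C B` is near `S^* C_off S`
-/

noncomputable section

namespace Crest.Agent.R078.S104.NearCFile

open scoped InnerProductSpace
open Crest.Agent.R078.S104

variable {p : ℕ} [NeZero p] {H : Type} [NormedAddCommGroup H] [InnerProductSpace ℂ H]
  [CompleteSpace H] (S : Sys p H)

theorem comm_uh {T : H →L[ℂ] H} (h1 : ∀ b, Commute T (S.E b))
    (h2 : ∀ b, Commute T (star (S.E b))) (a : ZMod p) : Commute T (S.uh a) := by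
  unfold Sys.uh
  exact Commute.sum_right _ _ _ (fun b _ => ((h1 _).mul_right (h2 _)).smul_right _)

theorem comm_star_uh {T : H →L[ℂ] H} (h1 : ∀ b, Commute T (S.E b))
    (h2 : ∀ b, Commute T (star (S.E b))) (a : ZMod p) : Commute T (star (S.uh a)) := by
  unfold Sys.uh
  rw [star_sum]
  refine Commute.sum_right _ _ _ (fun b _ => ?_)
  rw [star_smul, star_mul, star_star]
  exact ((h1 _).mul_right (h2 _)).smul_right _

theorem comm_l_star {a b : ZMod p} : Commute (star (S.l a)) (S.E b) := by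
  have h := (S.comm_l_E' a b).star_star
  rwa [star_star] at h

theorem comm_l_star' {a b : ZMod p} : Commute (star (S.l a)) (star (S.E b)) :=
  (S.comm_l_E a b).star_star

variable {x : H →L[ℂ] H} (hx : S.Good x)

include hx

theorem comm_X_E (a b : ZMod p) : Commute (S.X x a) (S.E b) := by
  unfold Sys.X
  exact ((hx.E b).mul_left (S.comm_l_E a b)).sub_left ((S.comm_l_E a b).mul_left (hx.E b))

theorem comm_X_E' (a b : ZMod p) : Commute (S.X x a) (star (S.E b)) := by
  unfold Sys.X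
  exact ((hx.E' b).mul_left (S.comm_l_E' a b)).sub_left ((S.comm_l_E' a b).mul_left (hx.E' b))

theorem comm_X_m (a b : ZMod p) : Commute (S.X x a) (S.m b) := by
  unfold Sys.X
  exact ((hx.m b).mul_left (S.comm_l_m a b)).sub_left ((S.comm_l_m a b).mul_left (hx.m b))

theorem comm_X_m' (a b : ZMod p) : Commute (S.X x a) (star (S.m b)) := by
  unfold Sys.X
  exact ((hx.m' b).mul_left (S.comm_l_m' a b)).sub_left ((S.comm_l_m' a b).mul_left (hx.m' b))

/-- `T_aa' = l_a^* X_a'` commutes with `E` -/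
theorem comm_T_E (a a' b : ZMod p) : Commute (star (S.l a) * S.X x a') (S.E b) :=
  (comm_l_star S).mul_left (comm_X_E S hx a' b)

theorem comm_T_E' (a a' b : ZMod p) : Commute (star (S.l a) * S.X x a') (star (S.E b)) :=
  (comm_l_star' S).mul_left (comm_X_E' S hx a' b)

omit hx in
theorem sqrt_sq_inv : ((((Real.sqrt p)⁻¹ : ℝ) : ℂ)) * ((((Real.sqrt p)⁻¹ : ℝ) : ℂ)) =
    ((p : ℂ)⁻¹) := by
  rw [← Complex.ofReal_mul, ← mul_inv, Real.mul_self_sqrt (Nat.cast_nonneg p)]
  push_cast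
  rfl

theorem commutator_J : x * S.J - S.J * x =
    (((Real.sqrt p)⁻¹ : ℝ) : ℂ) • ∑ a, S.X x a * S.uh a := by
  unfold Sys.J
  rw [mul_smul_comm, smul_mul_assoc, ← smul_sub]
  congr 1
  rw [Finset.mul_sum, Finset.sum_mul, ← Finset.sum_sub_distrib]
  refine Finset.sum_congr rfl fun a _ => ?_
  have h1 : S.uh a * x = x * S.uh a := (comm_uh S hx.E hx.E' a).symm
  unfold Sys.X
  rw [sub_mul, mul_assoc (S.l a) x, ← h1]
  simp only [mul_assoc]

omit hx in
theorem star_J : star S.J =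
    (((Real.sqrt p)⁻¹ : ℝ) : ℂ) • ∑ a, star (S.uh a) * star (S.l a) := by
  unfold Sys.J
  rw [star_smul, star_sum]
  congr 1
  · exact Complex.conj_ofReal _
  · exact Finset.sum_congr rfl fun a _ => star_mul _ _

theorem C_eq : S.C x = ((p : ℂ)⁻¹) •
    ∑ a, ∑ a', (star (S.l a) * S.X x a') * (star (S.uh a) * S.uh a') := by
  unfold Sys.C
  rw [commutator_J S hx, star_J, smul_mul_smul_comm, sqrt_sq_inv]
  congr 1
  rw [Finset.sum_mul]
  refine Finset.sum_congr rfl fun a _ => ?_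
  rw [Finset.mul_sum]
  refine Finset.sum_congr rfl fun a' _ => ?_
  have h1 : star (S.uh a) * (star (S.l a) * S.X x a') =
      (star (S.l a) * S.X x a') * star (S.uh a) :=
    (comm_star_uh S (comm_T_E S hx a a') (comm_T_E' S hx a a') a).symm
  calc star (S.uh a) * star (S.l a) * (S.X x a' * S.uh a')
      = (star (S.uh a) * (star (S.l a) * S.X x a')) * S.uh a' := by simp only [mul_assoc]
    _ = _ := by rw [h1]; simp only [mul_assoc]

/-- the diagonal part -/
theorem C_sub_Coff (hU : StarUhUh (p := p) (H := H)) : S.C x - S.Coff x =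
    (((p : ℂ)⁻¹) • ∑ a, star (S.l a) * S.X x a) * (1 - S.e1) := by
  rw [C_eq S hx]
  unfold Sys.Coff
  rw [← smul_sub, ← Finset.sum_sub_distrib, smul_mul_assoc, Finset.sum_mul]
  congr 1
  refine Finset.sum_congr rfl fun a _ => ?_
  rw [← Finset.sum_sub_distrib]
  rw [Finset.sum_eq_single a]
  · rw [if_pos rfl, sub_zero, hU S a]
  · intro b _ hb
    rw [if_neg (Ne.symm hb), sub_self]
  · intro h
    exact absurd (Finset.mem_univ a) h

omit hx in
theorem SS_eq : S.SS = S.B + S.B' := by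
  unfold Sys.SS Sys.B Sys.B'
  rw [← Finset.sum_add_distrib]
  refine Finset.sum_congr rfl fun b _ => ?_
  unfold Sys.s'
  rw [add_mul, add_comm]

theorem comm_Coff_m (b : ZMod p) : Commute (S.Coff x) (S.m b) := by
  unfold Sys.Coff
  refine Commute.smul_left ?_ _
  refine Commute.sum_left _ _ _ fun a _ => Commute.sum_left _ _ _ fun a' _ => ?_
  split_ifs
  · exact Commute.zero_left _
  · have h1 : Commute (star (S.l a)) (S.m b) := by
      have h := (S.comm_l_m' a b).star_star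
      rwa [star_star] at h
    have h2 : ∀ a, Commute (S.m b) (S.uh a) := comm_uh S (S.comm_m_E b) (S.comm_m_E' b)
    have h3 : ∀ a, Commute (S.m b) (star (S.uh a)) := comm_star_uh S (S.comm_m_E b) (S.comm_m_E' b)
    exact (h1.mul_left (comm_X_m S hx a' b)).mul_left ((h3 a).symm.mul_left (h2 a').symm)

omit hx in
theorem uh_E (a b : ZMod p) : S.uh a * S.E b = c a b • S.E (a + b) := by
  unfold Sys.uh
  rw [Finset.sum_mul, Finset.sum_eq_single b]
  · rw [smul_mul_assoc, mul_assoc, S.star_E_E, if_pos rfl, S.E_e1]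
  · intro b' _ hb'
    rw [smul_mul_assoc, mul_assoc, S.star_E_E, if_neg hb', mul_zero, smul_zero]
  · intro h
    exact absurd (Finset.mem_univ b) h

omit hx in
theorem E_uh_uh_E {a a' : ZMod p} (h : a ≠ a') (b : ZMod p) :
    star (S.E b) * (star (S.uh a) * S.uh a') * S.E b = 0 := by
  have h1 : star (S.E b) * (star (S.uh a) * S.uh a') * S.E b =
      star (S.uh a * S.E b) * (S.uh a' * S.E b) := by
    rw [star_mul]
    simp only [mul_assoc]
  rw [h1, uh_E, uh_E, star_smul, smul_mul_smul_comm, S.star_E_E, if_neg, smul_zero]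
  intro h2
  exact h (add_right_cancel h2)

theorem E_Coff_E (b : ZMod p) : star (S.E b) * S.Coff x * S.E b = 0 := by
  unfold Sys.Coff
  rw [mul_smul_comm, smul_mul_assoc, Finset.mul_sum, Finset.sum_mul]
  rw [Finset.sum_eq_zero, smul_zero]
  intro a _
  rw [Finset.mul_sum, Finset.sum_mul]
  refine Finset.sum_eq_zero fun a' _ => ?_
  split_ifs with h
  · rw [mul_zero, zero_mul]
  · have h1 : star (S.E b) * (star (S.l a) * S.X x a') = (star (S.l a) * S.X x a') * star (S.E b) :=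
      (comm_T_E' S hx a a' b).symm
    calc star (S.E b) * ((star (S.l a) * S.X x a') * (star (S.uh a) * S.uh a')) * S.E b
        = (star (S.E b) * (star (S.l a) * S.X x a')) * (star (S.uh a) * S.uh a') * S.E b := by
          simp only [mul_assoc]
      _ = (star (S.l a) * S.X x a') * (star (S.E b) * (star (S.uh a) * S.uh a') * S.E b) := by
          rw [h1]; simp only [mul_assoc]
      _ = 0 := by rw [E_uh_uh_E S h, mul_zero]

omit hx in
theorem star_B' : star S.B' = ∑ b, star (S.E b) * star (S.m b) := by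
  unfold Sys.B'
  rw [star_sum]
  exact Finset.sum_congr rfl fun b _ => star_mul _ _

theorem B'_Coff_B' : star S.B' * S.Coff x * S.B' = 0 := by
  rw [star_B']
  unfold Sys.B'
  rw [Finset.sum_mul, Finset.sum_mul]
  refine Finset.sum_eq_zero fun b _ => ?_
  rw [Finset.mul_sum]
  refine Finset.sum_eq_zero fun b' _ => ?_
  have h1 : S.Coff x * S.m b' = S.m b' * S.Coff x := comm_Coff_m S hx b'
  calc star (S.E b) * star (S.m b) * S.Coff x * (S.m b' * S.E b')
      = star (S.E b) * (star (S.m b) * (S.Coff x * S.m b')) * S.E b' := by simp only [mul_assoc]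
    _ = star (S.E b) * ((star (S.m b) * S.m b') * S.Coff x) * S.E b' := by
        rw [h1]; simp only [mul_assoc]
    _ = 0 := by
        rw [S.star_m_m]
        split_ifs with h
        · subst h
          rw [one_mul]
          exact E_Coff_E S hx b
        · simp

theorem decomp (hU : StarUhUh (p := p) (H := H)) :
    star S.B * S.C x * S.B - star S.SS * S.Coff x * S.SS =
    star S.B * ((((p : ℂ)⁻¹) • ∑ a, star (S.l a) * S.X x a) * (1 - S.e1)) * S.B
      - star S.B * (S.Coff x * S.B') - star S.B' * S.Coff x * S.B := by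
  rw [← C_sub_Coff S hx hU, SS_eq, star_add]
  have h := B'_Coff_B' S hx
  have e : (star S.B + star S.B') * S.Coff x * (S.B + S.B') =
      star S.B * S.Coff x * S.B + star S.B * (S.Coff x * S.B') + star S.B' * S.Coff x * S.B
      + star S.B' * S.Coff x * S.B' := by
    noncomm_ring
  rw [e, h, add_zero, mul_sub, sub_mul]
  abel

omit hx in
/-- `‖B‖ ≤ 1` -/
theorem norm_B_le (hB : B_star_B (p := p) (H := H)) : ‖S.B‖ ≤ 1 ∧ ‖star S.B‖ ≤ 1 := by
  have h1 : ‖(1 - S.e1 : H →L[ℂ] H)‖ ≤ 1 := by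
    have h2 : star (1 - S.e1) * (1 - S.e1) = 1 - S.e1 := by
      rw [star_sub, star_one, S.star_e1]
      have := S.e1_e1
      calc (1 - S.e1) * (1 - S.e1) = 1 - S.e1 - S.e1 + S.e1 * S.e1 := by noncomm_ring
        _ = _ := by rw [this]; abel
    have h3 : ‖(1 - S.e1 : H →L[ℂ] H)‖ * ‖(1 - S.e1 : H →L[ℂ] H)‖ = ‖(1 - S.e1 : H →L[ℂ] H)‖ := by
      rw [← CStarRing.norm_star_mul_self (x := (1 - S.e1 : H →L[ℂ] H)), h2]
    by_contra h4
    push Not at h4
    nlinarith
  have h5 : ‖S.B‖ * ‖S.B‖ ≤ 1 := by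
    rw [← CStarRing.norm_self_mul_star (x := S.B), hB S]
    exact h1
  have h6 : ‖S.B‖ ≤ 1 := by
    by_contra h4
    push Not at h4
    nlinarith
  exact ⟨h6, by rw [norm_star]; exact h6⟩

omit hx in
theorem norm_one_sub_e1_le : ‖(1 - S.e1 : H →L[ℂ] H)‖ ≤ 1 := by
  have h2 : star (1 - S.e1) * (1 - S.e1) = 1 - S.e1 := by
    rw [star_sub, star_one, S.star_e1]
    have := S.e1_e1
    calc (1 - S.e1) * (1 - S.e1) = 1 - S.e1 - S.e1 + S.e1 * S.e1 := by noncomm_ring
      _ = _ := by rw [this]; abel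
  have h3 : ‖(1 - S.e1 : H →L[ℂ] H)‖ * ‖(1 - S.e1 : H →L[ℂ] H)‖ = ‖(1 - S.e1 : H →L[ℂ] H)‖ := by
    rw [← CStarRing.norm_star_mul_self (x := (1 - S.e1 : H →L[ℂ] H)), h2]
  by_contra h4
  push Not at h4
  nlinarith

omit hx in
theorem sqrt_pos : 0 < Real.sqrt p :=
  Real.sqrt_pos.mpr (Nat.cast_pos.mpr (Nat.pos_of_ne_zero (NeZero.ne p)))

/-- the diagonal part has norm `≤ 2/√p` -/
theorem norm_diag_le (hS : SumX (p := p) (H := H)) (hN : NormSumStarL (p := p) (H := H))
    (hx1 : ‖x‖ ≤ 1) :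
    ‖((p : ℂ)⁻¹) • ∑ a, star (S.l a) * S.X x a‖ ≤ 2 / Real.sqrt p := by
  have hp := sqrt_pos (p := p)
  refine ContinuousLinearMap.opNorm_le_bound _ (by positivity) fun ζ => ?_
  have h1 : (((p : ℂ)⁻¹) • ∑ a, star (S.l a) * S.X x a) ζ =
      ((p : ℂ)⁻¹) • ∑ a, star (S.l a) (S.X x a ζ) := by
    simp [ContinuousLinearMap.sum_apply]
  rw [h1, norm_smul]
  have h2 := hN S (fun a => S.X x a ζ)
  have h3 := hS S x hx hx1 ζ
  have h4 : ‖∑ a, star (S.l a) (S.X x a ζ)‖ ^ 2 ≤ (Real.sqrt p * (2 * ‖ζ‖)) ^ 2 := by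
    refine h2.trans ?_
    rw [mul_pow, Real.sq_sqrt (Nat.cast_nonneg p), mul_pow]
    have : (p : ℝ) * ∑ a, ‖S.X x a ζ‖ ^ 2 ≤ p * (4 * ‖ζ‖ ^ 2) := by gcongr
    linarith
  have h5 := le_of_sq_le_sq h4 (by positivity)
  have h6 : ‖((p : ℂ)⁻¹)‖ = (Real.sqrt p)⁻¹ * (Real.sqrt p)⁻¹ := by
    rw [norm_inv, Complex.norm_natCast, ← mul_inv, Real.mul_self_sqrt (Nat.cast_nonneg p)]
  rw [h6]
  calc (Real.sqrt p)⁻¹ * (Real.sqrt p)⁻¹ * ‖∑ a, star (S.l a) (S.X x a ζ)‖
      ≤ (Real.sqrt p)⁻¹ * (Real.sqrt p)⁻¹ * (Real.sqrt p * (2 * ‖ζ‖)) := by gcongr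
    _ = 2 / Real.sqrt p * ‖ζ‖ := by field_simp

omit hx in
theorem norm_sq_helper {A : ℝ} {ζ : H} (h : A ^ 2 ≤ 4 / p * ‖ζ‖ ^ 2) :
    A ≤ 2 / Real.sqrt p * ‖ζ‖ := by
  have hp := sqrt_pos (p := p)
  refine le_of_sq_le_sq ?_ (by positivity)
  rw [mul_pow, div_pow, Real.sq_sqrt (Nat.cast_nonneg p)]
  norm_num
  exact h

omit hx in
/-- abstract form of the two off-diagonal bounds -/
theorem norm_mB_le (hNM : NormSumM (p := p) (H := H)) (hSi : Sidon (p := p) (H := H))
    (hpp : p.Prime) (hp2 : p ≠ 2) (T : ZMod p → ZMod p → (H →L[ℂ] H))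
    (hTE : ∀ a a' b, Commute (T a a') (S.E b))
    (hT : ∀ ζ : H, ∑ a, ∑ a', ‖T a a' ζ‖ ^ 2 ≤ 4 * ‖ζ‖ ^ 2)
    (D : H →L[ℂ] H)
    (hD : D = ((p : ℂ)⁻¹) • ∑ a, ∑ a', if a = a' then 0 else T a a' * (star (S.uh a) * S.uh a'))
    (hDm : ∀ b, Commute D (S.m b)) : ‖D * S.B'‖ ≤ 2 / Real.sqrt p := by
  have hp := sqrt_pos (p := p)
  have hp0 : (0 : ℝ) < p := Nat.cast_pos.mpr (Nat.pos_of_ne_zero (NeZero.ne p))
  refine ContinuousLinearMap.opNorm_le_bound _ (by positivity) fun ζ => ?_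
  apply norm_sq_helper
  have h1 : (D * S.B') ζ = ∑ b, S.m b (D (S.E b ζ)) := by
    have h2 : D * S.B' = ∑ b, S.m b * (D * S.E b) := by
      unfold Sys.B'
      rw [Finset.mul_sum]
      refine Finset.sum_congr rfl fun b _ => ?_
      rw [← mul_assoc, (hDm b).eq, mul_assoc]
    rw [h2]
    simp [ContinuousLinearMap.sum_apply]
  rw [h1, hNM S]
  set T' : ZMod p → ZMod p → (H →L[ℂ] H) := fun a a' =>
    if a = a' then 0 else ((p : ℂ)⁻¹) • T a a' with hT'
  have hD' : D = ∑ a, ∑ a', T' a a' * (star (S.uh a) * S.uh a') := by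
    rw [hD, Finset.smul_sum]
    refine Finset.sum_congr rfl fun a _ => ?_
    rw [Finset.smul_sum]
    refine Finset.sum_congr rfl fun a' _ => ?_
    simp only [hT']
    split_ifs
    · simp
    · rw [smul_mul_assoc]
  have h3 := hSi S hpp hp2 T' (by
    intro a a' b
    simp only [hT']
    split_ifs
    · exact Commute.zero_left _
    · exact (hTE a a' b).smul_left _) ζ
  rw [← hD'] at h3
  refine h3.trans ?_
  have h4 : ∑ a, T' a a = 0 := by
    refine Finset.sum_eq_zero fun a _ => ?_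
    simp [hT']
  rw [h4, ContinuousLinearMap.zero_apply, norm_zero]
  have h5 : ∑ a, ∑ a', (if a = a' then 0 else ‖T' a a' ζ‖ ^ 2) ≤
      (p : ℝ)⁻¹ ^ 2 * ∑ a, ∑ a', ‖T a a' ζ‖ ^ 2 := by
    rw [Finset.mul_sum]
    refine Finset.sum_le_sum fun a _ => ?_
    rw [Finset.mul_sum]
    refine Finset.sum_le_sum fun a' _ => ?_
    split_ifs with h
    · positivity
    · simp only [hT', if_neg h]
      rw [ContinuousLinearMap.smul_apply, norm_smul, mul_pow, norm_inv, Complex.norm_natCast]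
  have h6 := hT ζ
  calc (p : ℝ) * 0 ^ 2 + p * ∑ a, ∑ a', (if a = a' then 0 else ‖T' a a' ζ‖ ^ 2)
      ≤ (p : ℝ) * 0 ^ 2 + p * ((p : ℝ)⁻¹ ^ 2 * (4 * ‖ζ‖ ^ 2)) := by
        gcongr
        exact h5.trans (by gcongr)
    _ = 4 / p * ‖ζ‖ ^ 2 := by field_simp; ring

theorem norm_Coff_B'_le (hNM : NormSumM (p := p) (H := H)) (hSi : Sidon (p := p) (H := H))
    (hS : SumX (p := p) (H := H)) (hL : SumStarL (p := p) (H := H))
    (hpp : p.Prime) (hp2 : p ≠ 2) (hx1 : ‖x‖ ≤ 1) : ‖S.Coff x * S.B'‖ ≤ 2 / Real.sqrt p := by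
  refine norm_mB_le S hNM hSi hpp hp2 (fun a a' => star (S.l a) * S.X x a')
    (fun a a' b => comm_T_E S hx a a' b) ?_ _ rfl (comm_Coff_m S hx)
  intro ζ
  rw [Finset.sum_comm]
  refine le_trans ?_ (hS S x hx hx1 ζ)
  exact Finset.sum_le_sum fun a' _ => hL S (S.X x a' ζ)

theorem norm_star_Coff_B'_le (hNM : NormSumM (p := p) (H := H)) (hSi : Sidon (p := p) (H := H))
    (hS : SumXstar (p := p) (H := H)) (hL : SumStarL (p := p) (H := H))
    (hLX : StarLX (p := p) (H := H))
    (hpp : p.Prime) (hp2 : p ≠ 2) (hx1 : ‖x‖ ≤ 1) :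
    ‖star (S.Coff x) * S.B'‖ ≤ 2 / Real.sqrt p := by
  have hcomm : ∀ a b, Commute (star (S.X x a)) (S.E b) := by
    intro a b
    have h := (comm_X_E' S hx a b).star_star
    rwa [star_star] at h
  have hcomm' : ∀ a b, Commute (star (S.X x a)) (star (S.E b)) := fun a b =>
    (comm_X_E S hx a b).star_star
  have hTcomm : ∀ a a' b, Commute (star (S.l a) * star (S.X x a')) (S.E b) :=
    fun a a' b => (comm_l_star S).mul_left (hcomm a' b)
  have hTcomm' : ∀ a a' b, Commute (star (S.l a) * star (S.X x a')) (star (S.E b)) :=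
    fun a a' b => (comm_l_star' S).mul_left (hcomm' a' b)
  refine norm_mB_le S hNM hSi hpp hp2 (fun a a' => star (S.l a) * star (S.X x a'))
    hTcomm ?_ _ ?_ ?_
  · intro ζ
    rw [Finset.sum_comm]
    refine le_trans ?_ (hS S x hx hx1 ζ)
    exact Finset.sum_le_sum fun a' _ => hL S (star (S.X x a') ζ)
  · unfold Sys.Coff
    rw [star_smul, star_sum]
    congr 1
    · simp
    · have h1 : ∀ a : ZMod p, star (∑ a', if a = a' then 0 else
          (star (S.l a) * S.X x a') * (star (S.uh a) * S.uh a')) =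
          ∑ a', if a = a' then 0 else
            (star (S.l a') * star (S.X x a)) * (star (S.uh a') * S.uh a) := by
        intro a
        rw [star_sum]
        refine Finset.sum_congr rfl fun a' _ => ?_
        split_ifs with h
        · exact star_zero _
        · rw [hLX S x hx a a', star_mul, star_mul, star_mul, star_star]
          have hc1 : Commute (star (S.l a') * star (S.X x a)) (star (S.uh a') * S.uh a) :=
            (comm_star_uh S (hTcomm a' a) (hTcomm' a' a) a').mul_right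
              (comm_uh S (hTcomm a' a) (hTcomm' a' a) a)
          exact hc1.symm.eq
      simp only [h1]
      rw [Finset.sum_comm]
      refine Finset.sum_congr rfl fun a _ => Finset.sum_congr rfl fun a' _ => ?_
      simp only [eq_comm]
  · intro b
    have h1 : Commute (S.Coff x) (star (S.m b)) := by
      unfold Sys.Coff
      refine Commute.smul_left ?_ _
      refine Commute.sum_left _ _ _ fun a _ => Commute.sum_left _ _ _ fun a' _ => ?_
      split_ifs
      · exact Commute.zero_left _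
      · have h1 : Commute (star (S.l a)) (star (S.m b)) := (S.comm_l_m a b).star_star
        have hmE : ∀ b', Commute (star (S.m b)) (S.E b') := by
          intro b'
          have h := (S.comm_m_E' b b').star_star
          rwa [star_star] at h
        have hmE' : ∀ b', Commute (star (S.m b)) (star (S.E b')) := fun b' =>
          (S.comm_m_E b b').star_star
        have h2 : ∀ a, Commute (star (S.m b)) (S.uh a) := comm_uh S hmE hmE'
        have h3 : ∀ a, Commute (star (S.m b)) (star (S.uh a)) := comm_star_uh S hmE hmE'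
        exact (h1.mul_left (comm_X_m' S hx a' b)).mul_left ((h3 a).symm.mul_left (h2 a').symm)
    have h := h1.star_star
    rwa [star_star] at h

/-- **Block C**: `NearC` -/
theorem nearC (hU : StarUhUh (p := p) (H := H)) (hB : B_star_B (p := p) (H := H))
    (hNM : NormSumM (p := p) (H := H)) (hSi : Sidon (p := p) (H := H))
    (hSX : SumX (p := p) (H := H)) (hSXs : SumXstar (p := p) (H := H))
    (hL : SumStarL (p := p) (H := H)) (hNL : NormSumStarL (p := p) (H := H))
    (hLX : StarLX (p := p) (H := H)) : NearC (p := p) (H := H) := by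
  intro S hpp hp2 x hx hx1
  have hp := sqrt_pos (p := p)
  obtain ⟨hB1, hB2⟩ := norm_B_le S hB
  rw [decomp S hx hU]
  have n1 : ‖star S.B * ((((p : ℂ)⁻¹) • ∑ a, star (S.l a) * S.X x a) * (1 - S.e1)) * S.B‖ ≤
      2 / Real.sqrt p := by
    have h1 := norm_diag_le S hx hSX hNL hx1
    calc ‖star S.B * ((((p : ℂ)⁻¹) • ∑ a, star (S.l a) * S.X x a) * (1 - S.e1)) * S.B‖
        ≤ ‖star S.B * ((((p : ℂ)⁻¹) • ∑ a, star (S.l a) * S.X x a) * (1 - S.e1))‖ * ‖S.B‖ :=
          norm_mul_le _ _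
      _ ≤ (‖star S.B‖ * (‖((p : ℂ)⁻¹) • ∑ a, star (S.l a) * S.X x a‖ * ‖1 - S.e1‖)) * ‖S.B‖ := by
          gcongr
          refine (norm_mul_le _ _).trans ?_
          gcongr
          exact norm_mul_le _ _
      _ ≤ (1 * ((2 / Real.sqrt p) * 1)) * 1 := by
          gcongr
          exact norm_one_sub_e1_le S
      _ = 2 / Real.sqrt p := by ring
  have n2 : ‖star S.B * (S.Coff x * S.B')‖ ≤ 2 / Real.sqrt p := by
    have h1 := norm_Coff_B'_le S hx hNM hSi hSX hL hpp hp2 hx1
    calc ‖star S.B * (S.Coff x * S.B')‖ ≤ ‖star S.B‖ * ‖S.Coff x * S.B'‖ := norm_mul_le _ _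
      _ ≤ 1 * (2 / Real.sqrt p) := by gcongr
      _ = _ := one_mul _
  have n3 : ‖star S.B' * S.Coff x * S.B‖ ≤ 2 / Real.sqrt p := by
    have h1 := norm_star_Coff_B'_le S hx hNM hSi hSXs hL hLX hpp hp2 hx1
    have h2 : star S.B' * S.Coff x = star (star (S.Coff x) * S.B') := by
      rw [star_mul, star_star]
    calc ‖star S.B' * S.Coff x * S.B‖ ≤ ‖star S.B' * S.Coff x‖ * ‖S.B‖ := norm_mul_le _ _
      _ = ‖star (S.Coff x) * S.B'‖ * ‖S.B‖ := by rw [h2, norm_star]
      _ ≤ (2 / Real.sqrt p) * 1 := by gcongr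
      _ = _ := mul_one _
  refine (norm_sub_le _ _).trans ?_
  refine (add_le_add (norm_sub_le _ _) le_rfl).trans ?_
  have : 6 / Real.sqrt p = 2 / Real.sqrt p + 2 / Real.sqrt p + 2 / Real.sqrt p := by ring
  rw [this]
  gcongr

end Crest.Agent.R078.S104.NearCFile
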