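import Mathlib

set_option autoImplicit false

/-!
# R78, S0104: the bounded transform `V (V*V + t)⁻¹`
-/

noncomputable section

namespace Crest.Agent.R078.S104Resolvent

open scoped InnerProductSpace

variable {H : Type} [NormedAddCommGroup H] [InnerProductSpace ℂ H] [CompleteSpace H]

theorem isUnit_add (V : H →L[ℂ] H) {t : ℝ} (ht : 0 < t) :
    IsUnit (star V * V + (t : ℂ) • (1 : H →L[ℂ] H)) := by
  have h1 : (-t : ℝ) ∉ spectrum ℝ (star V * V) := by
    intro h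
    have := spectrum_star_mul_self_nonneg (b := V) _ h
    linarith
  rw [spectrum.notMem_iff] at h1
  have h2 : star V * V + (t : ℂ) • (1 : H →L[ℂ] H)
      = -(algebraMap ℝ (H →L[ℂ] H) (-t) - star V * V) := by
    rw [Algebra.algebraMap_eq_smul_one]
    ext x
    simp
  rw [h2]
  exact h1.neg

/-- existence of the bounded transform -/
theorem exists_transform (V : H →L[ℂ] H) {t : ℝ} (ht : 0 < t) :
    ∃ G : H →L[ℂ] H, G * (star V * V) + (t : ℂ) • G = V ∧ ‖G‖ ≤ 1 / (2 * Real.sqrt t) ∧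
      ∀ T : H →L[ℂ] H, T * V = V * T → T * star V = star V * T → T * G = G * T := by
  obtain ⟨u, hu⟩ := isUnit_add V ht
  refine ⟨V * (↑u⁻¹ : H →L[ℂ] H), ?_, ?_, ?_⟩
  · have h1 : V * (↑u⁻¹ : H →L[ℂ] H) * (star V * V) + (t : ℂ) • (V * (↑u⁻¹ : H →L[ℂ] H))
        = V * (↑u⁻¹ : H →L[ℂ] H) * (star V * V + (t : ℂ) • (1 : H →L[ℂ] H)) := by
      rw [mul_add, mul_smul_comm, mul_one]
    rw [h1, ← hu, mul_assoc, Units.inv_mul, mul_one]
  · refine ContinuousLinearMap.opNorm_le_bound _ (by positivity) fun x => ?_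
    set w : H := (↑u⁻¹ : H →L[ℂ] H) x with hw
    have hx : x = (star V * V) w + (t : ℂ) • w := by
      have h1 : ((u : H →L[ℂ] H) * (↑u⁻¹ : H →L[ℂ] H)) x = x := by
        rw [Units.mul_inv]
        rfl
      have h2 : (u : H →L[ℂ] H) w = x := h1
      rw [hu] at h2
      rw [← h2]
      rfl
    have h3 : ‖V w‖ ^ 2 = RCLike.re ⟪(star V * V) w, w⟫_ℂ := by
      have : ⟪(star V * V) w, w⟫_ℂ = ⟪V w, V w⟫_ℂ := by
        change ⟪star V (V w), w⟫_ℂ = _
        rw [ContinuousLinearMap.star_eq_adjoint, ContinuousLinearMap.adjoint_inner_left]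
      rw [this, inner_self_eq_norm_sq]
    have h4 : RCLike.re ⟪(star V * V) w, w⟫_ℂ ≤ ‖(star V * V) w‖ * ‖w‖ :=
      re_inner_le_norm _ _
    have h5 : ‖x‖ ^ 2 = ‖(star V * V) w‖ ^ 2 + 2 * (t * RCLike.re ⟪(star V * V) w, w⟫_ℂ)
        + (t * ‖w‖) ^ 2 := by
      conv_lhs => rw [hx]
      rw [norm_add_sq (𝕜 := ℂ), inner_smul_right, norm_smul]
      have e1 : RCLike.re ((t : ℂ) * ⟪(star V * V) w, w⟫_ℂ)
          = t * RCLike.re ⟪(star V * V) w, w⟫_ℂ := by
        simp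
      have e2 : ‖(t : ℂ)‖ = t := by
        rw [Complex.norm_real, Real.norm_eq_abs, abs_of_pos ht]
      rw [e1, e2]
    have h6 : 4 * t * ‖V w‖ ^ 2 ≤ ‖x‖ ^ 2 := by
      rw [h5, h3]
      nlinarith [sq_nonneg (‖(star V * V) w‖ - t * ‖w‖), mul_le_mul_of_nonneg_left h4 ht.le]
    have h7 : ‖(V * (↑u⁻¹ : H →L[ℂ] H)) x‖ = ‖V w‖ := rfl
    rw [h7]
    have h8 : ‖V w‖ ^ 2 ≤ (1 / (2 * Real.sqrt t) * ‖x‖) ^ 2 := by
      rw [mul_pow, div_pow, mul_pow, Real.sq_sqrt ht.le, one_pow]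
      rw [div_mul_eq_mul_div, le_div_iff₀ (by positivity)]
      nlinarith
    exact (sq_le_sq₀ (norm_nonneg _) (by positivity)).mp h8
  · intro T h1 h2
    have h3 : Commute T (u : H →L[ℂ] H) := by
      rw [hu]
      have h4 : Commute T (star V * V) := by
        show T * (star V * V) = star V * V * T
        rw [← mul_assoc, h2, mul_assoc, h1, mul_assoc]
      exact h4.add_right ((Commute.one_right T).smul_right _)
    have h5 : Commute T (↑u⁻¹ : H →L[ℂ] H) := h3.units_inv_right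
    calc T * (V * (↑u⁻¹ : H →L[ℂ] H)) = V * (T * (↑u⁻¹ : H →L[ℂ] H)) := by
          rw [← mul_assoc, h1, mul_assoc]
      _ = V * (↑u⁻¹ : H →L[ℂ] H) * T := by rw [h5.eq, mul_assoc]

end Crest.Agent.R078.S104Resolvent
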