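import Crest.Agent.R078.S104Targets
import Crest.Agent.R078.S104Resolvent

/-!
# R78, S0104, block D: `[x, J] B` is near `N` (part (3) of post #3287)
-/

set_option autoImplicit false

noncomputable section

namespace Crest.Agent.R078.S104

open scoped InnerProductSpace

variable {p : ℕ} [NeZero p] {H : Type} [NormedAddCommGroup H] [InnerProductSpace ℂ H]
  [CompleteSpace H]

namespace NearVAux

variable (S : Sys p H)

theorem comm_of_star {A B : H →L[ℂ] H} (h : Commute A (star B)) : Commute (star A) B := by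
  have := h.star_star
  rwa [star_star] at this

/-- if `A` commutes with all `l a`, `x`, it commutes with `X a` -/
theorem comm_X {x A : H →L[ℂ] H} (hx : Commute x A) (hl : ∀ a, Commute (S.l a) A) (a : ZMod p) :
    Commute (S.X x a) A := by
  unfold Sys.X
  exact (hx.mul_left (hl a)).sub_left ((hl a).mul_left hx)

theorem comm_uh {A : H →L[ℂ] H} (h1 : ∀ b, Commute A (S.E b)) (h2 : ∀ b, Commute A (star (S.E b)))
    (a : ZMod p) : Commute A (S.uh a) := by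
  unfold Sys.uh
  refine Commute.sum_right _ _ _ fun b _ => ?_
  exact ((h1 _).mul_right (h2 _)).smul_right _

theorem comm_star_uh {A : H →L[ℂ] H} (h1 : ∀ b, Commute A (S.E b))
    (h2 : ∀ b, Commute A (star (S.E b))) (a : ZMod p) : Commute A (star (S.uh a)) := by
  unfold Sys.uh
  rw [star_sum]
  refine Commute.sum_right _ _ _ fun b _ => ?_
  rw [star_smul, star_mul, star_star]
  exact ((h1 _).mul_right (h2 _)).smul_right _

variable {S}

theorem X_E {x : H →L[ℂ] H} (hx : S.Good x) (a b : ZMod p) : Commute (S.X x a) (S.E b) :=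
  comm_X S (hx.E b) (fun a => S.comm_l_E a b) a

theorem X_E' {x : H →L[ℂ] H} (hx : S.Good x) (a b : ZMod p) :
    Commute (S.X x a) (star (S.E b)) :=
  comm_X S (hx.E' b) (fun a => S.comm_l_E' a b) a

theorem X_m {x : H →L[ℂ] H} (hx : S.Good x) (a b : ZMod p) : Commute (S.X x a) (S.m b) :=
  comm_X S (hx.m b) (fun a => S.comm_l_m a b) a

theorem X_m' {x : H →L[ℂ] H} (hx : S.Good x) (a b : ZMod p) :
    Commute (S.X x a) (star (S.m b)) :=
  comm_X S (hx.m' b) (fun a => S.comm_l_m' a b) a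

theorem V_m {x : H →L[ℂ] H} (hx : S.Good x) (b : ZMod p) : Commute (S.m b) (S.V x) := by
  unfold Sys.V
  refine Commute.sum_right _ _ _ fun a _ => ?_
  exact (X_m hx a b).symm.mul_right (comm_uh S (S.comm_m_E b) (S.comm_m_E' b) a)

theorem V_m' {x : H →L[ℂ] H} (hx : S.Good x) (b : ZMod p) :
    Commute (star (S.m b)) (S.V x) := by
  unfold Sys.V
  refine Commute.sum_right _ _ _ fun a _ => ?_
  refine (X_m' hx a b).symm.mul_right (comm_uh S (fun c => ?_) (fun c => ?_) a)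
  · exact comm_of_star (S.comm_m_E' b c)
  · exact (S.comm_m_E b c).star_star

theorem starV_m {x : H →L[ℂ] H} (hx : S.Good x) (b : ZMod p) :
    Commute (S.m b) (star (S.V x)) := by
  have := (V_m' hx b).star_star
  rwa [star_star] at this

/-- `[x, J] = p^{-1/2} V` -/
theorem comm_J {x : H →L[ℂ] H} (hx : S.Good x) :
    x * S.J - S.J * x = (((Real.sqrt p)⁻¹ : ℝ) : ℂ) • S.V x := by
  unfold Sys.J Sys.V
  rw [mul_smul_comm, smul_mul_assoc, ← smul_sub, Finset.mul_sum, Finset.sum_mul,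
    ← Finset.sum_sub_distrib]
  congr 1
  refine Finset.sum_congr rfl fun a _ => ?_
  have h : Commute x (S.uh a) := comm_uh S hx.E hx.E' a
  unfold Sys.X
  rw [sub_mul, mul_assoc, mul_assoc, mul_assoc, h.eq]

/-- `V^* V = ∑ X_a^* X_a' û_a^* û_a'` -/
theorem starV_V {x : H →L[ℂ] H} (hx : S.Good x) :
    star (S.V x) * S.V x
      = ∑ a, ∑ a', (star (S.X x a) * S.X x a') * (star (S.uh a) * S.uh a') := by
  unfold Sys.V
  rw [star_sum, Finset.sum_mul]
  refine Finset.sum_congr rfl fun a _ => ?_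
  rw [Finset.mul_sum]
  refine Finset.sum_congr rfl fun a' _ => ?_
  rw [star_mul]
  have h1 : Commute (star (S.X x a)) (star (S.uh a)) :=
    (comm_uh S (X_E hx a) (X_E' hx a) a).star_star
  have h2 : Commute (S.X x a') (star (S.uh a)) :=
    comm_star_uh S (X_E hx a') (X_E' hx a') a
  calc star (S.uh a) * star (S.X x a) * (S.X x a' * S.uh a')
      = star (S.X x a) * star (S.uh a) * (S.X x a' * S.uh a') := by rw [h1.eq]
    _ = star (S.X x a) * (star (S.uh a) * S.X x a') * S.uh a' := by simp only [mul_assoc]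
    _ = star (S.X x a) * (S.X x a' * star (S.uh a)) * S.uh a' := by rw [h2.eq]
    _ = _ := by simp only [mul_assoc]

theorem norm_sq_dual {ι : Type*} [Fintype ι] (Y : ι → (H →L[ℂ] H)) (C : ℝ) (hC : 0 ≤ C)
    (h : ∀ ζ, ∑ a, ‖Y a ζ‖ ^ 2 ≤ C * ‖ζ‖ ^ 2) (ξ : ι → H) :
    ‖∑ a, (star (Y a)) (ξ a)‖ ^ 2 ≤ C * ∑ a, ‖ξ a‖ ^ 2 := by
  set w : H := ∑ a, (star (Y a)) (ξ a) with hw
  have h1 : ‖w‖ ^ 2 ≤ ∑ a, ‖ξ a‖ * ‖Y a w‖ := by
    have h2 : (‖w‖ ^ 2 : ℝ) = ‖⟪w, w⟫_ℂ‖ := by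
      rw [inner_self_eq_norm_sq_to_K]
      norm_num
    have h3 : ⟪w, w⟫_ℂ = ∑ a, ⟪ξ a, Y a w⟫_ℂ := by
      conv_lhs => rw [hw, sum_inner]
      refine Finset.sum_congr rfl fun a _ => ?_
      rw [ContinuousLinearMap.star_eq_adjoint, ContinuousLinearMap.adjoint_inner_left]
    rw [h2, h3]
    refine (norm_sum_le _ _).trans (Finset.sum_le_sum fun a _ => norm_inner_le_norm _ _)
  have h4 : (∑ a, ‖ξ a‖ * ‖Y a w‖) ^ 2 ≤ (∑ a, ‖ξ a‖ ^ 2) * ∑ a, ‖Y a w‖ ^ 2 :=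
    Finset.sum_mul_sq_le_sq_mul_sq _ _ _
  have h5 : 0 ≤ ∑ a, ‖ξ a‖ ^ 2 := Finset.sum_nonneg fun _ _ => by positivity
  have h6 : (‖w‖ ^ 2) ^ 2 ≤ (∑ a, ‖ξ a‖ ^ 2) * (C * ‖w‖ ^ 2) := by
    calc (‖w‖ ^ 2) ^ 2 ≤ (∑ a, ‖ξ a‖ * ‖Y a w‖) ^ 2 := by
          exact pow_le_pow_left₀ (by positivity) h1 2
      _ ≤ _ := h4
      _ ≤ _ := mul_le_mul_of_nonneg_left (h w) h5
  rcases eq_or_lt_of_le (show (0 : ℝ) ≤ ‖w‖ ^ 2 by positivity) with h0 | h0
  · rw [← h0]; positivity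
  · nlinarith [h6, h0]

end NearVAux

open NearVAux

theorem nearV (hBB : B_star_B (p := p) (H := H)) (hN : InNList (p := p) (H := H))
    (hSid : Sidon (p := p) (H := H)) (hX : SumX (p := p) (H := H))
    (hXs : SumXstar (p := p) (H := H)) (hM : NormSumM (p := p) (H := H)) :
    NearV (p := p) (H := H) := by
  intro S hp hp2 x hx hx1
  have hp0 : (0 : ℝ) < p := by exact_mod_cast hp.pos
  set t : ℝ := Real.sqrt p with ht
  have ht0 : 0 < t := Real.sqrt_pos.mpr hp0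
  have htt : t * t = p := Real.mul_self_sqrt hp0.le
  set q : ℝ := Real.sqrt t with hq
  have hq0 : 0 < q := Real.sqrt_pos.mpr ht0
  have hqq : q * q = t := Real.mul_self_sqrt ht0.le
  obtain ⟨G, hG1, hG2, hG3⟩ := S104Resolvent.exists_transform (S.V x) ht0
  set K : H →L[ℂ] H := star (S.V x) * S.V x with hK
  obtain ⟨-, -, hSS, -, -, -, hgood⟩ := hN S
  obtain ⟨-, hVN, hVN', -⟩ := hgood x hx
  -- commutation of `G`, `K` with `d'_b` and `m_b`
  have hGd : S.InN G := fun b => by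
    have := hG3 (S.d' b) (hVN b).symm.eq (hVN' b).symm.eq
    exact this.symm
  have hKd : S.InN K := fun b => (hVN' b).mul_left (hVN b)
  have hGm : ∀ b, Commute (S.m b) G := fun b =>
    hG3 (S.m b) (V_m hx b).eq (starV_m hx b).eq
  have hKm : ∀ b, Commute (S.m b) K := fun b => (starV_m hx b).mul_right (V_m hx b)
  refine ⟨((t⁻¹ : ℝ) : ℂ) • (G * K * S.SS), ?_, ?_⟩
  · intro b
    exact (((hGd b).mul_left (hKd b)).mul_left (hSS b)).smul_left _
  -- `SS = B + B'`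
  have hSSB : S.SS = S.B + S.B' := by
    unfold Sys.SS Sys.B Sys.B' Sys.s'
    rw [← Finset.sum_add_distrib]
    refine Finset.sum_congr rfl fun b _ => ?_
    rw [add_mul, add_comm]
  have hdiff : (x * S.J - S.J * x) * S.B - ((t⁻¹ : ℝ) : ℂ) • (G * K * S.SS)
      = ((t⁻¹ : ℝ) : ℂ) • ((t : ℂ) • (G * S.B) - G * K * S.B') := by
    rw [comm_J hx, smul_mul_assoc, ← smul_sub]
    congr 1
    rw [hSSB, mul_add]
    nth_rewrite 1 [← hG1]
    rw [add_mul, smul_mul_assoc, mul_assoc]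
    abel
  rw [hdiff, norm_smul]
  have hBn : ‖S.B‖ ≤ 1 := by
    have h1 : ‖S.B * star S.B‖ ≤ 1 := by
      rw [hBB S]
      have hproj : IsSelfAdjoint (1 - S.e1) := by
        rw [IsSelfAdjoint, star_sub, star_one, S.star_e1]
      have hidem : (1 - S.e1) * (1 - S.e1) = 1 - S.e1 := by
        rw [mul_sub, sub_mul, sub_mul, S.e1_e1]
        simp
      have h2 : ‖(1 - S.e1 : H →L[ℂ] H)‖ * ‖(1 - S.e1 : H →L[ℂ] H)‖ = ‖(1 - S.e1 : H →L[ℂ] H)‖ := by
        have h3 := CStarRing.norm_star_mul_self (x := (1 - S.e1 : H →L[ℂ] H))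
        rw [hproj.star_eq, hidem] at h3
        exact h3.symm
      nlinarith [norm_nonneg (1 - S.e1 : H →L[ℂ] H)]
    rw [CStarRing.norm_self_mul_star] at h1
    nlinarith [norm_nonneg S.B]
  have e1 : ‖((t⁻¹ : ℝ) : ℂ)‖ = t⁻¹ := by
    rw [Complex.norm_real, Real.norm_eq_abs, abs_of_pos (inv_pos.mpr ht0)]
  have e2 : ‖(t : ℂ)‖ = t := by
    rw [Complex.norm_real, Real.norm_eq_abs, abs_of_pos ht0]
  -- first piece
  have p1 : ‖(t : ℂ) • (G * S.B)‖ ≤ q / 2 := by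
    rw [norm_smul, e2]
    have h1 : ‖G * S.B‖ ≤ 1 / (2 * q) := by
      calc ‖G * S.B‖ ≤ ‖G‖ * ‖S.B‖ := norm_mul_le _ _
        _ ≤ ‖G‖ * 1 := mul_le_mul_of_nonneg_left hBn (norm_nonneg _)
        _ = ‖G‖ := mul_one _
        _ ≤ _ := hG2
    calc t * ‖G * S.B‖ ≤ t * (1 / (2 * q)) := mul_le_mul_of_nonneg_left h1 ht0.le
      _ = q / 2 := by
        rw [← hqq]
        field_simp
  -- second piece
  have p2 : ‖G * K * S.B'‖ ≤ 3 * q := by
    refine ContinuousLinearMap.opNorm_le_bound _ (by positivity) fun ζ => ?_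
    have h1 : (G * K * S.B') ζ = ∑ b, S.m b ((G * K) (S.E b ζ)) := by
      have h2 : G * K * S.B' = ∑ b, S.m b * ((G * K) * S.E b) := by
        unfold Sys.B'
        rw [Finset.mul_sum]
        refine Finset.sum_congr rfl fun b _ => ?_
        have hc : S.m b * (G * K) = (G * K) * S.m b := ((hGm b).mul_right (hKm b)).eq
        calc G * K * (S.m b * S.E b) = ((G * K) * S.m b) * S.E b := by
              rw [mul_assoc (G * K)]
          _ = (S.m b * (G * K)) * S.E b := by rw [hc]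
          _ = S.m b * ((G * K) * S.E b) := by rw [mul_assoc (S.m b)]
      rw [h2]
      simp only [sum_apply]
      rfl
    have h2 : ‖(G * K * S.B') ζ‖ ^ 2 = ∑ b, ‖(G * K) (S.E b ζ)‖ ^ 2 := by
      rw [h1]; exact hM S _
    have h3 : ∀ b, ‖(G * K) (S.E b ζ)‖ ^ 2 ≤ 1 / (4 * t) * ‖K (S.E b ζ)‖ ^ 2 := by
      intro b
      have h4 : ‖(G * K) (S.E b ζ)‖ ≤ 1 / (2 * q) * ‖K (S.E b ζ)‖ := by
        have : (G * K) (S.E b ζ) = G (K (S.E b ζ)) := rfl
        rw [this]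
        exact (G.le_opNorm _).trans (mul_le_mul_of_nonneg_right hG2 (norm_nonneg _))
      calc ‖(G * K) (S.E b ζ)‖ ^ 2 ≤ (1 / (2 * q) * ‖K (S.E b ζ)‖) ^ 2 :=
            pow_le_pow_left₀ (norm_nonneg _) h4 2
        _ = 1 / (4 * t) * ‖K (S.E b ζ)‖ ^ 2 := by
            rw [← hqq, mul_pow]
            congr 1
            rw [div_pow]
            ring
    have h5 := hSid S hp hp2 (fun a a' => star (S.X x a) * S.X x a') (fun a a' b =>
      ((comm_of_star (X_E' hx a b)).mul_left (X_E hx a' b))) ζ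
    rw [← starV_V hx] at h5
    have h6 : ‖(∑ a, star (S.X x a) * S.X x a) ζ‖ ^ 2 ≤ 16 * ‖ζ‖ ^ 2 := by
      have h7 : (∑ a, star (S.X x a) * S.X x a) ζ = ∑ a, (star (S.X x a)) (S.X x a ζ) := by
        simp only [sum_apply]
        rfl
      rw [h7]
      have h8 := norm_sq_dual (fun a => S.X x a) 4 (by norm_num) (hX S x hx hx1)
        (fun a => S.X x a ζ)
      have h9 := hX S x hx hx1 ζ
      nlinarith
    have h10 : ∑ a, ∑ a', (if a = a' then 0 else ‖(star (S.X x a) * S.X x a') ζ‖ ^ 2)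
        ≤ 16 * ‖ζ‖ ^ 2 := by
      calc ∑ a, ∑ a', (if a = a' then 0 else ‖(star (S.X x a) * S.X x a') ζ‖ ^ 2)
          ≤ ∑ a, ∑ a', ‖(star (S.X x a)) (S.X x a' ζ)‖ ^ 2 := by
            refine Finset.sum_le_sum fun a _ => Finset.sum_le_sum fun a' _ => ?_
            split_ifs
            · positivity
            · exact le_rfl
        _ = ∑ a', ∑ a, ‖(star (S.X x a)) (S.X x a' ζ)‖ ^ 2 := Finset.sum_comm
        _ ≤ ∑ a', 4 * ‖S.X x a' ζ‖ ^ 2 :=
            Finset.sum_le_sum fun a' _ => hXs S x hx hx1 _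
        _ = 4 * ∑ a', ‖S.X x a' ζ‖ ^ 2 := by rw [Finset.mul_sum]
        _ ≤ 4 * (4 * ‖ζ‖ ^ 2) := mul_le_mul_of_nonneg_left (hX S x hx hx1 ζ) (by norm_num)
        _ = _ := by ring
    have h11 : ∑ b, ‖K (S.E b ζ)‖ ^ 2 ≤ 32 * p * ‖ζ‖ ^ 2 := by
      refine h5.trans ?_
      nlinarith [mul_le_mul_of_nonneg_left h6 hp0.le, mul_le_mul_of_nonneg_left h10 hp0.le]
    have h12 : ‖(G * K * S.B') ζ‖ ^ 2 ≤ (3 * q * ‖ζ‖) ^ 2 := by
      rw [h2]
      calc ∑ b, ‖(G * K) (S.E b ζ)‖ ^ 2 ≤ ∑ b, 1 / (4 * t) * ‖K (S.E b ζ)‖ ^ 2 :=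
            Finset.sum_le_sum fun b _ => h3 b
        _ = 1 / (4 * t) * ∑ b, ‖K (S.E b ζ)‖ ^ 2 := by rw [Finset.mul_sum]
        _ ≤ 1 / (4 * t) * (32 * p * ‖ζ‖ ^ 2) :=
            mul_le_mul_of_nonneg_left h11 (by positivity)
        _ = 8 * t * ‖ζ‖ ^ 2 := by
            rw [← htt]; field_simp; ring
        _ ≤ (3 * q * ‖ζ‖) ^ 2 := by
            have : (3 * q * ‖ζ‖) ^ 2 = 9 * t * ‖ζ‖ ^ 2 := by rw [← hqq]; ring
            rw [this]
            have : 0 ≤ t * ‖ζ‖ ^ 2 := by positivity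
            nlinarith
    exact (sq_le_sq₀ (norm_nonneg _) (by positivity)).mp h12
  rw [e1]
  calc t⁻¹ * ‖(t : ℂ) • (G * S.B) - G * K * S.B'‖ ≤ t⁻¹ * (q / 2 + 3 * q) :=
        mul_le_mul_of_nonneg_left ((norm_sub_le _ _).trans (add_le_add p1 p2))
          (inv_pos.mpr ht0).le
    _ ≤ 4 / q := by
        rw [inv_mul_le_iff₀ ht0, ← hqq]
        have : q * q * (4 / q) = 4 * q := by field_simp
        rw [this]
        linarith

end Crest.Agent.R078.S104
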