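import Mathlib

set_option autoImplicit false

/-!
# R78, S0104: Parseval over `ZMod p` with Hilbert space values, and the phases `c a b = ψ (a² b)`
-/

noncomputable section

namespace Crest.Agent.R078.S104Parseval

open scoped InnerProductSpace

variable {p : ℕ} [Fact p.Prime]
variable {F : Type} [NormedAddCommGroup F] [InnerProductSpace ℂ F]

/-- the standard additive character -/
abbrev ψ : AddChar (ZMod p) ℂ := ZMod.stdAddChar

theorem isPrimitive : (ψ (p := p)).IsPrimitive := ZMod.isPrimitive_stdAddChar p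

theorem conj_ψ (x : ZMod p) : (starRingEnd ℂ) (ψ x) = ψ (-x) := by
  rw [AddChar.map_neg_eq_conj]

theorem norm_ψ (x : ZMod p) : ‖ψ x‖ = 1 := by
  exact AddChar.norm_apply _ _

theorem sum_ψ (x : ZMod p) : ∑ b : ZMod p, ψ (b * x) = if x = 0 then (p : ℂ) else 0 := by
  have := AddChar.sum_mulShift (R := ZMod p) (R' := ℂ) x (isPrimitive (p := p))
  rw [ZMod.card] at this
  simpa using this

/-- Parseval -/
theorem parseval {k : ZMod p} (hk : k ≠ 0) (y : ZMod p → F) :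
    ∑ b : ZMod p, ‖∑ a : ZMod p, ψ (k * a * b) • y a‖ ^ 2 = p * ∑ a : ZMod p, ‖y a‖ ^ 2 := by
  have h1 : ((∑ b : ZMod p, ‖∑ a : ZMod p, ψ (k * a * b) • y a‖ ^ 2 : ℝ) : ℂ)
      = ((p * ∑ a : ZMod p, ‖y a‖ ^ 2 : ℝ) : ℂ) := by
    have h2 : ∀ v : F, ((‖v‖ ^ 2 : ℝ) : ℂ) = ⟪v, v⟫_ℂ := by
      intro v
      rw [inner_self_eq_norm_sq_to_K]
      push_cast
      rfl
    have h3 : ∀ b : ZMod p, ((‖∑ a : ZMod p, ψ (k * a * b) • y a‖ ^ 2 : ℝ) : ℂ)
        = ∑ a : ZMod p, ∑ a' : ZMod p, ψ (b * (k * (a' - a))) * ⟪y a, y a'⟫_ℂ := by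
      intro b
      rw [h2, sum_inner]
      refine Finset.sum_congr rfl fun a _ => ?_
      rw [inner_sum]
      refine Finset.sum_congr rfl fun a' _ => ?_
      rw [inner_smul_left, inner_smul_right, conj_ψ, ← mul_assoc, ← AddChar.map_add_eq_mul]
      congr 2
      ring
    rw [Complex.ofReal_sum]
    simp only [h3]
    rw [Finset.sum_comm]
    push_cast
    rw [Finset.mul_sum]
    refine Finset.sum_congr rfl fun a _ => ?_
    rw [Finset.sum_comm, Finset.sum_eq_single a]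
    · rw [← Finset.sum_mul, sum_ψ, sub_self, mul_zero, if_pos rfl, inner_self_eq_norm_sq_to_K]
      rfl
    · intro a' _ ha'
      rw [← Finset.sum_mul, sum_ψ, if_neg, zero_mul]
      exact mul_ne_zero hk (sub_ne_zero.mpr ha')
    · simp
  exact_mod_cast h1

/-- the phases -/
def c (a b : ZMod p) : ℂ := ψ (a ^ 2 * b)

theorem norm_c (a b : ZMod p) : ‖c a b‖ = 1 := norm_ψ _

theorem conj_c_mul_c (a b : ZMod p) : (starRingEnd ℂ) (c a b) * c a b = 1 := by
  rw [← Complex.normSq_eq_conj_mul_self, Complex.normSq_eq_norm_sq, norm_c]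
  norm_num

/-- the phase of `û_a* û_{a+h} e_b = phase • e_{b+h}` -/
theorem conj_c_mul_c_shift (a h b : ZMod p) :
    (starRingEnd ℂ) (c a (b + h)) * c (a + h) b
      = ψ (h ^ 2 * b) * (ψ (2 * h * a * b) * ψ (-(a ^ 2 * h))) := by
  unfold c
  rw [conj_ψ, ← AddChar.map_add_eq_mul, ← AddChar.map_add_eq_mul, ← AddChar.map_add_eq_mul]
  congr 1
  ring

/-- Parseval in the form needed for `Σ_b ‖Σ_a phase(a,h,b) y_a‖²` -/
theorem sum_norm_phase_sq (hp : p ≠ 2) {h : ZMod p} (hh : h ≠ 0) (y : ZMod p → F) :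
    ∑ b : ZMod p, ‖∑ a : ZMod p, ((starRingEnd ℂ) (c a (b + h)) * c (a + h) b) • y a‖ ^ 2
      = p * ∑ a : ZMod p, ‖y a‖ ^ 2 := by
  have h2 : (2 : ZMod p) ≠ 0 := by
    intro h0
    have h1 : ((2 : ℕ) : ZMod p) = 0 := by exact_mod_cast h0
    rw [ZMod.natCast_eq_zero_iff] at h1
    exact hp ((Nat.prime_dvd_prime_iff_eq (Fact.out) Nat.prime_two).mp h1)
  have hk : 2 * h ≠ 0 := mul_ne_zero h2 hh
  have h3 := parseval hk (fun a => ψ (-(a ^ 2 * h)) • y a)
  have h4 : ∑ a : ZMod p, ‖ψ (-(a ^ 2 * h)) • y a‖ ^ 2 = ∑ a : ZMod p, ‖y a‖ ^ 2 := by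
    refine Finset.sum_congr rfl fun a _ => ?_
    rw [norm_smul, norm_ψ, one_mul]
  rw [h4] at h3
  rw [← h3]
  refine Finset.sum_congr rfl fun b _ => ?_
  have h5 : ∑ a : ZMod p, ((starRingEnd ℂ) (c a (b + h)) * c (a + h) b) • y a
      = ψ (h ^ 2 * b) • ∑ a : ZMod p, ψ (2 * h * a * b) • ψ (-(a ^ 2 * h)) • y a := by
    rw [Finset.smul_sum]
    refine Finset.sum_congr rfl fun a _ => ?_
    rw [conj_c_mul_c_shift, smul_smul, smul_smul]
    congr 1
    ring
  rw [h5, norm_smul, norm_ψ, one_mul]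

end Crest.Agent.R078.S104Parseval
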