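import Crest.Agent.R078.S104Targets
import Crest.Agent.R078.S104Parseval

/-!
# R78, S0104, block B1: the Sidon lemma
-/

set_option autoImplicit false

noncomputable section

namespace Crest.Agent.R078.S104.SidonProof

open scoped InnerProductSpace

variable {p : ℕ} [NeZero p] {H : Type} [NormedAddCommGroup H] [InnerProductSpace ℂ H]
  [CompleteSpace H]

theorem inner_E_E (S : Sys p H) (a b : ZMod p) (x y : H) :
    ⟪S.E a x, S.E b y⟫_ℂ = if a = b then ⟪S.e1 x, y⟫_ℂ else 0 := by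
  have h1 : ⟪S.E a x, S.E b y⟫_ℂ = ⟪x, (star (S.E a) * S.E b) y⟫_ℂ := by
    change _ = ⟪x, star (S.E a) (S.E b y)⟫_ℂ
    rw [ContinuousLinearMap.star_eq_adjoint, ContinuousLinearMap.adjoint_inner_right]
  rw [h1, S.star_E_E]
  by_cases h : a = b
  · rw [if_pos h, if_pos h]
    conv_lhs => rw [← S.star_e1]
    rw [ContinuousLinearMap.star_eq_adjoint, ContinuousLinearMap.adjoint_inner_right]
  · rw [if_neg h, if_neg h]
    simp

theorem norm_e1_le (S : Sys p H) (x : H) : ‖S.e1 x‖ ^ 2 ≤ ‖x‖ ^ 2 := by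
  have h1 : ⟪S.e1 x, x⟫_ℂ = ⟪S.e1 x, S.e1 x⟫_ℂ := by
    have h2 : S.e1 x = (star S.e1 * S.e1) x := by rw [S.star_e1, S.e1_e1]
    conv_lhs => rw [h2]
    change ⟪star S.e1 (S.e1 x), x⟫_ℂ = _
    rw [ContinuousLinearMap.star_eq_adjoint, ContinuousLinearMap.adjoint_inner_left]
  have h3 : ‖S.e1 x‖ ^ 2 = RCLike.re ⟪S.e1 x, x⟫_ℂ := by
    rw [h1, inner_self_eq_norm_sq]
  have h4 : RCLike.re ⟪S.e1 x, x⟫_ℂ ≤ ‖S.e1 x‖ * ‖x‖ := re_inner_le_norm _ _
  have h5 : ‖S.e1 x‖ ^ 2 ≤ ‖S.e1 x‖ * ‖x‖ := h3 ▸ h4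
  have h6 : ‖S.e1 x‖ ≤ ‖x‖ := by
    by_cases h0 : ‖S.e1 x‖ = 0
    · rw [h0]; exact norm_nonneg _
    · have h7 : 0 < ‖S.e1 x‖ := lt_of_le_of_ne (norm_nonneg _) (Ne.symm h0)
      rw [sq] at h5
      exact le_of_mul_le_mul_left h5 h7
  exact pow_le_pow_left₀ (norm_nonneg _) h6 2

/-- Pythagoras for `∑_h E (b+h) y_h`, as an inequality -/
theorem norm_sum_E_le (S : Sys p H) (b : ZMod p) (y : ZMod p → H) :
    ‖∑ h, S.E (b + h) (y h)‖ ^ 2 ≤ ∑ h, ‖y h‖ ^ 2 := by
  have h1 : ‖∑ h, S.E (b + h) (y h)‖ ^ 2 = ∑ h, ‖S.e1 (y h)‖ ^ 2 := by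
    have h2 : ((‖∑ h, S.E (b + h) (y h)‖ ^ 2 : ℝ) : ℂ) = ((∑ h, ‖S.e1 (y h)‖ ^ 2 : ℝ) : ℂ) := by
      have h3 : ∀ v : H, ((‖v‖ ^ 2 : ℝ) : ℂ) = ⟪v, v⟫_ℂ := by
        intro v
        rw [inner_self_eq_norm_sq_to_K]
        push_cast
        rfl
      rw [h3, sum_inner, Complex.ofReal_sum]
      refine Finset.sum_congr rfl fun h _ => ?_
      rw [inner_sum, Finset.sum_eq_single h]
      · rw [inner_E_E, if_pos rfl, h3]
        have h2 : S.e1 (y h) = (star S.e1 * S.e1) (y h) := by rw [S.star_e1, S.e1_e1]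
        conv_lhs => rw [h2]
        change ⟪star S.e1 (S.e1 (y h)), y h⟫_ℂ = _
        rw [ContinuousLinearMap.star_eq_adjoint, ContinuousLinearMap.adjoint_inner_left]
      · intro h' _ hh
        rw [inner_E_E, if_neg]
        intro h4
        exact hh (add_left_cancel h4).symm
      · simp
    exact_mod_cast h2
  rw [h1]
  exact Finset.sum_le_sum fun h _ => norm_e1_le S _

theorem uh_E (S : Sys p H) (a b : ZMod p) : S.uh a * S.E b = c a b • S.E (a + b) := by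
  unfold Sys.uh
  rw [Finset.sum_mul, Finset.sum_eq_single b]
  · rw [smul_mul_assoc, mul_assoc, S.star_E_E, if_pos rfl, S.E_e1]
  · intro b' _ hb
    rw [smul_mul_assoc, mul_assoc, S.star_E_E, if_neg hb, mul_zero, smul_zero]
  · simp

theorem star_uh_E (S : Sys p H) (a b : ZMod p) :
    star (S.uh a) * S.E b = (starRingEnd ℂ) (c a (b - a)) • S.E (b - a) := by
  unfold Sys.uh
  rw [star_sum, Finset.sum_mul, Finset.sum_eq_single (b - a)]
  · rw [star_smul, star_mul, star_star, smul_mul_assoc, mul_assoc, S.star_E_E,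
      if_pos (by ring), S.E_e1]
    rfl
  · intro b' _ hb
    rw [star_smul, star_mul, star_star, smul_mul_assoc, mul_assoc, S.star_E_E, if_neg,
      mul_zero, smul_zero]
    intro h
    apply hb
    rw [← h]; ring
  · simp

theorem star_uh_uh_E (S : Sys p H) (a h b : ZMod p) :
    star (S.uh a) * S.uh (a + h) * S.E b
      = ((starRingEnd ℂ) (c a (b + h)) * c (a + h) b) • S.E (b + h) := by
  rw [mul_assoc, uh_E, mul_smul_comm, star_uh_E, smul_smul]
  have h1 : a + h + b - a = b + h := by ring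
  rw [h1, mul_comm]

theorem sum_E_eq (S : Sys p H) (T : ZMod p → ZMod p → (H →L[ℂ] H))
    (hT : ∀ a a' b, Commute (T a a') (S.E b)) (ζ : H) (b : ZMod p) :
    (∑ a, ∑ a', T a a' * (star (S.uh a) * S.uh a')) (S.E b ζ)
      = ∑ h, S.E (b + h) (∑ a, ((starRingEnd ℂ) (c a (b + h)) * c (a + h) b) • T a (a + h) ζ) := by
  have h1 : (∑ a, ∑ a', T a a' * (star (S.uh a) * S.uh a')) (S.E b ζ)
      = ((∑ a, ∑ a', T a a' * (star (S.uh a) * S.uh a')) * S.E b) ζ := rfl
  rw [h1]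
  have h2 : ∀ a : ZMod p, ∑ a', T a a' * (star (S.uh a) * S.uh a')
      = ∑ h, T a (a + h) * (star (S.uh a) * S.uh (a + h)) := by
    intro a
    exact (Equiv.sum_comp (Equiv.addLeft a)
      (fun a' => T a a' * (star (S.uh a) * S.uh a'))).symm
  have h3 : (∑ a, ∑ a', T a a' * (star (S.uh a) * S.uh a')) * S.E b
      = ∑ h, S.E (b + h) *
        (∑ a, ((starRingEnd ℂ) (c a (b + h)) * c (a + h) b) • T a (a + h)) := by
    rw [Finset.sum_congr rfl (fun a _ => h2 a), Finset.sum_comm, Finset.sum_mul]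
    refine Finset.sum_congr rfl fun h _ => ?_
    rw [Finset.sum_mul, Finset.mul_sum]
    refine Finset.sum_congr rfl fun a _ => ?_
    rw [mul_assoc, star_uh_uh_E, mul_smul_comm, mul_smul_comm, (hT _ _ _).eq]
  rw [h3, sum_apply]
  refine Finset.sum_congr rfl fun h _ => ?_
  change S.E (b + h) ((∑ a, ((starRingEnd ℂ) (c a (b + h)) * c (a + h) b) • T a (a + h)) ζ) = _
  rw [sum_apply]
  rfl

theorem sidon : @Sidon p _ H _ _ _ := by
  intro S hp hp2 T hT ζ
  have : Fact p.Prime := ⟨hp⟩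
  have h1 : ∀ b : ZMod p,
      ‖(∑ a, ∑ a', T a a' * (star (S.uh a) * S.uh a')) (S.E b ζ)‖ ^ 2
        ≤ ∑ h, ‖∑ a, ((starRingEnd ℂ) (c a (b + h)) * c (a + h) b) • T a (a + h) ζ‖ ^ 2 := by
    intro b
    rw [sum_E_eq S T hT]
    exact norm_sum_E_le S b _
  refine (Finset.sum_le_sum fun b _ => h1 b).trans ?_
  rw [Finset.sum_comm]
  have h2 : ∀ h : ZMod p,
      ∑ b, ‖∑ a, ((starRingEnd ℂ) (c a (b + h)) * c (a + h) b) • T a (a + h) ζ‖ ^ 2
        = (if h = 0 then p * ‖(∑ a, T a a) ζ‖ ^ 2 else 0)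
          + p * ∑ a, if h = 0 then 0 else ‖T a (a + h) ζ‖ ^ 2 := by
    intro h
    by_cases hh : h = 0
    · subst hh
      simp only [if_true, Finset.sum_const_zero, mul_zero, add_zero]
      have h3 : ∀ a b : ZMod p, (starRingEnd ℂ) (c a b) * c a b = 1 :=
        fun a b => S104Parseval.conj_c_mul_c a b
      simp only [h3, one_smul, Finset.sum_const, Finset.card_univ, ZMod.card, nsmul_eq_mul]
      rw [sum_apply]
    · simp only [if_neg hh, zero_add]
      exact S104Parseval.sum_norm_phase_sq hp2 hh (fun a => T a (a + h) ζ)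
  rw [Finset.sum_congr rfl (fun h _ => h2 h), Finset.sum_add_distrib, Finset.sum_ite_eq',
    if_pos (Finset.mem_univ _), ← Finset.mul_sum]
  refine add_le_add le_rfl (mul_le_mul_of_nonneg_left (le_of_eq ?_) (Nat.cast_nonneg _))
  rw [Finset.sum_comm]
  refine Finset.sum_congr rfl fun a _ => ?_
  rw [← Equiv.sum_comp (Equiv.addLeft a) (fun a' => if a = a' then (0 : ℝ) else ‖T a a' ζ‖ ^ 2)]
  refine Finset.sum_congr rfl fun h _ => ?_
  have h4 : (Equiv.addLeft a) h = a + h := rfl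
  rw [h4]
  by_cases hh : h = 0
  · subst hh
    simp
  · rw [if_neg hh, if_neg]
    intro h5
    exact hh (by simpa using h5.symm)

end Crest.Agent.R078.S104.SidonProof
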