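import Mathlib

set_option autoImplicit false
set_option linter.unusedSectionVars false

/-!
# R78, S0105-F5 (part 1): row/column bounds on algebraic tensor products
-/

noncomputable section

namespace Crest.Agent.R078.TensorBound

open scoped InnerProductSpace TensorProduct
open TensorProduct

variable {E F : Type} [NormedAddCommGroup E] [InnerProductSpace ℂ E]
  [NormedAddCommGroup F] [InnerProductSpace ℂ F]

theorem inner_map_eq_zero (A B : E →ₗ[ℂ] E) (C D : F →ₗ[ℂ] F)
    (h : ∀ x y, ⟪A x, B y⟫_ℂ = 0) (u v : E ⊗[ℂ] F) :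
    ⟪TensorProduct.map A C u, TensorProduct.map B D v⟫_ℂ = 0 := by
  induction u using TensorProduct.induction_on with
  | zero => simp
  | add a b ha hb => rw [map_add, inner_add_left, ha, hb, add_zero]
  | tmul a b =>
    induction v using TensorProduct.induction_on with
    | zero => simp
    | add c d hc hd => rw [map_add, inner_add_right, hc, hd, add_zero]
    | tmul c d => rw [map_tmul, map_tmul, inner_tmul, h, zero_mul]

variable {ι : Type} [Fintype ι]

/-- norm of a sum of pairwise orthogonal vectors -/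
theorem norm_sum_sq_of_ortho {V : Type} [NormedAddCommGroup V] [InnerProductSpace ℂ V]
    (w : ι → V) (h : ∀ i j, i ≠ j → ⟪w i, w j⟫_ℂ = 0) :
    ‖∑ i, w i‖ ^ 2 = ∑ i, ‖w i‖ ^ 2 := by
  classical
  have h1 : ((‖∑ i, w i‖ ^ 2 : ℝ) : ℂ) = ((∑ i, ‖w i‖ ^ 2 : ℝ) : ℂ) := by
    have h2 : ((‖∑ i, w i‖ ^ 2 : ℝ) : ℂ) = ⟪∑ i, w i, ∑ i, w i⟫_ℂ := by
      rw [inner_self_eq_norm_sq_to_K]
      push_cast
      rfl
    rw [h2, sum_inner]
    push_cast
    refine Finset.sum_congr rfl fun i _ => ?_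
    rw [inner_sum, Finset.sum_eq_single i]
    · rw [inner_self_eq_norm_sq_to_K]
      rfl
    · intro j _ hj
      exact h i j hj.symm
    · simp
  exact_mod_cast h1

/-- Bessel type inequality: if the `P i` have pairwise orthogonal ranges and
`P i x ⟂ y - ∑ P j y`, then the same holds after tensoring. -/
theorem sum_norm_sq_map_le (P : ι → E →ₗ[ℂ] E)
    (hP : ∀ i j, i ≠ j → ∀ x y, ⟪P i x, P j y⟫_ℂ = 0)
    (hP' : ∀ i x y, ⟪P i x, y - ∑ j, P j y⟫_ℂ = 0) (v : E ⊗[ℂ] F) :
    ∑ i, ‖TensorProduct.map (P i) LinearMap.id v‖ ^ 2 ≤ ‖v‖ ^ 2 := by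
  classical
  have hdec : v = (∑ i, TensorProduct.map (P i) LinearMap.id v)
      + TensorProduct.map (LinearMap.id - ∑ j, P j) LinearMap.id v := by
    have h1 : TensorProduct.map (LinearMap.id - ∑ j, P j) (LinearMap.id : F →ₗ[ℂ] F)
        = TensorProduct.map LinearMap.id LinearMap.id
          - ∑ j, TensorProduct.map (P j) (LinearMap.id : F →ₗ[ℂ] F) := by
      ext x y
      simp [TensorProduct.sub_tmul, TensorProduct.sum_tmul]
    rw [h1, LinearMap.sub_apply, LinearMap.sum_apply, TensorProduct.map_id, LinearMap.id_apply]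
    abel
  have horth : ⟪∑ i, TensorProduct.map (P i) (LinearMap.id : F →ₗ[ℂ] F) v,
      TensorProduct.map (LinearMap.id - ∑ j, P j) LinearMap.id v⟫_ℂ = 0 := by
    rw [sum_inner]
    refine Finset.sum_eq_zero fun i _ => inner_map_eq_zero _ _ _ _ (fun x y => ?_) _ _
    have := hP' i x y
    simpa using this
  have h2 := norm_sum_sq_of_ortho (fun i => TensorProduct.map (P i) (LinearMap.id : F →ₗ[ℂ] F) v)
    (fun i j hij => inner_map_eq_zero _ _ _ _ (hP i j hij) _ _)
  have h3 := norm_add_sq (𝕜 := ℂ) (∑ i, TensorProduct.map (P i) (LinearMap.id : F →ₗ[ℂ] F) v)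
    (TensorProduct.map (LinearMap.id - ∑ j, P j) LinearMap.id v)
  rw [← hdec, horth] at h3
  simp only [map_zero, mul_zero, add_zero] at h3
  rw [← h2]
  nlinarith [h3, sq_nonneg ‖TensorProduct.map (LinearMap.id - ∑ j, P j) (LinearMap.id : F →ₗ[ℂ] F) v‖]

/-- single projection version -/
theorem norm_map_le (Q : E →ₗ[ℂ] E)
    (hQ' : ∀ x y, ⟪Q x, y - Q y⟫_ℂ = 0) (v : E ⊗[ℂ] F) :
    ‖TensorProduct.map Q LinearMap.id v‖ ≤ ‖v‖ := by
  have := sum_norm_sq_map_le (ι := Unit) (F := F) (fun _ => Q)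
    (fun i j hij => absurd (Subsingleton.elim i j) hij)
    (by intro i x y; simpa using hQ' x y) v
  simp only [Finset.univ_unique, Finset.sum_const, Finset.card_singleton, one_smul] at this
  exact (sq_le_sq₀ (norm_nonneg _) (norm_nonneg _)).mp this

/-- the `2 √n` bound for sums `∑ z_i ⊗ R_i` of isometries with `z_i = Q_i z_i + z_i P_i`. -/
theorem norm_sum_map_le (z : ι → E →ₗᵢ[ℂ] E) (R : ι → F →ₗᵢ[ℂ] F) (Q P : ι → E →ₗ[ℂ] E)
    (hQ : ∀ i j, i ≠ j → ∀ x y, ⟪Q i x, Q j y⟫_ℂ = 0)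
    (hQ' : ∀ i x y, ⟪Q i x, y - Q i y⟫_ℂ = 0)
    (hP : ∀ i j, i ≠ j → ∀ x y, ⟪P i x, P j y⟫_ℂ = 0)
    (hP' : ∀ i x y, ⟪P i x, y - ∑ j, P j y⟫_ℂ = 0)
    (hz : ∀ i x, z i x = Q i (z i x) + z i (P i x)) (v : E ⊗[ℂ] F) :
    ‖∑ i, TensorProduct.map (z i).toLinearMap (R i).toLinearMap v‖
      ≤ 2 * Real.sqrt (Fintype.card ι) * ‖v‖ := by
  have hdec : ∀ i, TensorProduct.map (z i).toLinearMap (R i).toLinearMap v
      = TensorProduct.map (Q i) LinearMap.id
          (TensorProduct.map (z i).toLinearMap (R i).toLinearMap v)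
        + TensorProduct.map (z i).toLinearMap (R i).toLinearMap
          (TensorProduct.map (P i) LinearMap.id v) := by
    intro i
    have h1 : TensorProduct.map (z i).toLinearMap (R i).toLinearMap
        = (TensorProduct.map (Q i) LinearMap.id) ∘ₗ
            (TensorProduct.map (z i).toLinearMap (R i).toLinearMap)
          + (TensorProduct.map (z i).toLinearMap (R i).toLinearMap) ∘ₗ
            (TensorProduct.map (P i) LinearMap.id) := by
      ext x y
      have h2 := hz i x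
      simp only [TensorProduct.AlgebraTensorModule.curry_apply, TensorProduct.curry_apply,
        LinearMap.coe_restrictScalars, TensorProduct.map_tmul, LinearMap.add_apply,
        LinearMap.comp_apply, LinearMap.id_apply, LinearIsometry.coe_toLinearMap]
      rw [← TensorProduct.add_tmul, ← h2]
    conv_lhs => rw [h1]
    rfl
  have hn : 0 ≤ Real.sqrt (Fintype.card ι) := Real.sqrt_nonneg _
  -- first part
  have hA : ‖∑ i, TensorProduct.map (Q i) LinearMap.id
      (TensorProduct.map (z i).toLinearMap (R i).toLinearMap v)‖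
      ≤ Real.sqrt (Fintype.card ι) * ‖v‖ := by
    have h1 := norm_sum_sq_of_ortho (fun i => TensorProduct.map (Q i) (LinearMap.id : F →ₗ[ℂ] F)
      (TensorProduct.map (z i).toLinearMap (R i).toLinearMap v))
      (fun i j hij => inner_map_eq_zero _ _ _ _ (hQ i j hij) _ _)
    have h2 : ∀ i, ‖TensorProduct.map (Q i) (LinearMap.id : F →ₗ[ℂ] F)
      (TensorProduct.map (z i).toLinearMap (R i).toLinearMap v)‖ ^ 2 ≤ ‖v‖ ^ 2 := by
      intro i
      have h3 := norm_map_le (F := F) (Q i) (hQ' i)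
        (TensorProduct.map (z i).toLinearMap (R i).toLinearMap v)
      rw [TensorProduct.norm_map] at h3
      exact pow_le_pow_left₀ (norm_nonneg _) h3 2
    have h4 : ‖∑ i, TensorProduct.map (Q i) (LinearMap.id : F →ₗ[ℂ] F)
      (TensorProduct.map (z i).toLinearMap (R i).toLinearMap v)‖ ^ 2
        ≤ (Real.sqrt (Fintype.card ι) * ‖v‖) ^ 2 := by
      rw [h1, mul_pow, Real.sq_sqrt (by positivity)]
      calc _ ≤ ∑ _i : ι, ‖v‖ ^ 2 := Finset.sum_le_sum fun i _ => h2 i
        _ = _ := by simp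
    exact (sq_le_sq₀ (norm_nonneg _) (by positivity)).mp h4
  have hB : ‖∑ i, TensorProduct.map (z i).toLinearMap (R i).toLinearMap
      (TensorProduct.map (P i) LinearMap.id v)‖ ≤ Real.sqrt (Fintype.card ι) * ‖v‖ := by
    have h1 := sum_norm_sq_map_le (F := F) P hP hP' v
    have h2 : ‖∑ i, TensorProduct.map (z i).toLinearMap (R i).toLinearMap
      (TensorProduct.map (P i) LinearMap.id v)‖
        ≤ ∑ i, ‖TensorProduct.map (P i) (LinearMap.id : F →ₗ[ℂ] F) v‖ := by
      refine (norm_sum_le _ _).trans (Finset.sum_le_sum fun i _ => ?_)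
      rw [TensorProduct.norm_map]
    refine h2.trans ?_
    have h4 : (∑ i, ‖TensorProduct.map (P i) (LinearMap.id : F →ₗ[ℂ] F) v‖) ^ 2
        ≤ (Fintype.card ι : ℝ) * ∑ i, ‖TensorProduct.map (P i) (LinearMap.id : F →ₗ[ℂ] F) v‖ ^ 2 := by
      have := sq_sum_le_card_mul_sum_sq (s := (Finset.univ : Finset ι))
        (f := fun i => ‖TensorProduct.map (P i) (LinearMap.id : F →ₗ[ℂ] F) v‖)
      simpa using this
    have h5 : (∑ i, ‖TensorProduct.map (P i) (LinearMap.id : F →ₗ[ℂ] F) v‖) ^ 2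
        ≤ (Real.sqrt (Fintype.card ι) * ‖v‖) ^ 2 := by
      rw [mul_pow, Real.sq_sqrt (by positivity)]
      exact h4.trans (mul_le_mul_of_nonneg_left h1 (by positivity))
    exact (sq_le_sq₀ (Finset.sum_nonneg fun i _ => norm_nonneg _) (by positivity)).mp h5
  calc ‖∑ i, TensorProduct.map (z i).toLinearMap (R i).toLinearMap v‖
      = ‖∑ i, (TensorProduct.map (Q i) LinearMap.id
          (TensorProduct.map (z i).toLinearMap (R i).toLinearMap v)
        + TensorProduct.map (z i).toLinearMap (R i).toLinearMap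
          (TensorProduct.map (P i) LinearMap.id v))‖ := by
        congr 1
        exact Finset.sum_congr rfl fun i _ => hdec i
    _ ≤ _ := by
        rw [Finset.sum_add_distrib]
        refine (norm_add_le _ _).trans ?_
        linarith

/-- the same with `z_i` replaced by limits `x_i` of unitary conjugates `T_k z_i T_k⁻¹`,
on finite sums `∑_h e_h ⊗ b_h`. -/
theorem norm_sum_tmul_le_of_tendsto (z : ι → E →ₗᵢ[ℂ] E) (R : ι → F →ₗᵢ[ℂ] F)
    (Q P : ι → E →ₗ[ℂ] E)
    (hQ : ∀ i j, i ≠ j → ∀ x y, ⟪Q i x, Q j y⟫_ℂ = 0)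
    (hQ' : ∀ i x y, ⟪Q i x, y - Q i y⟫_ℂ = 0)
    (hP : ∀ i j, i ≠ j → ∀ x y, ⟪P i x, P j y⟫_ℂ = 0)
    (hP' : ∀ i x y, ⟪P i x, y - ∑ j, P j y⟫_ℂ = 0)
    (hz : ∀ i x, z i x = Q i (z i x) + z i (P i x))
    (T : ℕ → E ≃ₗᵢ[ℂ] E) (x : ι → E → E)
    (hx : ∀ i e, Filter.Tendsto (fun k => T k (z i ((T k).symm e))) Filter.atTop (nhds (x i e)))
    {κ : Type} (s : Finset κ) (e : κ → E) (b : κ → F) :
    ‖∑ i, ∑ h ∈ s, (x i (e h)) ⊗ₜ[ℂ] (R i (b h))‖
      ≤ 2 * Real.sqrt (Fintype.card ι) * ‖∑ h ∈ s, (e h) ⊗ₜ[ℂ] (b h)‖ := by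
  have hlim : Filter.Tendsto
      (fun k => ‖∑ i, ∑ h ∈ s, (T k (z i ((T k).symm (e h)))) ⊗ₜ[ℂ] (R i (b h))‖) Filter.atTop
      (nhds ‖∑ i, ∑ h ∈ s, (x i (e h)) ⊗ₜ[ℂ] (R i (b h))‖) := by
    refine Filter.Tendsto.norm ?_
    refine tendsto_finsetSum _ fun i _ => tendsto_finsetSum _ fun h _ => ?_
    exact (TensorProduct.continuous_tmul (𝕜 := ℂ)).continuousAt.tendsto.comp
      ((hx i (e h)).prodMk_nhds tendsto_const_nhds)
  refine le_of_tendsto hlim (Filter.Eventually.of_forall fun k => ?_)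
  set v : E ⊗[ℂ] F := ∑ h ∈ s, (e h) ⊗ₜ[ℂ] (b h) with hv
  have h1 : (∑ i, ∑ h ∈ s, (T k (z i ((T k).symm (e h)))) ⊗ₜ[ℂ] (R i (b h)))
      = TensorProduct.map (T k).toLinearIsometry.toLinearMap
          (LinearIsometry.id : F →ₗᵢ[ℂ] F).toLinearMap
          (∑ i, TensorProduct.map (z i).toLinearMap (R i).toLinearMap
            (TensorProduct.map (T k).symm.toLinearIsometry.toLinearMap
              (LinearIsometry.id : F →ₗᵢ[ℂ] F).toLinearMap v)) := by
    rw [hv]
    simp only [map_sum, TensorProduct.map_tmul, LinearIsometry.coe_toLinearMap,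
      LinearIsometryEquiv.coe_toLinearIsometry, LinearIsometry.id_apply]
  rw [h1, TensorProduct.norm_map]
  refine (norm_sum_map_le z R Q P hQ hQ' hP hP' hz _).trans ?_
  rw [TensorProduct.norm_map]

end Crest.Agent.R078.TensorBound
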